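import Mathlib

/-!
# P347: Gaussian tools

Exponential moments of the standard Gaussian measure on a finite-dimensional inner product space,
the Maurey-Pisier bound for functions with bounded derivative, and the exponential moment
`E exp (⟪F R, F R'⟫ / s)` of two independent copies of a centred Lipschitz Gaussian image.
-/

open MeasureTheory ProbabilityTheory Filter
open scoped InnerProductSpace ENNReal NNReal

namespace Vale.Agent.P347

noncomputable section

section Exponential

variable {E : Type*} [NormedAddCommGroup E] [InnerProductSpace ℝ E] [FiniteDimensional ℝ E]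
  [MeasurableSpace E] [BorelSpace E]

lemma stdGaussian_map_dual (L : StrongDual ℝ E) :
    (stdGaussian E).map L = gaussianReal 0 (‖L‖₊ ^ 2) := by
  rw [IsGaussian.map_eq_gaussianReal, integral_strongDual_stdGaussian, variance_dual_stdGaussian]
  congr 1
  ext
  simp

lemma lintegral_exp_dual (L : StrongDual ℝ E) :
    ∫⁻ x, ENNReal.ofReal (Real.exp (L x)) ∂stdGaussian E
      = ENNReal.ofReal (Real.exp (‖L‖ ^ 2 / 2)) := by
  have h := stdGaussian_map_dual L
  rw [← lintegral_map (f := fun y : ℝ => ENNReal.ofReal (Real.exp y)) (by fun_prop) L.measurable, h,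
    ← ofReal_integral_eq_lintegral_ofReal]
  · congr 1
    have hm := congrFun (mgf_id_gaussianReal (μ := 0) (v := ‖L‖₊ ^ 2)) 1
    simp only [mgf, one_mul, id_eq, zero_mul, zero_add, one_pow, mul_one] at hm
    rw [hm]
    simp
  · simpa using (integrable_exp_mul_gaussianReal (μ := 0) (v := ‖L‖₊ ^ 2) 1)
  · exact Eventually.of_forall fun _ => (Real.exp_pos _).le

lemma lintegral_exp_inner (v : E) :
    ∫⁻ x, ENNReal.ofReal (Real.exp ⟪v, x⟫_ℝ) ∂stdGaussian E
      = ENNReal.ofReal (Real.exp (‖v‖ ^ 2 / 2)) := by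
  simpa using lintegral_exp_dual (innerSL ℝ v)

lemma lintegral_exp_sq_gaussianReal {a : ℝ} (ha : a < 1 / 2) :
    ∫⁻ x, ENNReal.ofReal (Real.exp (a * x ^ 2)) ∂gaussianReal 0 1
      = ENNReal.ofReal ((Real.sqrt (1 - 2 * a))⁻¹) := by
  rw [gaussianReal_of_var_ne_zero 0 one_ne_zero, lintegral_withDensity_eq_lintegral_mul _
    (measurable_gaussianPDF 0 1) (by fun_prop)]
  have hb : 0 < 1 / 2 - a := by linarith
  have hpt : ∀ x : ℝ, (gaussianPDF 0 1 * fun x => ENNReal.ofReal (Real.exp (a * x ^ 2))) x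
      = ENNReal.ofReal ((Real.sqrt (2 * Real.pi))⁻¹ * Real.exp (-(1 / 2 - a) * x ^ 2)) := by
    intro x
    rw [Pi.mul_apply, gaussianPDF, ← ENNReal.ofReal_mul (gaussianPDFReal_nonneg 0 1 x),
      gaussianPDFReal]
    congr 1
    rw [mul_assoc, ← Real.exp_add]
    norm_num
    ring_nf
    simp
  rw [lintegral_congr hpt, ← ofReal_integral_eq_lintegral_ofReal
    ((integrable_exp_neg_mul_sq hb).const_mul _) (Eventually.of_forall fun x => by positivity),
    integral_const_mul, integral_gaussian]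
  congr 1
  rw [← Real.sqrt_inv, ← Real.sqrt_mul (by positivity), ← Real.sqrt_inv]
  congr 1
  have : (1 : ℝ) - 2 * a ≠ 0 := by linarith
  field_simp

/-- `E exp (a‖G‖²) = (1 - 2a)^(-d/2)`. -/
lemma lintegral_exp_norm_sq {a : ℝ} (ha : a < 1 / 2) :
    ∫⁻ x, ENNReal.ofReal (Real.exp (a * ‖x‖ ^ 2)) ∂stdGaussian E
      = ENNReal.ofReal ((Real.sqrt (1 - 2 * a))⁻¹ ^ Module.finrank ℝ E) := by
  set b := stdOrthonormalBasis ℝ E with hb
  rw [stdGaussian_eq_map_pi_orthonormalBasis b, lintegral_map (by fun_prop) (by fun_prop)]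
  have hn : ∀ x : Fin (Module.finrank ℝ E) → ℝ, ‖∑ i, x i • b i‖ ^ 2 = ∑ i, x i ^ 2 := by
    intro x
    rw [← b.sum_sq_norm_inner_right (∑ i, x i • b i)]
    refine Finset.sum_congr rfl fun i _ => ?_
    rw [b.orthonormal.inner_right_fintype, Real.norm_eq_abs, sq_abs]
  simp only [hn, Finset.mul_sum, Real.exp_sum,
    ENNReal.ofReal_prod_of_nonneg fun i _ => (Real.exp_pos _).le]
  rw [lintegral_prod_eq_prod_lintegral_of_indepFun Finset.univ
    (fun i (x : Fin (Module.finrank ℝ E) → ℝ) => ENNReal.ofReal (Real.exp (a * x i ^ 2)))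
    (iIndepFun_pi (X := fun _ t => ENNReal.ofReal (Real.exp (a * t ^ 2))) fun _ => by fun_prop)
    fun i => by fun_prop]
  have hev : ∀ i : Fin (Module.finrank ℝ E),
      ∫⁻ x, ENNReal.ofReal (Real.exp (a * x i ^ 2))
          ∂(Measure.pi fun _ : Fin (Module.finrank ℝ E) => gaussianReal 0 1)
        = ∫⁻ t, ENNReal.ofReal (Real.exp (a * t ^ 2)) ∂gaussianReal 0 1 := fun i =>
    (measurePreserving_eval (fun _ => gaussianReal 0 1) i).lintegral_comp
      (f := fun t => ENNReal.ofReal (Real.exp (a * t ^ 2))) (by fun_prop)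
  simp only [hev]
  simp only [lintegral_exp_sq_gaussianReal ha, Finset.prod_const, Finset.card_univ,
    Fintype.card_fin]
  rw [← ENNReal.ofReal_pow (by positivity)]

lemma rotation_preserving (θ : ℝ) :
    MeasurePreserving (ContinuousLinearMap.rotation (E := E) θ)
      ((stdGaussian E).prod (stdGaussian E)) ((stdGaussian E).prod (stdGaussian E)) :=
  ⟨(ContinuousLinearMap.rotation (E := E) θ).continuous.measurable,
    IsGaussian.map_rotation_eq_self (by simp) θ⟩

/-- The derivative of `f` along the rotation path. -/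
def rotD (f : E → ℝ) (θ : ℝ) (p : E × E) : ℝ :=
  fderiv ℝ f (ContinuousLinearMap.rotation θ p).1 (ContinuousLinearMap.rotation θ p).2

omit [MeasurableSpace E] [BorelSpace E] [FiniteDimensional ℝ E] in
lemma continuous_rotD {f : E → ℝ} (hf : ContDiff ℝ 1 f) :
    Continuous fun q : ℝ × (E × E) => rotD f q.1 q.2 := by
  have h1 := hf.continuous_fderiv one_ne_zero
  simp only [rotD, ContinuousLinearMap.rotation_apply]
  fun_prop

omit [MeasurableSpace E] [BorelSpace E] [FiniteDimensional ℝ E] in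
lemma continuous_rotD_left {f : E → ℝ} (hf : ContDiff ℝ 1 f) (p : E × E) :
    Continuous fun θ => rotD f θ p := by
  have h1 := hf.continuous_fderiv one_ne_zero
  simp only [rotD, ContinuousLinearMap.rotation_apply]
  fun_prop

omit [MeasurableSpace E] [BorelSpace E] [FiniteDimensional ℝ E] in
lemma sub_eq_integral_rotD {f : E → ℝ} (hf : ContDiff ℝ 1 f) (p : E × E) :
    f p.2 - f p.1 = ∫ θ in (0 : ℝ)..(Real.pi / 2), rotD f θ p := by
  have hderiv : ∀ θ ∈ Set.uIcc (0 : ℝ) (Real.pi / 2),
      HasDerivAt (fun θ => f (ContinuousLinearMap.rotation θ p).1) (rotD f θ p) θ := by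
    intro θ _
    have h1 : HasDerivAt (fun θ => (ContinuousLinearMap.rotation θ p).1)
        (ContinuousLinearMap.rotation θ p).2 θ := by
      simp only [ContinuousLinearMap.rotation_apply]
      exact ((Real.hasDerivAt_cos θ).smul_const p.1).add
        ((Real.hasDerivAt_sin θ).smul_const p.2)
    exact (hf.differentiable one_ne_zero _).hasFDerivAt.comp_hasDerivAt θ h1
  rw [intervalIntegral.integral_eq_sub_of_hasDerivAt hderiv
    ((continuous_rotD_left hf p).intervalIntegrable _ _)]
  simp [ContinuousLinearMap.rotation_apply]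

/-- Maurey-Pisier: `E exp (f x - f y) ≤ exp (π² L² / 8)`. -/
lemma lintegral_exp_sub_le {f : E → ℝ} (hf : ContDiff ℝ 1 f) {L : ℝ}
    (hL : ∀ x, ‖fderiv ℝ f x‖ ≤ L) :
    ∫⁻ p, ENNReal.ofReal (Real.exp (f p.2 - f p.1)) ∂(stdGaussian E).prod (stdGaussian E)
      ≤ ENNReal.ofReal (Real.exp (Real.pi ^ 2 * L ^ 2 / 8)) := by
  set μ := (stdGaussian E).prod (stdGaussian E) with hμ
  set c : ℝ := Real.pi / 2 with hc
  have hc0 : 0 < c := by positivity
  have hftc : ∀ p : E × E, f p.2 - f p.1 = ∫ θ in (0 : ℝ)..c, rotD f θ p :=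
    sub_eq_integral_rotD hf
  have hjensen : ∀ p : E × E, ENNReal.ofReal (Real.exp (f p.2 - f p.1))
      ≤ (ENNReal.ofReal c)⁻¹ * ∫⁻ θ in Set.Ioc 0 c, ENNReal.ofReal (Real.exp (c * rotD f θ p)) := by
    intro p
    have hcont : Continuous fun θ => c * rotD f θ p :=
      (continuous_rotD_left hf p).const_mul c
    have hj := ConvexOn.map_set_average_le (μ := volume) (t := Set.Ioc 0 c) convexOn_exp
      Real.continuous_exp.continuousOn isClosed_univ (by simp [hc0]) (by simp) (by simp)
      hcont.integrableOn_Ioc (Real.continuous_exp.comp hcont).integrableOn_Ioc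
    rw [setAverage_eq, setAverage_eq] at hj
    simp only [Real.volume_real_Ioc, sub_zero, max_eq_left hc0.le, smul_eq_mul, Function.comp_apply,
      integral_const_mul] at hj
    rw [← mul_assoc, inv_mul_cancel₀ hc0.ne', one_mul,
      ← intervalIntegral.integral_of_le hc0.le, ← hftc] at hj
    refine (ENNReal.ofReal_le_ofReal hj).trans_eq ?_
    rw [ENNReal.ofReal_mul (by positivity), ENNReal.ofReal_inv_of_pos hc0]
    congr 1
    exact ofReal_integral_eq_lintegral_ofReal (Real.continuous_exp.comp hcont).integrableOn_Ioc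
      (Eventually.of_forall fun θ => (Real.exp_pos _).le)
  have hθ : ∀ θ, ∫⁻ p, ENNReal.ofReal (Real.exp (c * rotD f θ p)) ∂μ
      ≤ ENNReal.ofReal (Real.exp (Real.pi ^ 2 * L ^ 2 / 8)) := by
    intro θ
    have hm : Measurable fun q : E × E => ENNReal.ofReal (Real.exp (c * fderiv ℝ f q.1 q.2)) := by
      have h1 := hf.continuous_fderiv one_ne_zero
      have : Continuous fun q : E × E => c * fderiv ℝ f q.1 q.2 := by fun_prop
      exact (Real.continuous_exp.comp this).measurable.ennreal_ofReal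
    simp only [rotD]
    rw [(rotation_preserving θ).lintegral_comp hm, lintegral_prod _ hm.aemeasurable]
    calc ∫⁻ x, ∫⁻ y, ENNReal.ofReal (Real.exp (c * fderiv ℝ f x y)) ∂stdGaussian E ∂stdGaussian E
        ≤ ∫⁻ _, ENNReal.ofReal (Real.exp (Real.pi ^ 2 * L ^ 2 / 8)) ∂stdGaussian E := by
          refine lintegral_mono fun x => ?_
          have := lintegral_exp_dual (c • fderiv ℝ f x)
          simp only [ContinuousLinearMap.smul_apply, smul_eq_mul] at this
          rw [this]
          refine ENNReal.ofReal_le_ofReal (Real.exp_le_exp.2 ?_)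
          rw [norm_smul, Real.norm_eq_abs, abs_of_pos hc0, mul_pow, hc]
          have := pow_le_pow_left₀ (norm_nonneg _) (hL x) 2
          nlinarith [sq_nonneg Real.pi]
      _ = _ := by simp
  refine (lintegral_mono hjensen).trans ?_
  rw [lintegral_const_mul' _ _ (ENNReal.inv_ne_top.2 (by simp [hc0])),
    lintegral_lintegral_swap (by
      exact ((Real.continuous_exp.comp (((continuous_rotD hf).comp continuous_swap).const_mul c)).measurable
        ).ennreal_ofReal.aemeasurable)]
  refine (mul_le_mul' le_rfl (lintegral_mono fun θ => hθ θ)).trans_eq ?_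
  rw [setLIntegral_const, Real.volume_Ioc, sub_zero, mul_left_comm,
    ENNReal.inv_mul_cancel (by simp [hc0]) ENNReal.ofReal_ne_top, mul_one]

lemma lintegral_sq_dual (L : StrongDual ℝ E) :
    ∫⁻ x, ENNReal.ofReal (L x ^ 2) ∂stdGaussian E = ENNReal.ofReal (‖L‖ ^ 2) := by
  rw [← variance_dual_stdGaussian L,
    variance_of_integral_eq_zero L.continuous.aemeasurable (integral_strongDual_stdGaussian L)]
  exact (ofReal_integral_eq_lintegral_ofReal (IsGaussian.memLp_dual _ L 2 (by simp)).integrable_sq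
    (Eventually.of_forall fun x => sq_nonneg _)).symm

/-- Rotation Poincare inequality: `E (f Y - f X)² ≤ (π²/4) E ‖Df‖²`. -/
lemma lintegral_sq_sub_le {f : E → ℝ} (hf : ContDiff ℝ 1 f) :
    ∫⁻ p, ENNReal.ofReal ((f p.2 - f p.1) ^ 2) ∂(stdGaussian E).prod (stdGaussian E)
      ≤ ENNReal.ofReal (Real.pi ^ 2 / 4)
        * ∫⁻ x, ENNReal.ofReal (‖fderiv ℝ f x‖ ^ 2) ∂stdGaussian E := by
  set μ := (stdGaussian E).prod (stdGaussian E) with hμ
  set c : ℝ := Real.pi / 2 with hc
  have hc0 : 0 < c := by positivity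
  have hpt : ∀ p : E × E, ENNReal.ofReal ((f p.2 - f p.1) ^ 2)
      ≤ ENNReal.ofReal c * ∫⁻ θ in Set.Ioc 0 c, ENNReal.ofReal (rotD f θ p ^ 2) := by
    intro p
    have hDp : Continuous fun θ => rotD f θ p := continuous_rotD_left hf p
    have hj := ConvexOn.map_set_average_le (μ := volume) (t := Set.Ioc 0 c)
      (g := fun y : ℝ => y ^ 2) (Even.convexOn_pow (n := 2) even_two)
      (continuous_pow 2).continuousOn isClosed_univ (by simp [hc0]) (by simp) (by simp)
      hDp.integrableOn_Ioc (hDp.pow 2).integrableOn_Ioc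
    rw [setAverage_eq, setAverage_eq] at hj
    simp only [Real.volume_real_Ioc, sub_zero, max_eq_left hc0.le, smul_eq_mul] at hj
    rw [← intervalIntegral.integral_of_le hc0.le, hc, ← sub_eq_integral_rotD hf p, ← hc,
      mul_pow, inv_pow] at hj
    have hI : ENNReal.ofReal (∫ θ in Set.Ioc 0 c, rotD f θ p ^ 2)
        = ∫⁻ θ in Set.Ioc 0 c, ENNReal.ofReal (rotD f θ p ^ 2) :=
      ofReal_integral_eq_lintegral_ofReal (hDp.pow 2).integrableOn_Ioc
        (Eventually.of_forall fun θ => sq_nonneg _)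
    rw [← hI, ← ENNReal.ofReal_mul hc0.le]
    refine ENNReal.ofReal_le_ofReal ?_
    rw [inv_mul_le_iff₀ (by positivity)] at hj
    refine hj.trans_eq ?_
    field_simp
  have hθ : ∀ θ, ∫⁻ p, ENNReal.ofReal (rotD f θ p ^ 2) ∂μ
      = ∫⁻ x, ENNReal.ofReal (‖fderiv ℝ f x‖ ^ 2) ∂stdGaussian E := by
    intro θ
    have hm : Measurable fun q : E × E => ENNReal.ofReal (fderiv ℝ f q.1 q.2 ^ 2) := by
      have h1 := hf.continuous_fderiv one_ne_zero
      have : Continuous fun q : E × E => fderiv ℝ f q.1 q.2 ^ 2 := by fun_prop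
      exact this.measurable.ennreal_ofReal
    simp only [rotD]
    rw [(rotation_preserving θ).lintegral_comp hm, lintegral_prod _ hm.aemeasurable]
    exact lintegral_congr fun x => lintegral_sq_dual (fderiv ℝ f x)
  refine (lintegral_mono hpt).trans ?_
  rw [lintegral_const_mul' _ _ ENNReal.ofReal_ne_top,
    lintegral_lintegral_swap ((((continuous_rotD hf).comp continuous_swap).pow 2).measurable
      ).ennreal_ofReal.aemeasurable]
  simp only [hθ, setLIntegral_const, Real.volume_Ioc, sub_zero]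
  rw [mul_comm (∫⁻ x, _ ∂stdGaussian E), ← mul_assoc, ← ENNReal.ofReal_mul hc0.le,
    show c * c = Real.pi ^ 2 / 4 by rw [hc]; ring]

/-- A function with bounded derivative is Gaussian-integrable. -/
lemma integrable_of_fderiv_le {G : Type*} [NormedAddCommGroup G] [NormedSpace ℝ G]
    [SecondCountableTopology G] {f : E → G} (hf : ContDiff ℝ 1 f) {L : ℝ}
    (hL : ∀ x, ‖fderiv ℝ f x‖ ≤ L) : Integrable f (stdGaussian E) := by
  refine Integrable.mono' ((integrable_const ‖f 0‖).add
    ((IsGaussian.integrable_id (μ := stdGaussian E)).norm.const_mul L))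
    hf.continuous.aestronglyMeasurable (Eventually.of_forall fun x => ?_)
  have h := Convex.norm_image_sub_le_of_norm_fderiv_le
    (fun y _ => hf.differentiable one_ne_zero y) (fun y _ => hL y) convex_univ
    (Set.mem_univ 0) (Set.mem_univ x)
  simp only [sub_zero] at h
  have := norm_le_norm_add_norm_sub' (f x) (f 0)
  simp only [Pi.add_apply, id_eq]
  linarith

/-- `E exp f ≤ exp (π² L² / 8)` for a centred function with derivative bounded by `L`. -/
lemma lintegral_exp_centred_le {f : E → ℝ} (hf : ContDiff ℝ 1 f) {L : ℝ}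
    (hL : ∀ x, ‖fderiv ℝ f x‖ ≤ L) (h0 : ∫ x, f x ∂stdGaussian E = 0) :
    ∫⁻ x, ENNReal.ofReal (Real.exp (f x)) ∂stdGaussian E
      ≤ ENNReal.ofReal (Real.exp (Real.pi ^ 2 * L ^ 2 / 8)) := by
  refine le_trans ?_ (lintegral_exp_sub_le hf hL)
  have hneg : (1 : ℝ≥0∞) ≤ ∫⁻ x, ENNReal.ofReal (Real.exp (-f x)) ∂stdGaussian E := by
    have hint := integrable_of_fderiv_le hf hL
    calc (1 : ℝ≥0∞) = ENNReal.ofReal (∫ x, (1 - f x) ∂stdGaussian E) := by
          rw [integral_sub (integrable_const _) hint, h0]; simp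
      _ ≤ ∫⁻ x, ENNReal.ofReal ‖(1 - f x) ⊔ 0‖ ∂stdGaussian E := by
          refine le_trans (ENNReal.ofReal_le_ofReal
            (integral_mono ((integrable_const _).sub hint)
              ((((integrable_const (1 : ℝ)).sub hint).pos_part)) fun x => le_max_left _ _)) ?_
          rw [ofReal_integral_eq_lintegral_ofReal (((integrable_const (1 : ℝ)).sub hint).pos_part)
            (Eventually.of_forall fun x => le_max_right _ _)]
          refine le_of_eq (lintegral_congr fun x => ?_)
          rw [Real.norm_eq_abs, abs_of_nonneg le_sup_right]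
          rfl
      _ ≤ _ := by
          refine lintegral_mono fun x => ENNReal.ofReal_le_ofReal ?_
          rw [Real.norm_eq_abs, abs_of_nonneg le_sup_right]
          refine sup_le ?_ (Real.exp_pos _).le
          linarith [Real.add_one_le_exp (-f x)]
  calc ∫⁻ x, ENNReal.ofReal (Real.exp (f x)) ∂stdGaussian E
      ≤ (∫⁻ x, ENNReal.ofReal (Real.exp (f x)) ∂stdGaussian E)
        * ∫⁻ x, ENNReal.ofReal (Real.exp (-f x)) ∂stdGaussian E := le_mul_of_one_le_right' hneg
    _ = ∫⁻ p, ENNReal.ofReal (Real.exp (-f p.1)) * ENNReal.ofReal (Real.exp (f p.2))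
        ∂(stdGaussian E).prod (stdGaussian E) := by
        rw [lintegral_prod_mul (f := fun x => ENNReal.ofReal (Real.exp (-f x)))
          (g := fun y => ENNReal.ofReal (Real.exp (f y)))
          (hf.continuous.neg.rexp.measurable.ennreal_ofReal.aemeasurable)
          (hf.continuous.rexp.measurable.ennreal_ofReal.aemeasurable), mul_comm]
    _ = _ := by
        refine lintegral_congr fun p => ?_
        rw [← ENNReal.ofReal_mul (Real.exp_pos _).le, ← Real.exp_add, neg_add_eq_sub]

variable {G : Type*} [NormedAddCommGroup G] [InnerProductSpace ℝ G] [FiniteDimensional ℝ G]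
  [MeasurableSpace G] [BorelSpace G]

lemma lintegral_exp_inner_centred_le {F : E → G} (hF : ContDiff ℝ 1 F) {L : ℝ}
    (hL : ∀ x, ‖fderiv ℝ F x‖ ≤ L) (h0 : ∫ x, F x ∂stdGaussian E = 0) (v : G) :
    ∫⁻ x, ENNReal.ofReal (Real.exp ⟪v, F x⟫_ℝ) ∂stdGaussian E
      ≤ ENNReal.ofReal (Real.exp (Real.pi ^ 2 * (‖v‖ * L) ^ 2 / 8)) := by
  refine lintegral_exp_centred_le (f := fun x => ⟪v, F x⟫_ℝ)
    ((innerSL ℝ v).contDiff.comp hF) (fun x => ?_) ?_
  · have h : HasFDerivAt (fun y => ⟪v, F y⟫_ℝ) ((innerSL ℝ v).comp (fderiv ℝ F x)) x :=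
      (innerSL ℝ v).hasFDerivAt.comp x (hF.differentiable one_ne_zero x).hasFDerivAt
    rw [h.fderiv]
    refine (ContinuousLinearMap.opNorm_comp_le _ _).trans ?_
    rw [innerSL_apply_norm]
    exact mul_le_mul_of_nonneg_left (hL x) (norm_nonneg _)
  · rw [show (fun x => ⟪v, F x⟫_ℝ) = fun x => innerSL ℝ v (F x) from rfl,
      (innerSL ℝ v).integral_comp_comm (integrable_of_fderiv_le hF hL), h0, map_zero]

/-- The chi-square moment of a centred Lipschitz image of a Gaussian:
`E exp (⟪F R, F R'⟫ / s) ≤ (1 - π⁴L⁴/(16 s²))^(-dim/2)`. -/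
theorem lintegral_exp_inner_pair_le {F : E → G} (hF : ContDiff ℝ 1 F) {L s : ℝ}
    (hL : ∀ x, ‖fderiv ℝ F x‖ ≤ L) (h0 : ∫ x, F x ∂stdGaussian E = 0) (hs : 0 < s)
    (hsmall : Real.pi ^ 4 * L ^ 4 / (16 * s ^ 2) < 1) :
    ∫⁻ p, ENNReal.ofReal (Real.exp (⟪F p.1, F p.2⟫_ℝ / s))
        ∂(stdGaussian E).prod (stdGaussian E)
      ≤ ENNReal.ofReal
        ((Real.sqrt (1 - Real.pi ^ 4 * L ^ 4 / (16 * s ^ 2)))⁻¹ ^ Module.finrank ℝ G) := by
  have hFc := hF.continuous
  set a : ℝ := Real.pi ^ 2 * L ^ 2 / (8 * s ^ 2) with ha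
  set b : ℝ := Real.pi ^ 4 * L ^ 4 / (32 * s ^ 2) with hb
  have hb2 : 1 - 2 * b = 1 - Real.pi ^ 4 * L ^ 4 / (16 * s ^ 2) := by rw [hb]; ring
  have ha0 : 0 ≤ a := by positivity
  have hm : Measurable fun p : E × E => ENNReal.ofReal (Real.exp (⟪F p.1, F p.2⟫_ℝ / s)) := by
    have : Continuous fun p : E × E => ⟪F p.1, F p.2⟫_ℝ / s := by fun_prop
    exact this.rexp.measurable.ennreal_ofReal
  rw [lintegral_prod _ hm.aemeasurable]
  calc ∫⁻ x, ∫⁻ y, ENNReal.ofReal (Real.exp (⟪F x, F y⟫_ℝ / s)) ∂stdGaussian E ∂stdGaussian E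
      ≤ ∫⁻ x, ENNReal.ofReal (Real.exp (a * ‖F x‖ ^ 2)) ∂stdGaussian E := by
        refine lintegral_mono fun x => ?_
        have h := lintegral_exp_inner_centred_le hF hL h0 (s⁻¹ • F x)
        simp only [real_inner_smul_left, inv_mul_eq_div] at h
        refine h.trans (ENNReal.ofReal_le_ofReal (Real.exp_le_exp.2 (le_of_eq ?_)))
        rw [norm_smul, Real.norm_eq_abs, abs_of_pos (inv_pos.2 hs), ha]
        field_simp
    _ = ∫⁻ x, ∫⁻ g, ENNReal.ofReal (Real.exp ⟪Real.sqrt (2 * a) • g, F x⟫_ℝ) ∂stdGaussian G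
          ∂stdGaussian E := by
        refine lintegral_congr fun x => ?_
        have hr : ∀ g : G, ⟪Real.sqrt (2 * a) • g, F x⟫_ℝ = ⟪Real.sqrt (2 * a) • F x, g⟫_ℝ :=
          fun g => by rw [real_inner_smul_left, real_inner_smul_left, real_inner_comm]
        simp only [hr]
        rw [lintegral_exp_inner, norm_smul, mul_pow, Real.norm_eq_abs, sq_abs, Real.sq_sqrt (by positivity)]
        congr 2
        ring
    _ = ∫⁻ g, ∫⁻ x, ENNReal.ofReal (Real.exp ⟪Real.sqrt (2 * a) • g, F x⟫_ℝ) ∂stdGaussian E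
          ∂stdGaussian G := by
        refine lintegral_lintegral_swap ?_
        have : Continuous fun p : E × G => ⟪Real.sqrt (2 * a) • p.2, F p.1⟫_ℝ := by fun_prop
        exact this.rexp.measurable.ennreal_ofReal.aemeasurable
    _ ≤ ∫⁻ g, ENNReal.ofReal (Real.exp (b * ‖g‖ ^ 2)) ∂stdGaussian G := by
        refine lintegral_mono fun g =>
          (lintegral_exp_inner_centred_le hF hL h0 _).trans
            (ENNReal.ofReal_le_ofReal (Real.exp_le_exp.2 (le_of_eq ?_)))
        rw [norm_smul, mul_pow, mul_pow, Real.norm_eq_abs, sq_abs, Real.sq_sqrt (by positivity),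
          ha, hb]
        ring
    _ = _ := by rw [lintegral_exp_norm_sq (by linarith), hb2]

end Exponential

end

end Vale.Agent.P347
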