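import Vale.Agent.P347.Flow
import Vale.Agent.P347.GaussExp

/-!
# P347: a Poincare inequality for perturbed Gaussian laws

`P f x = ∫ f (traj W x v (1/4)) dγ v` is invariant for `law W` and contracts Lipschitz bounds;
the law of total variance then reduces the inequality to the Gaussian one.
-/

open MeasureTheory ProbabilityTheory Real Set Filter
open scoped RealInnerProductSpace Topology NNReal ENNReal Convolution

namespace Vale.Agent.P347

variable {d : ℕ}

/-- Lipschitz with a linearly growing constant. -/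
def WLip (f : E d → ℝ) (A b : ℝ) : Prop :=
  0 ≤ A ∧ 0 ≤ b ∧ ∀ x y, |f x - f y| ≤ ‖x - y‖ * (A + b * (‖x‖ + ‖y‖))

theorem WLip.continuous {f : E d → ℝ} {A b : ℝ} (h : WLip f A b) : Continuous f := by
  refine continuous_iff_continuousAt.2 fun x => tendsto_iff_dist_tendsto_zero.2 ?_
  refine squeeze_zero (fun y => dist_nonneg)
    (g := fun y => ‖y - x‖ * (A + b * (‖y‖ + ‖x‖))) (fun y => h.2.2 y x) ?_
  have : Continuous fun y => ‖y - x‖ * (A + b * (‖y‖ + ‖x‖)) := by fun_prop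
  simpa using this.tendsto x

theorem WLip.polyBd {f : E d → ℝ} {A b : ℝ} (h : WLip f A b) : PolyBd f := by
  obtain ⟨hA, hb, h⟩ := h
  refine ⟨|f 0| + A + b, 2, by positivity, fun x => ?_⟩
  have h1 := h x 0
  simp only [sub_zero, norm_zero, add_zero] at h1
  have h2 := abs_sub_abs_le_abs_sub (f x) (f 0)
  rw [Real.norm_eq_abs]
  nlinarith [norm_nonneg x, mul_nonneg hA (sq_nonneg ‖x‖), mul_nonneg hb (norm_nonneg x),
    mul_nonneg (abs_nonneg (f 0)) (norm_nonneg x),
    mul_nonneg (abs_nonneg (f 0)) (sq_nonneg ‖x‖)]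

theorem integral_sq_sub_mean {α : Type*} [MeasurableSpace α] {μ : Measure α}
    [IsProbabilityMeasure μ] {f : α → ℝ} (hf : Integrable f μ)
    (hf2 : Integrable (fun x => f x ^ 2) μ) (a : ℝ) :
    ∫ x, (f x - a) ^ 2 ∂μ = ∫ x, (f x - ∫ y, f y ∂μ) ^ 2 ∂μ + ((∫ y, f y ∂μ) - a) ^ 2 := by
  have e : ∀ a : ℝ, ∫ x, (f x - a) ^ 2 ∂μ =
      ∫ x, f x ^ 2 ∂μ - 2 * a * (∫ y, f y ∂μ) + a ^ 2 := fun a => by
    have e1 : ∀ x, (f x - a) ^ 2 = f x ^ 2 - 2 * a * f x + a ^ 2 := fun x => by ring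
    simp_rw [e1]
    rw [integral_add (f := fun x => f x ^ 2 - 2 * a * f x) (hf2.sub (hf.const_mul _))
      (integrable_const _), integral_sub hf2 (hf.const_mul _), integral_const_mul]
    simp
  rw [e, e]
  ring

theorem integral_norm_stdGaussian_le : ∫ z, ‖z‖ ∂stdGaussian (E d) ≤ √d := by
  refine Real.le_sqrt_of_sq_le ?_
  have h := integral_sq_sub_mean (μ := stdGaussian (E d)) (f := fun z => ‖z‖)
    (PolyBd.id.norm.integrable _ (by fun_prop))
    ((PolyBd.id.norm.pow 2).integrable _ (by fun_prop)) 0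
  simp only [sub_zero] at h
  have h2 : 0 ≤ ∫ x, (‖x‖ - ∫ y, ‖y‖ ∂stdGaussian (E d)) ^ 2 ∂stdGaussian (E d) :=
    integral_nonneg fun x => sq_nonneg _
  rw [integral_norm_sq_stdGaussian, finrank_euclideanSpace_fin] at h
  linarith

/-- The Gaussian case for a `C¹` function. -/
theorem gauss_var_contDiff {f : E d → ℝ} (hf : ContDiff ℝ 1 f) {A b : ℝ} (hA : 0 ≤ A)
    (hb : 0 ≤ b) (hg : ∀ x, ‖fderiv ℝ f x‖ ≤ A + 2 * b * ‖x‖) :
    ∫⁻ p, ENNReal.ofReal ((f p.2 - f p.1) ^ 2) ∂(stdGaussian (E d)).prod (stdGaussian (E d))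
      ≤ ENNReal.ofReal (8 * (A + 2 * b * √d) ^ 2) := by
  refine (lintegral_sq_sub_le hf).trans ?_
  have i2 : Integrable (fun z : E d => ‖z‖ ^ 2) (stdGaussian (E d)) :=
    (PolyBd.id.norm.pow 2).integrable _ (by fun_prop)
  have hbd : ∫⁻ x, ENNReal.ofReal (‖fderiv ℝ f x‖ ^ 2) ∂stdGaussian (E d) ≤
      ENNReal.ofReal (2 * A ^ 2 + 8 * b ^ 2 * d) := by
    refine (lintegral_mono fun x => ENNReal.ofReal_le_ofReal
      ((pow_le_pow_left₀ (norm_nonneg _) (hg x) 2).trans
        (?_ : _ ≤ 2 * A ^ 2 + 8 * b ^ 2 * ‖x‖ ^ 2))).trans ?_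
    · nlinarith [sq_nonneg (A - 2 * b * ‖x‖)]
    have i3 : Integrable (fun x : E d => 2 * A ^ 2 + 8 * b ^ 2 * ‖x‖ ^ 2) (stdGaussian (E d)) :=
      (integrable_const _).add (i2.const_mul _)
    rw [← ofReal_integral_eq_lintegral_ofReal i3 (ae_of_all _ fun x => by positivity)]
    refine ENNReal.ofReal_le_ofReal (le_of_eq ?_)
    rw [integral_add (integrable_const _) (i2.const_mul _), integral_const, integral_const_mul,
      integral_norm_sq_stdGaussian, finrank_euclideanSpace_fin]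
    simp
  refine (mul_le_mul' le_rfl hbd).trans ?_
  rw [← ENNReal.ofReal_mul (by positivity)]
  refine ENNReal.ofReal_le_ofReal ?_
  have hd : √(d : ℝ) ^ 2 = d := Real.sq_sqrt d.cast_nonneg
  have h4 : Real.pi ^ 2 / 4 ≤ 4 := by nlinarith [Real.pi_le_four, Real.pi_pos]
  calc Real.pi ^ 2 / 4 * (2 * A ^ 2 + 8 * b ^ 2 * d)
      ≤ 4 * (2 * A ^ 2 + 8 * b ^ 2 * d) := mul_le_mul_of_nonneg_right h4 (by positivity)
    _ ≤ _ := by nlinarith [mul_nonneg (mul_nonneg hA hb) (Real.sqrt_nonneg (d : ℝ))]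

/-- The Gaussian case. -/
theorem gauss_var {f : E d → ℝ} {A b : ℝ} (h : WLip f A b) :
    ∫ x, (f x - ∫ y, f y ∂stdGaussian (E d)) ^ 2 ∂stdGaussian (E d) ≤
      4 * (A + 2 * b * √d) ^ 2 := by
  set γ := stdGaussian (E d)
  have hfc := h.continuous
  let φ : ℕ → ContDiffBump (0 : E d) := fun n =>
    { rIn := 1 / ((n : ℝ) + 1) / 2
      rOut := 1 / ((n : ℝ) + 1)
      rIn_pos := by positivity
      rIn_lt_rOut := half_lt_self (by positivity) }
  set ε : ℕ → ℝ := fun n => 1 / ((n : ℝ) + 1) with hε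
  set g : ℕ → E d → ℝ := fun n =>
    (φ n).normed volume ⋆[ContinuousLinearMap.lsmul ℝ ℝ, volume] f
  have hgc : ∀ n, ContDiff ℝ 1 (g n) := fun n =>
    (φ n).hasCompactSupport_normed.contDiff_convolution_left _ (φ n).contDiff_normed
      hfc.locallyIntegrable
  have hε0 : ∀ n, 0 ≤ ε n := fun n => by simp only [hε]; positivity
  have hgL : ∀ n x y, |g n x - g n y| ≤
      ‖x - y‖ * ((A + 2 * b * ε n) + b * (‖x‖ + ‖y‖)) := by
    intro n x y
    set k := (φ n).normed volume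
    have hi : ∀ x, Integrable fun t => k t * f (x - t) := fun x =>
      (((φ n).continuous_normed).mul (by fun_prop)).integrable_of_hasCompactSupport
        ((φ n).hasCompactSupport_normed.mul_right)
    simp only [g, MeasureTheory.convolution_def, ContinuousLinearMap.lsmul_apply, smul_eq_mul]
    rw [← integral_sub (hi x) (hi y), ← Real.norm_eq_abs]
    refine (norm_integral_le_of_norm_le ((φ n).integrable_normed.const_mul
      (‖x - y‖ * ((A + 2 * b * ε n) + b * (‖x‖ + ‖y‖)))) (ae_of_all _ fun t => ?_)).trans ?_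
    · rw [← mul_sub, norm_mul, Real.norm_eq_abs, Real.norm_eq_abs,
        abs_of_nonneg ((φ n).nonneg_normed t), mul_comm]
      rcases eq_or_ne (k t) 0 with h0 | h0
      · simp [k, h0]
      · refine mul_le_mul_of_nonneg_right ((h.2.2 _ _).trans ?_) ((φ n).nonneg_normed t)
        have ht : ‖t‖ ≤ ε n := by
          have := Function.mem_support.2 h0
          rw [(φ n).support_normed_eq] at this
          simpa [hε, φ] using (Metric.mem_ball.1 this).le
        rw [sub_sub_sub_cancel_right]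
        refine mul_le_mul_of_nonneg_left ?_ (norm_nonneg _)
        nlinarith [mul_le_mul_of_nonneg_left ((norm_sub_le x t).trans (add_le_add le_rfl ht)) h.2.1,
          mul_le_mul_of_nonneg_left ((norm_sub_le y t).trans (add_le_add le_rfl ht)) h.2.1]
    · rw [integral_const_mul, (φ n).integral_normed, mul_one]
  have hgD : ∀ n x, ‖fderiv ℝ (g n) x‖ ≤ (A + 2 * b * ε n) + 2 * b * ‖x‖ := by
    intro n x
    refine le_of_forall_pos_le_add fun τ hτ => ?_
    have hA' : 0 ≤ A + 2 * b * ε n := by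
      have := h.1; have := h.2.1; have := hε0 n; positivity
    refine ((hgc n).differentiable one_ne_zero x).hasFDerivAt.le_of_lip'
      (by have := h.2.1; positivity) ?_
    have hev : ∀ᶠ y in 𝓝 x, b * ‖y - x‖ < τ := by
      have hc : Continuous fun y => b * ‖y - x‖ := by fun_prop
      exact hc.continuousAt.eventually_lt continuousAt_const (by simpa)
    filter_upwards [hev] with y hy
    rw [Real.norm_eq_abs, mul_comm]
    refine (hgL n y x).trans (mul_le_mul_of_nonneg_left ?_ (norm_nonneg _))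
    nlinarith [norm_le_norm_add_norm_sub' y x, h.2.1]
  have hlim : ∀ x, Tendsto (fun n => g n x) atTop (𝓝 (f x)) := fun x =>
    ContDiffBump.convolution_tendsto_right_of_continuous
      (by simpa [φ] using tendsto_one_div_add_atTop_nhds_zero_nat (𝕜 := ℝ)) hfc x
  have hpair : ∫⁻ p, ENNReal.ofReal ((f p.2 - f p.1) ^ 2) ∂γ.prod γ ≤
      ENNReal.ofReal (8 * (A + 2 * b * √d) ^ 2) := by
    calc ∫⁻ p, ENNReal.ofReal ((f p.2 - f p.1) ^ 2) ∂γ.prod γ
        = ∫⁻ p, liminf (fun n => ENNReal.ofReal ((g n p.2 - g n p.1) ^ 2)) atTop ∂γ.prod γ := by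
          refine lintegral_congr fun p => ?_
          exact ((ENNReal.continuous_ofReal.tendsto _).comp
            (((hlim p.2).sub (hlim p.1)).pow 2)).liminf_eq.symm
      _ ≤ liminf (fun n => ∫⁻ p, ENNReal.ofReal ((g n p.2 - g n p.1) ^ 2) ∂γ.prod γ) atTop :=
          lintegral_liminf_le fun n => by
            have := (hgc n).continuous
            fun_prop
      _ ≤ liminf (fun n => ENNReal.ofReal (8 * ((A + 2 * b * ε n) + 2 * b * √d) ^ 2)) atTop :=
          liminf_le_liminf (Eventually.of_forall fun n => gauss_var_contDiff (hgc n)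
            (by have := h.1; have := h.2.1; have := hε0 n; positivity) h.2.1 (hgD n))
      _ = _ := by
          refine Tendsto.liminf_eq ((ENNReal.continuous_ofReal.tendsto _).comp ?_)
          have he : Tendsto ε atTop (𝓝 0) := tendsto_one_div_add_atTop_nhds_zero_nat
          have := (((he.const_mul (2 * b)).const_add A).add_const (2 * b * √d)).pow 2 |>.const_mul 8
          simpa using this
  have i1 : Integrable f γ := h.polyBd.integrable _ hfc.aestronglyMeasurable
  have i2 : Integrable (fun x => f x ^ 2) γ :=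
    (h.polyBd.pow 2).integrable _ (hfc.pow 2).aestronglyMeasurable
  have hc2 : Continuous fun p : E d × E d => (f p.2 - f p.1) ^ 2 := by fun_prop
  have ip : Integrable (fun p : E d × E d => (f p.2 - f p.1) ^ 2) (γ.prod γ) :=
    (((h.polyBd.comp (PolyBd.id.of_le fun p => norm_snd_le p)).sub
      (h.polyBd.comp (PolyBd.id.of_le fun p => norm_fst_le p))).pow 2).integrable _
      hc2.aestronglyMeasurable
  rw [← ofReal_integral_eq_lintegral_ofReal ip (ae_of_all _ fun p => sq_nonneg _),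
    ENNReal.ofReal_le_ofReal_iff (by positivity), integral_prod _ ip] at hpair
  have i3 : ∀ a, Integrable (fun x => (f x - a) ^ 2) γ := fun a =>
    ((h.polyBd.sub (PolyBd.const a)).pow 2).integrable _
      ((hfc.sub continuous_const).pow 2).aestronglyMeasurable
  simp only [integral_sq_sub_mean i1 i2 (f _)] at hpair
  have i4 : Integrable (fun x => ((∫ y, f y ∂γ) - f x) ^ 2) γ :=
    (i3 _).congr (ae_of_all _ fun x => by ring)
  rw [integral_add (integrable_const _) i4, integral_const] at hpair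
  have e : ∫ x, ((∫ y, f y ∂γ) - f x) ^ 2 ∂γ = ∫ x, (f x - ∫ y, f y ∂γ) ^ 2 ∂γ := by
    congr 1; funext x; ring
  simp only [probReal_univ, one_smul, e] at hpair
  linarith

/-- A priori bounds for a second-order equation on `[0, 1/4]`. -/
theorem second_order_bound {u w a : ℝ → E d} {c : ℝ}
    (hu : ∀ t ∈ Icc (0 : ℝ) (1 / 4), HasDerivWithinAt u (w t) (Icc (0 : ℝ) (1 / 4)) t)
    (hw : ∀ t ∈ Icc (0 : ℝ) (1 / 4), HasDerivWithinAt w (a t) (Icc (0 : ℝ) (1 / 4)) t)
    (ha : ∀ t ∈ Icc (0 : ℝ) (1 / 4), ‖a t‖ ≤ 2 * ‖u t‖ + c) :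
    ∃ M, 7 * M ≤ 8 * ‖u 0‖ + 2 * ‖w 0‖ + c / 2 ∧ ∀ t ∈ Icc (0 : ℝ) (1 / 4),
      ‖u t‖ ≤ M ∧ ‖w t - w 0‖ ≤ (2 * M + c) / 4 ∧
        ‖u t - u 0‖ ≤ ‖w 0‖ / 4 + (2 * M + c) / 16 := by
  have h0 : (0 : ℝ) ∈ Icc (0 : ℝ) (1 / 4) := ⟨le_rfl, by norm_num⟩
  have huc : ContinuousOn u (Icc (0 : ℝ) (1 / 4)) := fun t ht => (hu t ht).continuousWithinAt
  obtain ⟨tm, htm, hmax⟩ := isCompact_Icc.exists_isMaxOn ⟨0, h0⟩ huc.norm
  set M := ‖u tm‖
  have hM : ∀ t ∈ Icc (0 : ℝ) (1 / 4), ‖u t‖ ≤ M := fun t ht => hmax ht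
  have hwb : ∀ t ∈ Icc (0 : ℝ) (1 / 4), ‖w t - w 0‖ ≤ (2 * M + c) / 4 := by
    intro t ht
    have hC : ∀ r ∈ Icc (0 : ℝ) (1 / 4), ‖a r‖ ≤ 2 * M + c := fun r hr =>
      (ha r hr).trans (by linarith [hM r hr])
    refine ((convex_Icc (0 : ℝ) (1 / 4)).norm_image_sub_le_of_norm_hasDerivWithin_le
      hw hC h0 ht).trans ?_
    rw [Real.norm_eq_abs, sub_zero, abs_of_nonneg ht.1]
    nlinarith [ht.2, (norm_nonneg _).trans (hC 0 h0)]
  have hub : ∀ t ∈ Icc (0 : ℝ) (1 / 4), ‖u t - u 0‖ ≤ ‖w 0‖ / 4 + (2 * M + c) / 16 := by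
    intro t ht
    have hC : ∀ r ∈ Icc (0 : ℝ) (1 / 4), ‖w r‖ ≤ ‖w 0‖ + (2 * M + c) / 4 := fun r hr => by
      linarith [norm_le_norm_add_norm_sub' (w r) (w 0), hwb r hr]
    refine ((convex_Icc (0 : ℝ) (1 / 4)).norm_image_sub_le_of_norm_hasDerivWithin_le
      hu hC h0 ht).trans ?_
    rw [Real.norm_eq_abs, sub_zero, abs_of_nonneg ht.1]
    nlinarith [ht.2, (norm_nonneg _).trans (hC 0 h0)]
  exact ⟨M, by linarith [norm_le_norm_add_norm_sub' (u tm) (u 0), hub tm htm],
    fun t ht => ⟨hM t ht, hwb t ht, hub t ht⟩⟩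

/-- The Markov operator of one flow step. -/
noncomputable def hmcOp (W : E d → ℝ) (f : E d → ℝ) (x : E d) : ℝ :=
  ∫ v, f (traj W x v (1 / 4)) ∂stdGaussian (E d)

namespace Pert

variable {η B : ℝ} {W : E d → ℝ} (hW : Pert η B W)
include hW

/-- Integration by parts against `law W`. -/
theorem ibp_law {φ : E d → ℝ} (hφ : ContDiff ℝ 1 φ) (hp : PolyBd φ)
    (hp' : PolyBd fun x => fderiv ℝ φ x) (w : E d) :
    ∫ x, fderiv ℝ φ x w ∂law W = ∫ x, ⟪x + grad W x, w⟫ * φ x ∂law W := by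
  have hd : ∀ x, fderiv ℝ (pot W) x = innerSL ℝ (x + grad W x) := fun x =>
    (hW.hasFDerivAt_pot x).fderiv
  have hc : ContDiff ℝ 1 (pot W) :=
    ((contDiff_norm_sq ℝ).div_const 2).add (hW.contDiff.of_le (by norm_num))
  have h := hW.decay.ibp hc
    ((PolyBd.id.add hW.polyBd_grad).of_le fun x => by rw [hd, innerSL_apply_norm]) hφ hp hp' w
  simp only [hd, innerSL_apply_apply] at h
  simp only [hW.integral_law, smul_eq_mul, h]

theorem integral_norm_sq_law_le :
    ∫ x, ‖x‖ ^ 2 ∂law W ≤ 2 * (1 + B) ^ 2 * d := by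
  have := hW.isProbabilityMeasure_law
  set b := stdOrthonormalBasis ℝ (E d)
  have hpG : PolyBd fun x => x + grad W x := PolyBd.id.add hW.polyBd_grad
  have hcG : Continuous fun x => x + grad W x := continuous_id.add hW.contDiff_grad.continuous
  have hI : ∀ w : E d,
      Integrable (fun x => ⟪x + grad W x, w⟫ * ⟪x, w⟫) (law W) := fun w =>
    hW.integrable_law ((hpG.mul_of_le (PolyBd.const w) fun x => norm_inner_le_norm _ w).mul
      (polyBd_inner w)) (by fun_prop)
  have h1 : ∀ i, ∫ x, ⟪x + grad W x, b i⟫ * ⟪x, b i⟫ ∂law W = 1 := fun i => by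
    have hd : ∀ x : E d, fderiv ℝ (fun z : E d => ⟪z, b i⟫) x = innerSL ℝ (b i) := fun x => by
      have e : (fun z : E d => ⟪z, b i⟫) = innerSL ℝ (b i) := by
        funext z; simp [real_inner_comm]
      rw [e, ContinuousLinearMap.fderiv]
    rw [← hW.ibp_law (φ := fun z : E d => ⟪z, b i⟫) (contDiff_id.inner ℝ contDiff_const)
      (polyBd_inner _)
      ((PolyBd.const (innerSL ℝ (b i))).of_le fun x => by rw [hd]) (b i)]
    simp [hd]
  have h2 : ∫ x, ⟪x + grad W x, x⟫ ∂law W = d := by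
    have e : ∀ x, ⟪x + grad W x, x⟫ = ∑ i, ⟪x + grad W x, b i⟫ * ⟪x, b i⟫ := fun x => by
      conv_lhs => rw [← b.sum_inner_mul_inner (x + grad W x) x]
      simp [real_inner_comm x]
    simp_rw [e]
    rw [integral_finsetSum _ fun i _ => hI (b i)]
    simp [h1]
  have i2 : Integrable (fun x => ‖x‖ ^ 2) (law W) :=
    hW.integrable_law (PolyBd.id.norm.pow 2) (by fun_prop)
  have h3 : ∀ x, ‖x‖ ^ 2 / 2 - B ^ 2 * d / 2 ≤ ⟪x + grad W x, x⟫ := fun x => by
    have h := hW.grad_mono x 0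
    rw [sub_zero, inner_sub_left] at h
    rw [inner_add_left, real_inner_self_eq_norm_sq]
    have h' := neg_le_of_abs_le (abs_real_inner_le_norm (grad W 0) x)
    have hg : ‖grad W 0‖ ≤ B * √d := hW.grad_zero_le.trans
      (mul_le_mul_of_nonneg_right (mul_le_of_le_one_left hW.bound_nonneg hW.eta_le_one)
        (Real.sqrt_nonneg _))
    nlinarith [mul_le_mul_of_nonneg_right hg (norm_nonneg x), sq_nonneg (‖x‖ - B * √d),
      Real.sq_sqrt (d.cast_nonneg (α := ℝ))]
  have h4 := integral_mono ((i2.div_const 2).sub (integrable_const _))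
    (hW.integrable_law (hpG.mul_of_le PolyBd.id fun x => norm_inner_le_norm _ x) (by fun_prop)) h3
  simp only [Pi.sub_apply] at h4
  rw [integral_sub (i2.div_const 2) (integrable_const _), integral_div, h2] at h4
  simp only [integral_const, probReal_univ, one_smul] at h4
  nlinarith [hW.bound_nonneg, d.cast_nonneg (α := ℝ), mul_nonneg (sq_nonneg B) (d.cast_nonneg (α := ℝ))]

theorem traj_sub_velocity_le (x v w : E d) :
    ‖traj W x v (1 / 4) - traj W x w (1 / 4)‖ ≤ ‖v - w‖ / 3 := by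
  obtain ⟨M, hM, h⟩ := second_order_bound (c := 0)
    (u := fun t => traj W x v t - traj W x w t) (w := fun t => vel W x v t - vel W x w t)
    (fun t ht => (hW.hasDerivWithinAt_traj x v ht).sub (hW.hasDerivWithinAt_traj x w ht))
    (fun t ht => (hW.hasDerivWithinAt_vel x v ht).sub (hW.hasDerivWithinAt_vel x w ht))
    (fun t _ => by
      rw [neg_sub_neg, norm_sub_rev, add_zero]; exact hW.force_lipschitz _ _)
  simp only [hW.traj_zero, hW.vel_zero, sub_self, norm_zero, sub_zero] at hM h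
  linarith [(h (1 / 4) ⟨by norm_num, le_rfl⟩).1, norm_nonneg (v - w)]

theorem traj_zero_le (v : E d) : ‖traj W 0 v (1 / 4)‖ ≤ ‖v‖ / 2 + B * √d := by
  have hg : ‖grad W 0‖ ≤ B * √d := hW.grad_zero_le.trans
    (mul_le_mul_of_nonneg_right (mul_le_of_le_one_left hW.bound_nonneg hW.eta_le_one)
      (Real.sqrt_nonneg _))
  obtain ⟨M, hM, h⟩ := second_order_bound (c := B * √d)
    (fun t ht => hW.hasDerivWithinAt_traj 0 v ht) (fun t ht => hW.hasDerivWithinAt_vel 0 v ht)
    (fun t _ => by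
      rw [norm_neg]
      refine (norm_le_norm_add_norm_sub' _ (0 + grad W 0)).trans ?_
      have := hW.force_lipschitz (traj W 0 v t) 0
      simp only [zero_add, sub_zero] at this ⊢
      linarith)
  simp only [hW.traj_zero, hW.vel_zero, norm_zero] at hM
  linarith [(h (1 / 4) ⟨by norm_num, le_rfl⟩).1, norm_nonneg v, norm_nonneg (grad W 0)]

/-- Synchronous coupling contracts. -/
theorem traj_sub_le (x y v : E d) :
    ‖traj W x v (1 / 4) - traj W y v (1 / 4)‖ ≤ 127 / 128 * ‖x - y‖ := by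
  set u := fun t => traj W x v t - traj W y v t
  set w := fun t => vel W x v t - vel W y v t
  set a := fun t => -(traj W x v t + grad W (traj W x v t)) -
    -(traj W y v t + grad W (traj W y v t))
  have hu : ∀ t ∈ Icc (0 : ℝ) (1 / 4), HasDerivWithinAt u (w t) (Icc (0 : ℝ) (1 / 4)) t :=
    fun t ht => (hW.hasDerivWithinAt_traj x v ht).sub (hW.hasDerivWithinAt_traj y v ht)
  have hw : ∀ t ∈ Icc (0 : ℝ) (1 / 4), HasDerivWithinAt w (a t) (Icc (0 : ℝ) (1 / 4)) t :=
    fun t ht => (hW.hasDerivWithinAt_vel x v ht).sub (hW.hasDerivWithinAt_vel y v ht)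
  obtain ⟨M, hM, h⟩ := second_order_bound (c := 0) hu hw (fun t _ => by
    simp only [a]; rw [neg_sub_neg, norm_sub_rev, add_zero]; exact hW.force_lipschitz _ _)
  have hu0 : u 0 = x - y := by simp only [u, hW.traj_zero]
  have hw0 : w 0 = 0 := by simp only [w, hW.vel_zero, sub_self]
  simp only [hu0, hw0, norm_zero, sub_zero] at hM h
  set D := ‖x - y‖
  have hD : 0 ≤ D := norm_nonneg _
  have hneg : ∀ t ∈ Icc (0 : ℝ) (1 / 4), 2 * ‖w t‖ ^ 2 + 2 * ⟪u t, a t⟫ + D ^ 2 / 2 ≤ 0 := by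
    intro t ht
    obtain ⟨-, h2, h3⟩ := h t ht
    have h4 : ⟪u t, a t⟫ ≤ -‖u t‖ ^ 2 := by
      have hm := hW.grad_mono (traj W x v t) (traj W y v t)
      have e : a t = -(u t + (grad W (traj W x v t) - grad W (traj W y v t))) := by
        simp only [a, u]; abel
      rw [e, inner_neg_right, inner_add_right, real_inner_self_eq_norm_sq, real_inner_comm]
      linarith
    have h5 : ‖w t‖ ≤ 4 / 7 * D := by linarith
    have h6 : 6 / 7 * D ≤ ‖u t‖ := by
      linarith [norm_le_norm_add_norm_sub' (x - y) (u t), norm_sub_rev (x - y) (u t)]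
    nlinarith [pow_le_pow_left₀ (norm_nonneg _) h5 2, pow_le_pow_left₀ (by positivity) h6 2]
  have hderiv : ∀ t ∈ Icc (0 : ℝ) (1 / 4),
      HasDerivWithinAt (fun s => 2 * ⟪u s, w s⟫ + s * (D ^ 2 / 2))
        (2 * ‖w t‖ ^ 2 + 2 * ⟪u t, a t⟫ + D ^ 2 / 2) (Icc (0 : ℝ) (1 / 4)) t := fun t ht =>
    ((((hu t ht).inner ℝ (hw t ht)).const_mul 2).add
      ((hasDerivWithinAt_id t _).mul_const _)).congr_deriv
      (by rw [real_inner_self_eq_norm_sq]; ring)
  have hanti : AntitoneOn (fun s => 2 * ⟪u s, w s⟫ + s * (D ^ 2 / 2)) (Icc (0 : ℝ) (1 / 4)) :=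
    antitoneOn_of_hasDerivWithinAt_nonpos (convex_Icc _ _)
      (fun t ht => (hderiv t ht).continuousWithinAt)
      (fun t ht => (hderiv t (interior_subset ht)).mono interior_subset)
      fun t ht => hneg t (interior_subset ht)
  have hderiv2 : ∀ t ∈ Icc (0 : ℝ) (1 / 4),
      HasDerivWithinAt (fun s => ‖u s‖ ^ 2 + s ^ 2 * (D ^ 2 / 4))
        (2 * ⟪u t, w t⟫ + t * (D ^ 2 / 2)) (Icc (0 : ℝ) (1 / 4)) t := fun t ht =>
    ((hu t ht).norm_sq.add (((hasDerivWithinAt_id t _).pow 2).mul_const _)).congr_deriv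
      (by simp; ring)
  have hanti2 : AntitoneOn (fun s => ‖u s‖ ^ 2 + s ^ 2 * (D ^ 2 / 4)) (Icc (0 : ℝ) (1 / 4)) := by
    refine antitoneOn_of_hasDerivWithinAt_nonpos (convex_Icc _ _)
      (fun t ht => (hderiv2 t ht).continuousWithinAt)
      (fun t ht => (hderiv2 t (interior_subset ht)).mono interior_subset) fun t ht => ?_
    have := hanti ⟨le_rfl, by norm_num⟩ (interior_subset ht) (interior_subset ht).1
    simpa [hw0] using this
  have := hanti2 (left_mem_Icc.2 (by norm_num : (0 : ℝ) ≤ 1 / 4))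
    (right_mem_Icc.2 (by norm_num : (0 : ℝ) ≤ 1 / 4)) (by norm_num)
  simp only [hu0] at this
  refine (pow_le_pow_iff_left₀ (norm_nonneg _) (by positivity) two_ne_zero).1 ?_
  simp only [u] at this
  nlinarith

theorem norm_traj_le (x v : E d) :
    ‖traj W x v (1 / 4)‖ ≤ 127 / 128 * ‖x‖ + (‖v‖ / 2 + B * √d) := by
  have h := hW.traj_sub_le x 0 v
  rw [sub_zero] at h
  linarith [norm_le_norm_add_norm_sub' (traj W x v (1 / 4)) (traj W 0 v (1 / 4)),
    hW.traj_zero_le v]

theorem continuous_step : Continuous fun z : E d × E d => traj W z.1 z.2 (1 / 4) :=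
  hW.continuous_traj.comp (by fun_prop : Continuous fun z : E d × E d => (z, (1 / 4 : ℝ)))

theorem wlip_section {f : E d → ℝ} {A b : ℝ} (h : WLip f A b) (x : E d) :
    WLip (fun v => f (traj W x v (1 / 4))) ((A + 2 * b * (‖x‖ + B * √d)) / 3) (b / 6) := by
  obtain ⟨hA, hb, h⟩ := h
  refine ⟨by have := hW.bound_nonneg; positivity, by positivity, fun v w => ?_⟩
  refine (h _ _).trans ((mul_le_mul (hW.traj_sub_velocity_le x v w)
    (?_ : _ ≤ A + b * (2 * ‖x‖ + 2 * B * √d + (‖v‖ + ‖w‖) / 2)) (by positivity)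
    (by positivity)).trans (le_of_eq (by ring)))
  nlinarith [mul_le_mul_of_nonneg_left (add_le_add (hW.norm_traj_le x v) (hW.norm_traj_le x w)) hb,
    mul_nonneg hb (norm_nonneg x)]

theorem wlip_hmcOp {f : E d → ℝ} {A b : ℝ} (h : WLip f A b) :
    WLip (hmcOp W f) (127 / 128 * (A + 2 * b * ((1 + B) * √d))) ((127 / 128) ^ 2 * b) := by
  have hB := hW.bound_nonneg
  refine ⟨by have := h.1; have := h.2.1; positivity, by have := h.2.1; positivity, fun x y => ?_⟩
  have hi : ∀ x, Integrable (fun v => f (traj W x v (1 / 4))) (stdGaussian (E d)) := fun x =>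
    (hW.wlip_section h x).polyBd.integrable _ (hW.wlip_section h x).continuous.aestronglyMeasurable
  have iv : Integrable (fun v : E d => ‖v‖) (stdGaussian (E d)) :=
    PolyBd.id.norm.integrable _ (by fun_prop)
  simp only [hmcOp]
  rw [← integral_sub (hi x) (hi y), ← Real.norm_eq_abs]
  refine (norm_integral_le_of_norm_le
    (g := fun v => 127 / 128 * ‖x - y‖ *
      (A + 2 * b * (B * √d) + 127 / 128 * b * (‖x‖ + ‖y‖) + b * ‖v‖))
    (((integrable_const _).add (iv.const_mul b)).const_mul _) (ae_of_all _ fun v => ?_)).trans ?_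
  · refine (h.2.2 _ _).trans (mul_le_mul (hW.traj_sub_le x y v) ?_
      (by have := h.1; have := h.2.1; positivity) (by positivity))
    nlinarith [mul_le_mul_of_nonneg_left (add_le_add (hW.norm_traj_le x v) (hW.norm_traj_le y v))
      h.2.1]
  · rw [integral_const_mul, integral_add (integrable_const _) (iv.const_mul b), integral_const_mul]
    simp only [integral_const, probReal_univ, one_smul]
    have := mul_le_mul_of_nonneg_left (integral_norm_stdGaussian_le (d := d)) h.2.1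
    calc _ ≤ 127 / 128 * ‖x - y‖ *
          (A + 2 * b * ((1 + B) * √d) + 127 / 128 * b * (‖x‖ + ‖y‖)) := by
          refine mul_le_mul_of_nonneg_left ?_ (by positivity)
          nlinarith [mul_nonneg h.2.1 (Real.sqrt_nonneg (d : ℝ))]
      _ = _ := by ring

/-- One step of the variance recursion. -/
theorem var_step {f : E d → ℝ} {A b : ℝ} (h : WLip f A b) :
    ∫ x, (f x - ∫ y, f y ∂law W) ^ 2 ∂law W ≤ (A + 256 * b * ((1 + B) * √d)) ^ 2 +
      ∫ x, (hmcOp W f x - ∫ y, hmcOp W f y ∂law W) ^ 2 ∂law W := by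
  have := hW.isProbabilityMeasure_law
  set γ := stdGaussian (E d)
  set P := hmcOp W f
  have hB := hW.bound_nonneg
  have hP := hW.wlip_hmcOp h
  have hmp := hW.measurePreserving_flow (t := 1 / 4) ⟨by norm_num, le_rfl⟩
  have tr : ∀ g : E d → ℝ, Continuous g → PolyBd g →
      Integrable (fun z : E d × E d => g (traj W z.1 z.2 (1 / 4))) ((law W).prod γ) ∧
        ∫ z, g (traj W z.1 z.2 (1 / 4)) ∂(law W).prod γ = ∫ x, g x ∂law W := by
    intro g hg hgp
    have i0 : Integrable (fun z : E d × E d => g z.1) ((law W).prod γ) :=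
      (hW.integrable_law hgp hg).comp_fst γ
    refine ⟨hmp.integrable_comp_of_integrable i0, ?_⟩
    calc ∫ z, g (traj W z.1 z.2 (1 / 4)) ∂(law W).prod γ
        = ∫ z, g z.1 ∂Measure.map (fun z => (traj W z.1 z.2 (1 / 4), vel W z.1 z.2 (1 / 4)))
            ((law W).prod γ) := by
          rw [integral_map hmp.measurable.aemeasurable (by fun_prop)]
      _ = _ := by
          rw [hmp.map_eq, integral_fun_fst (f := g)]
          simp
  obtain ⟨i1, e1⟩ := tr f h.continuous h.polyBd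
  set m := ∫ y, f y ∂law W
  obtain ⟨i2, e2⟩ := tr (fun x => (f x - m) ^ 2) ((h.continuous.sub continuous_const).pow 2)
    ((h.polyBd.sub (PolyBd.const m)).pow 2)
  have hm : ∫ x, P x ∂law W = m := by
    rw [← e1, integral_prod _ i1]; rfl
  rw [hm, ← e2, integral_prod _ i2]
  set R := fun x : E d => 8 / 9 * ((A + 2 * b * ((1 + B) * √d)) ^ 2 + 4 * b ^ 2 * ‖x‖ ^ 2)
  have iR : Integrable R (law W) :=
    (((integrable_const _).add ((hW.integrable_law (PolyBd.id.norm.pow 2)
      (by fun_prop)).const_mul _)).const_mul _)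
  have iP : Integrable (fun x => (P x - m) ^ 2) (law W) :=
    hW.integrable_law ((hP.polyBd.sub (PolyBd.const m)).pow 2)
      ((hP.continuous.sub continuous_const).pow 2)
  have hin : ∀ x, ∫ v, (f (traj W x v (1 / 4)) - m) ^ 2 ∂γ ≤ R x + (P x - m) ^ 2 := by
    intro x
    have hs := hW.wlip_section h x
    rw [integral_sq_sub_mean (hs.polyBd.integrable _ hs.continuous.aestronglyMeasurable)
      ((hs.polyBd.pow 2).integrable _ (hs.continuous.pow 2).aestronglyMeasurable) m]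
    refine add_le_add ?_ le_rfl
    refine (gauss_var hs).trans ?_
    simp only [R]
    have hb := h.2.1
    have hA := h.1
    have hs0 := Real.sqrt_nonneg (d : ℝ)
    set Q := A + 2 * b * ((1 + B) * √d) with hQ
    set T := 2 * b * ‖x‖
    have h0 : 0 ≤ (A + 2 * b * (‖x‖ + B * √d)) / 3 + 2 * (b / 6) * √d := by positivity
    have hle : (A + 2 * b * (‖x‖ + B * √d)) / 3 + 2 * (b / 6) * √d ≤ (Q + T) / 3 := by
      simp only [hQ, T]
      nlinarith [mul_nonneg hb hs0]
    refine (mul_le_mul_of_nonneg_left (pow_le_pow_left₀ h0 hle 2) (by norm_num)).trans ?_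
    have hT : T ^ 2 = 4 * b ^ 2 * ‖x‖ ^ 2 := by simp only [T]; ring
    rw [← hT]
    nlinarith [sq_nonneg (Q - T)]
  refine (integral_mono i2.integral_prod_left (iR.add iP) hin).trans ?_
  simp only [Pi.add_apply]
  rw [integral_add iR iP]
  refine add_le_add ?_ le_rfl
  simp only [R]
  rw [integral_const_mul, integral_add (integrable_const _) ((hW.integrable_law (PolyBd.id.norm.pow 2)
      (by fun_prop)).const_mul _), integral_const_mul]
  simp only [integral_const, probReal_univ, one_smul]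
  have h2 := mul_le_mul_of_nonneg_left hW.integral_norm_sq_law_le
    (by positivity : (0 : ℝ) ≤ 4 * b ^ 2)
  set M := (1 + B) * √d with hM
  have hM2 : M ^ 2 = (1 + B) ^ 2 * d := by rw [hM, mul_pow, Real.sq_sqrt d.cast_nonneg]
  have hcross : 0 ≤ A * b * M := by have := h.1; have := h.2.1; positivity
  nlinarith [sq_nonneg (b * M), sq_nonneg A]

theorem var_iterate : ∀ (n : ℕ) {f : E d → ℝ} {A b : ℝ}, WLip f A b →
    ∫ x, (f x - ∫ y, f y ∂law W) ^ 2 ∂law W ≤
      (A + 256 * b * ((1 + B) * √d)) ^ 2 * ∑ j ∈ Finset.range n, ((127 / 128 : ℝ) ^ 2) ^ j +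
      ((127 / 128 : ℝ) ^ 2) ^ n * (2 * (A + 256 * b * ((1 + B) * √d)) ^ 2 * ∫ x, ‖x‖ ^ 2 ∂law W +
        2 * b ^ 2 * ∫ x, ‖x‖ ^ 4 ∂law W) := by
  have := hW.isProbabilityMeasure_law
  have hB := hW.bound_nonneg
  intro n
  induction n with
  | zero =>
    intro f A b h
    have i2 : Integrable (fun x => ‖x‖ ^ 2) (law W) :=
      hW.integrable_law (PolyBd.id.norm.pow 2) (by fun_prop)
    have i4 : Integrable (fun x => ‖x‖ ^ 4) (law W) :=
      hW.integrable_law (PolyBd.id.norm.pow 4) (by fun_prop)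
    have hmean := integral_sq_sub_mean (hW.integrable_law h.polyBd h.continuous)
      (hW.integrable_law (h.polyBd.pow 2) (h.continuous.pow 2)) (f 0)
    have hle : ∫ x, (f x - f 0) ^ 2 ∂law W ≤
        ∫ x, (2 * (A + 256 * b * ((1 + B) * √d)) ^ 2 * ‖x‖ ^ 2 + 2 * b ^ 2 * ‖x‖ ^ 4) ∂law W := by
      refine integral_mono (hW.integrable_law ((h.polyBd.sub (PolyBd.const _)).pow 2)
        ((h.continuous.sub continuous_const).pow 2)) ((i2.const_mul _).add (i4.const_mul _))
        fun x => ?_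
      have h1 := h.2.2 x 0
      simp only [sub_zero, norm_zero, add_zero] at h1
      have hA := h.1
      have hb := h.2.1
      have hΦ : A ≤ A + 256 * b * ((1 + B) * √d) := le_add_of_nonneg_right (by positivity)
      have h2 : (f x - f 0) ^ 2 ≤
          (‖x‖ * ((A + 256 * b * ((1 + B) * √d)) + b * ‖x‖)) ^ 2 := by
        rw [← sq_abs]
        exact pow_le_pow_left₀ (abs_nonneg _) (h1.trans (mul_le_mul_of_nonneg_left
          (by linarith) (norm_nonneg _))) 2
      refine h2.trans ?_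
      nlinarith [sq_nonneg (‖x‖ * ((A + 256 * b * ((1 + B) * √d)) - b * ‖x‖))]
    rw [integral_add (i2.const_mul _) (i4.const_mul _), integral_const_mul, integral_const_mul]
      at hle
    simp only [Finset.range_zero, Finset.sum_empty, mul_zero, zero_add, pow_zero, one_mul]
    linarith [sq_nonneg ((∫ y, f y ∂law W) - f 0)]
  | succ n ih =>
    intro f A b h
    set ρ : ℝ := 127 / 128 with hρ
    set M := (1 + B) * √d
    have hM : 0 ≤ M := by positivity
    have hA := h.1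
    have hb := h.2.1
    have hΦ : (ρ * (A + 2 * b * M) + 256 * (ρ ^ 2 * b) * M) ^ 2 ≤
        ρ ^ 2 * (A + 256 * b * M) ^ 2 :=
      le_of_eq (by rw [hρ]; ring)
    have hb2 : (ρ ^ 2 * b) ^ 2 ≤ ρ ^ 2 * b ^ 2 := by
      rw [mul_pow, hρ]
      exact mul_le_mul_of_nonneg_right (by norm_num) (sq_nonneg b)
    have h2 : 0 ≤ ∫ x, ‖x‖ ^ 2 ∂law W := integral_nonneg fun x => sq_nonneg _
    have h4 : 0 ≤ ∫ x, ‖x‖ ^ 4 ∂law W := integral_nonneg fun x => by positivity
    have hsum : ∑ j ∈ Finset.range (n + 1), (ρ ^ 2) ^ j =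
        1 + ρ ^ 2 * ∑ j ∈ Finset.range n, (ρ ^ 2) ^ j := by
      rw [Finset.sum_range_succ', Finset.mul_sum, pow_zero, add_comm]
      congr 1
      exact Finset.sum_congr rfl fun j _ => pow_succ' _ _
    have hS : 0 ≤ ∑ j ∈ Finset.range n, (ρ ^ 2) ^ j :=
      Finset.sum_nonneg fun j _ => by positivity
    refine (hW.var_step h).trans ?_
    refine (add_le_add le_rfl (ih (hW.wlip_hmcOp h))).trans ?_
    rw [hsum, pow_succ (ρ ^ 2) n]
    have t1 := mul_le_mul_of_nonneg_right hΦ hS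
    have t2 := mul_le_mul_of_nonneg_right hΦ h2
    have t3 := mul_le_mul_of_nonneg_right hb2 h4
    have t4 := mul_le_mul_of_nonneg_left (add_le_add (mul_le_mul_of_nonneg_left t2 zero_le_two)
      (mul_le_mul_of_nonneg_left t3 zero_le_two)) (by positivity : (0 : ℝ) ≤ (ρ ^ 2) ^ n)
    simp only [hρ, M] at *
    linarith

/-- The Poincare inequality with an explicit constant. -/
theorem poincare_le {f : E d → ℝ} {A b : ℝ} (h : WLip f A b) :
    ∫ x, (f x - ∫ y, f y ∂law W) ^ 2 ∂law W ≤ 65 * (A + 256 * b * ((1 + B) * √d)) ^ 2 := by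
  set K := 2 * (A + 256 * b * ((1 + B) * √d)) ^ 2 * ∫ x, ‖x‖ ^ 2 ∂law W +
    2 * b ^ 2 * ∫ x, ‖x‖ ^ 4 ∂law W
  have hlim : Tendsto (fun n : ℕ => 65 * (A + 256 * b * ((1 + B) * √d)) ^ 2 +
      ((127 / 128 : ℝ) ^ 2) ^ n * K) atTop (𝓝 (65 * (A + 256 * b * ((1 + B) * √d)) ^ 2)) := by
    simpa using ((tendsto_pow_atTop_nhds_zero_of_lt_one (r := (127 / 128 : ℝ) ^ 2)
      (by positivity) (by norm_num)).mul_const K).const_add
        (65 * (A + 256 * b * ((1 + B) * √d)) ^ 2)
  refine ge_of_tendsto' hlim fun n => (hW.var_iterate n h).trans (add_le_add ?_ le_rfl)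
  rw [mul_comm (65 : ℝ)]
  refine mul_le_mul_of_nonneg_left ?_ (sq_nonneg _)
  rw [geom_sum_eq (by norm_num), div_le_iff_of_neg (by norm_num)]
  nlinarith [pow_nonneg (by positivity : (0 : ℝ) ≤ (127 / 128 : ℝ) ^ 2) n]

end Pert

/-- Second moment of `law W`. -/
theorem integral_norm_sq_law : ∃ C : ℝ, ∀ (d : ℕ) (η B : ℝ) (W : E d → ℝ), Pert η B W →
    ∫ x, ‖x‖ ^ 2 ∂law W ≤ C * (1 + B) ^ 2 * d :=
  ⟨2, fun _ _ _ _ hW => hW.integral_norm_sq_law_le⟩

/-- Poincare inequality for weighted Lipschitz functions. -/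
theorem poincare : ∃ C : ℝ, ∀ (d : ℕ) (η B : ℝ) (W f : E d → ℝ) (A b : ℝ), Pert η B W →
    Continuous f → 0 ≤ A → 0 ≤ b → (∀ x y, |f x - f y| ≤ ‖x - y‖ * (A + b * (‖x‖ + ‖y‖))) →
    ∫ x, (f x - ∫ y, f y ∂law W) ^ 2 ∂law W ≤ C * (A + b * (1 + B) * √d) ^ 2 := by
  refine ⟨65 * 256 ^ 2, fun d η B W f A b hW _ hA hb h =>
    (hW.poincare_le ⟨hA, hb, h⟩).trans ?_⟩
  have hB := hW.bound_nonneg
  rw [mul_assoc 65, ← mul_pow]
  refine mul_le_mul_of_nonneg_left (pow_le_pow_left₀ (by positivity) ?_ 2) (by norm_num)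
  linarith

end Vale.Agent.P347
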