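import Vale.Agent.P347.Weight

/-!
# P347: tools for standard Gaussian vectors
-/

open MeasureTheory ProbabilityTheory Real
open scoped RealInnerProductSpace

namespace Vale.Agent.P347

theorem PolyBd.integrable {V F : Type*} [NormedAddCommGroup V] [NormedSpace ℝ V] [MeasurableSpace V]
    [BorelSpace V] [CompleteSpace V] [SecondCountableTopology V] [NormedAddCommGroup F]
    (μ : Measure V) [IsGaussian μ] {f : V → F} (hb : PolyBd f) (hf : AEStronglyMeasurable f μ) :
    Integrable f μ := by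
  obtain ⟨C, k, hC, hb⟩ := hb
  have h1 : MemLp (fun x : V => 1 + ‖x‖) (k : ℕ) μ :=
    (memLp_const (1 : ℝ)).add (IsGaussian.memLp_id μ _ (by simp)).norm
  have h2 : Integrable (fun x : V => ‖(1 + ‖x‖)‖ ^ k) μ := h1.integrable_norm_pow'
  refine (h2.const_mul C).mono' hf (ae_of_all _ fun x => ?_)
  rw [Real.norm_eq_abs, abs_of_nonneg (by positivity)]
  exact hb x

section
variable {V : Type*} [NormedAddCommGroup V] [InnerProductSpace ℝ V] [FiniteDimensional ℝ V]
  [MeasurableSpace V] [BorelSpace V]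

/-- The potential of the standard Gaussian. -/
noncomputable def gPot (x : V) : ℝ := ‖x‖ ^ 2 / 2

theorem decay_gPot : Decay (gPot : V → ℝ) :=
  decay_of_quadratic (b := 0) (by unfold gPot; fun_prop) (show (0 : ℝ) < 1 / 2 by norm_num)
    fun x => by simp [gPot]; ring_nf; rfl

theorem stdGaussian_eq_withDensity :
    stdGaussian V = volume.withDensity fun x : V =>
      ENNReal.ofReal ((∫ y : V, exp (-gPot y))⁻¹ * exp (-gPot x)) := by
  have hint : Integrable (fun x : V => exp (-gPot x)) := by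
    simpa using decay_gPot.integrable (f := fun _ : V => (1 : ℝ)) aestronglyMeasurable_const
      (PolyBd.const 1)
  have hZ : 0 < ∫ y : V, exp (-gPot y) := integral_exp_pos hint
  set Z : ℝ := ∫ y : V, exp (-gPot y) with hZdef
  haveI : IsFiniteMeasure (volume.withDensity fun x : V => ENNReal.ofReal (Z⁻¹ * exp (-gPot x))) :=
    isFiniteMeasure_withDensity_ofReal (hint.const_mul _).2
  apply Measure.ext_of_charFun
  funext t
  rw [charFun_stdGaussian, charFun_apply, integral_withDensity_eq_integral_toReal_smul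
    (by unfold gPot; fun_prop) (ae_of_all _ fun x => ENNReal.ofReal_lt_top)]
  have e : ∀ x : V, (ENNReal.ofReal (Z⁻¹ * exp (-gPot x))).toReal •
      Complex.exp ((⟪x, t⟫ : ℝ) * Complex.I) =
      (Z⁻¹ : ℂ) * Complex.exp (-(1 / 2 : ℂ) * (‖x‖ : ℂ) ^ 2 + Complex.I * (⟪t, x⟫ : ℝ)) := by
    intro x
    rw [ENNReal.toReal_ofReal (mul_nonneg (inv_nonneg.2 hZ.le) (exp_pos _).le), Complex.real_smul,
      real_inner_comm t x, Complex.exp_add]
    push_cast [gPot]
    ring_nf
  simp_rw [e]
  rw [integral_const_mul, GaussianFourier.integral_cexp_neg_mul_sq_norm_add (by simp) _ t]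
  have hZv : Z = (π / (1 / 2)) ^ (Module.finrank ℝ V / 2 : ℝ) := by
    rw [hZdef, ← GaussianFourier.integral_rexp_neg_mul_sq_norm (by norm_num : (0 : ℝ) < 1 / 2)]
    congr 1; funext y; simp [gPot]; ring_nf
  rw [hZv, Complex.ofReal_cpow (by positivity)]
  push_cast
  rw [← mul_assoc, inv_mul_cancel₀ ?_, one_mul]
  · congr 1; rw [Complex.I_sq]; ring
  · refine fun h => ?_
    rw [Complex.cpow_eq_zero_iff] at h
    exact (show ((π : ℂ) / (1 / 2)) ≠ 0 by simp [Complex.ofReal_ne_zero, pi_ne_zero]) h.1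

theorem integral_stdGaussian {F : Type*} [NormedAddCommGroup F] [NormedSpace ℝ F] (f : V → F) :
    ∫ x, f x ∂stdGaussian V =
      (∫ y : V, exp (-gPot y))⁻¹ • ∫ x : V, exp (-gPot x) • f x := by
  rw [stdGaussian_eq_withDensity, integral_withDensity_eq_integral_toReal_smul
    (by unfold gPot; fun_prop) (ae_of_all _ fun x => ENNReal.ofReal_lt_top), ← integral_smul]
  congr 1
  funext x
  rw [smul_smul, ENNReal.toReal_ofReal]
  exact mul_nonneg (inv_nonneg.2 (integral_nonneg fun y => (exp_pos _).le)) (exp_pos _).le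

/-- Gaussian integration by parts. -/
theorem gauss_ibp {φ : V → ℝ} (hφ : ContDiff ℝ 1 φ) (hp : PolyBd φ)
    (hp' : PolyBd fun x => fderiv ℝ φ x) (w : V) :
    ∫ z, fderiv ℝ φ z w ∂stdGaussian V = ∫ z, ⟪z, w⟫ * φ z ∂stdGaussian V := by
  have hd : ∀ x : V, fderiv ℝ gPot x = innerSL ℝ x := by
    intro x
    have h := ((hasStrictFDerivAt_norm_sq x).hasFDerivAt.const_mul (1 / 2 : ℝ))
    have e : (gPot : V → ℝ) = fun y => 1 / 2 * ‖y‖ ^ 2 := by funext y; simp [gPot]; ring
    rw [e, h.fderiv]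
    ext y; simp
  have h := decay_gPot.ibp (Ψ := (gPot : V → ℝ)) (φ := φ)
    (by unfold gPot; exact (contDiff_norm_sq ℝ).div_const 2)
    (PolyBd.id.of_le fun x => by rw [hd]; simp) hφ hp hp' w
  simp only [integral_stdGaussian, smul_eq_mul]
  rw [h]
  simp [hd]

theorem polyBd_inner (w : V) : PolyBd fun z : V => ⟪z, w⟫ :=
  PolyBd.id.mul_of_le (PolyBd.const w) fun x => norm_inner_le_norm x w

theorem integral_inner_stdGaussian (w : V) : ∫ z, ⟪z, w⟫ ∂stdGaussian V = 0 := by
  have h := gauss_ibp (φ := fun _ : V => (1 : ℝ)) contDiff_const (PolyBd.const 1)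
    (by simpa using PolyBd.const (V := V) (0 : V →L[ℝ] ℝ)) w
  simpa using h.symm

theorem integral_inner_mul_inner (u w : V) :
    ∫ z, ⟪z, u⟫ * ⟪z, w⟫ ∂stdGaussian V = ⟪u, w⟫ := by
  have hd : ∀ x : V, fderiv ℝ (fun z : V => ⟪z, w⟫) x = innerSL ℝ w := fun x => by
    have e : (fun z : V => ⟪z, w⟫) = innerSL ℝ w := by
      funext z; simp [real_inner_comm]
    rw [e, ContinuousLinearMap.fderiv]
  have h := gauss_ibp (φ := fun z : V => ⟪z, w⟫) (contDiff_id.inner ℝ contDiff_const) (polyBd_inner w)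
    ((PolyBd.const (innerSL ℝ w)).of_le fun x => by rw [hd]) u
  rw [← h]
  simp only [hd, innerSL_apply_apply]
  simp [real_inner_comm]

theorem integral_norm_sq_stdGaussian :
    ∫ z, ‖z‖ ^ 2 ∂stdGaussian V = Module.finrank ℝ V := by
  set b := stdOrthonormalBasis ℝ V
  have e : ∀ z : V, ‖z‖ ^ 2 = ∑ i, ⟪z, b i⟫ * ⟪z, b i⟫ := fun z => by
    rw [← b.sum_sq_inner_right z]
    simp [pow_two, real_inner_comm]
  simp_rw [e]
  rw [integral_finsetSum _ fun i _ => ((polyBd_inner _).mul (polyBd_inner _)).integrable _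
    (by fun_prop)]
  simp [integral_inner_mul_inner, orthonormal_iff_ite.1 b.orthonormal]

/-- Bessel's inequality for the first Gaussian chaos. -/
theorem bessel {ι : Type*} [Fintype ι] (b : OrthonormalBasis ι ℝ V) {f : V → ℝ}
    (hf : Continuous f) (hp : PolyBd f) :
    ∑ i, (∫ z, f z * ⟪z, b i⟫ ∂stdGaussian V) ^ 2 ≤ ∫ z, f z ^ 2 ∂stdGaussian V := by
  set a : ι → ℝ := fun i => ∫ z, f z * ⟪z, b i⟫ ∂stdGaussian V
  set v : V := ∑ i, a i • b i
  have hi : ∀ u, Integrable (fun z => f z * ⟪z, u⟫) (stdGaussian V) := fun u =>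
    (hp.mul (polyBd_inner u)).integrable _ (by fun_prop)
  have hvv : ⟪v, v⟫ = ∑ i, a i ^ 2 := by
    simp only [v]
    rw [b.orthonormal.inner_sum a a Finset.univ]
    simp [pow_two]
  have h1 : ∫ z, f z * ⟪z, v⟫ ∂stdGaussian V = ∑ i, a i ^ 2 := by
    simp_rw [v, inner_sum, inner_smul_right, Finset.mul_sum]
    rw [integral_finsetSum _ fun i _ => by simpa [mul_left_comm] using (hi (b i)).const_mul (a i)]
    refine Finset.sum_congr rfl fun i _ => ?_
    simp_rw [mul_left_comm _ (a i)]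
    rw [integral_const_mul, pow_two]
  have h2 : 0 ≤ ∫ z, (f z - ⟪z, v⟫) ^ 2 ∂stdGaussian V := integral_nonneg fun z => sq_nonneg _
  have e : ∀ z, (f z - ⟪z, v⟫) ^ 2 = f z ^ 2 - 2 * (f z * ⟪z, v⟫) + ⟪z, v⟫ * ⟪z, v⟫ :=
    fun z => by ring
  simp_rw [e] at h2
  have i1 : Integrable (fun z => f z ^ 2) (stdGaussian V) :=
    (hp.pow 2).integrable _ (by fun_prop)
  have i3 : Integrable (fun z => ⟪z, v⟫ * ⟪z, v⟫) (stdGaussian V) :=
    ((polyBd_inner v).mul (polyBd_inner v)).integrable _ (by fun_prop)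
  have h3 := integral_add (i1.sub ((hi v).const_mul 2)) i3
  simp only [Pi.sub_apply] at h3
  rw [h3, integral_sub i1 ((hi v).const_mul 2), integral_const_mul, h1,
    integral_inner_mul_inner, hvv] at h2
  linarith

theorem measurePreserving_rot (θ : ℝ) :
    MeasurePreserving (fun p : V × V => (cos θ • p.1 + sin θ • p.2, -sin θ • p.1 + cos θ • p.2))
      ((stdGaussian V).prod (stdGaussian V)) ((stdGaussian V).prod (stdGaussian V)) := by
  refine ⟨by fun_prop, ?_⟩
  have h := IsGaussian.map_rotation_eq_self (μ := stdGaussian V) integral_id_stdGaussian θ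
  have e : ⇑(ContinuousLinearMap.rotation (E := V) θ) = fun p : V × V =>
      (cos θ • p.1 + sin θ • p.2, -sin θ • p.1 + cos θ • p.2) := by
    funext p; simp [ContinuousLinearMap.rotation_apply]
  rwa [e] at h

theorem integral_rot {F : Type*} [NormedAddCommGroup F] [NormedSpace ℝ F] (θ : ℝ)
    {g : V × V → F} (hg : Continuous g) :
    ∫ p, g (cos θ • p.1 + sin θ • p.2, -sin θ • p.1 + cos θ • p.2)
        ∂(stdGaussian V).prod (stdGaussian V) =
      ∫ p, g p ∂(stdGaussian V).prod (stdGaussian V) := by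
  have h := measurePreserving_rot (V := V) θ
  conv_rhs => rw [← h.map_eq]
  rw [integral_map h.measurable.aemeasurable hg.aestronglyMeasurable]

end

section
variable {d : ℕ} {F : Type*} [NormedAddCommGroup F] [NormedSpace ℝ F]

/-- Gaussian smoothing of scale `t`. -/
noncomputable def sm (t : ℝ) (f : E d → F) (x : E d) : F :=
  ∫ z, f (x + t • z) ∂stdGaussian (E d)

theorem polyBd_shift {f : E d → F} (hp : PolyBd f) (t : ℝ) (x : E d) :
    PolyBd fun z => f (x + t • z) :=
  hp.comp ((PolyBd.const x).add ((PolyBd.const t).smul PolyBd.id))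

theorem integrable_shift {f : E d → F} (hf : Continuous f) (hp : PolyBd f) (t : ℝ) (x : E d) :
    Integrable (fun z => f (x + t • z)) (stdGaussian (E d)) :=
  (polyBd_shift hp t x).integrable _ (by fun_prop)

theorem exists_local_bound {f : E d → F} (hp : PolyBd f) (t : ℝ) (x : E d) :
    ∃ b : E d → ℝ, Integrable b (stdGaussian (E d)) ∧
      ∀ y ∈ Metric.ball x 1, ∀ z, ‖f (y + t • z)‖ ≤ b z := by
  obtain ⟨C, k, hC, hb⟩ := hp
  refine ⟨fun z => C * (1 + (‖x‖ + 1 + |t| * ‖z‖)) ^ k, ?_, fun y hy z => (hb _).trans ?_⟩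
  · refine PolyBd.integrable _ ?_ (Continuous.aestronglyMeasurable (by fun_prop))
    exact (PolyBd.const C).mul (((PolyBd.const 1).add ((PolyBd.const (‖x‖ + 1)).add
      ((PolyBd.const |t|).mul PolyBd.id.norm))).pow k)
  · have hy' : ‖y‖ ≤ ‖x‖ + 1 := by
      have := norm_le_norm_add_norm_sub' y x
      rw [Metric.mem_ball, dist_eq_norm] at hy
      linarith
    have h2 : ‖y + t • z‖ ≤ ‖y‖ + |t| * ‖z‖ :=
      (norm_add_le _ _).trans (by rw [norm_smul, Real.norm_eq_abs])
    beta_reduce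
    gcongr
    linarith

theorem sm_continuous {f : E d → F} (hf : Continuous f) (hp : PolyBd f) (t : ℝ) :
    Continuous (sm t f) := by
  refine continuous_iff_continuousAt.2 fun x => ?_
  obtain ⟨b, hb, hbd⟩ := exists_local_bound hp t x
  exact continuousAt_of_dominated
    (Filter.Eventually.of_forall fun y => (integrable_shift hf hp t y).aestronglyMeasurable)
    (Filter.eventually_of_mem (Metric.ball_mem_nhds x one_pos)
      fun y hy => ae_of_all _ (hbd y hy))
    hb (ae_of_all _ fun z => by fun_prop)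

theorem sm_polyBd {f : E d → F} (hp : PolyBd f) (t : ℝ) : PolyBd (sm t f) := by
  obtain ⟨C, k, hC, hb⟩ := hp
  have hpk : PolyBd fun z : E d => (1 + |t| * ‖z‖) ^ k :=
    ((PolyBd.const 1).add ((PolyBd.const |t|).mul PolyBd.id.norm)).pow k
  have hint := hpk.integrable (stdGaussian (E d)) (Continuous.aestronglyMeasurable (by fun_prop))
  refine ⟨C * ∫ z, (1 + |t| * ‖z‖) ^ k ∂stdGaussian (E d), k,
    mul_nonneg hC (integral_nonneg fun z => by positivity), fun x => ?_⟩
  refine (norm_integral_le_of_norm_le ((hint.const_mul (C * (1 + ‖x‖) ^ k)))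
    (ae_of_all _ fun z => (hb _).trans ?_)).trans (le_of_eq ?_)
  · rw [mul_assoc, ← mul_pow]
    gcongr
    have h2 : ‖x + t • z‖ ≤ ‖x‖ + |t| * ‖z‖ :=
      (norm_add_le _ _).trans (by rw [norm_smul, Real.norm_eq_abs])
    nlinarith [mul_nonneg (norm_nonneg x) (mul_nonneg (abs_nonneg t) (norm_nonneg z))]
  · rw [integral_const_mul]; ring

theorem sm_hasFDerivAt [CompleteSpace F] {f : E d → F} (hf : ContDiff ℝ 1 f) (hp : PolyBd f)
    (hp' : PolyBd fun x => fderiv ℝ f x) (t : ℝ) (x : E d) :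
    HasFDerivAt (sm t f) (sm t (fun y => fderiv ℝ f y) x) x := by
  obtain ⟨b, hb, hbd⟩ := exists_local_bound hp' t x
  refine hasFDerivAt_integral_of_dominated_of_fderiv_le (𝕜 := ℝ)
    (F := fun y z => f (y + t • z)) (F' := fun y z => fderiv ℝ f (y + t • z))
    (Metric.ball_mem_nhds x one_pos)
    (Filter.Eventually.of_forall fun y => (integrable_shift hf.continuous hp t y).aestronglyMeasurable)
    (integrable_shift hf.continuous hp t x)
    (integrable_shift (hf.continuous_fderiv one_ne_zero) hp' t x).aestronglyMeasurable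
    (ae_of_all _ fun z y hy => hbd y hy z) hb (ae_of_all _ fun z y _ => ?_)
  exact ((hf.differentiable one_ne_zero) _).hasFDerivAt.comp y
    ((hasFDerivAt_id y).add_const (t • z))

theorem sm_contDiff_one [CompleteSpace F] {f : E d → F} (hf : ContDiff ℝ 1 f) (hp : PolyBd f)
    (hp' : PolyBd fun x => fderiv ℝ f x) (t : ℝ) : ContDiff ℝ 1 (sm t f) :=
  contDiff_one_iff_hasFDerivAt.2 ⟨sm t (fun y => fderiv ℝ f y),
    sm_continuous (hf.continuous_fderiv one_ne_zero) hp' t, fun x => sm_hasFDerivAt hf hp hp' t x⟩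

/-- Derivative of the smoothing by integration by parts. -/
theorem sm_fderiv_ibp {f : E d → ℝ} (hf : ContDiff ℝ 1 f) (hp : PolyBd f)
    (hp' : PolyBd fun x => fderiv ℝ f x) {t : ℝ} (ht : t ≠ 0) (x w : E d) :
    fderiv ℝ (sm t f) x w = t⁻¹ * ∫ z, f (x + t • z) * ⟪z, w⟫ ∂stdGaussian (E d) := by
  rw [(sm_hasFDerivAt hf hp hp' t x).fderiv, sm,
    ContinuousLinearMap.integral_apply (integrable_shift (hf.continuous_fderiv one_ne_zero) hp' t x)]
  have hd : ∀ z, fderiv ℝ (fun z => f (x + t • z)) z = t • fderiv ℝ f (x + t • z) := fun z => by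
    have h := ((hf.differentiable one_ne_zero) (x + t • z)).hasFDerivAt.comp z
      (((hasFDerivAt_id z).const_smul t).const_add x)
    exact (h.congr_fderiv (by ext v; simp)).fderiv
  have h := gauss_ibp (φ := fun z => f (x + t • z)) (by fun_prop) (polyBd_shift hp t x)
    (((PolyBd.const t).smul (polyBd_shift hp' t x)).of_le fun z => by rw [hd]) w
  simp only [hd, ContinuousLinearMap.smul_apply, smul_eq_mul, integral_const_mul] at h
  rw [show (fun z => f (x + t • z) * ⟪z, w⟫) = fun z => ⟪z, w⟫ * f (x + t • z) from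
    funext fun z => mul_comm _ _, ← h]
  field_simp

theorem sm_sm [CompleteSpace F] {f : E d → F} (hf : Continuous f) (hp : PolyBd f) (a b : ℝ)
    (x : E d) : sm a (sm b f) x = sm (√(a ^ 2 + b ^ 2)) f x := by
  rcases eq_or_ne (√(a ^ 2 + b ^ 2)) 0 with hc | hc
  · have h0 : a ^ 2 + b ^ 2 = 0 :=
      (Real.sqrt_eq_zero (by positivity)).1 hc
    have ha : a = 0 := by nlinarith
    have hb : b = 0 := by nlinarith
    simp [sm, ha, hb]
  set c := √(a ^ 2 + b ^ 2)
  have hc2 : c ^ 2 = a ^ 2 + b ^ 2 := Real.sq_sqrt (by positivity)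
  obtain ⟨θ, hcos, hsin⟩ : ∃ θ, c * cos θ = a ∧ c * sin θ = b := by
    refine ⟨(Complex.mk a b).arg, ?_, ?_⟩
    · simpa [Complex.norm_def, Complex.normSq_apply, c, pow_two] using
        (Complex.mk a b).norm_mul_cos_arg
    · simpa [Complex.norm_def, Complex.normSq_apply, c, pow_two] using
        (Complex.mk a b).norm_mul_sin_arg
  have hP : Integrable (fun p : E d × E d => f (x + a • p.1 + b • p.2))
      ((stdGaussian (E d)).prod (stdGaussian (E d))) := by
    refine (hp.comp ?_).integrable _ (by fun_prop)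
    refine PolyBd.add (PolyBd.add (PolyBd.const x) ?_) ?_
    · exact (PolyBd.const a).smul (PolyBd.id.of_le fun p => norm_fst_le p)
    · exact (PolyBd.const b).smul (PolyBd.id.of_le fun p => norm_snd_le p)
  calc sm a (sm b f) x
      = ∫ p, f (x + a • p.1 + b • p.2) ∂(stdGaussian (E d)).prod (stdGaussian (E d)) :=
        (integral_prod _ hP).symm
    _ = ∫ p, f (x + c • (cos θ • p.1 + sin θ • p.2))
          ∂(stdGaussian (E d)).prod (stdGaussian (E d)) := by
        refine integral_congr_ae (ae_of_all _ fun p => ?_)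
        simp [smul_add, smul_smul, hcos, hsin, add_assoc]
    _ = ∫ p, f (x + c • p.1) ∂(stdGaussian (E d)).prod (stdGaussian (E d)) :=
        integral_rot θ (g := fun q => f (x + c • q.1)) (by fun_prop)
    _ = sm c f x := by rw [integral_fun_fst (μ := stdGaussian (E d)) (f := fun z => f (x + c • z))]; simp [sm]

end

end Vale.Agent.P347
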