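import Vale.Agent.P347.Defs

/-!
# P347: composing query procedures

`QC d q f`: the function `f` of an oracle and of random reals can be computed with `q` adaptive
queries and measurable rules.
-/

open MeasureTheory

namespace Vale.Agent.P347

/-- Computable with `q` queries. -/
inductive QC (d : ℕ) {Ω : Type} [MeasurableSpace Ω] :
    {X : Type} → [MeasurableSpace X] → ℕ → ((E d → ℝ × E d) → Ω → X) → Prop
  | pure {X : Type} [MeasurableSpace X] {q : ℕ} (h : Ω → X) (hh : Measurable h) :
      QC d q fun _ ω => h ω
  | query {Y : Type} [MeasurableSpace Y] {q : ℕ} {f : (E d → ℝ × E d) → Ω → Y}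
      (hf : QC d q f) (p : Y → E d) (hp : Measurable p) :
      QC d (q + 1) fun O ω => (f O ω, O (p (f O ω)))
  | map {X Y : Type} [MeasurableSpace X] [MeasurableSpace Y] {q : ℕ}
      {f : (E d → ℝ × E d) → Ω → Y} (hf : QC d q f) (g : Y → X) (hg : Measurable g) :
      QC d q fun O ω => g (f O ω)

namespace QC

variable {d q : ℕ} {Ω Ω' X Y : Type} [MeasurableSpace Ω] [MeasurableSpace Ω'] [MeasurableSpace X]
  [MeasurableSpace Y]

theorem congr {f g : (E d → ℝ × E d) → Ω → X} (hf : QC d q f) (h : ∀ O ω, f O ω = g O ω) :
    QC d q g := by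
  have : f = g := funext fun O => funext fun ω => h O ω
  exact this ▸ hf

theorem measurable {f : (E d → ℝ × E d) → Ω → X} (hf : QC d q f) {O : E d → ℝ × E d}
    (hO : Measurable O) : Measurable (f O) := by
  induction hf with
  | pure h hh => exact hh
  | query _ p hp ih => exact ih.prodMk (hO.comp (hp.comp ih))
  | map _ g hg ih => exact hg.comp ih

theorem succ {f : (E d → ℝ × E d) → Ω → X} (hf : QC d q f) : QC d (q + 1) f :=
  ((hf.query (fun _ => 0) measurable_const).map Prod.fst measurable_fst)

theorem mono {f : (E d → ℝ × E d) → Ω → X} (hf : QC d q f) {q' : ℕ} (h : q ≤ q') :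
    QC d q' f := by
  induction h with
  | refl => exact hf
  | step _ ih => exact ih.succ

theorem comap {f : (E d → ℝ × E d) → Ω → X} (hf : QC d q f) {φ : Ω' → Ω} (hφ : Measurable φ) :
    QC d q fun O ω => f O (φ ω) := by
  induction hf with
  | pure h hh => exact .pure _ (hh.comp hφ)
  | query _ p hp ih => exact ih.query p hp
  | map _ g hg ih => exact ih.map g hg

theorem withSeed {f : (E d → ℝ × E d) → Ω → X} (hf : QC d q f) :
    QC d q fun O ω => (ω, f O ω) := by
  induction hf with
  | pure h hh => exact .pure _ (measurable_id.prodMk hh)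
  | query _ p hp ih =>
    exact (ih.query (fun y => p y.2) (hp.comp measurable_snd)).map
      (fun y => (y.1.1, (y.1.2, y.2))) (by fun_prop)
  | map _ g hg ih => exact ih.map (fun y => (y.1, g y.2)) (by fun_prop)

/-- `M` queries at points chosen from what is known so far. -/
theorem batch {f : (E d → ℝ × E d) → Ω → Y} (hf : QC d q f) :
    ∀ {M : ℕ} (p : Fin M → Y → E d), (∀ j, Measurable (p j)) →
      QC d (q + M) fun O ω => (f O ω, fun j => O (p j (f O ω))) := by
  intro M
  induction M with
  | zero =>
    intro p _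
    refine (hf.map (fun y => (y, fun j : Fin 0 => (Fin.elim0 j : ℝ × E d))) ?_).congr fun O ω => ?_
    · exact measurable_id.prodMk measurable_const
    · exact Prod.ext rfl (funext fun j => Fin.elim0 j)
  | succ M ih =>
    intro p hp
    refine (((ih (fun j => p j.castSucc) (fun j => hp _)).query
      (fun y => p (Fin.last M) y.1) ((hp _).comp measurable_fst)).map
      (fun y => (y.1.1, (Fin.snoc y.1.2 y.2 : Fin (M + 1) → ℝ × E d))) ?_).congr fun O ω => ?_
    · refine (by fun_prop : Measurable fun y : (Y × (Fin M → ℝ × E d)) × (ℝ × E d) => y.1.1).prodMk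
        (measurable_pi_lambda _ fun j => ?_)
      refine Fin.lastCases ?_ (fun i => ?_) j
      · simp only [Fin.snoc_last]; fun_prop
      · simp only [Fin.snoc_castSucc]; fun_prop
    · refine Prod.ext rfl (funext fun j => ?_)
      refine Fin.lastCases ?_ (fun i => ?_) j <;> simp

/-- Run `g` on the oracle transformed by `A` and `post`, which may depend on the result of `f`. -/
theorem bind {q₁ q₂ : ℕ} {f : (E d → ℝ × E d) → Ω → Y} (hf : QC d q₁ f)
    {g : (E d → ℝ × E d) → Ω' → X} (hg : QC d q₂ g)
    (A : Y → E d → E d) (hA : Measurable fun p : Y × E d => A p.1 p.2)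
    (post : Y → E d → ℝ × E d → ℝ × E d)
    (hpost : Measurable fun p : (Y × E d) × (ℝ × E d) => post p.1.1 p.1.2 p.2) :
    QC d (q₁ + q₂) fun O (ω : Ω × Ω') =>
      (f O ω.1, g (fun z => post (f O ω.1) z (O (A (f O ω.1) z))) ω.2) := by
  induction hg with
  | @pure X' _ q' h hh =>
    refine ((((hf.comap measurable_fst).withSeed).map (fun y => (y.2, h y.1.2))
      (measurable_snd.prodMk (hh.comp (measurable_snd.comp measurable_fst)))).mono
      (Nat.le_add_right q₁ q')).congr fun O ω => rfl
  | @query Y' _ q' g' _ p hp ih =>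
    refine ((ih.query (fun y => A y.1 (p y.2))
      (hA.comp (measurable_fst.prodMk (hp.comp measurable_snd)))).map
      (fun y => (y.1.1, (y.1.2, post y.1.1 (p y.1.2) y.2))) ?_).congr fun O ω => rfl
    refine (measurable_fst.comp measurable_fst).prodMk
      ((measurable_snd.comp measurable_fst).prodMk ?_)
    exact hpost.comp (f := fun y : (Y × Y') × (ℝ × E d) => ((y.1.1, p y.1.2), y.2))
      (((measurable_fst.comp measurable_fst).prodMk
        (hp.comp (measurable_snd.comp measurable_fst))).prodMk measurable_snd)
  | map _ g' hg' ih =>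
    exact ih.map (fun y => (y.1, g' y.2)) (measurable_fst.prodMk (hg'.comp measurable_snd))

/-- Histories of answers, padded by zeros. -/
noncomputable def hist (rule : ℕ → Ω × (ℕ → ℝ × E d) → E d) (O : E d → ℝ × E d) (ω : Ω) :
    ℕ → ℕ → ℝ × E d
  | 0 => 0
  | k + 1 => Function.update (hist rule O ω k) k (O (rule k (ω, hist rule O ω k)))

theorem hist_congr {r r' : ℕ → Ω × (ℕ → ℝ × E d) → E d} {n : ℕ} (h : ∀ k, k < n → r k = r' k)
    (O : E d → ℝ × E d) (ω : Ω) : ∀ k, k ≤ n → hist r O ω k = hist r' O ω k
  | 0, _ => rfl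
  | k + 1, hk => by
    simp only [hist, hist_congr h O ω k (Nat.le_of_succ_le hk), h k hk]

theorem normalForm {f : (E d → ℝ × E d) → Ω → X} (hf : QC d q f) :
    ∃ (rule : ℕ → Ω × (ℕ → ℝ × E d) → E d) (out : Ω × (ℕ → ℝ × E d) → X),
      (∀ k, Measurable (rule k)) ∧ Measurable out ∧
        ∀ O ω, f O ω = out (ω, hist rule O ω q) := by
  induction hf with
  | pure h hh =>
    exact ⟨fun _ _ => 0, fun z => h z.1, fun _ => measurable_const, hh.comp measurable_fst,
      fun _ _ => rfl⟩
  | @query Y' _ q' f' _ p hp ih =>
    obtain ⟨r, out, hr, ho, he⟩ := ih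
    have hz : Measurable fun z : Ω × (ℕ → ℝ × E d) =>
        (z.1, Function.update z.2 q' (0 : ℝ × E d)) :=
      measurable_fst.prodMk (measurable_pi_lambda _ fun i => by
        by_cases h : i = q'
        · subst h; simp
        · simp only [Function.update_of_ne h]; fun_prop)
    refine ⟨Function.update r q' (p ∘ out),
      fun z => (out (z.1, Function.update z.2 q' 0), z.2 q'), fun k => ?_,
      (ho.comp hz).prodMk ((measurable_pi_apply q').comp measurable_snd), fun O ω => ?_⟩
    · by_cases h : k = q'
      · subst h; simpa using hp.comp ho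
      · simpa [Function.update_of_ne h] using hr k
    · have hc : hist (Function.update r q' (p ∘ out)) O ω q' = hist r O ω q' :=
        hist_congr (fun k hk => Function.update_of_ne (Nat.ne_of_lt hk) _ _) O ω q' le_rfl
      have hzero : ∀ k i, k ≤ i → hist r O ω k i = 0 := by
        intro k
        induction k with
        | zero => intro i _; rfl
        | succ k ihk =>
          intro i hi
          rw [hist, Function.update_of_ne (by omega)]
          exact ihk i (by omega)
      have hu : Function.update (hist r O ω q') q' (0 : ℝ × E d) = hist r O ω q' :=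
        Function.update_eq_self_iff.2 (hzero q' q' le_rfl).symm
      simp [hist, hc, he, hu]
  | @map X' Y' _ _ q' f' _ g hg ih =>
    obtain ⟨r, out, hr, ho, he⟩ := ih
    exact ⟨r, g ∘ out, hr, hg.comp ho, fun O ω => by simp [he]⟩

/-- Extend a finite list of answers by zeros. -/
noncomputable def pad {k : ℕ} (a : Fin k → ℝ × E d) : ℕ → ℝ × E d :=
  fun i => if h : i < k then a ⟨i, h⟩ else 0

theorem measurable_pad {k : ℕ} : Measurable (pad : (Fin k → ℝ × E d) → ℕ → ℝ × E d) := by
  refine measurable_pi_lambda _ fun i => ?_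
  unfold pad
  split_ifs <;> fun_prop

/-- A procedure with `q` queries and any decoding of the random reals is an algorithm. -/
theorem toAlgorithm {f : (E d → ℝ × E d) → Ω → E d} (hf : QC d q f)
    (μ : Measure (ℕ → ℝ)) [IsProbabilityMeasure μ] (dec : (ℕ → ℝ) → Ω) (hdec : Measurable dec) :
    ∃ A : Algorithm d q, A.seedLaw = μ ∧ ∀ O ω, A.run O ω = f O (dec ω) := by
  obtain ⟨r, out, hr, ho, he⟩ := hf.normalForm
  let A : Algorithm d q :=
    { seedLaw := μ
      seedLaw_isProb := inferInstance
      query := fun k z => r k (dec z.1, pad z.2)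
      query_meas := fun k => (hr k).comp
        ((hdec.comp measurable_fst).prodMk (measurable_pad.comp measurable_snd))
      output := fun z => out (dec z.1, pad z.2)
      output_meas := ho.comp
        ((hdec.comp measurable_fst).prodMk (measurable_pad.comp measurable_snd)) }
  refine ⟨A, rfl, fun O ω => ?_⟩
  have key : ∀ k (hk : k ≤ q), pad (A.answers O ω k hk) = hist r O (dec ω) k := by
    intro k
    induction k with
    | zero => intro _; ext1 i; simp [pad, hist]
    | succ k ih =>
      intro hk
      ext1 i
      rw [hist, ← ih (Nat.le_of_succ_le hk)]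
      rcases lt_trichotomy i k with h | rfl | h
      · rw [Function.update_of_ne (Nat.ne_of_lt h)]
        simp [pad, Algorithm.answers, h, Nat.lt_succ_of_lt h, Fin.snoc]
      · simp [pad, Algorithm.answers, Fin.snoc, A]
      · rw [Function.update_of_ne (Nat.ne_of_gt h)]
        simp [pad, Nat.not_lt.2 (Nat.le_of_lt h), Nat.not_lt.2 (Nat.succ_le_of_lt h)]
  simp [Algorithm.run, A] at *
  rw [he, ← key q le_rfl]

end QC

end Vale.Agent.P347
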