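import Vale.Agent.P347.Model

/-!
# P347: Gaussian blurring of a law, and elementary facts on total variation
-/

open MeasureTheory ProbabilityTheory Real Set
open scoped RealInnerProductSpace

namespace Vale.Agent.P347

variable {d : ℕ} {α β : Type*} [MeasurableSpace α] [MeasurableSpace β]

/-- The law of `X + √s ζ` for `X ∼ μ` and an independent standard Gaussian `ζ`. -/
noncomputable def blur (s : ℝ) (μ : Measure (E d)) : Measure (E d) :=
  (μ.prod (stdGaussian (E d))).map fun p => p.1 + √s • p.2

instance isProbabilityMeasure_blur (s : ℝ) (μ : Measure (E d)) [IsProbabilityMeasure μ] :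
    IsProbabilityMeasure (blur s μ) :=
  Measure.isProbabilityMeasure_map (by fun_prop)

theorem integral_blur (s : ℝ) (μ : Measure (E d)) [IsProbabilityMeasure μ] {f : E d → ℝ}
    (hf : Continuous f) {M : ℝ} (hM : ∀ x, |f x| ≤ M) :
    ∫ x, f x ∂blur s μ = ∫ x, sm √s f x ∂μ := by
  rw [blur, integral_map (by fun_prop) hf.aestronglyMeasurable, integral_prod]
  · rfl
  · exact Integrable.of_bound (by fun_prop) M (ae_of_all _ fun p => hM _)

namespace TVLe

theorem refl (μ : Measure α) : TVLe μ μ 0 := fun _ _ => by simp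

theorem symm {μ ν : Measure α} {ε : ℝ} (h : TVLe μ ν ε) : TVLe ν μ ε := fun s hs => by
  rw [abs_sub_comm]; exact h s hs

theorem trans {μ ν ρ : Measure α} {ε δ : ℝ} (h : TVLe μ ν ε) (h' : TVLe ν ρ δ) :
    TVLe μ ρ (ε + δ) := fun s hs =>
  (abs_sub_le _ (ν.real s) _).trans (add_le_add (h s hs) (h' s hs))

theorem mono {μ ν : Measure α} {ε δ : ℝ} (h : TVLe μ ν ε) (hεδ : ε ≤ δ) : TVLe μ ν δ :=
  fun s hs => (h s hs).trans hεδ

theorem nonneg {μ ν : Measure α} {ε : ℝ} (h : TVLe μ ν ε) : 0 ≤ ε :=
  (abs_nonneg _).trans (h ∅ MeasurableSet.empty)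

theorem map {μ ν : Measure α} {ε : ℝ} (h : TVLe μ ν ε) {g : α → β} (hg : Measurable g) :
    TVLe (μ.map g) (ν.map g) ε := fun s hs => by
  rw [map_measureReal_apply hg hs, map_measureReal_apply hg hs]
  exact h _ (hg hs)

/-- Integrals of functions with values in `[0, 1]` differ by at most `ε`. -/
theorem integral_le {μ ν : Measure α} [IsProbabilityMeasure μ] [IsProbabilityMeasure ν] {ε : ℝ}
    (h : TVLe μ ν ε) {f : α → ℝ} (hf : Measurable f) (hf01 : ∀ x, f x ∈ Icc (0 : ℝ) 1) :
    |∫ x, f x ∂μ - ∫ x, f x ∂ν| ≤ ε := by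
  have key : ∀ ρ : Measure α, IsProbabilityMeasure ρ →
      ∫ x, f x ∂ρ = ∫ t in (0:ℝ)..1, ρ.real {x | t < f x} := by
    intro ρ _
    have hi : Integrable f ρ := Integrable.of_bound hf.aestronglyMeasurable 1
      (ae_of_all _ fun x => by rw [Real.norm_eq_abs, abs_of_nonneg (hf01 x).1]; exact (hf01 x).2)
    rw [hi.integral_eq_integral_meas_lt (ae_of_all _ fun x => (hf01 x).1),
      intervalIntegral.integral_of_le zero_le_one]
    refine (setIntegral_eq_of_subset_of_forall_sdiff_eq_zero measurableSet_Ioi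
      Ioc_subset_Ioi_self fun t ht => ?_)
    have h1 : (1 : ℝ) < t := by
      simp only [mem_sdiff, mem_Ioi, mem_Ioc, not_and, not_le] at ht
      exact ht.2 ht.1
    have : {x | t < f x} = (∅ : Set α) := by
      ext x; simp only [mem_ofPred_eq, mem_empty_iff_false, iff_false, not_lt]
      linarith [(hf01 x).2]
    simp [this]
  have hanti : ∀ ρ : Measure α, IsProbabilityMeasure ρ →
      IntervalIntegrable (fun t => ρ.real {x | t < f x}) volume 0 1 := fun ρ _ => by
    refine Antitone.intervalIntegrable fun a b hab => ?_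
    exact measureReal_mono fun x hx => lt_of_le_of_lt hab hx
  rw [key μ ‹_›, key ν ‹_›, ← intervalIntegral.integral_sub (hanti μ ‹_›) (hanti ν ‹_›),
    ← Real.norm_eq_abs]
  refine (intervalIntegral.norm_integral_le_of_norm_le_const (C := ε) fun t _ => ?_).trans
    (by simp)
  rw [Real.norm_eq_abs]
  exact h _ (measurableSet_lt measurable_const hf)

theorem blur {μ ν : Measure (E d)} [IsProbabilityMeasure μ] [IsProbabilityMeasure ν] {ε : ℝ}
    (h : TVLe μ ν ε) (s : ℝ) : TVLe (blur s μ) (P347.blur s ν) ε := fun S hS => by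
  have e : ∀ ρ : Measure (E d), IsProbabilityMeasure ρ →
      (P347.blur s ρ).real S =
        ∫ x, (stdGaussian (E d)).real ((fun z => x + √s • z) ⁻¹' S) ∂ρ := by
    intro ρ _
    have hm : Measurable fun p : E d × E d => p.1 + √s • p.2 := by fun_prop
    rw [P347.blur, map_measureReal_apply hm hS, measureReal_def,
      Measure.prod_apply (hm hS), ← integral_toReal]
    · rfl
    · exact (measurable_measure_prodMk_left (hm hS)).aemeasurable
    · exact ae_of_all _ fun x => measure_lt_top _ _
  rw [e μ ‹_›, e ν ‹_›]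
  refine h.integral_le ?_ fun x => ⟨measureReal_nonneg, measureReal_le_one⟩
  have hm : Measurable fun p : E d × E d => p.1 + √s • p.2 := by fun_prop
  exact (measurable_measure_prodMk_left (hm hS)).ennreal_toReal

end TVLe

end Vale.Agent.P347
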