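import Vale.Agent.P347.GridScheme

/-!
# P347: the flow over one short cell

Time reversal inverts the flow, two trajectories that differ by a kick stay linear up to the square
of the length of the cell, and the rule of a cell also integrates the velocity.
-/

open MeasureTheory ProbabilityTheory Real Set Filter
open scoped RealInnerProductSpace Topology NNReal

namespace Vale.Agent.P347

variable {d m : ℕ}

/-- Velocity reversal. -/
def flipV (z : E d × E d) : E d × E d := (z.1, -z.2)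

/-- The flow run backwards. -/
noncomputable def backMap (W : E d → ℝ) (t : ℝ) (z : E d × E d) : E d × E d :=
  flipV (flowMap W (flipV z) t)

theorem flipV_flipV (z : E d × E d) : flipV (flipV z) = z := by simp [flipV]

theorem norm_flipV_sub (z w : E d × E d) : ‖flipV z - flipV w‖ = ‖z - w‖ := by
  simp only [flipV, Prod.norm_def, Prod.fst_sub, Prod.snd_sub]
  rw [show -z.2 - -w.2 = -(z.2 - w.2) by abel, norm_neg]

namespace Pert

variable {η B : ℝ} {W : E d → ℝ} (hW : Pert η B W)
include hW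

theorem flow_back {t : ℝ} (ht : t ∈ Icc (0 : ℝ) (1 / 4)) (z : E d × E d) :
    flowMap W (backMap W t z) t = z := by
  set γ : ℝ → E d × E d := fun s => flipV (flowMap W (flipV z) (t - s))
  have hs : ∀ s ∈ Ico (0 : ℝ) t, HasDerivWithinAt γ (field W (γ s)) (Ici s) s := by
    intro s hs
    have hmem : t - s ∈ Icc (0 : ℝ) (1 / 4) :=
      ⟨by linarith [hs.2], by linarith [hs.1, ht.2]⟩
    have h1 : HasDerivWithinAt (fun r : ℝ => t - r) (-1) (Icc s t) s :=
      ((hasDerivAt_id s).const_sub t).hasDerivWithinAt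
    have h2 := (hW.hasDerivWithinAt_flowMap (flipV z) hmem).scomp s h1 fun r hr =>
      ⟨by linarith [hr.2], by linarith [hr.1, hs.1, ht.2]⟩
    have hf := (ContinuousLinearMap.fst ℝ (E d) (E d)).hasFDerivAt.comp_hasDerivWithinAt s h2
    have hg := ((ContinuousLinearMap.snd ℝ (E d) (E d)).hasFDerivAt.comp_hasDerivWithinAt s h2).neg
    refine ((hf.prodMk hg).congr_deriv ?_).mono_of_mem_nhdsWithin (Icc_mem_nhdsGE hs.2)
    simp [γ, field, flipV]
  have hfc : ContinuousOn (flowMap W (backMap W t z)) (Icc 0 t) :=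
    (hW.continuous_flowMap_left _).continuousOn
  have hfd : ∀ s ∈ Ico (0 : ℝ) t, HasDerivWithinAt (flowMap W (backMap W t z))
      (field W (flowMap W (backMap W t z) s)) (Ici s) s := fun s hs =>
    (hW.hasDerivWithinAt_flowMap _ ⟨hs.1, by linarith [hs.2, ht.2]⟩).mono_of_mem_nhdsWithin
      (Icc_mem_nhdsGE_of_mem ⟨hs.1, by linarith [hs.2, ht.2]⟩)
  have hgc : ContinuousOn γ (Icc 0 t) := by
    have h := (hW.continuous_flowMap_left (flipV z)).comp (continuous_const.sub continuous_id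
      (f := fun _ : ℝ => t))
    exact (h.fst.prodMk h.snd.neg).continuousOn
  have h := dist_le_of_trajectories_ODE (fun _ => hW.lipschitz_field) hfc hfd hgc hs (δ := 0)
    (by rw [hW.flowMap_zero]; simp [γ, backMap]) t (right_mem_Icc.2 ht.1)
  rw [zero_mul, dist_le_zero] at h
  rw [h]
  simp [γ, hW.flowMap_zero, flipV_flipV]

theorem back_flow {t : ℝ} (ht : t ∈ Icc (0 : ℝ) (1 / 4)) (z : E d × E d) :
    backMap W t (flowMap W z t) = z := by
  have h := congrArg flipV (hW.flow_back ht (flipV z))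
  simpa [backMap, flipV_flipV] using h

theorem lipschitz_backMap (t : ℝ) (z w : E d × E d) :
    ‖backMap W t z - backMap W t w‖ ≤ exp 1 * ‖z - w‖ := by
  rw [backMap, backMap, norm_flipV_sub]
  refine ((hW.lipschitz_flowMap t).norm_sub_le _ _).trans (le_of_eq ?_)
  rw [norm_flipV_sub]
  rfl

theorem continuous_backMap (t : ℝ) : Continuous (backMap W t) :=
  (LipschitzWith.of_dist_le_mul (K := ⟨exp 1, (exp_pos 1).le⟩) fun z w => by
    rw [dist_eq_norm, dist_eq_norm]; exact hW.lipschitz_backMap t z w).continuous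

/-- A kick `e` at time `t` moves the trajectory by `((u - t) e, e)` at time `u`, up to `h²`. -/
theorem flow_kick {h t : ℝ} (hh : h ≤ 1 / 4) (ht : t ∈ Icc 0 h) (z : E d × E d) (e : E d) :
    ∀ u ∈ Icc 0 h,
      ‖(flowMap W (backMap W t (flowMap W z t + (0, e))) u - flowMap W z u).1‖ ≤ 8 * h * ‖e‖ ∧
      ‖(flowMap W (backMap W t (flowMap W z t + (0, e))) u - flowMap W z u) -
          ((u - t) • e, e)‖ ≤ 16 * h ^ 2 * ‖e‖ := by
  have hI : Icc 0 h ⊆ Icc (0 : ℝ) (1 / 4) := Icc_subset_Icc le_rfl hh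
  have h0 : 0 ≤ h := ht.1.trans ht.2
  set z' := backMap W t (flowMap W z t + (0, e))
  set δ : ℝ → E d × E d := fun u => flowMap W z' u - flowMap W z u
  have hexp : exp 1 * exp 1 ≤ 8 := by
    have := exp_one_lt_d9
    nlinarith [exp_pos 1]
  have hn : ∀ u, ‖δ u‖ ≤ 8 * ‖e‖ := by
    intro u
    refine ((hW.lipschitz_flowMap u).norm_sub_le _ _).trans ?_
    have h1 := hW.lipschitz_backMap t (flowMap W z t + (0, e)) (flowMap W z t)
    rw [hW.back_flow (hI ht), add_sub_cancel_left] at h1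
    have h2 : ‖((0 : E d), e)‖ = ‖e‖ := by simp [Prod.norm_def]
    rw [h2] at h1
    calc exp 1 * ‖z' - z‖ ≤ exp 1 * (exp 1 * ‖e‖) :=
          mul_le_mul_of_nonneg_left h1 (exp_pos 1).le
      _ ≤ 8 * ‖e‖ := by rw [← mul_assoc]; exact mul_le_mul_of_nonneg_right hexp (norm_nonneg e)
  have hd : ∀ u ∈ Icc 0 h, HasDerivWithinAt δ
      (field W (flowMap W z' u) - field W (flowMap W z u)) (Icc 0 h) u := fun u hu =>
    ((hW.hasDerivWithinAt_flowMap _ (hI hu)).sub (hW.hasDerivWithinAt_flowMap _ (hI hu))).mono hI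
  have hp : ∀ u ∈ Icc 0 h, HasDerivWithinAt (fun r => (δ r).1) (δ u).2 (Icc 0 h) u := fun u hu =>
    ((ContinuousLinearMap.fst ℝ (E d) (E d)).hasFDerivAt.comp_hasDerivWithinAt u
      (hd u hu)).congr_deriv (by simp [field, δ])
  have hq : ∀ u ∈ Icc 0 h, HasDerivWithinAt (fun r => (δ r).2)
      (-((flowMap W z' u).1 + grad W (flowMap W z' u).1) -
        -((flowMap W z u).1 + grad W (flowMap W z u).1)) (Icc 0 h) u := fun u hu =>
    ((ContinuousLinearMap.snd ℝ (E d) (E d)).hasFDerivAt.comp_hasDerivWithinAt u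
      (hd u hu)).congr_deriv (by simp [field])
  have hδt : δ t = (0, e) := by simp [δ, z', hW.flow_back (hI ht)]
  have habs : ∀ u ∈ Icc 0 h, |u - t| ≤ h := fun u hu =>
    abs_le.2 ⟨by linarith [hu.1, ht.2], by linarith [hu.2, ht.1]⟩
  have hx : ∀ u ∈ Icc 0 h, ‖(δ u).1‖ ≤ 8 * h * ‖e‖ := by
    intro u hu
    have h1 := (convex_Icc 0 h).norm_image_sub_le_of_norm_hasDerivWithin_le hp
      (fun r _ => (norm_snd_le _).trans (hn r)) ht hu
    simp only [hδt, sub_zero, Real.norm_eq_abs] at h1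
    refine h1.trans ?_
    calc 8 * ‖e‖ * |u - t| ≤ 8 * ‖e‖ * h :=
          mul_le_mul_of_nonneg_left (habs u hu) (by positivity)
      _ = _ := by ring
  have hv : ∀ u ∈ Icc 0 h, ‖(δ u).2 - e‖ ≤ 16 * h ^ 2 * ‖e‖ := by
    intro u hu
    have h1 := (convex_Icc 0 h).norm_image_sub_le_of_norm_hasDerivWithin_le hq
      (C := 16 * h * ‖e‖) (fun r hr => by
        rw [neg_sub_neg, norm_sub_rev]
        refine (hW.force_lipschitz _ _).trans ?_
        have := hx r hr
        simp only [δ, Prod.fst_sub] at this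
        linarith) ht hu
    simp only [hδt, Real.norm_eq_abs] at h1
    refine h1.trans ?_
    calc 16 * h * ‖e‖ * |u - t| ≤ 16 * h * ‖e‖ * h :=
          mul_le_mul_of_nonneg_left (habs u hu) (by positivity)
      _ = _ := by ring
  intro u hu
  refine ⟨hx u hu, ?_⟩
  show ‖δ u - ((u - t) • e, e)‖ ≤ _
  rw [Prod.norm_def]
  refine max_le ?_ (hv u hu)
  have hr : ∀ r ∈ Icc 0 h, HasDerivWithinAt (fun r => (δ r).1 - (r - t) • e) ((δ r).2 - e)
      (Icc 0 h) r := fun r hr =>
    ((hp r hr).sub (((hasDerivWithinAt_id r _).sub_const t).smul_const e)).congr_deriv (by simp)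
  have h1 := (convex_Icc 0 h).norm_image_sub_le_of_norm_hasDerivWithin_le hr
    (fun r hr => hv r hr) ht hu
  simp only [hδt, sub_self, zero_smul, sub_zero, Real.norm_eq_abs] at h1
  refine h1.trans (mul_le_of_le_one_right (by positivity) ((habs u hu).trans (by linarith)))

theorem vel_eq (x v : E d) {t : ℝ} (ht : t ∈ Icc (0 : ℝ) (1 / 4)) :
    vel W x v t = v - ∫ r in (0:ℝ)..t, (traj W x v r + grad W (traj W x v r)) := by
  have hg := hW.contDiff_grad.continuous
  have htr : Continuous (traj W x v) := hW.continuous_traj.comp (Continuous.prodMk_right (x, v))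
  have hve : Continuous (vel W x v) := hW.continuous_vel.comp (Continuous.prodMk_right (x, v))
  rw [intervalIntegral.integral_eq_sub_of_hasDerivAt_of_le ht.1
    (f := fun r => -vel W x v r) (Continuous.continuousOn (by fun_prop)) (fun r hr => ?_)
    (Continuous.intervalIntegrable (by fun_prop) 0 t), hW.vel_zero]
  · abel
  · have hr4 : Icc (0 : ℝ) (1 / 4) ∈ 𝓝 r := Icc_mem_nhds hr.1 (by linarith [hr.2, ht.2])
    exact ((hW.hasDerivWithinAt_vel x v (mem_of_mem_nhds hr4)).hasDerivAt hr4).neg.congr_deriv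
      (neg_neg _)

end Pert

namespace Rules

variable (r : Rules m)

/-- The weights of the velocity in one cell. -/
noncomputable def velW (h : ℝ) (i : Fin (1 * r.n)) : ℝ := h * r.w (finProdFinEquiv.symm i).2

theorem velW_nonneg {h : ℝ} (hh : 0 ≤ h) (i : Fin (1 * r.n)) : 0 ≤ r.velW h i :=
  mul_nonneg hh (r.w_nonneg _)

theorem sum_velW (h : ℝ) : ∑ i, r.velW h i = h := by
  rw [← finProdFinEquiv.sum_comp, Fintype.sum_prod_type]
  simp [velW, ← Finset.mul_sum, r.w_sum]

theorem scheme_w (h : ℝ) (i : Fin (1 * r.n)) :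
    (r.scheme h 1).w i = r.velW h i * (h - (r.scheme h 1).s i) := by
  simp [scheme, velW]

theorem node_one {k : ℕ} (p : Fin k → ℝ) (h : ℝ) (i : Fin k) :
    node (N := 1) p h (finProdFinEquiv (0, i)) = h * p i := by
  simp [node]

/-- The rule integrates the velocity equation. -/
theorem vel_error {f : ℕ → ℝ → E d} {h : ℝ} (hh : 0 < h)
    (hf : ∀ k ≤ m, ∀ t ∈ Icc 0 h, HasDerivWithinAt (f k) (f (k + 1) t) (Icc 0 h) t)
    (hc : ContinuousOn (f (m + 1)) (Icc 0 h)) :
    ‖(∫ t in (0:ℝ)..h, f 0 t) - ∑ i, r.velW h i • f 0 ((r.scheme h 1).s i)‖ ≤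
      3 * r.Λ * h ^ (m + 1) * ∫ t in (0:ℝ)..h, ‖f (m + 1) t‖ := by
  have h0 : (0 : ℝ) + h = h := zero_add h
  have h2 := r.pos d f 0 h (2 * h) le_rfl hh (by linarith) (by rw [h0]; exact hf)
    (by rw [h0]; exact hc)
  have h1 := r.pos d f 0 h h le_rfl hh (by linarith) (by rw [h0]; exact hf) (by rw [h0]; exact hc)
  simp only [zero_add] at h1 h2
  rw [← finProdFinEquiv.sum_comp, Fintype.sum_prod_type, Fin.sum_univ_one]
  simp only [velW, scheme, Equiv.symm_apply_apply, Nat.cast_one, div_one, node_one]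
  set I := ∫ t in (0:ℝ)..h, ‖f (m + 1) t‖
  have hcont : ∀ c : ℝ, IntervalIntegrable (fun t => (c - t) • f 0 t) volume 0 h := fun c =>
    ((continuous_const.sub continuous_id).continuousOn.smul
      (fun t ht => (hf 0 (Nat.zero_le _) t ht).continuousWithinAt)).intervalIntegrable_of_Icc hh.le
  set X := (∫ t in (0:ℝ)..h, f 0 t) - ∑ i, (h * r.w i) • f 0 (h * r.s i)
  have e : ((∫ t in (0:ℝ)..h, (2 * h - t) • f 0 t) -
        ∑ i, (h * r.w i * (2 * h - h * r.s i)) • f 0 (h * r.s i)) -
      ((∫ t in (0:ℝ)..h, (h - t) • f 0 t) -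
        ∑ i, (h * r.w i * (h - h * r.s i)) • f 0 (h * r.s i)) = h • X := by
    have ei : (∫ t in (0:ℝ)..h, (2 * h - t) • f 0 t) - ∫ t in (0:ℝ)..h, (h - t) • f 0 t =
        h • ∫ t in (0:ℝ)..h, f 0 t := by
      rw [← intervalIntegral.integral_sub (hcont _) (hcont _), ← intervalIntegral.integral_smul]
      refine intervalIntegral.integral_congr fun t _ => ?_
      rw [← sub_smul]; congr 1; ring
    have es : ∑ i, (h * r.w i * (2 * h - h * r.s i)) • f 0 (h * r.s i) -
        ∑ i, (h * r.w i * (h - h * r.s i)) • f 0 (h * r.s i) =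
          h • ∑ i, (h * r.w i) • f 0 (h * r.s i) := by
      rw [← Finset.sum_sub_distrib, Finset.smul_sum]
      refine Finset.sum_congr rfl fun i _ => ?_
      rw [← sub_smul, smul_smul]; congr 1; ring
    rw [smul_sub, ← ei, ← es]
    abel
  have hle := (norm_sub_le _ _).trans (add_le_add h2 h1)
  rw [e, norm_smul, Real.norm_eq_abs, abs_of_pos hh] at hle
  refine le_of_mul_le_mul_left (hle.trans (le_of_eq ?_)) hh
  ring

end Rules

end Vale.Agent.P347
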