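import Vale.Agent.P347.Gauss

/-!
# P347: perturbations of the standard Gaussian potential

`Pert η B W`: `W` is `C²`, `0 ≤ D²W ≤ η` and `‖∇W 0‖ ≤ η B √d`. The law is proportional to
`exp (-‖x‖²/2 - W x)`.
-/

open MeasureTheory ProbabilityTheory Real
open scoped RealInnerProductSpace Gradient

namespace Vale.Agent.P347

variable {d : ℕ}

/-- The gradient with values in `E d` (real scalars). -/
noncomputable def grad (W : E d → ℝ) : E d → E d := ∇ W

theorem inner_grad {W : E d → ℝ} (x v : E d) : ⟪grad W x, v⟫ = fderiv ℝ W x v := by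
  simp [grad, gradient]

/-- A convex perturbation of the standard Gaussian potential. -/
structure Pert (η B : ℝ) (W : E d → ℝ) : Prop where
  eta_nonneg : 0 ≤ η
  eta_le_one : η ≤ 1
  bound_nonneg : 0 ≤ B
  contDiff : ContDiff ℝ 2 W
  hess_nonneg : ∀ x v, 0 ≤ ⟪fderiv ℝ (grad W) x v, v⟫
  hess_le : ∀ x v, ⟪fderiv ℝ (grad W) x v, v⟫ ≤ η * ‖v‖ ^ 2
  grad_zero_le : ‖grad W 0‖ ≤ η * B * √d

/-- The full potential. -/
noncomputable def pot (W : E d → ℝ) (x : E d) : ℝ := ‖x‖ ^ 2 / 2 + W x

/-- The law proportional to `exp (-pot W)`. -/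
noncomputable def law (W : E d → ℝ) : Measure (E d) := gibbs (pot W)

theorem contDiff_grad {W : E d → ℝ} {n : WithTop ℕ∞} (hW : ContDiff ℝ (n + 1) W) :
    ContDiff ℝ n (grad W) := by
  have h : ContDiff ℝ n (fun x => fderiv ℝ W x) := hW.fderiv_right le_rfl
  exact ((InnerProductSpace.toDual ℝ (E d)).symm.toContinuousLinearEquiv.contDiff).comp h

theorem hess_eq {W : E d → ℝ} (hW : ContDiff ℝ 2 W) (x v w : E d) :
    ⟪fderiv ℝ (grad W) x v, w⟫ = iteratedFDeriv ℝ 2 W x ![v, w] := by
  have hg : ContDiff ℝ 1 (grad W) := contDiff_grad (by simpa [one_add_one_eq_two] using hW)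
  have hf : ContDiff ℝ 1 (fun x => fderiv ℝ W x) :=
    hW.fderiv_right (by simp [one_add_one_eq_two])
  rw [iteratedFDeriv_two_apply]
  have h1 : (fun y => ⟪grad W y, w⟫) = fun y => fderiv ℝ W y w := funext fun y => inner_grad y w
  have h2 : fderiv ℝ (fun y => ⟪grad W y, w⟫) x v = ⟪fderiv ℝ (grad W) x v, w⟫ := by
    rw [fderiv_inner_apply (𝕜 := ℝ) ((hg.differentiable one_ne_zero) x) (differentiableAt_const w)]
    simp
  rw [← h2, h1, fderiv_clm_apply ((hf.differentiable one_ne_zero) x) (differentiableAt_const w)]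
  simp

/-- The class of the problem gives a perturbation with `η = 1`. -/
theorem InClass.pert {V : E d → ℝ} (hV : InClass V) :
    Pert 1 0 (fun x => V x - ‖x‖ ^ 2 / 2) := by
  have hq : ContDiff ℝ 2 (fun x : E d => ‖x‖ ^ 2 / 2) := (contDiff_norm_sq ℝ).div_const 2
  have hVd : Differentiable ℝ V := hV.contDiff.differentiable (by norm_num)
  have hg : ContDiff ℝ 1 (grad V) :=
    contDiff_grad (by simpa [one_add_one_eq_two] using hV.contDiff)
  have hgrad : grad (fun x => V x - ‖x‖ ^ 2 / 2) = fun x => grad V x - x := by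
    funext x
    refine ext_inner_right ℝ fun v => ?_
    have h1 : HasFDerivAt (fun y : E d => ‖y‖ ^ 2 / 2) (innerSL ℝ x) x := by
      have h := (hasStrictFDerivAt_norm_sq x).hasFDerivAt.const_mul (1 / 2 : ℝ)
      have e : (fun y : E d => ‖y‖ ^ 2 / 2) = fun y => 1 / 2 * ‖y‖ ^ 2 := by funext y; ring
      rw [e]
      exact h.congr_fderiv (by ext y; simp)
    have h2 : HasFDerivAt (fun y : E d => V y - ‖y‖ ^ 2 / 2) (fderiv ℝ V x - innerSL ℝ x) x :=
      (hVd x).hasFDerivAt.sub h1
    rw [inner_grad, h2.fderiv, inner_sub_left, inner_grad]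
    simp
  have hfd : ∀ x v, fderiv ℝ (grad fun x => V x - ‖x‖ ^ 2 / 2) x v =
      fderiv ℝ (grad V) x v - v := by
    intro x v
    rw [hgrad, fderiv_fun_sub ((hg.differentiable one_ne_zero) x) differentiableAt_fun_id]
    simp
  refine ⟨zero_le_one, le_rfl, le_rfl, hV.contDiff.sub hq, fun x v => ?_, fun x v => ?_, ?_⟩
  · rw [hfd, inner_sub_left, hess_eq hV.contDiff, real_inner_self_eq_norm_sq]
    linarith [hV.hess_lower x v]
  · rw [hfd, inner_sub_left, hess_eq hV.contDiff, real_inner_self_eq_norm_sq]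
    linarith [hV.hess_upper x v]
  · rw [hgrad]; simp [grad, hV.grad_zero]

namespace Pert

variable {η B : ℝ} {W : E d → ℝ} (hW : Pert η B W)
include hW

theorem contDiff_grad : ContDiff ℝ 1 (grad W) :=
  P347.contDiff_grad (by simpa [one_add_one_eq_two] using hW.contDiff)

theorem hess_symm (x v w : E d) :
    ⟪fderiv ℝ (grad W) x v, w⟫ = ⟪v, fderiv ℝ (grad W) x w⟫ := by
  rw [hess_eq hW.contDiff, real_inner_comm, hess_eq hW.contDiff, iteratedFDeriv_two_apply,
    iteratedFDeriv_two_apply]
  exact (hW.contDiff.contDiffAt.isSymmSndFDerivAt (by simp [minSmoothness_of_isRCLikeNormedField]))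
    v w

theorem norm_hess_apply_le (x v : E d) : ‖fderiv ℝ (grad W) x v‖ ≤ η * ‖v‖ := by
  set H := fderiv ℝ (grad W) x
  set w := H v
  have key : ∀ t : ℝ, 0 ≤ η * ‖w‖ ^ 2 * (t * t) + 2 * ‖w‖ ^ 2 * t + η * ‖v‖ ^ 2 := by
    intro t
    have h1 := hW.hess_nonneg x (v + t • w)
    have h2 := hW.hess_le x w
    have h3 := hW.hess_le x v
    simp only [map_add, map_smul, inner_add_left, inner_add_right, real_inner_smul_left,
      real_inner_smul_right] at h1
    have e : ⟪fderiv ℝ (grad W) x w, v⟫ = ‖w‖ ^ 2 := by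
      rw [hW.hess_symm, real_inner_comm]; exact real_inner_self_eq_norm_sq w
    have e' : ⟪fderiv ℝ (grad W) x v, w⟫ = ‖w‖ ^ 2 := real_inner_self_eq_norm_sq w
    rw [e, e'] at h1
    nlinarith [mul_le_mul_of_nonneg_left h2 (mul_self_nonneg t)]
  have hd := discrim_le_zero key
  simp only [discrim] at hd
  have hsq : (‖w‖ ^ 2) ^ 2 ≤ ‖w‖ ^ 2 * (η * ‖v‖) ^ 2 := by nlinarith [hd]
  rcases eq_or_ne ‖w‖ 0 with h0 | h0
  · rw [h0]; exact mul_nonneg hW.eta_nonneg (norm_nonneg v)
  · have hpos : 0 < ‖w‖ ^ 2 := by positivity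
    have : ‖w‖ ^ 2 ≤ (η * ‖v‖) ^ 2 := by nlinarith [hsq]
    exact (pow_le_pow_iff_left₀ (norm_nonneg _) (mul_nonneg hW.eta_nonneg (norm_nonneg v))
      two_ne_zero).1 this

theorem norm_hess_le (x : E d) : ‖fderiv ℝ (grad W) x‖ ≤ η :=
  ContinuousLinearMap.opNorm_le_bound _ hW.eta_nonneg (hW.norm_hess_apply_le x)

theorem grad_lipschitz (x y : E d) : ‖grad W x - grad W y‖ ≤ η * ‖x - y‖ :=
  Convex.norm_image_sub_le_of_norm_fderiv_le
    (fun z _ => (hW.contDiff_grad.differentiable one_ne_zero) z)
    (fun z _ => hW.norm_hess_le z) convex_univ (Set.mem_univ y) (Set.mem_univ x)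

theorem norm_grad_le (x : E d) : ‖grad W x‖ ≤ η * (B * √d + ‖x‖) := by
  have h := norm_le_norm_add_norm_sub' (grad W x) (grad W 0)
  have h2 := hW.grad_lipschitz x 0
  rw [sub_zero] at h2
  nlinarith [hW.grad_zero_le]

theorem polyBd_grad : PolyBd (grad W) :=
  PolyBd.of_lipschitz hW.eta_nonneg hW.grad_lipschitz

theorem polyBd_hess : PolyBd fun x => fderiv ℝ (grad W) x :=
  PolyBd.of_bound hW.norm_hess_le

/-- Lower bound from convexity. -/
theorem lower (x : E d) : W 0 + ⟪grad W 0, x⟫ ≤ W x := by
  have hd : Differentiable ℝ W := hW.contDiff.differentiable (by norm_num)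
  have hgd := hW.contDiff_grad.differentiable one_ne_zero
  have h1 : ∀ t : ℝ, HasDerivAt (fun s : ℝ => W (s • x)) ⟪grad W (t • x), x⟫ t := fun t => by
    rw [inner_grad]
    simpa [Function.comp_def] using
      (hd _).hasFDerivAt.comp_hasDerivAt t ((hasDerivAt_id t).smul_const x)
  have h2 : ∀ t : ℝ, HasDerivAt (fun s : ℝ => ⟪grad W (s • x), x⟫)
      ⟪fderiv ℝ (grad W) (t • x) x, x⟫ t := fun t => by
    have h := (hgd _).hasFDerivAt.comp_hasDerivAt t ((hasDerivAt_id t).smul_const x)
    simp only [Function.comp_def, one_smul, id] at h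
    simpa using h.inner ℝ (hasDerivAt_const t x)
  have hmono : Monotone fun t : ℝ => ⟪grad W (t • x), x⟫ :=
    monotone_of_deriv_nonneg (fun t => (h2 t).differentiableAt) fun t => by
      rw [(h2 t).deriv]; exact hW.hess_nonneg _ _
  have hmono' : MonotoneOn (fun t : ℝ => W (t • x) - t * ⟪grad W 0, x⟫) (Set.Ici 0) := by
    refine monotoneOn_of_deriv_nonneg (convex_Ici 0) ?_ ?_ ?_
    · exact fun t _ => (((h1 t).sub ((hasDerivAt_id t).mul_const _)).continuousAt).continuousWithinAt
    · exact fun t _ => ((h1 t).sub ((hasDerivAt_id t).mul_const _)).differentiableAt.differentiableWithinAt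
    · intro t ht
      have h3 : HasDerivAt (fun s : ℝ => W (s • x) - s * ⟪grad W 0, x⟫)
          (⟪grad W (t • x), x⟫ - 1 * ⟪grad W 0, x⟫) t :=
        (h1 t).sub ((hasDerivAt_id t).mul_const _)
      rw [h3.deriv]
      simp only [interior_Ici, Set.mem_Ioi] at ht
      simp only [one_mul, sub_nonneg]
      simpa using hmono ht.le
  have := hmono' (Set.mem_Ici.2 le_rfl) (Set.mem_Ici.2 zero_le_one) zero_le_one
  simp at this
  linarith

theorem decay : Decay (pot W) := by
  have hc : Continuous (pot W) := (by fun_prop : Continuous fun x : E d => ‖x‖ ^ 2 / 2).add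
    hW.contDiff.continuous
  refine decay_of_quadratic hc (a := 1 / 2) (b := |W 0| + ‖grad W 0‖) (by norm_num) fun x => ?_
  have h := hW.lower x
  have h' := neg_le_of_abs_le (abs_real_inner_le_norm (grad W 0) x)
  unfold pot
  nlinarith [neg_abs_le (W 0), norm_nonneg x, norm_nonneg (grad W 0),
    mul_nonneg (abs_nonneg (W 0)) (norm_nonneg x)]

theorem partition_pos : 0 < ∫ x, exp (-pot W x) :=
  integral_exp_pos (by
    simpa using hW.decay.integrable (f := fun _ : E d => (1 : ℝ))
      aestronglyMeasurable_const (PolyBd.const 1))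

theorem integral_law {F : Type*} [NormedAddCommGroup F] [NormedSpace ℝ F] (f : E d → F) :
    ∫ x, f x ∂law W = (∫ x, exp (-pot W x))⁻¹ • ∫ x, exp (-pot W x) • f x := by
  have hi : Integrable fun x => exp (-pot W x) := by
    simpa using hW.decay.integrable (f := fun _ : E d => (1 : ℝ))
      aestronglyMeasurable_const (PolyBd.const 1)
  have hc : Continuous (pot W) := hW.decay.1
  rw [law, gibbs, integral_smul_measure, integral_withDensity_eq_integral_toReal_smul
    (by fun_prop) (ae_of_all _ fun x => ENNReal.ofReal_lt_top),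
    ← ofReal_integral_eq_lintegral_ofReal hi (ae_of_all _ fun x => (exp_pos _).le),
    ENNReal.toReal_inv, ENNReal.toReal_ofReal hW.partition_pos.le]
  simp [ENNReal.toReal_ofReal (exp_pos _).le]

theorem isProbabilityMeasure_law : IsProbabilityMeasure (law W) := by
  have hi : Integrable fun x => exp (-pot W x) := by
    simpa using hW.decay.integrable (f := fun _ : E d => (1 : ℝ))
      aestronglyMeasurable_const (PolyBd.const 1)
  constructor
  rw [law, gibbs, Measure.smul_apply, withDensity_apply _ MeasurableSet.univ, Measure.restrict_univ,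
    smul_eq_mul, ENNReal.inv_mul_cancel]
  · rw [← ofReal_integral_eq_lintegral_ofReal hi (ae_of_all _ fun x => (exp_pos _).le)]
    simp [hW.partition_pos]
  · rw [← ofReal_integral_eq_lintegral_ofReal hi (ae_of_all _ fun x => (exp_pos _).le)]
    exact ENNReal.ofReal_ne_top

theorem integrable_law {F : Type*} [NormedAddCommGroup F] [NormedSpace ℝ F] {f : E d → F}
    (hb : PolyBd f) (hf : Continuous f) : Integrable f (law W) := by
  have hc : Continuous (pot W) := hW.decay.1
  unfold law gibbs
  refine Integrable.smul_measure ?_ ?_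
  · rw [integrable_withDensity_iff_integrable_smul' (by fun_prop)
      (ae_of_all _ fun x => ENNReal.ofReal_lt_top)]
    simpa [ENNReal.toReal_ofReal (exp_pos _).le] using
      hW.decay.integrable hf.aestronglyMeasurable hb
  · have hi : Integrable fun x => exp (-pot W x) := by
      simpa using hW.decay.integrable (f := fun _ : E d => (1 : ℝ))
        aestronglyMeasurable_const (PolyBd.const 1)
    rw [← ofReal_integral_eq_lintegral_ofReal hi (ae_of_all _ fun x => (exp_pos _).le)]
    simp [hW.partition_pos]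

theorem polyBd_fderiv : PolyBd fun y => fderiv ℝ W y :=
  hW.polyBd_grad.of_le fun y => by
    refine ContinuousLinearMap.opNorm_le_bound _ (norm_nonneg _) fun v => ?_
    rw [← inner_grad]; exact norm_inner_le_norm _ _

theorem polyBd_self : PolyBd W := by
  obtain ⟨C, k, hC, hb⟩ := hW.polyBd_fderiv
  have hd : Differentiable ℝ W := hW.contDiff.differentiable (by norm_num)
  refine ⟨|W 0| + C, k + 1, by positivity, fun y => ?_⟩
  have h := Convex.norm_image_sub_le_of_norm_fderiv_le (f := W)
    (s := Metric.closedBall 0 ‖y‖) (C := C * (1 + ‖y‖) ^ k) (fun z _ => hd z)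
    (fun z hz => (hb z).trans (by gcongr; simpa using hz))
    (convex_closedBall _ _) (Metric.mem_closedBall_self (norm_nonneg _))
    (by simp : y ∈ Metric.closedBall (0 : E d) ‖y‖)
  have h1 : (1 : ℝ) ≤ (1 + ‖y‖) ^ k := one_le_pow₀ (by simp)
  rw [Real.norm_eq_abs, sub_zero] at h
  rw [Real.norm_eq_abs, pow_succ]
  nlinarith [abs_sub_abs_le_abs_sub (W y) (W 0), abs_nonneg (W 0),
    mul_le_mul h1 (le_add_of_nonneg_right (norm_nonneg y) : (1 : ℝ) ≤ 1 + ‖y‖) zero_le_one
      (by positivity)]

theorem grad_sm (σ : ℝ) : grad (sm σ W) = sm σ (grad W) := by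
  funext x
  have hW1 : ContDiff ℝ 1 W := hW.contDiff.of_le (by norm_num)
  have hpW' := hW.polyBd_fderiv
  refine ext_inner_right ℝ fun v => ?_
  rw [inner_grad, (sm_hasFDerivAt hW1 hW.polyBd_self hpW' σ x).fderiv, sm,
    ContinuousLinearMap.integral_apply (integrable_shift (hW1.continuous_fderiv one_ne_zero) hpW' σ x),
    sm, real_inner_comm, ← integral_inner (integrable_shift hW.contDiff_grad.continuous
      hW.polyBd_grad σ x)]
  refine integral_congr_ae (ae_of_all _ fun z => ?_)
  simp [real_inner_comm v, ← inner_grad]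

theorem contDiff_sm (σ : ℝ) : ContDiff ℝ 2 (sm σ W) := by
  have hg : ContDiff ℝ 1 (sm σ (grad W)) :=
    sm_contDiff_one hW.contDiff_grad hW.polyBd_grad hW.polyBd_hess σ
  rw [show (2 : WithTop ℕ∞) = 1 + 1 from (one_add_one_eq_two).symm, contDiff_succ_iff_fderiv]
  refine ⟨?_, by simp, ?_⟩
  · exact fun x => (sm_hasFDerivAt (hW.contDiff.of_le (by norm_num)) hW.polyBd_self
      hW.polyBd_fderiv σ x).differentiableAt
  · have e : fderiv ℝ (sm σ W) = fun x => InnerProductSpace.toDual ℝ (E d) (sm σ (grad W) x) := by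
      funext x
      rw [← hW.grad_sm σ]
      simp [grad, gradient]
    rw [e]
    exact (InnerProductSpace.toDual ℝ (E d)).toContinuousLinearEquiv.contDiff.comp hg

theorem sm_pert {σ : ℝ} (hσ : |σ| ≤ 1) : Pert η (B + 1) (sm σ W) := by
  have hH : ∀ x v, fderiv ℝ (grad (sm σ W)) x v =
      ∫ z, fderiv ℝ (grad W) (x + σ • z) v ∂stdGaussian (E d) := by
    intro x v
    rw [hW.grad_sm, (sm_hasFDerivAt hW.contDiff_grad hW.polyBd_grad hW.polyBd_hess σ x).fderiv, sm,
      ContinuousLinearMap.integral_apply (integrable_shift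
        (hW.contDiff_grad.continuous_fderiv one_ne_zero) hW.polyBd_hess σ x)]
  have hi : ∀ x v, Integrable (fun z => fderiv ℝ (grad W) (x + σ • z) v) (stdGaussian (E d)) :=
    fun x v => (integrable_shift (hW.contDiff_grad.continuous_fderiv one_ne_zero) hW.polyBd_hess
      σ x).apply_continuousLinearMap v
  refine ⟨hW.eta_nonneg, hW.eta_le_one, by linarith [hW.bound_nonneg], hW.contDiff_sm σ,
    fun x v => ?_, fun x v => ?_, ?_⟩
  · rw [hH, real_inner_comm, ← integral_inner (hi x v)]
    exact integral_nonneg fun z => by simpa [real_inner_comm v] using hW.hess_nonneg _ v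
  · rw [hH, real_inner_comm, ← integral_inner (hi x v)]
    refine (integral_mono ((hi x v).const_inner v) (integrable_const (η * ‖v‖ ^ 2))
      fun z => ?_).trans (by simp)
    simpa [real_inner_comm v] using hW.hess_le _ v
  · rw [hW.grad_sm, sm]
    have i1 : Integrable (fun z : E d => ‖z‖) (stdGaussian (E d)) :=
      PolyBd.id.norm.integrable _ (by fun_prop)
    have i2 : Integrable (fun z : E d => η * (B * √d + |σ| * ‖z‖)) (stdGaussian (E d)) :=
      (((integrable_const (B * √d)).add (i1.const_mul |σ|)).const_mul η)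
    refine (norm_integral_le_of_norm_le i2 (ae_of_all _ fun z => ?_)).trans ?_
    · have h := hW.norm_grad_le (0 + σ • z)
      simpa [zero_add, norm_smul] using h
    · rw [integral_const_mul, integral_add (integrable_const _) (i1.const_mul _), integral_const_mul]
      simp only [integral_const, probReal_univ, one_smul]
      have hm : ∫ z, ‖z‖ ∂stdGaussian (E d) ≤ √d := by
        have i3 : Integrable (fun z : E d => ‖z‖ ^ 2) (stdGaussian (E d)) :=
          (PolyBd.id.norm.pow 2).integrable _ (by fun_prop)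
        rcases Nat.eq_zero_or_pos d with rfl | hd
        · simp [EuclideanSpace.norm_eq]
        · have hs : (0 : ℝ) < √(d : ℝ) := Real.sqrt_pos.2 (by exact_mod_cast hd)
          calc ∫ z, ‖z‖ ∂stdGaussian (E d)
              ≤ ∫ z, (‖z‖ ^ 2 / √d + √d) / 2 ∂stdGaussian (E d) := by
                refine integral_mono i1 (((i3.div_const _).add (integrable_const _)).div_const 2)
                  fun z => ?_
                rw [le_div_iff₀ (by norm_num : (0 : ℝ) < 2), ← sub_nonneg]
                have : ‖z‖ ^ 2 / √d + √d - ‖z‖ * 2 = (‖z‖ - √d) ^ 2 / √d := by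
                  field_simp; ring
                rw [this]; positivity
            _ = √d := by
                rw [integral_div, integral_add (i3.div_const _) (integrable_const _), integral_div,
                  integral_norm_sq_stdGaussian]
                have hdd : (d : ℝ) / √d = √d := Real.div_sqrt
                simp [hdd]
      have : |σ| * ∫ z, ‖z‖ ∂stdGaussian (E d) ≤ 1 * √d :=
        mul_le_mul hσ hm (integral_nonneg fun z => norm_nonneg z) zero_le_one
      rw [integral_const_mul]
      nlinarith [hW.eta_nonneg]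

end Pert

end Vale.Agent.P347
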