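import Vale.Agent.P347.SecondOrder
import Vale.Agent.P347.Model

/-!
# P347: the noise of the randomized gradient, and the bias it causes

A query at `y + σ R` has mean gradient `sm σ (grad W) y` if `y` does not depend on `R`; replacing a
random `y` by its mean costs one square root of the dimension times the square of the Lipschitz
constant.
-/

open MeasureTheory ProbabilityTheory Real Set Filter
open scoped RealInnerProductSpace Topology

namespace Vale.Agent.P347

variable {d : ℕ} {ι : Type} [Fintype ι] [DecidableEq ι]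

/-- Independent Gaussian blocks indexed by `ι`. -/
abbrev Noise (d : ℕ) (ι : Type) : Type := PiLp 2 (fun _ : ι => E d)

/-- Put `z` in block `i`. -/
noncomputable def repl (i : ι) (R : Noise d ι) (z : E d) : Noise d ι :=
  WithLp.toLp 2 (Function.update (WithLp.ofLp R) i z)

omit [Fintype ι] in
theorem repl_apply (i : ι) (R : Noise d ι) (z : E d) (j : ι) :
    repl i R z j = if j = i then z else R j := Function.update_apply _ _ _ _

omit [Fintype ι] in
theorem continuous_repl (i : ι) :
    Continuous fun p : Noise d ι × E d => repl i p.1 p.2 := by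
  unfold repl
  exact (PiLp.continuous_toLp 2 fun _ : ι => E d).comp
    (((PiLp.continuous_ofLp 2 fun _ : ι => E d).comp continuous_fst).update i continuous_snd)

theorem measurePreserving_repl (i : ι) :
    MeasurePreserving (fun p : Noise d ι × E d => repl i p.1 p.2)
      ((stdGaussian (Noise d ι)).prod (stdGaussian (E d))) (stdGaussian (Noise d ι)) := by
  have hm := (continuous_repl (d := d) i).measurable
  refine ⟨hm, ?_⟩
  have := Measure.isProbabilityMeasure_map
    (μ := (stdGaussian (Noise d ι)).prod (stdGaussian (E d))) hm.aemeasurable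
  refine Measure.ext_of_charFun (funext fun ξ => ?_)
  set P : Noise d ι := repl i ξ 0 with hP
  have hinner : ∀ p : Noise d ι × E d, ⟪repl i p.1 p.2, ξ⟫ = ⟪p.1, P⟫ + ⟪p.2, ξ i⟫ := fun p => by
    rw [PiLp.inner_apply (f := fun _ : ι => E d), PiLp.inner_apply (f := fun _ : ι => E d)]
    simp only [hP, repl_apply]
    rw [← Finset.add_sum_erase _ _ (Finset.mem_univ i), ← Finset.add_sum_erase
      (f := fun j => ⟪p.1 j, if j = i then (0 : E d) else ξ j⟫) _ (Finset.mem_univ i)]
    simp only [if_pos, inner_zero_right, zero_add]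
    rw [add_comm]
    exact congrArg (· + _) (Finset.sum_congr rfl fun j hj => by
      simp [(Finset.mem_erase.1 hj).1])
  have hnorm : ‖ξ‖ ^ 2 = ‖P‖ ^ 2 + ‖ξ i‖ ^ 2 := by
    have := hinner (ξ, ξ i)
    have e : repl i ξ (ξ i) = ξ := by simp [repl]
    simp only [e, real_inner_self_eq_norm_sq] at this
    rw [this]
    congr 1
    rw [PiLp.norm_sq_eq_of_L2 (fun _ : ι => E d), PiLp.inner_apply (f := fun _ : ι => E d)]
    refine Finset.sum_congr rfl fun j _ => ?_
    rw [hP, repl_apply]; split <;> simp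
  rw [charFun_apply, integral_map hm.aemeasurable (by fun_prop), charFun_stdGaussian]
  simp only [hinner, Complex.ofReal_add, add_mul, Complex.exp_add]
  rw [integral_prod_mul (fun R : Noise d ι => Complex.exp ((⟪R, P⟫ : ℝ) * Complex.I))
    (fun z : E d => Complex.exp ((⟪z, ξ i⟫ : ℝ) * Complex.I)),
    ← charFun_apply, ← charFun_apply, charFun_stdGaussian, charFun_stdGaussian, ← Complex.exp_add]
  congr 1
  have : ((‖ξ‖ : ℂ)) ^ 2 = (‖P‖ : ℂ) ^ 2 + (‖ξ i‖ : ℂ) ^ 2 := by exact_mod_cast hnorm
  rw [this]; ring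

/-- A query point independent of its own noise sees the smoothed map on average. -/
theorem integral_replace (i : ι) {Y : Noise d ι → E d} (hY : Continuous Y) (hYp : PolyBd Y)
    (hYi : ∀ R z, Y (repl i R z) = Y R) {g : E d → E d} (hg : Continuous g) (hgp : PolyBd g)
    (σ : ℝ) :
    ∫ R, g (Y R + σ • R i) ∂stdGaussian (Noise d ι) =
      ∫ R, sm σ g (Y R) ∂stdGaussian (Noise d ι) := by
  set γ := stdGaussian (Noise d ι)
  have hp : PolyBd fun R : Noise d ι => g (Y R + σ • R i) :=
    hgp.comp (hYp.add ((PolyBd.const σ).smul (PolyBd.id.of_le fun R => PiLp.norm_apply_le R i)))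
  have hc : Continuous fun R : Noise d ι => g (Y R + σ • R i) := by
    have := (PiLp.proj 2 (𝕜 := ℝ) (fun _ : ι => E d) i).continuous
    exact hg.comp (hY.add (this.const_smul σ))
  have hint : Integrable (fun R : Noise d ι => g (Y R + σ • R i)) γ :=
    hp.integrable _ hc.aestronglyMeasurable
  have hmp := measurePreserving_repl (d := d) i
  have hint2 := hmp.integrable_comp_of_integrable hint
  show ∫ R, g (Y R + σ • R i) ∂stdGaussian (Noise d ι) = _
  conv_lhs => rw [← hmp.map_eq]
  rw [integral_map hmp.measurable.aemeasurable hc.aestronglyMeasurable]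
  refine (integral_prod _ hint2).trans (integral_congr_ae (ae_of_all _ fun R => ?_))
  show ∫ z, g (Y (repl i R z) + σ • repl i R z i) ∂stdGaussian (E d) = _
  simp only [hYi, repl_apply, if_pos]
  rfl

section Bias

variable {R : Type*} [NormedAddCommGroup R] [InnerProductSpace ℝ R] [FiniteDimensional ℝ R]
  [MeasurableSpace R] [BorelSpace R]

/-- The smoothed gradient of the mean against the mean of the smoothed gradient. -/
theorem smoothed_bias {η B : ℝ} {W : E d → ℝ} (hW : Pert η B W) {σ : ℝ} (hσ : 0 < σ)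
    {Y : R → E d} (hY : ContDiff ℝ 1 Y) {L : ℝ} (hL : ∀ z, ‖fderiv ℝ Y z‖ ≤ L) :
    ‖(∫ z, sm σ (grad W) (Y z) ∂stdGaussian R) -
      sm σ (grad W) (∫ z, Y z ∂stdGaussian R)‖ ≤ 2 * L ^ 2 * (η / σ) * √d := by
  set γ := stdGaussian R
  set g := grad W
  set e := (∫ z, sm σ g (Y z) ∂γ) - sm σ g (∫ z, Y z ∂γ) with he
  set b := EuclideanSpace.basisFun (Fin d) ℝ
  set ψ₀ : E d → ℝ := fun x => ⟪g x, e⟫
  have hgC := hW.contDiff_grad
  have hgp := hW.polyBd_grad
  have hη := hW.eta_nonneg
  have hψC : ContDiff ℝ 1 ψ₀ := hgC.inner ℝ contDiff_const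
  have hψp : PolyBd ψ₀ := hgp.mul_of_le (PolyBd.const e) fun x => norm_inner_le_norm _ _
  have hψd : ∀ x, ‖fderiv ℝ ψ₀ x‖ ≤ η * ‖e‖ := fun x => by
    refine ContinuousLinearMap.opNorm_le_bound _ (by positivity) fun v => ?_
    rw [fderiv_inner_apply ℝ (hgC.differentiable one_ne_zero x) (differentiableAt_const _)]
    simp only [fderiv_fun_const, Pi.zero_apply, zero_apply, inner_zero_right, zero_add]
    refine (norm_inner_le_norm _ _).trans ?_
    calc ‖fderiv ℝ g x v‖ * ‖e‖ ≤ (η * ‖v‖) * ‖e‖ :=
          mul_le_mul_of_nonneg_right (hW.norm_hess_apply_le x v) (norm_nonneg _)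
      _ = _ := by ring
  have hψ'p : PolyBd fun x => fderiv ℝ ψ₀ x := PolyBd.of_bound hψd
  have hψ'c := hψC.continuous_fderiv one_ne_zero
  -- the gradient of the smoothed test and its derivative
  set φ : E d → E d := fun x => σ⁻¹ • ∫ z, ψ₀ (x + σ • z) • z ∂stdGaussian (E d)
  set D : E d → E d → (E d →L[ℝ] E d) := fun x z => (fderiv ℝ ψ₀ (x + σ • z)).smulRight z
  have hDn : ∀ x z, ‖D x z‖ ≤ η * ‖e‖ * ‖z‖ := fun x z => by
    simp only [D, ContinuousLinearMap.norm_smulRight_apply]
    exact mul_le_mul_of_nonneg_right (hψd _) (norm_nonneg _)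
  have hDc : Continuous fun p : E d × E d => D p.1 p.2 := by
    simp only [D]
    exact (ContinuousLinearMap.smulRightL ℝ (E d) (E d)).continuous₂.comp
      ((hψ'c.comp (by fun_prop : Continuous fun p : E d × E d => p.1 + σ • p.2)).prodMk
        continuous_snd)
  have hbi : Integrable (fun z : E d => η * ‖e‖ * ‖z‖) (stdGaussian (E d)) :=
    (PolyBd.id.norm.integrable _ (by fun_prop)).const_mul _
  have hFi : ∀ x, Integrable (fun z => ψ₀ (x + σ • z) • z) (stdGaussian (E d)) := fun x =>
    ((polyBd_shift hψp σ x).smul PolyBd.id).integrable _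
      (Continuous.aestronglyMeasurable (by have := hψC.continuous; fun_prop))
  have hφd : ∀ x, HasFDerivAt φ (σ⁻¹ • ∫ z, D x z ∂stdGaussian (E d)) x := fun x => by
    refine HasFDerivAt.const_smul ?_ σ⁻¹
    refine hasFDerivAt_integral_of_dominated_of_fderiv_le (𝕜 := ℝ)
      (F := fun y z => ψ₀ (y + σ • z) • z) (F' := D) (Metric.ball_mem_nhds x one_pos)
      (Eventually.of_forall fun y => (hFi y).aestronglyMeasurable) (hFi x)
      (hDc.comp (Continuous.prodMk_right x)).aestronglyMeasurable
      (ae_of_all _ fun z y _ => hDn y z) hbi (ae_of_all _ fun z y _ => ?_)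
    exact (((hψC.differentiable one_ne_zero _).hasFDerivAt.comp y
      ((hasFDerivAt_id y).add_const (σ • z))).congr_fderiv (by ext v; simp)).smul_const z
  have hφC : ContDiff ℝ 1 φ := by
    refine contDiff_one_iff_hasFDerivAt.2 ⟨_, ?_, hφd⟩
    refine Continuous.const_smul (M := ℝ) (continuous_of_dominated
      (fun x => (hDc.comp (Continuous.prodMk_right x)).aestronglyMeasurable)
      (fun x => ae_of_all _ (hDn x)) hbi
      (ae_of_all _ fun z => hDc.comp (Continuous.prodMk_left z))) _
  have hψgrad : ∀ x, HasFDerivAt (sm σ ψ₀) (innerSL ℝ (φ x)) x := fun x => by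
    have h := sm_hasFDerivAt hψC hψp hψ'p σ x
    refine h.congr_fderiv (ContinuousLinearMap.ext fun v => ?_)
    rw [← h.fderiv, sm_fderiv_ibp hψC hψp hψ'p hσ.ne', innerSL_apply_apply]
    simp only [φ, real_inner_smul_left]
    rw [real_inner_comm v, ← integral_inner (hFi x)]
    congr 1
    exact integral_congr_ae (ae_of_all _ fun z => by simp [real_inner_smul_right, real_inner_comm])
  have hHS : ∀ x, ∑ i, ‖fderiv ℝ φ x (b i)‖ ^ 2 ≤ (η * ‖e‖ / σ) ^ 2 := by
    intro x
    set a : Fin d → E d → ℝ := fun i z => fderiv ℝ ψ₀ (x + σ • z) (b i)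
    have hac : ∀ i, Continuous (a i) := fun i => by simp only [a]; fun_prop
    have hab : ∀ i z, |a i z| ≤ η * ‖e‖ := fun i z => by
      refine ((fderiv ℝ ψ₀ _).le_opNorm _).trans ?_
      rw [b.orthonormal.1 i, mul_one]; exact hψd _
    have hap : ∀ i, PolyBd (a i) := fun i => PolyBd.of_bound (hab i)
    have hcoord : ∀ i j, ⟪fderiv ℝ φ x (b i), b j⟫ =
        σ⁻¹ * ∫ z, a i z * ⟪z, b j⟫ ∂stdGaussian (E d) := fun i j => by
      have hDi : Integrable (D x) (stdGaussian (E d)) :=
        hbi.mono' (hDc.comp (Continuous.prodMk_right x)).aestronglyMeasurable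
          (ae_of_all _ (hDn x))
      rw [(hφd x).fderiv, smul_apply, real_inner_smul_left,
        ContinuousLinearMap.integral_apply hDi, real_inner_comm,
        ← integral_inner (hDi.apply_continuousLinearMap _)]
      congr 1
      exact integral_congr_ae (ae_of_all _ fun z => by
        simp [D, a, real_inner_smul_right, real_inner_comm])
    have ha2 : ∀ z, ∑ i, a i z ^ 2 ≤ (η * ‖e‖) ^ 2 := fun z => by
      set A := fderiv ℝ ψ₀ (x + σ • z)
      set u := (InnerProductSpace.toDual ℝ (E d)).symm A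
      have : ∀ i, a i z = ⟪b i, u⟫ := fun i => by
        rw [real_inner_comm]; exact InnerProductSpace.toDual_symm_apply.symm
      simp only [this]
      rw [b.sum_sq_inner_right]
      exact pow_le_pow_left₀ (norm_nonneg _) (by rw [LinearIsometryEquiv.norm_map]; exact hψd _) 2
    calc ∑ i, ‖fderiv ℝ φ x (b i)‖ ^ 2
        = ∑ i, ∑ j, (σ⁻¹ * ∫ z, a i z * ⟪z, b j⟫ ∂stdGaussian (E d)) ^ 2 := by
          refine Finset.sum_congr rfl fun i _ => ?_
          simp only [← hcoord, ← b.sum_sq_inner_left (fderiv ℝ φ x (b i))]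
      _ ≤ ∑ i, σ⁻¹ ^ 2 * ∫ z, a i z ^ 2 ∂stdGaussian (E d) := Finset.sum_le_sum fun i _ => by
          simp only [mul_pow, ← Finset.mul_sum]
          exact mul_le_mul_of_nonneg_left (bessel b (hac i) (hap i)) (sq_nonneg _)
      _ = σ⁻¹ ^ 2 * ∫ z, ∑ i, a i z ^ 2 ∂stdGaussian (E d) := by
          rw [← Finset.mul_sum, integral_finsetSum]
          exact fun i _ => ((hap i).pow 2).integrable _ (Continuous.aestronglyMeasurable (by fun_prop))
      _ ≤ σ⁻¹ ^ 2 * (η * ‖e‖) ^ 2 := by
          refine mul_le_mul_of_nonneg_left ((integral_mono_of_nonneg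
            (ae_of_all _ fun z => Finset.sum_nonneg fun i _ => sq_nonneg _)
            (integrable_const _) (ae_of_all _ ha2)).trans (by simp)) (sq_nonneg _)
      _ = _ := by rw [← mul_pow]; ring
  have hsg : Continuous (sm σ g) := sm_continuous hgC.continuous hgp σ
  have hYp : PolyBd Y := PolyBd.of_lipschitz ((norm_nonneg _).trans (hL 0)) fun x y =>
    Convex.norm_image_sub_le_of_norm_fderiv_le (fun z _ => hY.differentiable one_ne_zero z)
      (fun z _ => hL z) convex_univ (mem_univ y) (mem_univ x)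
  have hsi : ∀ x, sm σ ψ₀ x = ⟪sm σ g x, e⟫ := fun x => by
    rw [real_inner_comm, sm, sm, ← integral_inner (integrable_shift hgC.continuous hgp σ x)]
    exact integral_congr_ae (ae_of_all _ fun z => real_inner_comm _ _)
  have hkey := second_order hY hL hψgrad hφC (by positivity) hHS
  have hmean : ∫ z, sm σ ψ₀ (Y z) ∂γ - sm σ ψ₀ (∫ z, Y z ∂γ) = ‖e‖ ^ 2 := by
    simp only [hsi]
    rw [← real_inner_self_eq_norm_sq]
    conv_rhs => rw [he]; simp only [← he]
    rw [inner_sub_left, real_inner_comm _ (∫ z, sm σ g (Y z) ∂γ), ← integral_inner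
      (((sm_polyBd hgp σ).comp hYp).integrable γ (hsg.comp hY.continuous).aestronglyMeasurable)]
    congr 1
    exact integral_congr_ae (ae_of_all _ fun z => real_inner_comm _ _)
  rw [hmean, abs_of_nonneg (sq_nonneg _)] at hkey
  rcases (norm_nonneg e).eq_or_lt with h0 | h0
  · rw [← h0]; positivity
  · refine le_of_mul_le_mul_right ?_ h0
    rw [← pow_two]
    exact hkey.trans (le_of_eq (by ring))

end Bias

end Vale.Agent.P347
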