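import Vale.Agent.P347.Scheme
import Vale.Agent.P347.CellFlow
import Vale.Agent.P347.Noise

/-!
# P347: one cell of the sequential scheme, path by path
-/

open MeasureTheory ProbabilityTheory Real Set
open scoped RealInnerProductSpace

namespace Vale.Agent.P347

variable {d : ℕ}

/-- What is needed of a randomized estimate of the drift `gU`. -/
structure Est (gU : E d → E d) (Φ : E d → E d → E d) (b : ℝ) (bias : E d → ℝ) : Prop where
  b_nonneg : 0 ≤ b
  adm : ∀ z, Scheme.Admissible fun p => p + Φ p z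
  lip_noise : ∀ p z z', ‖Φ p z - Φ p z'‖ ≤ b * ‖z - z'‖
  smooth : ContDiff ℝ 1 fun q : E d × E d => Φ q.1 q.2
  bias_le : ∀ p, ‖(∫ z, Φ p z ∂stdGaussian (E d)) - gU p‖ ≤ bias p

/-- The nodes and weights of a cell of length `h`. -/
structure CellRule (S : Scheme) (wv : Fin S.I → ℝ) (h c : ℝ) : Prop where
  T_eq : S.T = h
  h_nonneg : 0 ≤ h
  h_le : h ≤ 1 / 16
  c_nonneg : 0 ≤ c
  small : c * h ≤ 1 / 16
  t_mem : ∀ j, S.t j ∈ Icc 0 h
  s_mem : ∀ i, S.s i ∈ Icc 0 h
  sum_A : ∀ j, ∑ l, |S.A j l| ≤ c * h ^ 2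
  sum_Af : ∀ i, ∑ l, |S.Af i l| ≤ c * h ^ 2
  wv_nonneg : ∀ i, 0 ≤ wv i
  sum_wv : ∑ i, wv i = h
  w_eq : ∀ i, S.w i = wv i * (h - S.s i)

namespace Scheme

/-- The queries of one cell. -/
abbrev CellSlot (S : Scheme) (K : ℕ) : Type := (Fin (K + 1) × Fin S.J) ⊕ Fin S.I

variable (S : Scheme) (K : ℕ)

/-- The noise of query `l` of iteration `k` of a cell. -/
noncomputable def rndC (R : Noise d (S.CellSlot K)) (k : ℕ) (l : Fin S.J) : E d :=
  if h : k ≤ K then R (Sum.inl (⟨k, Nat.lt_succ_of_le h⟩, l)) else 0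

/-- The noise of final query `i` of a cell. -/
noncomputable def rndCf (R : Noise d (S.CellSlot K)) (i : Fin S.I) : E d := R (Sum.inr i)

/-- The drift of the iterations of a cell. -/
noncomputable def driftC (Φ : E d → E d → E d) (R : Noise d (S.CellSlot K)) (k : ℕ) (l : Fin S.J)
    (p : E d) : E d :=
  p + Φ p (S.rndC K R k l)

/-- The drift of the final row of a cell. -/
noncomputable def driftCf (Φ : E d → E d → E d) (R : Noise d (S.CellSlot K)) (i : Fin S.I)
    (p : E d) : E d :=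
  p + Φ p (S.rndCf K R i)

/-- Position and velocity at the end of a cell. -/
noncomputable def cell (wv : Fin S.I → ℝ) (Φ : E d → E d → E d) (R : Noise d (S.CellSlot K))
    (z : E d × E d) : E d × E d :=
  (S.step K (S.driftC K Φ R) (S.driftCf K Φ R) z.1 z.2,
    z.2 - ∑ i, wv i • S.driftCf K Φ R i (S.fin K (S.driftC K Φ R) z.1 z.2 i))

variable {S K} {wv : Fin S.I → ℝ} {h c b : ℝ} {gU : E d → E d} {Φ : E d → E d → E d}
  {bias : E d → ℝ}

theorem norm_sum_wv_le (hS : CellRule S wv h c) {p : Fin S.I → E d} {a : ℝ} (ha : 0 ≤ a)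
    (hp : ∀ i, ‖p i‖ ≤ a) : ‖∑ i, wv i • p i‖ ≤ h * a :=
  norm_sum_smul_le (le_of_eq ((Finset.sum_congr rfl fun i _ =>
    abs_of_nonneg (hS.wv_nonneg i)).trans hS.sum_wv)) ha hp

theorem w_nonneg_of_rule (hS : CellRule S wv h c) (i : Fin S.I) : 0 ≤ S.w i := by
  rw [hS.w_eq]; exact mul_nonneg (hS.wv_nonneg i) (sub_nonneg.2 (hS.s_mem i).2)

theorem sum_w_le (hS : CellRule S wv h c) : ∑ i, |S.w i| ≤ h ^ 2 := by
  calc ∑ i, |S.w i| ≤ ∑ i, wv i * h := Finset.sum_le_sum fun i _ => by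
        rw [abs_of_nonneg (w_nonneg_of_rule hS i), hS.w_eq]
        exact mul_le_mul_of_nonneg_left (sub_le_self _ (hS.s_mem i).1) (hS.wv_nonneg i)
    _ = h ^ 2 := by rw [← Finset.sum_mul, hS.sum_wv, sq]

/-- The nodes of two runs with the same noise. -/
theorem fin_diff (hS : CellRule S wv h c) (hΦ : Est gU Φ b bias) (R : Noise d (S.CellSlot K))
    (z z' : E d × E d) (i : Fin S.I) :
    ‖(S.fin K (S.driftC K Φ R) z.1 z.2 i - S.fin K (S.driftC K Φ R) z'.1 z'.2 i) -
        ((z.1 - z'.1) + S.s i • (z.2 - z'.2))‖ ≤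
      4 * c * h ^ 2 * (‖z.1 - z'.1‖ + h * ‖z.2 - z'.2‖) := by
  set M := ‖z.1 - z'.1‖ + h * ‖z.2 - z'.2‖
  have hh := hS.h_nonneg
  have hM : 0 ≤ M := by positivity
  have hch : c * h ^ 2 ≤ 1 / 8 := by
    calc c * h ^ 2 = c * h * h := by ring
      _ ≤ 1 / 16 * (1 / 16) := mul_le_mul hS.small hS.h_le hh (by norm_num)
      _ ≤ 1 / 8 := by norm_num
  have hc := hS.c_nonneg
  have hadm : ∀ k l, Admissible (S.driftC K Φ R k l) := fun k l => hΦ.adm _
  have hlin : ∀ t ∈ Icc 0 h, ‖(z.1 - z'.1) + t • (z.2 - z'.2)‖ ≤ M := fun t ht => by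
    refine (norm_add_le _ _).trans (add_le_add le_rfl ?_)
    rw [norm_smul, Real.norm_eq_abs, abs_of_nonneg ht.1]
    exact mul_le_mul_of_nonneg_right ht.2 (norm_nonneg _)
  have hit : ∀ k j,
      ‖S.iter (S.driftC K Φ R) z.1 z.2 k j - S.iter (S.driftC K Φ R) z'.1 z'.2 k j‖ ≤ 2 * M := by
    intro k
    induction k with
    | zero =>
      intro j
      rw [show S.iter (S.driftC K Φ R) z.1 z.2 0 j - S.iter (S.driftC K Φ R) z'.1 z'.2 0 j =
        (z.1 - z'.1) + S.t j • (z.2 - z'.2) by simp only [iter, smul_sub]; abel]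
      linarith [hlin _ (hS.t_mem j)]
    | succ k ih =>
      intro j
      rw [show S.iter (S.driftC K Φ R) z.1 z.2 (k + 1) j -
          S.iter (S.driftC K Φ R) z'.1 z'.2 (k + 1) j =
          ((z.1 - z'.1) + S.t j • (z.2 - z'.2)) -
            ∑ l, S.A j l • (S.driftC K Φ R k l (S.iter (S.driftC K Φ R) z.1 z.2 k l) -
              S.driftC K Φ R k l (S.iter (S.driftC K Φ R) z'.1 z'.2 k l)) by
        simp only [iter, smul_sub, Finset.sum_sub_distrib]; abel]
      refine (norm_sub_le _ _).trans ((add_le_add (hlin _ (hS.t_mem j))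
        (norm_sum_smul_le (hS.sum_A j) (by positivity : 0 ≤ 4 * M) fun l =>
          ((hadm k l).lip _ _).trans (by linarith [ih l]))).trans ?_)
      nlinarith
  rw [show (S.fin K (S.driftC K Φ R) z.1 z.2 i - S.fin K (S.driftC K Φ R) z'.1 z'.2 i) -
      ((z.1 - z'.1) + S.s i • (z.2 - z'.2)) =
      -∑ l, S.Af i l • (S.driftC K Φ R K l (S.iter (S.driftC K Φ R) z.1 z.2 K l) -
        S.driftC K Φ R K l (S.iter (S.driftC K Φ R) z'.1 z'.2 K l)) by
    simp only [fin, smul_sub, Finset.sum_sub_distrib]; abel, norm_neg]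
  refine (norm_sum_smul_le (hS.sum_Af i) (by positivity : 0 ≤ 4 * M) fun l =>
    ((hadm K l).lip _ _).trans (by linarith [hit K l])).trans (le_of_eq (by ring))

theorem driftCf_diff_le (hS : CellRule S wv h c) (hΦ : Est gU Φ b bias) (R : Noise d (S.CellSlot K))
    (z z' : E d × E d) (i : Fin S.I) :
    ‖S.driftCf K Φ R i (S.fin K (S.driftC K Φ R) z.1 z.2 i) -
        S.driftCf K Φ R i (S.fin K (S.driftC K Φ R) z'.1 z'.2 i)‖ ≤
      3 * (‖z.1 - z'.1‖ + h * ‖z.2 - z'.2‖) := by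
  have hh := hS.h_nonneg
  have hc := hS.c_nonneg
  refine ((hΦ.adm _).lip _ _).trans ?_
  have h1 := fin_diff hS hΦ R z z' i
  have h2 := norm_le_norm_add_norm_sub'
    (S.fin K (S.driftC K Φ R) z.1 z.2 i - S.fin K (S.driftC K Φ R) z'.1 z'.2 i)
    ((z.1 - z'.1) + S.s i • (z.2 - z'.2))
  have h3 : ‖(z.1 - z'.1) + S.s i • (z.2 - z'.2)‖ ≤ ‖z.1 - z'.1‖ + h * ‖z.2 - z'.2‖ := by
    refine (norm_add_le _ _).trans (add_le_add le_rfl ?_)
    rw [norm_smul, Real.norm_eq_abs, abs_of_nonneg (hS.s_mem i).1]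
    exact mul_le_mul_of_nonneg_right (hS.s_mem i).2 (norm_nonneg _)
  have hch : c * h ^ 2 ≤ 1 / 256 := by
    calc c * h ^ 2 = c * h * h := by ring
      _ ≤ 1 / 16 * (1 / 16) := mul_le_mul hS.small hS.h_le hh (by norm_num)
      _ = _ := by norm_num
  nlinarith [norm_nonneg (z.1 - z'.1), mul_nonneg hh (norm_nonneg (z.2 - z'.2))]

/-- A cell is almost nonexpanding. -/
theorem cell_lipschitz (hS : CellRule S wv h c) (hΦ : Est gU Φ b bias) (R : Noise d (S.CellSlot K))
    (z z' : E d × E d) :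
    ‖S.cell K wv Φ R z - S.cell K wv Φ R z'‖ ≤ (1 + 8 * h) * ‖z - z'‖ := by
  have hh := hS.h_nonneg
  have hx := norm_fst_le (z - z')
  have hv := norm_snd_le (z - z')
  simp only [Prod.fst_sub, Prod.snd_sub] at hx hv
  set n := ‖z - z'‖
  have hn : 0 ≤ n := norm_nonneg _
  have hD : ∀ i, ‖S.driftCf K Φ R i (S.fin K (S.driftC K Φ R) z.1 z.2 i) -
      S.driftCf K Φ R i (S.fin K (S.driftC K Φ R) z'.1 z'.2 i)‖ ≤ 6 * n := fun i => by
    refine (driftCf_diff_le hS hΦ R z z' i).trans ?_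
    nlinarith [mul_le_mul_of_nonneg_right hS.h_le (norm_nonneg (z.2 - z'.2))]
  rw [Prod.norm_def]
  refine max_le ?_ ?_
  · rw [Prod.fst_sub, show (S.cell K wv Φ R z).1 - (S.cell K wv Φ R z').1 =
      (z.1 - z'.1) + (S.T • (z.2 - z'.2) -
        ∑ i, S.w i • (S.driftCf K Φ R i (S.fin K (S.driftC K Φ R) z.1 z.2 i) -
          S.driftCf K Φ R i (S.fin K (S.driftC K Φ R) z'.1 z'.2 i))) by
      simp only [cell, step, smul_sub, Finset.sum_sub_distrib]; abel]
    refine (norm_add_le _ _).trans ((add_le_add hx ((norm_sub_le _ _).trans (add_le_add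
      (le_of_eq (norm_smul _ _)) (norm_sum_smul_le (sum_w_le hS) (by positivity) hD)))).trans ?_)
    rw [hS.T_eq, Real.norm_eq_abs, abs_of_nonneg hh]
    nlinarith [mul_le_mul_of_nonneg_left hv hh,
      mul_le_mul_of_nonneg_right hS.h_le (mul_nonneg hh hn)]
  · rw [Prod.snd_sub, show (S.cell K wv Φ R z).2 - (S.cell K wv Φ R z').2 =
      (z.2 - z'.2) - ∑ i, wv i • (S.driftCf K Φ R i (S.fin K (S.driftC K Φ R) z.1 z.2 i) -
          S.driftCf K Φ R i (S.fin K (S.driftC K Φ R) z'.1 z'.2 i)) by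
      simp only [cell, smul_sub, Finset.sum_sub_distrib]; abel]
    refine (norm_sub_le _ _).trans ((add_le_add hv (norm_sum_wv_le hS (by positivity) hD)).trans ?_)
    nlinarith [mul_nonneg hh hn]

/-- The invariant of two runs started at distance `D` with one velocity, after `k` of the cells of
total length `T ≤ 1/16`. -/
def Close (h T D : ℝ) (k : ℕ) (z z' : E d × E d) : Prop :=
  ‖z.2 - z'.2‖ ≤ 4 * (k * h) * D ∧
    ‖(z.1 - z'.1) + (T - k * h) • (z.2 - z'.2)‖ ≤
      (1 - (∑ j ∈ Finset.range k, h * (T - (j + 1) * h)) / 4) * D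

theorem cell_close (hS : CellRule S wv h c) (hΦ : Est gU Φ b bias) (R : Noise d (S.CellSlot K))
    {T D : ℝ} (hT : T ≤ 1 / 16) (hD : 0 ≤ D) {k : ℕ} (hk : ((k : ℝ) + 1) * h ≤ T)
    {z z' : E d × E d} (hz : Close h T D k z z') :
    Close h T D (k + 1) (S.cell K wv Φ R z) (S.cell K wv Φ R z') := by
  obtain ⟨hv, hP⟩ := hz
  have hh := hS.h_nonneg
  have hc := hS.c_nonneg
  set Δv := z.2 - z'.2
  set Δx := z.1 - z'.1
  set u := (T - k * h) with hu
  set P := Δx + u • Δv
  set Sk := ∑ j ∈ Finset.range k, h * (T - (j + 1) * h)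
  have hk0 : 0 ≤ (k : ℝ) * h := by positivity
  have hu0 : h ≤ u := by rw [hu]; linarith
  have hkh : (k : ℝ) * h ≤ T := by linarith
  have hT0 : 0 ≤ T := hk0.trans hkh
  have hSk : 0 ≤ Sk := Finset.sum_nonneg fun j hj => by
    have : ((j : ℝ) + 1) * h ≤ k * h :=
      mul_le_mul_of_nonneg_right (by exact_mod_cast (Finset.mem_range.1 hj)) hh
    exact mul_nonneg hh (by linarith)
  have hSk1 : Sk ≤ 1 / 256 := by
    calc Sk ≤ ∑ j ∈ Finset.range k, h * T := Finset.sum_le_sum fun j _ =>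
          mul_le_mul_of_nonneg_left (sub_le_self _ (by positivity)) hh
      _ = (k : ℝ) * h * T := by simp; ring
      _ ≤ T * T := mul_le_mul_of_nonneg_right hkh hT0
      _ ≤ 1 / 256 := by nlinarith
  have hv' : ‖Δv‖ ≤ 4 * T * D := hv.trans (by gcongr)
  have hP' : ‖P‖ ≤ D := hP.trans (mul_le_of_le_one_left hD (by linarith))
  have hx' : ‖Δx‖ ≤ 2 * D := by
    have e : Δx = P - u • Δv := by simp only [P]; abel
    rw [e]
    refine (norm_sub_le _ _).trans ?_
    rw [norm_smul, Real.norm_eq_abs, abs_of_nonneg (hh.trans hu0)]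
    calc ‖P‖ + u * ‖Δv‖ ≤ D + T * (4 * T * D) :=
          add_le_add hP' (mul_le_mul (show u ≤ T by rw [hu]; linarith) hv' (norm_nonneg _) hT0)
      _ ≤ D + 1 * D := by
          refine add_le_add le_rfl ?_
          rw [← mul_assoc]
          exact mul_le_mul_of_nonneg_right (by nlinarith) hD
      _ = 2 * D := by ring
  have hM : ‖Δx‖ + h * ‖Δv‖ ≤ 3 * D := by
    nlinarith [mul_le_mul hS.h_le hv' (norm_nonneg _) (by norm_num : (0:ℝ) ≤ 1 / 16)]
  set p := fun i => S.fin K (S.driftC K Φ R) z.1 z.2 i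
  set p' := fun i => S.fin K (S.driftC K Φ R) z'.1 z'.2 i
  set dG := fun i => S.driftCf K Φ R i (p i) - S.driftCf K Φ R i (p' i)
  have hnode : ∀ i, ‖(p i - p' i) - P‖ ≤ 1 / 16 * D := fun i => by
    have e : (p i - p' i) - P =
        ((p i - p' i) - (Δx + S.s i • Δv)) + (S.s i - u) • Δv := by
      simp only [P, sub_smul]; abel
    rw [e]
    have h0 : ‖(S.s i - u) • Δv‖ ≤ T * (4 * T * D) := by
      rw [norm_smul, Real.norm_eq_abs]
      refine mul_le_mul ?_ hv' (norm_nonneg _) hT0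
      rw [abs_le]; constructor <;> linarith [(hS.s_mem i).1, (hS.s_mem i).2, hh, hu]
    refine (norm_add_le _ _).trans ((add_le_add (fin_diff hS hΦ R z z' i) h0).trans ?_)
    have h1 : 4 * c * h ^ 2 ≤ 4 * (1 / 16) * (1 / 16) := by
      calc 4 * c * h ^ 2 = 4 * (c * h) * h := by ring
        _ ≤ 4 * (1 / 16) * (1 / 16) := by gcongr <;> [exact hS.small; exact hS.h_le]
    have h2 : T * (4 * T * D) ≤ 4 * (1 / 16) * (1 / 16) * D := by
      rw [← mul_assoc]
      exact mul_le_mul_of_nonneg_right (by nlinarith) hD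
    show 4 * c * h ^ 2 * (‖Δx‖ + h * ‖Δv‖) + T * (4 * T * D) ≤ _
    nlinarith [mul_le_mul h1 hM (by positivity) (by norm_num)]
  have hdG : ∀ i, ‖dG i‖ ≤ 4 * D := fun i => by
    refine ((hΦ.adm _).lip _ _).trans ?_
    have := norm_le_norm_add_norm_sub' (p i - p' i) P
    linarith [hnode i]
  have hnew : (S.cell K wv Φ R z).2 - (S.cell K wv Φ R z').2 = Δv - ∑ i, wv i • dG i := by
    simp only [cell, dG, p, p', Δv, smul_sub, Finset.sum_sub_distrib]; abel
  refine ⟨?_, ?_⟩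
  · rw [hnew]
    refine (norm_sub_le _ _).trans ((add_le_add hv (norm_sum_wv_le hS (by positivity) hdG)).trans ?_)
    push_cast
    linarith
  · set w := fun i => wv i * (u - S.s i)
    have hw : ∀ i, 0 ≤ w i := fun i =>
      mul_nonneg (hS.wv_nonneg i) (by linarith [(hS.s_mem i).2])
    set τ := ∑ i, w i with hτ
    have hτ1 : τ ≤ 1 / 256 := by
      calc τ ≤ ∑ i, wv i * T := Finset.sum_le_sum fun i _ =>
            mul_le_mul_of_nonneg_left (by linarith [(hS.s_mem i).1]) (hS.wv_nonneg i)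
        _ = h * T := by rw [← Finset.sum_mul, hS.sum_wv]
        _ ≤ 1 / 256 := by nlinarith [hS.h_le]
    have hτ2 : h * (T - ((k : ℝ) + 1) * h) ≤ τ := by
      calc h * (T - ((k : ℝ) + 1) * h) = ∑ i, wv i * (u - h) := by
            rw [← Finset.sum_mul, hS.sum_wv, hu]; ring
        _ ≤ τ := Finset.sum_le_sum fun i _ =>
            mul_le_mul_of_nonneg_left (by linarith [(hS.s_mem i).2]) (hS.wv_nonneg i)
    have e : ((S.cell K wv Φ R z).1 - (S.cell K wv Φ R z').1) +
        (T - ((k + 1 : ℕ) : ℝ) * h) • ((S.cell K wv Φ R z).2 - (S.cell K wv Φ R z').2) =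
        (P - ∑ i, w i • (S.driftCf K Φ R i (p' i + P) - S.driftCf K Φ R i (p' i))) -
          ∑ i, w i • (S.driftCf K Φ R i (p i) - S.driftCf K Φ R i (p' i + P)) := by
      rw [hnew, show (S.cell K wv Φ R z).1 - (S.cell K wv Φ R z').1 =
        Δx + h • Δv - ∑ i, S.w i • dG i by
          simp only [cell, step, dG, p, p', Δx, Δv, hS.T_eq, smul_sub, Finset.sum_sub_distrib]
          abel, sub_sub (P), ← Finset.sum_add_distrib]
      simp only [← smul_add, sub_add_sub_cancel']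
      have e2 : ∑ i, S.w i • dG i + (T - ((k + 1 : ℕ) : ℝ) * h) • ∑ i, wv i • dG i =
          ∑ i, w i • dG i := by
        rw [Finset.smul_sum, ← Finset.sum_add_distrib]
        refine Finset.sum_congr rfl fun i _ => ?_
        rw [smul_smul, ← add_smul]
        congr 1
        simp only [hS.w_eq, w, hu]; push_cast; ring
      have e3 : T - ((k + 1 : ℕ) : ℝ) * h = u - h := by rw [hu]; push_cast; ring
      calc Δx + h • Δv - ∑ i, S.w i • dG i +
            (T - ((k + 1 : ℕ) : ℝ) * h) • (Δv - ∑ i, wv i • dG i)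
          = (Δx + h • Δv + (T - ((k + 1 : ℕ) : ℝ) * h) • Δv) -
              (∑ i, S.w i • dG i + (T - ((k + 1 : ℕ) : ℝ) * h) • ∑ i, wv i • dG i) := by
            rw [smul_sub (T - ((k + 1 : ℕ) : ℝ) * h)]; abel
        _ = P - ∑ i, w i • dG i := by
            rw [e2, add_assoc, ← add_smul, e3]; simp [P]
    rw [e]
    have h1 := contraction hw hτ.symm (by linarith) (fun i => hΦ.adm (S.rndCf K R i)) p' P
    have h2 : ‖∑ i, w i • (S.driftCf K Φ R i (p i) - S.driftCf K Φ R i (p' i + P))‖ ≤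
        τ * (1 / 8 * D) := by
      refine norm_sum_smul_le (le_of_eq (Finset.sum_congr rfl fun i _ => abs_of_nonneg (hw i)))
        (by positivity) fun i => ((hΦ.adm _).lip _ _).trans ?_
      rw [show p i - (p' i + P) = (p i - p' i) - P by abel]
      linarith [hnode i]
    refine (norm_sub_le _ _).trans ((add_le_add (h1.trans
      (mul_le_mul_of_nonneg_left hP (by linarith))) h2).trans ?_)
    rw [Finset.sum_range_succ]
    have hτ0 : 0 ≤ τ := Finset.sum_nonneg fun i _ => hw i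
    nlinarith [mul_le_mul_of_nonneg_right hτ2 hD, mul_nonneg hτ0 (mul_nonneg hSk hD),
      mul_le_mul_of_nonneg_left hSk1 (mul_nonneg hτ0 hD), mul_nonneg hτ0 hD]

/-- The cell against the exact flow with the noise of the final row put back linearly. -/
theorem cell_ideal {W : E d → ℝ} (hS : CellRule S wv h c) (hΦ : Est (grad W) Φ b bias)
    (R : Noise d (S.CellSlot K)) (x v : E d) {a₀ e ev M : ℝ} (ha₀ : 0 ≤ a₀) (he : 0 ≤ e) (hM : 0 ≤ M)
    (h0 : ∀ j, ‖(x + S.t j • v) - traj W x v (S.t j)‖ ≤ a₀)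
    (hA : ∀ j, ‖x + S.t j • v - ∑ l, S.A j l • (traj W x v (S.t l) + grad W (traj W x v (S.t l))) -
      traj W x v (S.t j)‖ ≤ e)
    (hF : ∀ i, ‖x + S.s i • v - ∑ l, S.Af i l • (traj W x v (S.t l) + grad W (traj W x v (S.t l))) -
      traj W x v (S.s i)‖ ≤ e)
    (hy : ‖x + S.T • v - ∑ i, S.w i • (traj W x v (S.s i) + grad W (traj W x v (S.s i))) -
      traj W x v S.T‖ ≤ e)
    (hyv : ‖v - ∑ i, wv i • (traj W x v (S.s i) + grad W (traj W x v (S.s i))) - vel W x v h‖ ≤ ev)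
    (hMl : ∀ k l, k ≤ K → ‖Φ (traj W x v (S.t l)) (S.rndC K R k l) - grad W (traj W x v (S.t l))‖ ≤ M) :
    ‖S.cell K wv Φ R (x, v) -
      (traj W x v h - ∑ i, S.w i •
          (Φ (traj W x v (S.s i)) (S.rndCf K R i) - grad W (traj W x v (S.s i))),
        vel W x v h - ∑ i, wv i •
          (Φ (traj W x v (S.s i)) (S.rndCf K R i) - grad W (traj W x v (S.s i))))‖ ≤
      2 * e + ev + 4 * c * h ^ 3 * M + 2 * h * ((2 * c * h ^ 2) ^ K * a₀) := by
  have hh := hS.h_nonneg
  have hc := hS.c_nonneg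
  have hch : c * h ^ 2 ≤ 1 / 256 := by
    calc c * h ^ 2 = c * h * h := by ring
      _ ≤ 1 / 16 * (1 / 16) := mul_le_mul hS.small hS.h_le hh (by norm_num)
      _ = _ := by norm_num
  set y := fun t => traj W x v t
  set q := 2 * c * h ^ 2 with hq
  have hq0 : 0 ≤ q := by positivity
  have hdev : ∀ k ≤ K, ∀ (p : Fin S.J → E d) (a : ℝ) (cf : Fin S.J → ℝ), 0 ≤ a →
      (∀ l, ‖p l - y (S.t l)‖ ≤ a) → ∑ l, |cf l| ≤ c * h ^ 2 →
      ‖∑ l, cf l • (S.driftC K Φ R k l (p l) - (y (S.t l) + grad W (y (S.t l))))‖ ≤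
        c * h ^ 2 * (2 * a + M) := by
    intro k hk p a cf ha hp hcf
    refine norm_sum_smul_le hcf (by positivity) fun l => ?_
    have e : S.driftC K Φ R k l (p l) - (y (S.t l) + grad W (y (S.t l))) =
        (S.driftC K Φ R k l (p l) - S.driftC K Φ R k l (y (S.t l))) +
          (Φ (y (S.t l)) (S.rndC K R k l) - grad W (y (S.t l))) := by
      simp only [driftC]; abel
    rw [e]
    refine (norm_add_le _ _).trans (add_le_add (((hΦ.adm _).lip _ _).trans ?_) (hMl k l hk))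
    linarith [hp l]
  have hiter : ∀ k ≤ K, ∀ j,
      ‖S.iter (S.driftC K Φ R) x v k j - y (S.t j)‖ ≤ q ^ k * a₀ + 2 * (e + c * h ^ 2 * M) := by
    intro k
    induction k with
    | zero =>
      intro _ j
      simp only [iter, pow_zero, one_mul]
      have : 0 ≤ 2 * (e + c * h ^ 2 * M) := by positivity
      exact (h0 j).trans (by linarith)
    | succ k ih =>
      intro hk j
      set a := q ^ k * a₀ + 2 * (e + c * h ^ 2 * M)
      rw [show S.iter (S.driftC K Φ R) x v (k + 1) j - y (S.t j) =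
          (x + S.t j • v - ∑ l, S.A j l • (y (S.t l) + grad W (y (S.t l))) - y (S.t j)) -
            ∑ l, S.A j l • (S.driftC K Φ R k l (S.iter (S.driftC K Φ R) x v k l) -
              (y (S.t l) + grad W (y (S.t l)))) by
        simp only [iter, smul_sub, Finset.sum_sub_distrib]; abel]
      refine (norm_sub_le _ _).trans ((add_le_add (hA j) (hdev k (by omega) _ a _ (by positivity)
        (ih (by omega)) (hS.sum_A j))).trans ?_)
      rw [pow_succ q k, hq]
      simp only [a]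
      nlinarith [mul_le_mul_of_nonneg_right hch (by positivity : 0 ≤ e + c * h ^ 2 * M)]
  set ez := 2 * e + 2 * c * h ^ 2 * M + q ^ K * a₀
  have hfin : ∀ i, ‖S.fin K (S.driftC K Φ R) x v i - y (S.s i)‖ ≤ ez := by
    intro i
    rw [show S.fin K (S.driftC K Φ R) x v i - y (S.s i) =
        (x + S.s i • v - ∑ l, S.Af i l • (y (S.t l) + grad W (y (S.t l))) - y (S.s i)) -
          ∑ l, S.Af i l • (S.driftC K Φ R K l (S.iter (S.driftC K Φ R) x v K l) -
            (y (S.t l) + grad W (y (S.t l)))) by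
      simp only [fin, smul_sub, Finset.sum_sub_distrib]; abel]
    refine (norm_sub_le _ _).trans ((add_le_add (hF i) (hdev K le_rfl _
      (q ^ K * a₀ + 2 * (e + c * h ^ 2 * M)) _ (by positivity) (hiter K le_rfl)
      (hS.sum_Af i))).trans ?_)
    simp only [ez]
    nlinarith [mul_le_mul_of_nonneg_right hch
      (by positivity : 0 ≤ q ^ K * a₀ + 2 * (e + c * h ^ 2 * M)),
      mul_nonneg (mul_nonneg hc (sq_nonneg h)) hM, mul_nonneg (pow_nonneg hq0 K) ha₀]
  set D := fun i => S.driftCf K Φ R i (S.fin K (S.driftC K Φ R) x v i) -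
    S.driftCf K Φ R i (y (S.s i))
  have hD : ∀ i, ‖D i‖ ≤ 2 * ez := fun i =>
    ((hΦ.adm _).lip _ _).trans (by linarith [hfin i])
  have hez : 0 ≤ ez := by positivity
  have htot : e + ev + h * (2 * ez) ≤ 2 * e + ev + 4 * c * h ^ 3 * M + 2 * h * (q ^ K * a₀) := by
    simp only [ez]
    nlinarith [mul_le_mul_of_nonneg_right hS.h_le he]
  have hev : 0 ≤ ev := (norm_nonneg _).trans hyv
  rw [Prod.norm_def]
  refine max_le ?_ ?_
  · rw [Prod.fst_sub]
    rw [show (S.cell K wv Φ R (x, v)).1 - (traj W x v h - ∑ i, S.w i •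
          (Φ (y (S.s i)) (S.rndCf K R i) - grad W (y (S.s i)))) =
        (x + S.T • v - ∑ i, S.w i • (y (S.s i) + grad W (y (S.s i))) - traj W x v h) -
          ∑ i, S.w i • D i by
      simp only [cell, step, D, driftCf, smul_sub, smul_add, Finset.sum_sub_distrib,
        Finset.sum_add_distrib]
      abel]
    have hy' := hy
    rw [hS.T_eq] at hy' ⊢
    refine (norm_sub_le _ _).trans ((add_le_add hy' (norm_sum_smul_le (sum_w_le hS)
      (by positivity) hD)).trans ?_)
    have : h ^ 2 * (2 * ez) ≤ h * (2 * ez) :=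
      mul_le_mul_of_nonneg_right (by nlinarith [hS.h_le]) (by positivity)
    linarith
  · rw [Prod.snd_sub]
    rw [show (S.cell K wv Φ R (x, v)).2 - (vel W x v h - ∑ i, wv i •
          (Φ (y (S.s i)) (S.rndCf K R i) - grad W (y (S.s i)))) =
        (v - ∑ i, wv i • (y (S.s i) + grad W (y (S.s i))) - vel W x v h) - ∑ i, wv i • D i by
      simp only [cell, D, driftCf, smul_sub, smul_add, Finset.sum_sub_distrib,
        Finset.sum_add_distrib]
      abel]
    refine (norm_sub_le _ _).trans ((add_le_add hyv (norm_sum_wv_le hS (by positivity) hD)).trans ?_)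
    linarith

end Scheme

end Vale.Agent.P347
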