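import Vale.Agent.P347.Cell

/-!
# P347: the Markov operators of the cells and of one refreshed step
-/

open MeasureTheory ProbabilityTheory Real Set
open scoped RealInnerProductSpace

namespace Vale.Agent.P347

variable {d : ℕ}

namespace Scheme

/-- The expectation of `f` at the end of a cell started at `z`. -/
noncomputable def cellOp (S : Scheme) (K : ℕ) (wv : Fin S.I → ℝ) (Φ : E d → E d → E d)
    (f : E d × E d → ℝ) (z : E d × E d) : ℝ :=
  ∫ R, f (S.cell K wv Φ R z) ∂stdGaussian (Noise d (S.CellSlot K))

/-- The expectation of `u` at the position reached by `N` cells after a refreshment. -/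
noncomputable def stepOp (S : Scheme) (K : ℕ) (wv : Fin S.I → ℝ) (Φ : E d → E d → E d) (N : ℕ)
    (u : E d → ℝ) (x : E d) : ℝ :=
  ∫ v, (S.cellOp K wv Φ)^[N] (fun z => u z.1) (x, v) ∂stdGaussian (E d)

end Scheme

end Vale.Agent.P347
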