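import Vale.Agent.P347.Model

/-!
# P347: log-smoothing of a perturbation

If `X ∼ law W` and `Z` is standard Gaussian, `√(1 - b²) X + b Z ∼ law (lsm b W)`. The gradient of
`lsm b W` at `u` is an average of `grad W` under `law (post b W u)`.
-/

open MeasureTheory ProbabilityTheory Real
open scoped RealInnerProductSpace

namespace Vale.Agent.P347

variable {d : ℕ}

/-- `√(1 - b²)`. -/
noncomputable def cosB (b : ℝ) : ℝ := √(1 - b ^ 2)

/-- The perturbation seen by the conditional noise. -/
noncomputable def post (b : ℝ) (W : E d → ℝ) (u z : E d) : ℝ := W (cosB b • u + b • z)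

/-- The log-smoothed perturbation. -/
noncomputable def lsm (b : ℝ) (W : E d → ℝ) (u : E d) : ℝ :=
  -Real.log (∫ z, exp (-post b W u z) ∂stdGaussian (E d))

/-- The one-shot estimate of `grad (lsm b W)`: two evaluations of `g = grad W`. -/
noncomputable def est (b : ℝ) (g : E d → E d) (u z : E d) : E d :=
  cosB b • g (cosB b • u - b ^ 2 • g (cosB b • u) + b • z)

theorem cosB_nonneg (b : ℝ) : 0 ≤ cosB b := Real.sqrt_nonneg _

theorem cosB_le_one (b : ℝ) : cosB b ≤ 1 := Real.sqrt_le_one.2 (by nlinarith [sq_nonneg b])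

theorem cosB_sq {b : ℝ} (hb : |b| ≤ 1) : cosB b ^ 2 = 1 - b ^ 2 :=
  Real.sq_sqrt (by nlinarith [sq_abs b, abs_nonneg b])

end Vale.Agent.P347
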