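import Vale.Agent.P347.CellOp
import Vale.Agent.P347.Lsm
import Vale.Agent.P347.Algorithm

/-!
# P347: the sequential sampler as a query procedure

Procedures from a starting point with fresh random reals, and their composition.
-/

open MeasureTheory ProbabilityTheory Real

namespace Vale.Agent.P347

variable {d : ℕ}

/-- Run `g` from the output of `f`, with fresh random reals. -/
theorem QC.seq {Ω Ω' Y X : Type} [MeasurableSpace Ω] [MeasurableSpace Ω'] [MeasurableSpace Y]
    [MeasurableSpace X] {q₁ q₂ : ℕ} {f : (E d → ℝ × E d) → Ω → Y} (hf : QC d q₁ f)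
    {g : (E d → ℝ × E d) → Y × Ω' → X} (hg : QC d q₂ g) :
    QC d (q₁ + q₂) fun O (ω : Ω × Ω') => g O (f O ω.1, ω.2) := by
  induction hg with
  | @pure X' _ q' h hh =>
    exact (((hf.comap measurable_fst).withSeed.map (fun y => h (y.2, y.1.2))
      (hh.comp (measurable_snd.prodMk (measurable_snd.comp measurable_fst)))).mono
      (Nat.le_add_right q₁ q')).congr fun O ω => rfl
  | query _ p hp ih => exact (ih.query p hp).congr fun O ω => rfl
  | map _ g' hg' ih => exact (ih.map g' hg').congr fun O ω => rfl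

/-- A procedure with `q` queries maps each start to a point whose law is the given operator. -/
def Realises (d q : ℕ) {X Y : Type} [MeasurableSpace X] [MeasurableSpace Y]
    (T : (E d → ℝ × E d) → (Y → ℝ) → X → ℝ) : Prop :=
  ∃ (Ω : Type) (_ : MeasurableSpace Ω) (_ : StandardBorelSpace Ω) (_ : Nonempty Ω) (P : Measure Ω)
    (f : (E d → ℝ × E d) → X × Ω → Y), IsProbabilityMeasure P ∧ QC d q f ∧
    ∀ O, Measurable O → ∀ φ : Y → ℝ, Measurable φ → (∀ y, |φ y| ≤ 1) →
      ∀ x, T O φ x = ∫ ω, φ (f O (x, ω)) ∂P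

namespace Realises

variable {X Y Z : Type} [MeasurableSpace X] [MeasurableSpace Y] [MeasurableSpace Z] {q q' : ℕ}

theorem mono {T : (E d → ℝ × E d) → (Y → ℝ) → X → ℝ} (h : Realises d q T) (hq : q ≤ q') :
    Realises d q' T := by
  obtain ⟨Ω, i1, i2, i3, P, f, hP, hf, e⟩ := h
  exact ⟨Ω, i1, i2, i3, P, f, hP, hf.mono hq, e⟩

/-- A measurable map. -/
theorem det {f : X → Y} (hf : Measurable f) :
    Realises d 0 fun _ φ (x : X) => φ (f x) :=
  ⟨Unit, inferInstance, inferInstance, inferInstance, Measure.dirac (), fun _ z => f z.1,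
    inferInstance, .pure _ (hf.comp measurable_fst), fun _ _ φ _ _ x => by simp⟩

theorem comp {T : (E d → ℝ × E d) → (Y → ℝ) → X → ℝ} {U : (E d → ℝ × E d) → (Z → ℝ) → Y → ℝ}
    (hT : Realises d q T) (hU : Realises d q' U) :
    Realises d (q + q') fun O φ => T O (U O φ) := by
  obtain ⟨Ω, i1, i2, i3, P, f, hP, hf, eT⟩ := hT
  obtain ⟨Ω', j1, j2, j3, P', g, hP', hg, eU⟩ := hU
  refine ⟨Ω × Ω', inferInstance, inferInstance, inferInstance, P.prod P',
    fun O z => g O (f O (z.1, z.2.1), z.2.2), inferInstance,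
    ((hf.seq hg).comap (φ := fun z : X × Ω × Ω' => ((z.1, z.2.1), z.2.2)) (by fun_prop)).congr
      fun O ω => rfl, fun O hO φ hφ hφ1 x => ?_⟩
  have hfm := hf.measurable hO
  have hgm := hg.measurable hO
  have e : U O φ = fun y => ∫ ω, φ (g O (y, ω)) ∂P' := funext (eU O hO φ hφ hφ1)
  have hm : Measurable fun y => ∫ ω, φ (g O (y, ω)) ∂P' :=
    ((hφ.comp hgm).stronglyMeasurable.integral_prod_right').measurable
  have hb : ∀ y, |∫ ω, φ (g O (y, ω)) ∂P'| ≤ 1 := fun y => by
    rw [← Real.norm_eq_abs]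
    exact (norm_integral_le_of_norm_le_const (ae_of_all _ fun ω => hφ1 (g O (y, ω)))).trans
      (by simp)
  beta_reduce
  rw [e, eT O hO _ hm hb x, integral_prod]
  exact Integrable.of_bound (hφ.comp (hgm.comp (f := fun z : Ω × Ω' => (f O (x, z.1), z.2))
    ((hfm.comp (measurable_const.prodMk measurable_fst)).prodMk measurable_snd))).aestronglyMeasurable
      1 (ae_of_all _ fun z => hφ1 _)

theorem iterate {T : (E d → ℝ × E d) → (X → ℝ) → X → ℝ} (hT : Realises d q T) :
    ∀ n : ℕ, Realises d (n * q) fun O φ => (T O)^[n] φ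
  | 0 => (det (f := fun x : X => x) measurable_id).mono (Nat.zero_le _)
  | n + 1 => by
    have h := (hT.comp (hT.iterate n)).mono (q' := (n + 1) * q) (by rw [Nat.succ_mul]; omega)
    simp only [Function.iterate_succ_apply']
    exact h

end Realises

/-- The drift of the oracle at `M` chosen points: two batches of queries. -/
theorem QC.est_batch {Ω Y : Type} [MeasurableSpace Ω] [MeasurableSpace Y] {q M : ℕ}
    {f : (E d → ℝ × E d) → Ω → Y} (hf : QC d q f) (b : ℝ) (p z : Fin M → Y → E d)
    (hp : ∀ j, Measurable (p j)) (hz : ∀ j, Measurable (z j)) :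
    QC d (q + 2 * M) fun O ω => (f O ω, fun j =>
      p j (f O ω) + est b (fun x => (O x).2 - x) (p j (f O ω)) (z j (f O ω))) := by
  set p₂ : Fin M → Y × (Fin M → ℝ × E d) → E d := fun j y =>
    cosB b • p j y.1 - b ^ 2 • ((y.2 j).2 - cosB b • p j y.1) + b • z j y.1 with hp₂
  have hp₂m : ∀ j, Measurable (p₂ j) := fun j => by
    have := hp j
    have := hz j
    simp only [hp₂]; fun_prop
  refine ((((hf.batch (fun j y => cosB b • p j y) fun j => (hp j).const_smul (cosB b)).batch p₂ hp₂m).map
    (fun y => (y.1.1, fun j => p j y.1.1 + cosB b • ((y.2 j).2 - p₂ j y.1))) ?_).mono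
      (by omega)).congr fun O ω => rfl
  exact (measurable_fst.comp measurable_fst).prodMk (measurable_pi_lambda _ fun j =>
    ((hp j).comp (measurable_fst.comp measurable_fst)).add
      ((((measurable_pi_apply j).comp measurable_snd).snd.sub
        ((hp₂m j).comp measurable_fst)).const_smul (cosB b)))

theorem measurable_rndC (S : Scheme) (K k : ℕ) (l : Fin S.J) :
    Measurable fun R : Noise d (S.CellSlot K) => S.rndC K R k l := by
  unfold Scheme.rndC
  split_ifs
  · exact (PiLp.continuous_apply 2 (fun _ : S.CellSlot K => E d) _).measurable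
  · exact measurable_const

theorem measurable_rndCf (S : Scheme) (K : ℕ) (i : Fin S.I) :
    Measurable fun R : Noise d (S.CellSlot K) => S.rndCf K R i :=
  (PiLp.continuous_apply 2 (fun _ : S.CellSlot K => E d) _).measurable

/-- One cell, from any start. -/
theorem realises_cell (S : Scheme) (K : ℕ) (wv : Fin S.I → ℝ) (b : ℝ) :
    Realises d (2 * ((K + 1) * S.J + S.I)) fun O (φ : E d × E d → ℝ) =>
      S.cellOp K wv (est b fun x => (O x).2 - x) φ := by
  refine ⟨Noise d (S.CellSlot K), inferInstance, inferInstance, inferInstance,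
    stdGaussian (Noise d (S.CellSlot K)),
    fun O ω => S.cell K wv (est b fun x => (O x).2 - x) ω.2 ω.1, inferInstance, ?_,
    fun O _ φ _ _ x => rfl⟩
  have hiter : ∀ k, QC d (k * (2 * S.J)) fun O (ω : (E d × E d) × Noise d (S.CellSlot K)) =>
      (ω, fun j => S.iter (S.driftC K (est b fun x => (O x).2 - x) ω.2) ω.1.1 ω.1.2 k j) := by
    intro k
    induction k with
    | zero =>
      refine ((QC.pure (fun ω : (E d × E d) × Noise d (S.CellSlot K) => (ω, fun j => ω.1.1 + S.t j • ω.1.2)) ?_ :
        QC d 0 _).congr fun O ω => rfl).mono (Nat.zero_le _)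
      exact measurable_id.prodMk (measurable_pi_lambda _ fun j => by fun_prop)
    | succ k ih =>
      refine (((ih.est_batch b (fun l y => y.2 l) (fun l y => S.rndC K y.1.2 k l)
        (fun l => by fun_prop)
        (fun l => (measurable_rndC S K k l).comp (measurable_snd.comp measurable_fst))).map
        (fun y => (y.1.1, fun j => y.1.1.1.1 + S.t j • y.1.1.1.2 - ∑ l, S.A j l • y.2 l)) ?_).congr
          fun O ω => rfl).mono (le_of_eq (Nat.succ_mul k (2 * S.J)).symm)
      exact (measurable_fst.comp measurable_fst).prodMk (measurable_pi_lambda _ fun j => by fun_prop)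
  have hfin := ((hiter K).est_batch b (fun l y => y.2 l) (fun l y => S.rndC K y.1.2 K l)
    (fun l => by fun_prop)
    (fun l => (measurable_rndC S K K l).comp (measurable_snd.comp measurable_fst))).map
    (fun y => (y.1.1, fun i => y.1.1.1.1 + S.s i • y.1.1.1.2 - ∑ l, S.Af i l • y.2 l))
    ((measurable_fst.comp measurable_fst).prodMk (measurable_pi_lambda _ fun i => by fun_prop))
  refine (((hfin.est_batch b (fun i y => y.2 i) (fun i y => S.rndCf K y.1.2 i)
    (fun i => by fun_prop)
    (fun i => (measurable_rndCf S K i).comp (measurable_snd.comp measurable_fst))).map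
    (fun y => (y.1.1.1.1 + S.T • y.1.1.1.2 - ∑ i, S.w i • y.2 i,
      y.1.1.1.2 - ∑ i, wv i • y.2 i)) (by fun_prop)).congr fun O ω => rfl).mono ?_
  rw [Nat.succ_mul K]
  linarith [Nat.mul_left_comm K 2 S.J]

/-- The sampler: `L` refreshed steps of `N` cells from `0`, then `a • x + c • ζ`. -/
theorem exists_cell_sampler (S : Scheme) (K : ℕ) (wv : Fin S.I → ℝ) (b a c : ℝ) (N L : ℕ) :
    ∃ (Ω : Type) (_ : MeasurableSpace Ω) (_ : StandardBorelSpace Ω) (_ : Nonempty Ω)
      (P : Measure Ω) (f : (E d → ℝ × E d) → Ω → E d),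
    IsProbabilityMeasure P ∧ QC d (L * (N * (2 * ((K + 1) * S.J + S.I)))) f ∧
    ∀ O, Measurable O → ∀ φ : E d → ℝ, Measurable φ → (∀ x, |φ x| ≤ 1) →
      ∫ ω, φ (f O ω) ∂P =
        (S.stepOp K wv (est b fun q => (O q).2 - q) N)^[L] (fun x => sm c φ (a • x)) 0 := by
  have hrefresh : Realises d 0 fun _ (φ : E d × E d → ℝ) (x : E d) =>
      ∫ v, φ (x, v) ∂stdGaussian (E d) :=
    ⟨E d, inferInstance, inferInstance, inferInstance, stdGaussian (E d), fun _ z => z,
      inferInstance, .pure _ measurable_id, fun _ _ _ _ _ _ => rfl⟩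
  have hproj : Realises d 0 fun _ (u : E d → ℝ) (z : E d × E d) => u z.1 :=
    Realises.det measurable_fst
  have hend : Realises d 0 fun _ (φ : E d → ℝ) (x : E d) => sm c φ (a • x) :=
    ⟨E d, inferInstance, inferInstance, inferInstance, stdGaussian (E d),
      fun _ z => a • z.1 + c • z.2, inferInstance, .pure _ (by fun_prop), fun _ _ _ _ _ _ => rfl⟩
  have hstep : Realises d (N * (2 * ((K + 1) * S.J + S.I))) fun O (u : E d → ℝ) =>
      S.stepOp K wv (est b fun q => (O q).2 - q) N u :=
    ((hrefresh.comp (((realises_cell (d := d) S K wv b).iterate N).comp hproj))).mono (by omega)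
  obtain ⟨Ω, i1, i2, i3, P, f, hP, hf, e⟩ :=
    ((hstep.iterate L).comp hend).mono (q' := L * (N * (2 * ((K + 1) * S.J + S.I)))) (by omega)
  exact ⟨Ω, i1, i2, i3, P, fun O ω => f O (0, ω), hP,
    hf.comap (measurable_const.prodMk measurable_id), fun O hO φ hφ hφ1 =>
      (e O hO φ hφ hφ1 0).symm⟩

end Vale.Agent.P347
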