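import Vale.Agent.P347.Cell

/-!
# P347: the quadrature rules give a cell, consistent with the flow
-/

open MeasureTheory ProbabilityTheory Real Set
open scoped RealInnerProductSpace

namespace Vale.Agent.P347

variable {d m : ℕ}

/-- The scheme of one cell of length `h` is a cell rule. -/
theorem Rules.cellRule (r : Rules m) {h : ℝ} (h0 : 0 ≤ h) (h1 : h ≤ 1 / 16)
    (h2 : ((m + 1) * r.Λ + 1) * h ≤ 1 / 16) :
    CellRule (r.scheme h 1) (r.velW h) h ((m + 1) * r.Λ + 1) := by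
  have hΛ := r.Λ_nonneg
  have hrow : ∀ t ≤ h, ∑ l : Fin (1 * (m + 1)),
      |r.coef (h / ((1 : ℕ) : ℝ)) t (finProdFinEquiv.symm l).1 (finProdFinEquiv.symm l).2| ≤
        ((m + 1) * r.Λ + 1) * h ^ 2 := fun t ht => by
    refine (Finset.sum_le_card_nsmul _ _ (h / ((1 : ℕ) : ℝ) * h * r.Λ) fun l _ =>
      r.abs_coef_le h0 ht _).trans ?_
    simp only [Finset.card_univ, Fintype.card_fin, nsmul_eq_mul]
    push_cast
    nlinarith [sq_nonneg h]
  exact
    { T_eq := rfl
      h_nonneg := h0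
      h_le := h1
      c_nonneg := by positivity
      small := h2
      t_mem := fun j => Rules.node_mem r.τ_mem h0 j
      s_mem := fun i => Rules.node_mem r.s_mem h0 i
      sum_A := fun j => hrow _ (Rules.node_mem r.τ_mem h0 j).2
      sum_Af := fun i => hrow _ (Rules.node_mem r.s_mem h0 i).2
      wv_nonneg := r.velW_nonneg h0
      sum_wv := r.sum_velW h
      w_eq := r.scheme_w h }

/-- The hypotheses `h0`, `hA`, `hF`, `hy`, `hyv` of `Scheme.cell_ideal` for one cell of the rules. -/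
theorem Pert.cell_consistent {η B : ℝ} {W : E d → ℝ} (hW : Pert η B W) (r : Rules m)
    {G : ℕ → E d × E d → E d} (hG : ∀ k ≤ m + 1, ContDiff ℝ 1 (G k))
    (hrec : ∀ k ≤ m, ∀ z, fderiv ℝ (G k) z (z.2, -(z.1 + grad W z.1)) = G (k + 1) z)
    (hG0 : ∀ z, G 0 z = z.1 + grad W z.1) {h : ℝ} (hh : 0 < h) (h4 : h ≤ 1 / 4) (x v : E d) :
    let S := r.scheme h 1
    let F := fun p : E d => p + grad W p
    let I := fun k : ℕ => ∫ u in (0:ℝ)..h, ‖G k (traj W x v u, vel W x v u)‖
    let e := r.Λ * h ^ (m + 2) * I (m + 1)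
    (∀ j, ‖(x + S.t j • v) - traj W x v (S.t j)‖ ≤ h * I 0) ∧
    (∀ j, ‖x + S.t j • v - ∑ l, S.A j l • F (traj W x v (S.t l)) - traj W x v (S.t j)‖ ≤ e) ∧
    (∀ i, ‖x + S.s i • v - ∑ l, S.Af i l • F (traj W x v (S.t l)) - traj W x v (S.s i)‖ ≤ e) ∧
    ‖x + S.T • v - ∑ i, S.w i • F (traj W x v (S.s i)) - traj W x v S.T‖ ≤ e ∧
    ‖v - ∑ i, r.velW h i • F (traj W x v (S.s i)) - vel W x v h‖ ≤
      3 * r.Λ * h ^ (m + 1) * I (m + 1) := by
  intro S F I e
  obtain ⟨c0, cA, cF, cy⟩ := hW.flow_consistent hG hrec r hG0 one_ne_zero hh h4 x v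
  have he : h * r.Λ * (h / ((1 : ℕ) : ℝ)) ^ (m + 1) * I (m + 1) = e := by
    simp only [e, Nat.cast_one, div_one, pow_succ]; ring
  refine ⟨c0, fun j => (cA j).trans_eq he, fun i => (cF i).trans_eq he, cy.trans_eq he, ?_⟩
  have htr : Continuous (traj W x v) := hW.continuous_traj.comp (Continuous.prodMk_right (x, v))
  have hve : Continuous (vel W x v) := hW.continuous_vel.comp (Continuous.prodMk_right (x, v))
  have hv := r.vel_error (f := fun k t => G k (traj W x v t, vel W x v t)) hh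
    (fun k hk t ht => hW.hasDerivWithinAt_family hG hrec x v h4 hk ht)
    ((hG (m + 1) le_rfl).continuous.comp (htr.prodMk hve)).continuousOn
  simp only [hG0] at hv
  rw [hW.vel_eq x v ⟨hh.le, h4⟩, sub_sub_sub_cancel_left]
  exact hv

end Vale.Agent.P347
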