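import Vale.Agent.P347.CellTV

/-!
# P347: stability of the operators, and the weak error of a refreshed chain

A refreshed step contracts Lipschitz constants of tests, so the error of a cell is paid once per
cell and the start is forgotten geometrically.
-/

open MeasureTheory ProbabilityTheory Real Set
open scoped RealInnerProductSpace

namespace Vale.Agent.P347

variable {d : ℕ}

namespace Scheme

variable {S : Scheme} {K : ℕ} {wv : Fin S.I → ℝ} {h c b : ℝ} {gU : E d → E d}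
  {Φ : E d → E d → E d} {bias : E d → ℝ}

theorem continuous_of_lip {X : Type*} [SeminormedAddCommGroup X] {f : X → ℝ} {Λ : ℝ} (hΛ : 0 ≤ Λ)
    (hf : ∀ z z', |f z - f z'| ≤ Λ * ‖z - z'‖) : Continuous f :=
  (LipschitzWith.of_dist_le_mul (K := ⟨Λ, hΛ⟩) fun z w => by
    show |f z - f w| ≤ Λ * dist z w
    rw [dist_eq_norm]; exact hf z w).continuous

theorem integrable_cell (hΦ : Est gU Φ b bias) {f : E d × E d → ℝ} (hf : Continuous f)
    (hf1 : ∀ z, |f z| ≤ 1) (z : E d × E d) :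
    Integrable (fun R => f (S.cell K wv Φ R z)) (stdGaussian (Noise d (S.CellSlot K))) :=
  Integrable.of_bound
    (hf.comp ((continuous_cell hΦ).comp (Continuous.prodMk_left z))).aestronglyMeasurable 1
    (ae_of_all _ fun _ => hf1 _)

theorem abs_cellOp_le {f : E d × E d → ℝ} (hf1 : ∀ z, |f z| ≤ 1) (z : E d × E d) :
    |S.cellOp K wv Φ f z| ≤ 1 := by
  rw [cellOp, ← Real.norm_eq_abs]
  exact (norm_integral_le_of_norm_le_const (ae_of_all _ fun _ => hf1 _)).trans (by simp)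

theorem cellOp_lip (hS : CellRule S wv h c) (hΦ : Est gU Φ b bias) {Λ : ℝ} (hΛ : 0 ≤ Λ)
    {f : E d × E d → ℝ} (hf1 : ∀ z, |f z| ≤ 1) (hfL : ∀ z z', |f z - f z'| ≤ Λ * ‖z - z'‖)
    (z z' : E d × E d) :
    |S.cellOp K wv Φ f z - S.cellOp K wv Φ f z'| ≤ Λ * (1 + 8 * h) * ‖z - z'‖ := by
  have hc := continuous_of_lip hΛ hfL
  rw [cellOp, cellOp, ← integral_sub (integrable_cell hΦ hc hf1 z) (integrable_cell hΦ hc hf1 z'),
    ← Real.norm_eq_abs]
  refine (norm_integral_le_of_norm_le_const (C := Λ * (1 + 8 * h) * ‖z - z'‖)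
    (ae_of_all _ fun R => ?_)).trans (by simp)
  rw [Real.norm_eq_abs, mul_assoc]
  exact (hfL _ _).trans (mul_le_mul_of_nonneg_left (cell_lipschitz hS hΦ R z z') hΛ)

theorem iterate_props (hS : CellRule S wv h c) (hΦ : Est gU Φ b bias) {Λ : ℝ} (hΛ : 0 ≤ Λ)
    {f : E d × E d → ℝ} (hf1 : ∀ z, |f z| ≤ 1) (hfL : ∀ z z', |f z - f z'| ≤ Λ * ‖z - z'‖) :
    ∀ j : ℕ, (∀ z, |(S.cellOp K wv Φ)^[j] f z| ≤ 1) ∧
      ∀ z z', |(S.cellOp K wv Φ)^[j] f z - (S.cellOp K wv Φ)^[j] f z'| ≤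
        Λ * (1 + 8 * h) ^ j * ‖z - z'‖
  | 0 => ⟨hf1, by simpa using hfL⟩
  | j + 1 => by
    obtain ⟨h1, h2⟩ := iterate_props hS hΦ hΛ hf1 hfL j
    have := hS.h_nonneg
    rw [Function.iterate_succ_apply']
    refine ⟨abs_cellOp_le h1, fun z z' => (cellOp_lip hS hΦ (by positivity) h1 h2 z z').trans
      (le_of_eq (by rw [pow_succ]; ring))⟩

theorem pow_le_two (hh : 0 ≤ h) {N j : ℕ} (hT : (N : ℝ) * h ≤ 1 / 16) (hj : j ≤ N) :
    (1 + 8 * h) ^ j ≤ 2 := by
  have h1 : (1 + 8 * h) ^ j ≤ exp (8 * h) ^ j :=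
    pow_le_pow_left₀ (by positivity) (by linarith [add_one_le_exp (8 * h)]) j
  rw [← exp_nat_mul] at h1
  refine h1.trans ?_
  have h2 : (j : ℝ) * h ≤ (N : ℝ) * h :=
    mul_le_mul_of_nonneg_right (by exact_mod_cast hj) hh
  calc exp ((j : ℝ) * (8 * h)) ≤ exp (1 / 2) := exp_le_exp.2 (by linarith)
    _ ≤ 2 := by
      have h3 : exp (1 / 2 : ℝ) ^ 2 ≤ 2 ^ 2 := by
        rw [← exp_nat_mul]; norm_num; linarith [exp_one_lt_d9]
      exact (pow_le_pow_iff_left₀ (exp_pos _).le zero_le_two two_ne_zero).1 h3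

/-- Tests respecting the invariant are preserved backwards along the cells. -/
theorem iterate_close (hS : CellRule S wv h c) (hΦ : Est gU Φ b bias) {Λ A : ℝ} (hΛ : 0 ≤ Λ)
    {N : ℕ} (hT : (N : ℝ) * h ≤ 1 / 16) {f : E d × E d → ℝ}
    (hf1 : ∀ z, |f z| ≤ 1) (hfL : ∀ z z', |f z - f z'| ≤ Λ * ‖z - z'‖)
    (hf : ∀ D, 0 ≤ D → ∀ z z', Close h ((N : ℝ) * h) D N z z' → |f z - f z'| ≤ A * D) :
    ∀ n k, k + n = N → ∀ D, 0 ≤ D → ∀ z z', Close h ((N : ℝ) * h) D k z z' →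
      |(S.cellOp K wv Φ)^[n] f z - (S.cellOp K wv Φ)^[n] f z'| ≤ A * D := by
  intro n
  induction n with
  | zero => intro k hk; obtain rfl : k = N := by omega
            exact hf
  | succ n ih =>
    intro k hk D hD z z' hz
    obtain ⟨h1, h2⟩ := iterate_props (K := K) hS hΦ hΛ hf1 hfL n
    have := hS.h_nonneg
    have hc := continuous_of_lip (by positivity) h2
    rw [Function.iterate_succ_apply', cellOp, cellOp,
      ← integral_sub (integrable_cell hΦ hc h1 z) (integrable_cell hΦ hc h1 z'), ← Real.norm_eq_abs]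
    refine (norm_integral_le_of_norm_le_const (C := A * D) (ae_of_all _ fun R => ?_)).trans
      (by simp)
    refine ih (k + 1) (by omega) D hD _ _ (cell_close hS hΦ R hT hD ?_ hz)
    refine mul_le_mul_of_nonneg_right ?_ hS.h_nonneg
    exact_mod_cast (by omega : k + 1 ≤ N)

theorem sum_close (h : ℝ) (T : ℝ) : ∀ n : ℕ,
    ∑ j ∈ Finset.range n, h * (T - (j + 1) * h) = n * h * T - h ^ 2 * (n * (n + 1)) / 2
  | 0 => by simp
  | n + 1 => by rw [Finset.sum_range_succ, sum_close h T n]; push_cast; ring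

/-- A refreshed step contracts. -/
theorem stepOp_props (hS : CellRule S wv h c) (hΦ : Est gU Φ b bias) {N : ℕ} (hN : 2 ≤ N)
    (hT : (N : ℝ) * h ≤ 1 / 16) {Λ : ℝ} (hΛ : 0 ≤ Λ) {u : E d → ℝ} (hu1 : ∀ x, |u x| ≤ 1)
    (huL : ∀ x x', |u x - u x'| ≤ Λ * ‖x - x'‖) :
    (∀ x, |S.stepOp K wv Φ N u x| ≤ 1) ∧
      ∀ x x', |S.stepOp K wv Φ N u x - S.stepOp K wv Φ N u x'| ≤
        Λ * (1 - ((N : ℝ) * h) ^ 2 / 16) * ‖x - x'‖ := by
  have hh := hS.h_nonneg
  have hfL : ∀ z z' : E d × E d, |u z.1 - u z'.1| ≤ Λ * ‖z - z'‖ := fun z z' =>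
    (huL _ _).trans (mul_le_mul_of_nonneg_left (norm_fst_le (z - z')) hΛ)
  obtain ⟨h1, h2⟩ := iterate_props (K := K) hS hΦ hΛ (f := fun z => u z.1) (fun z => hu1 z.1) hfL N
  have hc := continuous_of_lip (by positivity) h2
  have hi : ∀ x, Integrable (fun v => (S.cellOp K wv Φ)^[N] (fun z => u z.1) (x, v))
      (stdGaussian (E d)) := fun x =>
    Integrable.of_bound (hc.comp (Continuous.prodMk_right x)).aestronglyMeasurable 1
      (ae_of_all _ fun v => h1 _)
  refine ⟨fun x => ?_, fun x x' => ?_⟩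
  · rw [stepOp, ← Real.norm_eq_abs]
    exact (norm_integral_le_of_norm_le_const (ae_of_all _ fun v => h1 _)).trans (by simp)
  · rw [stepOp, stepOp, ← integral_sub (hi x) (hi x'), ← Real.norm_eq_abs]
    refine (norm_integral_le_of_norm_le_const
      (C := Λ * (1 - ((N : ℝ) * h) ^ 2 / 16) * ‖x - x'‖) (ae_of_all _ fun v => ?_)).trans (by simp)
    refine iterate_close hS hΦ hΛ hT (fun z => hu1 z.1) hfL (fun D hD z z' hz => ?_) N 0
      (zero_add N) ‖x - x'‖ (norm_nonneg _) (x, v) (x', v) ⟨by simp, by simp⟩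
    have h3 := hz.2
    rw [sub_self, zero_smul, add_zero, sum_close] at h3
    refine (huL _ _).trans ?_
    rw [mul_assoc]
    refine mul_le_mul_of_nonneg_left (h3.trans (mul_le_mul_of_nonneg_right ?_ hD)) hΛ
    have h4 : (2 : ℝ) ≤ N := by exact_mod_cast hN
    nlinarith [mul_nonneg (mul_nonneg (sq_nonneg h) (by linarith : (0 : ℝ) ≤ N))
      (by linarith : (0 : ℝ) ≤ (N : ℝ) - 2)]

/-- The weak error of `L` refreshed steps from the origin. -/
theorem chain_weak {η B : ℝ} {U : E d → ℝ} (hU : Pert η B U) (hS : CellRule S wv h c)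
    (hΦ : Est gU Φ b bias) {N : ℕ} (hN : 2 ≤ N) (hT : (N : ℝ) * h ≤ 1 / 16) {Λ ε : ℝ}
    (hΛ : 0 ≤ Λ)
    (hε : ∀ f : E d × E d → ℝ, Continuous f → (∀ z, |f z| ≤ 1) →
      (∀ z z', |f z - f z'| ≤ 2 * Λ * ‖z - z'‖) →
        |(∫ z, S.cellOp K wv Φ f z ∂(law U).prod (stdGaussian (E d))) -
          ∫ z, f z ∂(law U).prod (stdGaussian (E d))| ≤ ε)
    {u : E d → ℝ} (hu1 : ∀ x, |u x| ≤ 1) (huL : ∀ x x', |u x - u x'| ≤ Λ * ‖x - x'‖) (L : ℕ) :
    |(S.stepOp K wv Φ N)^[L] u 0 - ∫ x, u x ∂law U| ≤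
      L * (N * ε) + Λ * (1 - ((N : ℝ) * h) ^ 2 / 16) ^ L * ∫ x, ‖x‖ ∂law U := by
  have := hU.isProbabilityMeasure_law
  have hh := hS.h_nonneg
  set μ := (law U).prod (stdGaussian (E d))
  set ρ := 1 - ((N : ℝ) * h) ^ 2 / 16
  have hNh : 0 ≤ (N : ℝ) * h := by positivity
  have hρ0 : 0 ≤ ρ := by simp only [ρ]; nlinarith
  have hρ1 : ρ ≤ 1 := by simp only [ρ]; nlinarith
  have hl : ∀ l, (∀ x, |(S.stepOp K wv Φ N)^[l] u x| ≤ 1) ∧
      (∀ x x', |(S.stepOp K wv Φ N)^[l] u x - (S.stepOp K wv Φ N)^[l] u x'| ≤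
        Λ * ρ ^ l * ‖x - x'‖) := by
    intro l
    induction l with
    | zero => exact ⟨hu1, by simpa using huL⟩
    | succ l ih =>
      rw [Function.iterate_succ_apply']
      obtain ⟨h1, h2⟩ := stepOp_props (K := K) hS hΦ hN hT (by positivity) ih.1 ih.2
      exact ⟨h1, fun x x' => (h2 x x').trans (le_of_eq (by rw [pow_succ]; ring))⟩
  have hstep : ∀ g : E d → ℝ, (∀ x, |g x| ≤ 1) → (∀ x x', |g x - g x'| ≤ Λ * ‖x - x'‖) →
      |(∫ x, S.stepOp K wv Φ N g x ∂law U) - ∫ x, g x ∂law U| ≤ N * ε := by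
    intro g hg1 hgL
    set f := fun z : E d × E d => g z.1
    have hfL : ∀ z z', |f z - f z'| ≤ Λ * ‖z - z'‖ := fun z z' =>
      (hgL _ _).trans (mul_le_mul_of_nonneg_left (norm_fst_le (z - z')) hΛ)
    have hp := fun j => iterate_props (K := K) hS hΦ hΛ (f := f) (fun z => hg1 z.1) hfL j
    have hc : ∀ j, Continuous ((S.cellOp K wv Φ)^[j] f) := fun j =>
      continuous_of_lip (by positivity) (hp j).2
    have hj : ∀ j ≤ N,
        |(∫ z, (S.cellOp K wv Φ)^[j] f z ∂μ) - ∫ z, f z ∂μ| ≤ j * ε := by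
      intro j
      induction j with
      | zero => intro _; simp
      | succ j ih =>
        intro hj
        refine (abs_sub_le _ (∫ z, (S.cellOp K wv Φ)^[j] f z ∂μ) _).trans ?_
        rw [Function.iterate_succ_apply']
        refine (add_le_add (hε _ (hc j) (hp j).1 fun z z' => ((hp j).2 z z').trans
          (mul_le_mul_of_nonneg_right ?_ (norm_nonneg _))) (ih (by omega))).trans
            (le_of_eq (by push_cast; ring))
        calc Λ * (1 + 8 * h) ^ j ≤ Λ * 2 :=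
              mul_le_mul_of_nonneg_left (pow_le_two hh hT (by omega)) hΛ
          _ = 2 * Λ := mul_comm _ _
    have h1 := hj N le_rfl
    have hgc := continuous_of_lip hΛ hgL
    rw [show ∫ z, f z ∂μ = ∫ x, g x ∂law U by simp [f, μ, integral_fun_fst],
      show ∫ z, (S.cellOp K wv Φ)^[N] f z ∂μ = ∫ x, S.stepOp K wv Φ N g x ∂law U from
        integral_prod _ (Integrable.of_bound (hc N).aestronglyMeasurable 1
          (ae_of_all _ (hp N).1))] at h1
    exact h1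
  have hL : ∀ l, |(∫ x, (S.stepOp K wv Φ N)^[l] u x ∂law U) - ∫ x, u x ∂law U| ≤ l * (N * ε) := by
    intro l
    induction l with
    | zero => simp
    | succ l ih =>
      refine (abs_sub_le _ (∫ x, (S.stepOp K wv Φ N)^[l] u x ∂law U) _).trans ?_
      rw [Function.iterate_succ_apply']
      refine (add_le_add (hstep _ (hl l).1 fun x x' => ((hl l).2 x x').trans
        (mul_le_mul_of_nonneg_right (mul_le_of_le_one_right hΛ (pow_le_one₀ hρ0 hρ1))
          (norm_nonneg _))) ih).trans (le_of_eq (by push_cast; ring))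
  refine (abs_sub_le _ (∫ x, (S.stepOp K wv Φ N)^[L] u x ∂law U) _).trans ?_
  rw [add_comm ((L : ℝ) * (N * ε))]
  refine add_le_add ?_ (hL L)
  obtain ⟨h1, h2⟩ := hl L
  have hn : Integrable (fun x : E d => Λ * ρ ^ L * ‖x‖) (law U) :=
    (hU.integrable_law PolyBd.id.norm continuous_norm).const_mul _
  have hg : Integrable ((S.stepOp K wv Φ N)^[L] u) (law U) :=
    Integrable.of_bound (continuous_of_lip (by positivity) h2).aestronglyMeasurable 1
      (ae_of_all _ h1)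
  rw [show (S.stepOp K wv Φ N)^[L] u 0 = ∫ _, (S.stepOp K wv Φ N)^[L] u 0 ∂law U by simp,
    ← integral_sub (integrable_const _) hg, ← Real.norm_eq_abs, ← integral_const_mul]
  exact norm_integral_le_of_norm_le hn (ae_of_all _ fun x => by simpa using h2 0 x)

end Scheme

end Vale.Agent.P347
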