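import Vale.Agent.P347.Poincare

/-!
# P347: total variation cost of smoothing the perturbation

`law W` is within `C (1+B) η √d` of the standard Gaussian and within `C (1+B)² η σ² √d` of
`law (sm σ W)`.
-/

open MeasureTheory ProbabilityTheory Real Set Filter
open scoped RealInnerProductSpace Topology

namespace Vale.Agent.P347

variable {d : ℕ}

theorem grad_zero_fun : grad (0 : E d → ℝ) = 0 := by
  funext x
  refine ext_inner_right ℝ fun v => ?_
  rw [inner_grad]
  simp

theorem law_zero : law (0 : E d → ℝ) = stdGaussian (E d) := by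
  have hint : Integrable (fun x : E d => exp (-gPot x)) := by
    simpa using decay_gPot.integrable (f := fun _ : E d => (1 : ℝ)) aestronglyMeasurable_const
      (PolyBd.const 1)
  have hZ : 0 < ∫ y : E d, exp (-gPot y) := integral_exp_pos hint
  have e : pot (0 : E d → ℝ) = gPot := by funext x; simp [pot, gPot]
  rw [law, gibbs, e, stdGaussian_eq_withDensity,
    ← ofReal_integral_eq_lintegral_ofReal hint (ae_of_all _ fun x => (exp_pos _).le),
    ← ENNReal.ofReal_inv_of_pos hZ,
    ← withDensity_smul (f := fun x : E d => ENNReal.ofReal (exp (-gPot x))) _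
      (decay_gPot.1.neg.rexp.measurable.ennreal_ofReal)]
  congr 1
  funext x
  simp [ENNReal.ofReal_mul (inv_nonneg.2 hZ.le)]

theorem pert_zero {η B : ℝ} (h0 : 0 ≤ η) (h1 : η ≤ 1) (hB : 0 ≤ B) :
    Pert η B (0 : E d → ℝ) := by
  refine ⟨h0, h1, hB, contDiff_const, fun x v => ?_, fun x v => ?_, ?_⟩
  · simp [grad_zero_fun]
  · simp only [grad_zero_fun, fderiv_zero, Pi.zero_apply, _root_.zero_apply,
      inner_zero_left]
    positivity
  · simp only [grad_zero_fun, Pi.zero_apply, norm_zero]; positivity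

/-- Interpolation of two perturbations. -/
noncomputable def mix (W₀ W₁ : E d → ℝ) (s : ℝ) (x : E d) : ℝ := (1 - s) * W₀ x + s * W₁ x

theorem mix_zero (W₀ W₁ : E d → ℝ) : mix W₀ W₁ 0 = W₀ := by funext x; simp [mix]

theorem mix_one (W₀ W₁ : E d → ℝ) : mix W₀ W₁ 1 = W₁ := by funext x; simp [mix]

theorem pert_mix {η B : ℝ} {W₀ W₁ : E d → ℝ} (h₀ : Pert η B W₀) (h₁ : Pert η B W₁) {s : ℝ}
    (hs : s ∈ Icc (0 : ℝ) 1) : Pert η B (mix W₀ W₁ s) := by
  have hs1 : 0 ≤ 1 - s := by linarith [hs.2]
  have d₀ : Differentiable ℝ W₀ := h₀.contDiff.differentiable (by norm_num)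
  have d₁ : Differentiable ℝ W₁ := h₁.contDiff.differentiable (by norm_num)
  have g₀ := h₀.contDiff_grad.differentiable one_ne_zero
  have g₁ := h₁.contDiff_grad.differentiable one_ne_zero
  have hg : grad (mix W₀ W₁ s) = fun x => (1 - s) • grad W₀ x + s • grad W₁ x := by
    funext x
    refine ext_inner_right ℝ fun v => ?_
    have h : HasFDerivAt (mix W₀ W₁ s) ((1 - s) • fderiv ℝ W₀ x + s • fderiv ℝ W₁ x) x :=
      ((d₀ x).hasFDerivAt.const_mul (1 - s)).add ((d₁ x).hasFDerivAt.const_mul s)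
    rw [inner_grad, h.fderiv, inner_add_left, real_inner_smul_left, real_inner_smul_left,
      inner_grad, inner_grad]
    simp
  have hfd : ∀ x v, ⟪fderiv ℝ (grad (mix W₀ W₁ s)) x v, v⟫ =
      (1 - s) * ⟪fderiv ℝ (grad W₀) x v, v⟫ + s * ⟪fderiv ℝ (grad W₁) x v, v⟫ := fun x v => by
    have h : HasFDerivAt (fun x => (1 - s) • grad W₀ x + s • grad W₁ x)
        ((1 - s) • fderiv ℝ (grad W₀) x + s • fderiv ℝ (grad W₁) x) x :=
      ((g₀ x).hasFDerivAt.const_smul (1 - s)).add ((g₁ x).hasFDerivAt.const_smul s)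
    rw [hg, h.fderiv]
    simp [inner_add_left, real_inner_smul_left]
  refine ⟨h₀.eta_nonneg, h₀.eta_le_one, h₀.bound_nonneg,
    (contDiff_const.mul h₀.contDiff).add (contDiff_const.mul h₁.contDiff), fun x v => ?_,
    fun x v => ?_, ?_⟩
  · rw [hfd]
    exact add_nonneg (mul_nonneg hs1 (h₀.hess_nonneg x v)) (mul_nonneg hs.1 (h₁.hess_nonneg x v))
  · rw [hfd]
    nlinarith [mul_le_mul_of_nonneg_left (h₀.hess_le x v) hs1,
      mul_le_mul_of_nonneg_left (h₁.hess_le x v) hs.1]
  · rw [hg]
    refine (norm_add_le _ _).trans ?_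
    rw [norm_smul, norm_smul, Real.norm_eq_abs, Real.norm_eq_abs, abs_of_nonneg hs1,
      abs_of_nonneg hs.1]
    nlinarith [mul_le_mul_of_nonneg_left h₀.grad_zero_le hs1,
      mul_le_mul_of_nonneg_left h₁.grad_zero_le hs.1]

/-- If every bounded centred test function has covariance at most `K` with `W₁ - W₀` along the
interpolation, the two laws are `K`-close in total variation. -/
theorem tv_interp {η B K : ℝ} {W₀ W₁ : E d → ℝ} (h₀ : Pert η B W₀) (h₁ : Pert η B W₁)
    (hK : ∀ s ∈ Icc (0 : ℝ) 1, ∀ ψ : E d → ℝ, Measurable ψ → (∀ x, |ψ x| ≤ 1) →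
      ∫ x, ψ x ∂law (mix W₀ W₁ s) = 0 →
        |∫ x, ψ x * (W₁ x - W₀ x) ∂law (mix W₀ W₁ s)| ≤ K) :
    TVLe (law W₀) (law W₁) K := by
  intro S hS
  set D : E d → ℝ := fun x => W₁ x - W₀ x with hD
  set e : ℝ → E d → ℝ := fun s x => exp (-pot (mix W₀ W₁ s) x) with he
  have hDc : Continuous D := h₁.contDiff.continuous.sub h₀.contDiff.continuous
  have hDp : PolyBd D := h₁.polyBd_self.sub h₀.polyBd_self
  have hec : ∀ s, Continuous (e s) := fun s =>
    Real.continuous_exp.comp ((((continuous_norm.pow 2).div_const 2).add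
      ((continuous_const.mul h₀.contDiff.continuous).add
        (continuous_const.mul h₁.contDiff.continuous))).neg)
  have hele : ∀ s ∈ Icc (0 : ℝ) 1, ∀ x, e s x ≤ exp (-pot W₀ x) + exp (-pot W₁ x) := by
    intro s hs x
    have hx : pot (mix W₀ W₁ s) x = (1 - s) * pot W₀ x + s * pot W₁ x := by
      simp only [pot, mix]; ring
    rcases le_total (pot W₀ x) (pot W₁ x) with h | h
    · have : pot W₀ x ≤ pot (mix W₀ W₁ s) x := by rw [hx]; nlinarith [hs.1]
      exact (exp_le_exp.2 (neg_le_neg this)).trans (le_add_of_nonneg_right (exp_pos _).le)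
    · have : pot W₁ x ≤ pot (mix W₀ W₁ s) x := by rw [hx]; nlinarith [hs.2]
      exact (exp_le_exp.2 (neg_le_neg this)).trans (le_add_of_nonneg_left (exp_pos _).le)
  have hbd : ∀ F : E d → ℝ, Continuous F → PolyBd F →
      Integrable fun x => (exp (-pot W₀ x) + exp (-pot W₁ x)) * ‖F x‖ := fun F hF hFp => by
    simpa only [smul_eq_mul, add_mul, Pi.add_apply] using!
      (h₀.decay.integrable hF.norm.aestronglyMeasurable hFp.norm).add
        (h₁.decay.integrable hF.norm.aestronglyMeasurable hFp.norm)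
  set N : (E d → ℝ) → ℝ → ℝ := fun φ s => ∫ x, e s x * φ x with hN
  have hcont : ∀ φ : E d → ℝ, Measurable φ → (∀ x, |φ x| ≤ 1) →
      ContinuousOn (N φ) (Icc (0 : ℝ) 1) := by
    intro φ hφ hφ1
    refine continuousOn_of_dominated (fun s _ => ((hec s).measurable.mul hφ).aestronglyMeasurable)
      (fun s hs => ae_of_all _ fun x => ?_) (hbd (fun _ => 1) continuous_const (PolyBd.const 1))
      (ae_of_all _ fun x => ?_)
    · rw [norm_mul, Real.norm_eq_abs, abs_of_pos (exp_pos _), norm_one]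
      exact mul_le_mul (hele s hs x) (hφ1 x) (norm_nonneg _) (by positivity)
    · simp only [he, pot, mix]
      exact (by fun_prop : Continuous fun s : ℝ =>
        exp (-(‖x‖ ^ 2 / 2 + ((1 - s) * W₀ x + s * W₁ x))) * φ x).continuousOn
  have hderiv : ∀ φ : E d → ℝ, Measurable φ → (∀ x, |φ x| ≤ 1) → ∀ s ∈ Ioo (0 : ℝ) 1,
      HasDerivAt (N φ) (-∫ x, e s x * (φ x * D x)) s := by
    intro φ hφ hφ1 s hs
    have hm := fun t => ((hec t).measurable.mul hφ).aestronglyMeasurable (μ := (volume : Measure (E d)))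
    have h := (hasDerivAt_integral_of_dominated_loc_of_deriv_le (μ := (volume : Measure (E d)))
      (F := fun t x => e t x * φ x) (F' := fun t x => -(e t x * (φ x * D x)))
      (bound := fun x => (exp (-pot W₀ x) + exp (-pot W₁ x)) * ‖D x‖)
      (isOpen_Ioo.mem_nhds hs) (Eventually.of_forall hm)
      ((hbd (fun _ => 1) continuous_const (PolyBd.const 1)).mono' (hm s) (ae_of_all _ fun x => ?_))
      (((hec s).measurable.mul (hφ.mul hDc.measurable)).neg.aestronglyMeasurable)
      (ae_of_all _ fun x t ht => ?_) (hbd D hDc hDp) (ae_of_all _ fun x t _ => ?_)).2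
    · simpa only [integral_neg] using h
    · rw [norm_mul, Real.norm_eq_abs, abs_of_pos (exp_pos _), norm_one]
      exact mul_le_mul (hele s (Ioo_subset_Icc_self hs) x) (hφ1 x) (norm_nonneg _) (by positivity)
    · rw [norm_neg, norm_mul, norm_mul, Real.norm_eq_abs, abs_of_pos (exp_pos _)]
      exact mul_le_mul (hele t (Ioo_subset_Icc_self ht) x)
        (mul_le_of_le_one_left (norm_nonneg _) (hφ1 x)) (by positivity) (by positivity)
    · have h1 : HasDerivAt (fun t => -pot (mix W₀ W₁ t) x) (-D x) t := by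
        have h2 : HasDerivAt (fun t : ℝ => -(‖x‖ ^ 2 / 2 + W₀ x) - t * D x) (-D x) t :=
          (((hasDerivAt_id t).mul_const (D x)).const_sub _).congr_deriv (by ring)
        refine h2.congr_of_eventuallyEq (Eventually.of_forall fun t => ?_)
        simp only [pot, mix, hD]; ring
      exact (h1.exp.mul_const (φ x)).congr_deriv (by simp only [he]; ring)
  set χ : E d → ℝ := S.indicator fun _ => (1 : ℝ)
  have hχm : Measurable χ := measurable_const.indicator hS
  have hχ1 : ∀ x, |χ x| ≤ 1 := fun x => by by_cases hx : x ∈ S <;> simp [χ, hx]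
  have hone : ∀ x : E d, |(fun _ : E d => (1 : ℝ)) x| ≤ 1 := fun x => by simp
  have hlaw : ∀ s ∈ Icc (0 : ℝ) 1, ∀ φ : E d → ℝ,
      ∫ x, φ x ∂law (mix W₀ W₁ s) = (N (fun _ => 1) s)⁻¹ * N φ s := fun s hs φ => by
    rw [(pert_mix h₀ h₁ hs).integral_law]
    simp [hN, he]
  have hpos : ∀ s ∈ Icc (0 : ℝ) 1, 0 < N (fun _ => 1) s := fun s hs => by
    simpa [hN, he] using (pert_mix h₀ h₁ hs).partition_pos
  set μS : ℝ → ℝ := fun s => (law (mix W₀ W₁ s)).real S
  have hμS : ∀ s ∈ Icc (0 : ℝ) 1, μS s = N χ s / N (fun _ => 1) s := fun s hs => by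
    have := hlaw s hs χ
    rw [integral_indicator hS, setIntegral_const, smul_eq_mul, mul_one] at this
    rw [div_eq_inv_mul]; exact this
  obtain ⟨c, hc, hslope⟩ := exists_hasDerivAt_eq_slope (fun s => N χ s / N (fun _ => 1) s)
    (fun s => ((-∫ x, e s x * (χ x * D x)) * N (fun _ => 1) s -
      N χ s * (-∫ x, e s x * ((fun _ => (1 : ℝ)) x * D x))) / N (fun _ => 1) s ^ 2)
    (zero_lt_one (α := ℝ))
    ((hcont χ hχm hχ1).div (hcont _ measurable_const hone) fun s hs => (hpos s hs).ne')
    (fun s hs => (hderiv χ hχm hχ1 s hs).div (hderiv _ measurable_const hone s hs)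
      (hpos s (Ioo_subset_Icc_self hs)).ne')
  simp only [sub_zero, div_one] at hslope
  rw [← hμS 1 (right_mem_Icc.2 zero_le_one), ← hμS 0 (left_mem_Icc.2 zero_le_one)] at hslope
  simp only [μS, mix_zero, mix_one] at hslope
  have hcI := Ioo_subset_Icc_self hc
  have hV := pert_mix h₀ h₁ hcI
  have := hV.isProbabilityMeasure_law
  set m := N χ c / N (fun _ => 1) c with hm
  have hiχ : Integrable χ (law (mix W₀ W₁ c)) :=
    Integrable.of_bound hχm.aestronglyMeasurable 1 (ae_of_all _ hχ1)
  have hm01 : m ∈ Icc (0 : ℝ) 1 := by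
    rw [hm, ← hμS c hcI]
    exact ⟨measureReal_nonneg, measureReal_le_one⟩
  have hψ1 : ∀ x, |χ x - m| ≤ 1 := fun x => by
    by_cases hx : x ∈ S <;>
      simp only [χ, hx, indicator_of_mem, indicator_of_notMem, not_false_eq_true] <;>
      rw [abs_le] <;> constructor <;> linarith [hm01.1, hm01.2]
  have hψ0 : ∫ x, (χ x - m) ∂law (mix W₀ W₁ c) = 0 := by
    rw [integral_sub hiχ (integrable_const _), hlaw c hcI χ, integral_const]
    simp [hm, div_eq_inv_mul]
  have hb := hK c hcI _ (hχm.sub measurable_const) hψ1 hψ0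
  have hiD : Integrable D (law (mix W₀ W₁ c)) := hV.integrable_law hDp hDc
  have hiχD : Integrable (fun x => χ x * D x) (law (mix W₀ W₁ c)) :=
    hiD.bdd_mul hχm.aestronglyMeasurable (ae_of_all _ hχ1)
  have e1 : ∫ x, (χ x - m) * (W₁ x - W₀ x) ∂law (mix W₀ W₁ c) =
      (law W₀).real S - (law W₁).real S := by
    simp_rw [← show ∀ x, D x = W₁ x - W₀ x from fun x => rfl, sub_mul]
    rw [integral_sub hiχD (hiD.const_mul m), integral_const_mul, hlaw c hcI, hlaw c hcI,
      ← neg_sub ((law W₁).real S), ← hslope]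
    have hne := (hpos c hcI).ne'
    simp only [hm, hN, one_mul]
    simp only [hN] at hne
    field_simp
    ring
  rw [← e1]
  exact hb

/-- The `L¹` norm is at most the `L²` norm. -/
theorem integral_abs_le_sqrt {α : Type*} [MeasurableSpace α] {μ : Measure α}
    [IsProbabilityMeasure μ] {f : α → ℝ} (hf : Integrable f μ)
    (hf2 : Integrable (fun x => f x ^ 2) μ) : ∫ x, |f x| ∂μ ≤ √(∫ x, f x ^ 2 ∂μ) := by
  refine Real.le_sqrt_of_sq_le ?_
  have h := integral_sq_sub_mean (f := fun x => |f x|) hf.abs (by simpa only [sq_abs] using hf2) 0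
  simp only [sub_zero, sq_abs] at h
  linarith [integral_nonneg (f := fun x => (|f x| - ∫ y, |f y| ∂μ) ^ 2) (fun x => sq_nonneg _)
    (μ := μ)]

/-- Weighted Lipschitz functions are correlated with bounded centred functions by at most their
standard deviation. -/
theorem Pert.cov_le {η B : ℝ} {V : E d → ℝ} (hV : Pert η B V) {f : E d → ℝ} {A b : ℝ}
    (hf : WLip f A b) :
    ∫ x, |f x - ∫ y, f y ∂law V| ∂law V ≤ 9 * (A + 256 * b * ((1 + B) * √d)) := by
  have := hV.isProbabilityMeasure_law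
  have hp := hf.polyBd.sub (PolyBd.const (∫ y, f y ∂law V))
  refine (integral_abs_le_sqrt (hV.integrable_law hp (hf.continuous.sub continuous_const))
    (hV.integrable_law (hp.pow 2) ((hf.continuous.sub continuous_const).pow 2))).trans ?_
  have hB := hV.bound_nonneg
  have := hf.1
  have := hf.2.1
  refine (Real.sqrt_le_sqrt (hV.poincare_le hf)).trans ?_
  rw [← Real.sqrt_sq (by positivity : (0 : ℝ) ≤ 9 * (A + 256 * b * ((1 + B) * √d)))]
  refine Real.sqrt_le_sqrt ?_
  rw [mul_pow]
  exact mul_le_mul_of_nonneg_right (by norm_num) (sq_nonneg _)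

theorem abs_integral_mul_le {α : Type*} [MeasurableSpace α] {μ : Measure α}
    {ψ f : α → ℝ} (hψ : ∀ x, |ψ x| ≤ 1) (hf : Integrable f μ) :
    |∫ x, ψ x * f x ∂μ| ≤ ∫ x, |f x| ∂μ := by
  rw [← Real.norm_eq_abs]
  exact norm_integral_le_of_norm_le hf.abs (ae_of_all _ fun x => by
    rw [norm_mul, Real.norm_eq_abs, Real.norm_eq_abs]
    exact mul_le_of_le_one_left (abs_nonneg _) (hψ x))

/-- The law of a perturbation is close to the standard Gaussian. -/
theorem tv_base : ∃ C : ℝ, ∀ (d : ℕ) (η B : ℝ) (W : E d → ℝ), Pert η B W →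
    TVLe (law W) (stdGaussian (E d)) (C * (1 + B) * η * √d) := by
  refine ⟨9 * 257, fun d η B W hW => ?_⟩
  rw [← law_zero]
  have hB := hW.bound_nonneg
  have hη := hW.eta_nonneg
  have h0 : Pert η B (0 : E d → ℝ) := pert_zero hη hW.eta_le_one hB
  have hwlip : WLip W (η * B * √d) η := by
    refine ⟨by positivity, hη, fun x y => ?_⟩
    have hd : Differentiable ℝ W := hW.contDiff.differentiable (by norm_num)
    have hb : ∀ z ∈ segment ℝ x y, ‖fderiv ℝ W z‖ ≤ η * B * √d + η * (‖x‖ + ‖y‖) := by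
      intro z hz
      obtain ⟨a, c, ha, hc, hac, rfl⟩ := hz
      refine ContinuousLinearMap.opNorm_le_bound _ (by positivity) fun v => ?_
      rw [← inner_grad]
      refine (norm_inner_le_norm _ _).trans (mul_le_mul_of_nonneg_right ?_ (norm_nonneg v))
      refine (hW.norm_grad_le _).trans ?_
      have hn : ‖a • x + c • y‖ ≤ ‖x‖ + ‖y‖ := by
        refine (norm_add_le _ _).trans ?_
        rw [norm_smul, norm_smul, Real.norm_eq_abs, Real.norm_eq_abs, abs_of_nonneg ha,
          abs_of_nonneg hc]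
        exact add_le_add (mul_le_of_le_one_left (norm_nonneg _) (by linarith))
          (mul_le_of_le_one_left (norm_nonneg _) (by linarith))
      nlinarith [mul_le_mul_of_nonneg_left hn hη]
    have := (convex_segment x y).norm_image_sub_le_of_norm_fderiv_le (f := W) (fun z _ => hd z)
      hb (right_mem_segment ℝ x y) (left_mem_segment ℝ x y)
    rw [Real.norm_eq_abs] at this
    linarith
  have hTV : TVLe (law W) (law (0 : E d → ℝ)) (9 * (η * B * √d + 256 * η * ((1 + B) * √d))) := by
    refine tv_interp hW h0 fun s hs ψ hψm hψ hψ0 => ?_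
    have hV := pert_mix hW h0 hs
    have := hV.isProbabilityMeasure_law
    simp only [Pi.zero_apply, zero_sub, mul_neg, integral_neg, abs_neg]
    set m := ∫ y, W y ∂law (mix W 0 s)
    have hi : Integrable W (law (mix W 0 s)) := hV.integrable_law hW.polyBd_self hW.contDiff.continuous
    have hψi : Integrable ψ (law (mix W 0 s)) :=
      Integrable.of_bound hψm.aestronglyMeasurable 1 (ae_of_all _ hψ)
    have e : ∫ x, ψ x * W x ∂law (mix W 0 s) = ∫ x, ψ x * (W x - m) ∂law (mix W 0 s) := by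
      simp_rw [mul_sub]
      rw [integral_sub (hi.bdd_mul hψm.aestronglyMeasurable (ae_of_all _ hψ)) (hψi.mul_const m),
        integral_mul_const, hψ0]
      simp
    rw [e]
    exact (abs_integral_mul_le hψ (hi.sub (integrable_const m))).trans (hV.cov_le hwlip)
  intro S hS
  refine (hTV S hS).trans ?_
  nlinarith [mul_nonneg hη (Real.sqrt_nonneg (d : ℝ)), mul_nonneg (mul_nonneg hη hB)
    (Real.sqrt_nonneg (d : ℝ))]

theorem sum_sq_apply_le {ι : Type*} [Fintype ι] (b : OrthonormalBasis ι ℝ (E d))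
    (L : E d →L[ℝ] ℝ) {η : ℝ} (hL : ∀ v, |L v| ≤ η * ‖v‖) :
    ∑ i, L (b i) ^ 2 ≤ η ^ 2 := by
  set S := ∑ i, L (b i) ^ 2
  set v := ∑ i, L (b i) • b i
  have hv : L v = S := by simp [v, S, map_sum, pow_two]
  have hn : ‖v‖ ^ 2 = S := by
    rw [← real_inner_self_eq_norm_sq]
    simp only [v]
    rw [b.orthonormal.inner_sum (fun i => L (b i)) (fun i => L (b i)) Finset.univ]
    simp [S, pow_two]
  have h := hL v
  rw [hv] at h
  nlinarith [le_abs_self S, sq_nonneg (η - ‖v‖), norm_nonneg v]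

/-- The `L²` identity for the divergence against `law V`. -/
theorem Pert.div_identity {η B : ℝ} {V : E d → ℝ} (hV : Pert η B V) {ι : Type*} [Fintype ι]
    (b : OrthonormalBasis ι ℝ (E d)) {G : ι → E d → ℝ} {K : ι → ι → E d → ℝ}
    (hG : ∀ i, ContDiff ℝ 1 (G i)) (hGp : ∀ i, PolyBd (G i))
    (hG' : ∀ i, PolyBd fun x => fderiv ℝ (G i) x)
    (hK : ∀ i j x, fderiv ℝ (G i) x (b j) = K i j x) (hKc : ∀ i j, ContDiff ℝ 1 (K i j))
    (hKp : ∀ i j, PolyBd fun x => fderiv ℝ (K i j) x)
    (hsymm : ∀ i j x, fderiv ℝ (K j j) x (b i) = fderiv ℝ (K j i) x (b j)) :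
    ∫ x, (∑ i, (K i i x - ⟪x + grad V x, b i⟫ * G i x)) ^ 2 ∂law V =
      ∫ x, (⟪(∑ i, G i x • b i) + fderiv ℝ (grad V) x (∑ i, G i x • b i), ∑ i, G i x • b i⟫ +
        ∑ i, ∑ j, K i j x * K j i x) ∂law V := by
  have := hV.isProbabilityMeasure_law
  set μ := law V
  set H := fun x => fderiv ℝ (grad V) x
  have hVd := hV.contDiff_grad.differentiable one_ne_zero
  set P : ι → E d → ℝ := fun j x => ⟪x + grad V x, b j⟫
  have hPc : ∀ j, ContDiff ℝ 1 (P j) := fun j =>
    (contDiff_id.add hV.contDiff_grad).inner ℝ contDiff_const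
  have hPp : ∀ j, PolyBd (P j) := fun j =>
    (PolyBd.id.add hV.polyBd_grad).mul_of_le (PolyBd.const (b j)) fun x => norm_inner_le_norm _ _
  have hPd : ∀ j x v, fderiv ℝ (P j) x v = ⟪v + H x v, b j⟫ := fun j x v => by
    simp only [P]
    rw [fderiv_inner_apply (𝕜 := ℝ) (differentiableAt_fun_id.fun_add (hVd x))
      (differentiableAt_const _), fderiv_fun_add differentiableAt_fun_id (hVd x)]
    simp [H]
  have hP' : ∀ j, PolyBd fun x => fderiv ℝ (P j) x := fun j =>
    PolyBd.of_bound (B := 1 + η) fun x => by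
      refine ContinuousLinearMap.opNorm_le_bound _ (by linarith [hV.eta_nonneg]) fun v => ?_
      rw [hPd]
      refine (norm_inner_le_norm _ _).trans ?_
      rw [b.norm_eq_one, mul_one, add_mul, one_mul]
      exact (norm_add_le _ _).trans (add_le_add le_rfl (hV.norm_hess_apply_le x v))
  set a : ι → E d → ℝ := fun i x => K i i x - P i x * G i x
  have hKb : ∀ i j, PolyBd (K i j) := fun i j =>
    (hG' i).mul_of_le (PolyBd.const (b j)) fun x => by
      rw [← hK]; exact (fderiv ℝ (G i) x).le_opNorm _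
  have hac : ∀ i, ContDiff ℝ 1 (a i) := fun i => (hKc i i).sub ((hPc i).mul (hG i))
  have hap : ∀ i, PolyBd (a i) := fun i => (hKb i i).sub ((hPp i).mul (hGp i))
  have had : ∀ i x, fderiv ℝ (a i) x =
      fderiv ℝ (K i i) x - (P i x • fderiv ℝ (G i) x + G i x • fderiv ℝ (P i) x) := fun i x => by
    exact ((((hKc i i).differentiable one_ne_zero x).hasFDerivAt).sub
      (((hPc i).differentiable one_ne_zero x).hasFDerivAt.mul
        ((hG i).differentiable one_ne_zero x).hasFDerivAt)).fderiv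
  have hap' : ∀ i, PolyBd fun x => fderiv ℝ (a i) x := fun i => by
    simp only [had]
    exact (hKp i i).sub (((hPp i).smul (hG' i)).add ((hGp i).smul (hP' i)))
  have hmul : ∀ {u w : E d → ℝ}, ContDiff ℝ 1 u → ContDiff ℝ 1 w → ∀ x,
      fderiv ℝ (fun y => u y * w y) x = u x • fderiv ℝ w x + w x • fderiv ℝ u x :=
    fun hu hw x => ((hu.differentiable one_ne_zero x).hasFDerivAt.mul
      (hw.differentiable one_ne_zero x).hasFDerivAt).fderiv
  have hap2 : ∀ i j, PolyBd fun x => fderiv ℝ (K i j) x (b i) := fun i j =>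
    (hKp i j).mul_of_le (PolyBd.const (b i)) fun x => (fderiv ℝ (K i j) x).le_opNorm _
  have term : ∀ i j, ∫ x, a i x * a j x ∂μ =
      ∫ x, (G i x * ⟪b i + H x (b i), b j⟫ * G j x + K i j x * K j i x) ∂μ := by
    intro i j
    have hp1 : PolyBd fun x => fderiv ℝ (fun y => G i y * a j y) x := by
      simp only [hmul (hG i) (hac j)]
      exact ((hGp i).smul (hap' j)).add ((hap j).smul (hG' i))
    have hp2 : PolyBd fun x => fderiv ℝ (fun y => G i y * K j i y) x := by
      simp only [hmul (hG i) (hKc j i)]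
      exact ((hGp i).smul (hKp j i)).add ((hKb j i).smul (hG' i))
    have I1 := hV.ibp_law ((hG i).mul (hac j)) ((hGp i).mul (hap j)) hp1 (b i)
    have I2 := hV.ibp_law ((hG i).mul (hKc j i)) ((hGp i).mul (hKb j i)) hp2 (b j)
    simp only [hmul (hG i) (hac j), hmul (hG i) (hKc j i), had, _root_.add_apply,
      _root_.sub_apply, _root_.smul_apply, smul_eq_mul, hK, hPd] at I1 I2
    have hint : ∀ {u : E d → ℝ}, PolyBd u → Continuous u → Integrable u μ := fun hp hc =>
      hV.integrable_law hp hc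
    have cG := fun i => (hG i).continuous
    have cK := fun i j => (hKc i j).continuous
    have cP := fun i => (hPc i).continuous
    have ca := fun i => (hac i).continuous
    have cKd : ∀ i j k, Continuous fun x => fderiv ℝ (K i j) x (b k) := fun i j k =>
      ((hKc i j).continuous_fderiv one_ne_zero).clm_apply continuous_const
    have cH : Continuous fun x => ⟪b i + H x (b i), b j⟫ :=
      (continuous_const.add ((hV.contDiff_grad.continuous_fderiv one_ne_zero).clm_apply
        continuous_const)).inner continuous_const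
    have pKd : ∀ i j k, PolyBd fun x => fderiv ℝ (K i j) x (b k) := fun i j k =>
      (hKp i j).mul_of_le (PolyBd.const (b k)) fun x => (fderiv ℝ (K i j) x).le_opNorm _
    have pH : PolyBd fun x => ⟪b i + H x (b i), b j⟫ :=
      (hP' j).mul_of_le (PolyBd.const (b i)) fun x => by
        rw [← hPd]; exact (fderiv ℝ (P j) x).le_opNorm _
    have i1 : Integrable (fun x => G i x * (fderiv ℝ (K j j) x (b i) -
        (P j x * K j i x + G j x * ⟪b i + H x (b i), b j⟫)) + a j x * K i i x) μ :=
      hint (((hGp i).mul ((pKd j j i).sub (((hPp j).mul (hKb j i)).add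
        ((hGp j).mul pH)))).add ((hap j).mul (hKb i i))) (by fun_prop)
    have i2 : Integrable (fun x => ⟪x + grad V x, b i⟫ * (G i x * a j x)) μ :=
      hint ((hPp i).mul ((hGp i).mul (hap j))) ((cP i).mul ((cG i).mul (ca j)))
    have i3 : Integrable (fun x => G i x * fderiv ℝ (K j i) x (b j) + K j i x * K i j x) μ :=
      hint (((hGp i).mul (pKd j i j)).add ((hKb j i).mul (hKb i j))) (by fun_prop)
    have i4 : Integrable (fun x => ⟪x + grad V x, b j⟫ * (G i x * K j i x)) μ :=
      hint ((hPp j).mul ((hGp i).mul (hKb j i))) ((cP j).mul ((cG i).mul (cK j i)))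
    have i5 : Integrable (fun x => G i x * ⟪b i + H x (b i), b j⟫ * G j x + K i j x * K j i x) μ :=
      hint ((((hGp i).mul pH).mul (hGp j)).add ((hKb i j).mul (hKb j i))) (by fun_prop)
    have i6 : Integrable (fun x => a i x * a j x) μ :=
      hint ((hap i).mul (hap j)) ((ca i).mul (ca j))
    have key : ∀ x, a i x * a j x -
        (G i x * ⟪b i + H x (b i), b j⟫ * G j x + K i j x * K j i x) =
        ((G i x * (fderiv ℝ (K j j) x (b i) -
          (P j x * K j i x + G j x * ⟪b i + H x (b i), b j⟫)) + a j x * K i i x) -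
          ⟪x + grad V x, b i⟫ * (G i x * a j x)) -
        ((G i x * fderiv ℝ (K j i) x (b j) + K j i x * K i j x) -
          ⟪x + grad V x, b j⟫ * (G i x * K j i x)) := fun x => by
      rw [← hsymm i j x]; simp only [a, P]; ring
    have e12 : Integrable (fun x => (G i x * (fderiv ℝ (K j j) x (b i) -
          (P j x * K j i x + G j x * ⟪b i + H x (b i), b j⟫)) + a j x * K i i x) -
          ⟪x + grad V x, b i⟫ * (G i x * a j x)) μ := i1.sub i2
    have e34 : Integrable (fun x => (G i x * fderiv ℝ (K j i) x (b j) + K j i x * K i j x) -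
          ⟪x + grad V x, b j⟫ * (G i x * K j i x)) μ := i3.sub i4
    rw [← sub_eq_zero, ← integral_sub i6 i5]
    simp_rw [key]
    rw [integral_sub e12 e34, integral_sub i1 i2, integral_sub i3 i4, I1, I2]
    ring
  have iaa : ∀ i j, Integrable (fun x => a i x * a j x) μ := fun i j =>
    hV.integrable_law ((hap i).mul (hap j)) ((hac i).continuous.mul (hac j).continuous)
  have irr : ∀ i j,
      Integrable (fun x => G i x * ⟪b i + H x (b i), b j⟫ * G j x + K i j x * K j i x) μ :=
    fun i j => hV.integrable_law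
      ((((hGp i).mul ((hP' j).mul_of_le (PolyBd.const (b i)) fun x => by
        rw [← hPd]; exact (fderiv ℝ (P j) x).le_opNorm _)).mul (hGp j)).add
          ((hKb i j).mul (hKb j i)))
      ((((hG i).continuous.mul ((continuous_const.add
        ((hV.contDiff_grad.continuous_fderiv one_ne_zero).clm_apply continuous_const)).inner
          continuous_const)).mul (hG j).continuous).add
            ((hKc i j).continuous.mul (hKc j i).continuous))
  calc ∫ x, (∑ i, (K i i x - ⟪x + grad V x, b i⟫ * G i x)) ^ 2 ∂μ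
      = ∫ x, ∑ i, ∑ j, a i x * a j x ∂μ := by
        congr 1; funext x; rw [pow_two, Finset.sum_mul_sum]
    _ = ∑ i, ∑ j, ∫ x, a i x * a j x ∂μ := by
        rw [integral_finsetSum _ fun i _ => integrable_finsetSum _ fun j _ => iaa i j]
        exact Finset.sum_congr rfl fun i _ => integral_finsetSum _ fun j _ => iaa i j
    _ = ∑ i, ∑ j, ∫ x, (G i x * ⟪b i + H x (b i), b j⟫ * G j x + K i j x * K j i x) ∂μ :=
        Finset.sum_congr rfl fun i _ => Finset.sum_congr rfl fun j _ => term i j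
    _ = ∫ x, ∑ i, ∑ j, (G i x * ⟪b i + H x (b i), b j⟫ * G j x + K i j x * K j i x) ∂μ := by
        rw [integral_finsetSum _ fun i _ => integrable_finsetSum _ fun j _ => irr i j]
        exact (Finset.sum_congr rfl fun i _ => integral_finsetSum _ fun j _ => irr i j).symm
    _ = _ := by
        congr 1; funext x
        simp only [Finset.sum_add_distrib, inner_add_left, map_sum, map_smul, sum_inner, inner_sum,
          real_inner_smul_left, real_inner_smul_right, mul_add, add_mul, H]
        congr 1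
        congr 1 <;> rw [Finset.sum_comm] <;>
          exact Finset.sum_congr rfl fun i _ => Finset.sum_congr rfl fun j _ => by ring

namespace Pert

variable {η B : ℝ} {W : E d → ℝ} (hW : Pert η B W)
include hW

theorem coord_contDiff (e : E d) : ContDiff ℝ 1 fun y => ⟪grad W y, e⟫ :=
  hW.contDiff_grad.inner ℝ contDiff_const

theorem coord_fderiv (e y v : E d) :
    fderiv ℝ (fun y => ⟪grad W y, e⟫) y v = ⟪fderiv ℝ (grad W) y v, e⟫ := by
  rw [fderiv_inner_apply (𝕜 := ℝ) (hW.contDiff_grad.differentiable one_ne_zero y)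
    (differentiableAt_const e)]
  simp

theorem norm_coord_fderiv_le (e y : E d) :
    ‖fderiv ℝ (fun y => ⟪grad W y, e⟫) y‖ ≤ η * ‖e‖ := by
  refine ContinuousLinearMap.opNorm_le_bound _ (mul_nonneg hW.eta_nonneg (norm_nonneg e))
    fun v => ?_
  rw [hW.coord_fderiv]
  refine (norm_inner_le_norm _ _).trans ?_
  nlinarith [mul_le_mul_of_nonneg_right (hW.norm_hess_apply_le y v) (norm_nonneg e)]

theorem coord_polyBd (e : E d) : PolyBd fun y => ⟪grad W y, e⟫ :=
  hW.polyBd_grad.mul_of_le (PolyBd.const e) fun _ => norm_inner_le_norm _ _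

theorem coord_polyBd' (e : E d) : PolyBd (fderiv ℝ fun y => ⟪grad W y, e⟫) :=
  PolyBd.of_bound (hW.norm_coord_fderiv_le e)

theorem sm_coord_eq (t : ℝ) (e x : E d) :
    sm t (fun y => ⟪grad W y, e⟫) x = ⟪grad (sm t W) x, e⟫ := by
  rw [hW.grad_sm, sm, sm, real_inner_comm, ← integral_inner (integrable_shift
    hW.contDiff_grad.continuous hW.polyBd_grad t x)]
  exact integral_congr_ae (ae_of_all _ fun z => real_inner_comm _ _)

/-- A smoothed coordinate of the gradient is `C²` with bounded second derivatives. -/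
theorem sm_coord_second {t : ℝ} (ht : t ≠ 0) (e w : E d) :
    ContDiff ℝ 1 (fun x => fderiv ℝ (sm t fun y => ⟪grad W y, e⟫) x w) ∧
      PolyBd fun x => fderiv ℝ (fun x => fderiv ℝ (sm t fun y => ⟪grad W y, e⟫) x w) x := by
  set f := fun y => ⟪grad W y, e⟫
  have hf : ContDiff ℝ 1 f := hW.coord_contDiff e
  have hp : PolyBd f := hW.coord_polyBd e
  have hp' : PolyBd fun x => fderiv ℝ f x := hW.coord_polyBd' e
  set γ := stdGaussian (E d)
  set F' : E d → E d → (E d →L[ℝ] ℝ) := fun x z => ⟪z, w⟫ • fderiv ℝ f (x + t • z) with hF'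
  set bd : E d → ℝ := fun z => ‖z‖ * ‖w‖ * (η * ‖e‖)
  have hcf := hf.continuous_fderiv one_ne_zero
  have hbd : ∀ x z, ‖F' x z‖ ≤ bd z := fun x z => by
    simp only [hF', norm_smul]
    exact mul_le_mul (norm_inner_le_norm z w) (hW.norm_coord_fderiv_le e _) (norm_nonneg _)
      (by positivity)
  have hbi : Integrable bd γ :=
    ((PolyBd.id.norm.mul (PolyBd.const ‖w‖)).mul (PolyBd.const (η * ‖e‖))).integrable _
      (by fun_prop)
  have heq : (fun x => fderiv ℝ (sm t f) x w) = fun x => t⁻¹ * ∫ z, f (x + t • z) * ⟪z, w⟫ ∂γ :=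
    funext fun x => sm_fderiv_ibp hf hp hp' ht x w
  have hD : ∀ x, HasFDerivAt (fun x => fderiv ℝ (sm t f) x w) (t⁻¹ • ∫ z, F' x z ∂γ) x := by
    intro x
    rw [heq]
    refine HasFDerivAt.const_mul (hasFDerivAt_integral_of_dominated_of_fderiv_le (𝕜 := ℝ)
      (F := fun y z => f (y + t • z) * ⟪z, w⟫) (F' := F') (s := Set.univ) univ_mem
      (Eventually.of_forall fun y => (by fun_prop : Continuous fun z =>
        f (y + t • z) * ⟪z, w⟫).aestronglyMeasurable)
      (((polyBd_shift hp t x).mul (polyBd_inner w)).integrable _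
        ((by fun_prop : Continuous fun z => f (x + t • z) * ⟪z, w⟫).aestronglyMeasurable))
      ((by fun_prop : Continuous (F' x)).aestronglyMeasurable)
      (ae_of_all _ fun z y _ => hbd y z) hbi (ae_of_all _ fun z y _ => ?_)) t⁻¹
    exact (((hf.differentiable one_ne_zero) (y + t • z)).hasFDerivAt.comp y
      ((hasFDerivAt_id y).add_const (t • z))).mul_const _
  have hcont : Continuous fun x : E d => t⁻¹ • ∫ z, F' x z ∂γ := by
    have h : Continuous fun x : E d => ∫ z, F' x z ∂γ :=
      continuous_of_dominated (F := F') (μ := γ) (bound := bd)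
        (fun x => (by fun_prop : Continuous (F' x)).aestronglyMeasurable)
        (fun x => ae_of_all _ (hbd x)) hbi (ae_of_all _ fun z => by fun_prop)
    exact h.const_smul t⁻¹
  refine ⟨contDiff_one_iff_hasFDerivAt.2 ⟨_, hcont, hD⟩,
    PolyBd.of_bound (B := ‖t⁻¹‖ * ∫ z, bd z ∂γ) fun x => ?_⟩
  rw [(hD x).fderiv, norm_smul]
  exact mul_le_mul_of_nonneg_left (norm_integral_le_of_norm_le hbi (ae_of_all _ (hbd x)))
    (norm_nonneg _)

/-- The trace of the smoothed Hessian has small covariance with bounded centred functions. -/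
theorem cov_trace_le {V : E d → ℝ} (hV : Pert η (B + 1) V) {t : ℝ} (ht : t ≠ 0) (ht1 : |t| ≤ 1)
    {ψ : E d → ℝ} (hψm : Measurable ψ) (hψ : ∀ x, |ψ x| ≤ 1) (h0 : ∫ x, ψ x ∂law V = 0) :
    |∫ x, ψ x * (∑ i, fderiv ℝ (sm t fun y => ⟪grad W y, stdOrthonormalBasis ℝ (E d) i⟫) x
        (stdOrthonormalBasis ℝ (E d) i)) ∂law V| ≤ 10000 * (1 + B) * η * √d := by
  have := hV.isProbabilityMeasure_law
  set b := stdOrthonormalBasis ℝ (E d)
  set μ := law V
  set G : Fin (Module.finrank ℝ (E d)) → E d → ℝ := fun i => sm t fun y => ⟪grad W y, b i⟫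
  set K := fun i j x => fderiv ℝ (G i) x (b j)
  have hWt := hW.sm_pert ht1
  have hGc : ∀ i, ContDiff ℝ 1 (G i) := fun i =>
    sm_contDiff_one (hW.coord_contDiff _) (hW.coord_polyBd _) (hW.coord_polyBd' _) t
  have hGp : ∀ i, PolyBd (G i) := fun i => sm_polyBd (hW.coord_polyBd _) t
  have hG1 : ∀ i x, ‖fderiv ℝ (G i) x‖ ≤ η := fun i x => by
    have e : G i = fun x => ⟪grad (sm t W) x, b i⟫ := funext fun x => hW.sm_coord_eq t _ x
    rw [e]
    simpa using hWt.norm_coord_fderiv_le (b i) x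
  have hG' : ∀ i, PolyBd fun x => fderiv ℝ (G i) x := fun i => PolyBd.of_bound (hG1 i)
  have hKc : ∀ i j, ContDiff ℝ 1 (K i j) := fun i j => (hW.sm_coord_second ht _ _).1
  have hKp : ∀ i j, PolyBd fun x => fderiv ℝ (K i j) x := fun i j =>
    (hW.sm_coord_second ht _ _).2
  have hsymm : ∀ i j x, fderiv ℝ (K j j) x (b i) = fderiv ℝ (K j i) x (b j) := by
    intro i j x
    have h2 : ContDiff ℝ 2 (G j) := by
      rw [show (2 : WithTop ℕ∞) = 1 + 1 from (one_add_one_eq_two).symm,
        contDiff_succ_iff_fderiv_apply]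
      exact ⟨(hGc j).differentiable one_ne_zero, by simp, fun w => (hW.sm_coord_second ht _ w).1⟩
    have hd : DifferentiableAt ℝ (fderiv ℝ (G j)) x :=
      ((h2.fderiv_right (m := 1) (by simp [one_add_one_eq_two])).differentiable one_ne_zero) x
    simp only [K]
    rw [fderiv_clm_apply hd (differentiableAt_const _),
      fderiv_clm_apply hd (differentiableAt_const _)]
    simpa using (h2.contDiffAt.isSymmSndFDerivAt (x := x)
      (by simp [minSmoothness_of_isRCLikeNormedField])) (b i) (b j)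
  have hid := hV.div_identity b (K := K) hGc hGp hG' (fun i j x => rfl) hKc hKp hsymm
  have hv : ∀ x, ∑ i, G i x • b i = grad (sm t W) x := fun x => by
    conv_rhs => rw [← b.sum_repr' (grad (sm t W) x)]
    exact Finset.sum_congr rfl fun i _ => by
      simp only [G, hW.sm_coord_eq, real_inner_comm]
  simp only [hv] at hid
  set g := grad (sm t W)
  set f : E d → ℝ := fun x => ⟪x + grad V x, g x⟫
  set Λ : E d → ℝ := fun x => ∑ i, K i i x
  have hΛf : ∀ x, ∑ i, (K i i x - ⟪x + grad V x, b i⟫ * G i x) = Λ x - f x := fun x => by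
    simp only [Finset.sum_sub_distrib, Λ, f]
    rw [← hv x, inner_sum]
    simp only [real_inner_smul_right, mul_comm]
  simp only [hΛf] at hid
  have hB := hW.bound_nonneg
  have hη := hW.eta_nonneg
  have hs := Real.sqrt_nonneg (d : ℝ)
  have hgp := hWt.polyBd_grad
  have hgc := hWt.contDiff_grad.continuous
  have hfL : WLip f (3 * η * (B + 1) * √d) (2 * η) := by
    refine ⟨by positivity, by positivity, fun x y => ?_⟩
    have e : f x - f y = ⟪(x + grad V x) - (y + grad V y), g x⟫ + ⟪y + grad V y, g x - g y⟫ := by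
      simp only [f, inner_sub_left, inner_sub_right]; ring
    rw [e]
    refine (abs_add_le _ _).trans ((add_le_add ((abs_real_inner_le_norm _ _).trans
      (mul_le_mul (hV.force_lipschitz x y) (hWt.norm_grad_le x) (norm_nonneg _) (by positivity)))
      ((abs_real_inner_le_norm _ _).trans (mul_le_mul (?_ : _ ≤ 2 * ‖y‖ + (B + 1) * √d)
        (hWt.grad_lipschitz x y) (norm_nonneg _) (by positivity)))).trans ?_)
    · refine (norm_add_le _ _).trans ?_
      nlinarith [hV.norm_grad_le y, hV.eta_le_one, norm_nonneg y, hV.eta_nonneg,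
        mul_nonneg (add_nonneg hB zero_le_one) hs,
        mul_le_of_le_one_left (add_nonneg (mul_nonneg (add_nonneg hB zero_le_one) hs)
          (norm_nonneg y)) hV.eta_le_one]
    · nlinarith [norm_nonneg (x - y), mul_nonneg (mul_nonneg hη (norm_nonneg (x - y)))
        (norm_nonneg x)]
  have hsum : ∀ x, ⟪g x + fderiv ℝ (grad V) x (g x), g x⟫ + ∑ i, ∑ j, K i j x * K j i x ≤
      4 * η ^ 2 * ((B + 1) ^ 2 * d + ‖x‖ ^ 2) + d * η ^ 2 := by
    intro x
    refine add_le_add ?_ ?_
    · rw [inner_add_left, real_inner_self_eq_norm_sq]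
      refine le_trans (?_ : _ ≤ 2 * ‖g x‖ ^ 2) ?_
      · nlinarith [hV.hess_le x (g x), mul_le_of_le_one_left (sq_nonneg ‖g x‖) hV.eta_le_one]
      · have h : ‖g x‖ ^ 2 ≤ (η * ((B + 1) * √d + ‖x‖)) ^ 2 :=
          pow_le_pow_left₀ (norm_nonneg _) (hWt.norm_grad_le x) 2
        rw [show (B + 1) ^ 2 * (d : ℝ) = ((B + 1) * √d) ^ 2 by
          rw [mul_pow, Real.sq_sqrt (d.cast_nonneg (α := ℝ))]]
        nlinarith [mul_nonneg (sq_nonneg η) (sq_nonneg ((B + 1) * √d - ‖x‖))]
    · calc ∑ i, ∑ j, K i j x * K j i x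
          ≤ ∑ i, ∑ j, (K i j x ^ 2 + K j i x ^ 2) / 2 :=
            Finset.sum_le_sum fun i _ => Finset.sum_le_sum fun j _ => by
              nlinarith [sq_nonneg (K i j x - K j i x)]
        _ = ∑ i, ∑ j, K i j x ^ 2 := by
            simp only [add_div, Finset.sum_add_distrib]
            rw [Finset.sum_comm (f := fun i j => K j i x ^ 2 / 2)]
            simp only [← Finset.sum_add_distrib, add_halves]
        _ ≤ ∑ _i : Fin (Module.finrank ℝ (E d)), η ^ 2 := Finset.sum_le_sum fun i _ =>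
            sum_sq_apply_le b _ fun v => ((fderiv ℝ (G i) x).le_opNorm v).trans
              (mul_le_mul_of_nonneg_right (hG1 i x) (norm_nonneg v))
        _ = d * η ^ 2 := by simp
  have i2 : Integrable (fun x => ‖x‖ ^ 2) μ :=
    hV.integrable_law (PolyBd.id.norm.pow 2) (by fun_prop)
  have hKb : ∀ i j, PolyBd (K i j) := fun i j =>
    (hG' i).mul_of_le (PolyBd.const (b j)) fun x => (fderiv ℝ (G i) x).le_opNorm _
  have hΛp : PolyBd Λ := PolyBd.sum _ fun i _ => hKb i i
  have hΛc : Continuous Λ := continuous_finsetSum _ fun i _ => (hKc i i).continuous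
  have hΛi : Integrable Λ μ := hV.integrable_law hΛp hΛc
  have hRp : PolyBd fun x => Λ x - f x := hΛp.sub hfL.polyBd
  have hRc : Continuous fun x => Λ x - f x := hΛc.sub hfL.continuous
  have hRi : Integrable (fun x => Λ x - f x) μ := hV.integrable_law hRp hRc
  have hrhs : Integrable
      (fun x => ⟪g x + fderiv ℝ (grad V) x (g x), g x⟫ + ∑ i, ∑ j, K i j x * K j i x) μ :=
    hV.integrable_law (((hgp.add (hV.polyBd_hess.mul_of_le hgp fun x =>
        (fderiv ℝ (grad V) x).le_opNorm _)).mul_of_le hgp fun x => norm_inner_le_norm _ _).add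
      (PolyBd.sum _ fun i _ => PolyBd.sum _ fun j _ => (hKb i j).mul (hKb j i)))
      (((hgc.add ((hV.contDiff_grad.continuous_fderiv one_ne_zero).clm_apply hgc)).inner hgc).add
        (continuous_finsetSum _ fun i _ => continuous_finsetSum _ fun j _ =>
          (hKc i j).continuous.mul (hKc j i).continuous))
  have hR : ∫ x, (Λ x - f x) ^ 2 ∂μ ≤ (7 * (1 + B) * η * √d) ^ 2 := by
    rw [hid]
    have i3 : Integrable (fun x => 4 * η ^ 2 * ((B + 1) ^ 2 * d + ‖x‖ ^ 2)) μ :=
      ((integrable_const _).add i2).const_mul _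
    have i4 : Integrable (fun x => 4 * η ^ 2 * ((B + 1) ^ 2 * d + ‖x‖ ^ 2) + d * η ^ 2) μ :=
      i3.add (integrable_const _)
    refine (integral_mono hrhs i4 hsum).trans ?_
    rw [integral_add i3 (integrable_const _), integral_const_mul,
      integral_add (integrable_const _) i2]
    simp only [integral_const, probReal_univ, one_smul]
    have hq : (7 * (1 + B) * η * √d) ^ 2 = 49 * ((1 + B) ^ 2 * (η ^ 2 * d)) := by
      rw [mul_pow, Real.sq_sqrt d.cast_nonneg]; ring
    have hp1 : (1 : ℝ) ≤ (1 + B) ^ 2 := one_le_pow₀ (by linarith)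
    have hp2 : (1 + (B + 1)) ^ 2 ≤ 4 * (1 + B) ^ 2 := by nlinarith
    rw [hq]
    nlinarith [mul_le_mul_of_nonneg_left hV.integral_norm_sq_law_le
        (by positivity : (0 : ℝ) ≤ 4 * η ^ 2),
      mul_le_mul_of_nonneg_right hp2 (by positivity : (0 : ℝ) ≤ η ^ 2 * d),
      mul_le_mul_of_nonneg_right hp1 (by positivity : (0 : ℝ) ≤ η ^ 2 * d)]
  set m := ∫ y, f y ∂μ
  have hψi : Integrable ψ μ := Integrable.of_bound hψm.aestronglyMeasurable 1 (ae_of_all _ hψ)
  have hfi : Integrable (fun x => f x - m) μ :=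
    hV.integrable_law (hfL.polyBd.sub (PolyBd.const m)) (hfL.continuous.sub continuous_const)
  have hψb : ∀ {u : E d → ℝ}, Integrable u μ → Integrable (fun x => ψ x * u x) μ :=
    fun hu => hu.bdd_mul hψm.aestronglyMeasurable (ae_of_all _ hψ)
  have e : ∫ x, ψ x * Λ x ∂μ =
      ∫ x, ψ x * (Λ x - f x) ∂μ + ∫ x, ψ x * (f x - m) ∂μ := by
    rw [← integral_add (hψb hRi) (hψb hfi)]
    have : (fun x => ψ x * (Λ x - f x) + ψ x * (f x - m)) = fun x => ψ x * Λ x - ψ x * m := by
      funext x; ring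
    rw [this, integral_sub (hψb hΛi) (hψi.mul_const m), integral_mul_const, h0]
    simp
  change |∫ x, ψ x * Λ x ∂μ| ≤ _
  rw [e]
  have hR1 : |∫ x, ψ x * (Λ x - f x) ∂μ| ≤ 7 * (1 + B) * η * √d := by
    refine (abs_integral_mul_le hψ hRi).trans ((integral_abs_le_sqrt hRi
      (hV.integrable_law (hRp.pow 2) (hRc.pow 2))).trans ?_)
    rw [← Real.sqrt_sq (by positivity : 0 ≤ 7 * (1 + B) * η * √d)]
    exact Real.sqrt_le_sqrt hR
  have hf1 : |∫ x, ψ x * (f x - m) ∂μ| ≤
      9 * (3 * η * (B + 1) * √d + 256 * (2 * η) * ((1 + (B + 1)) * √d)) :=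
    (abs_integral_mul_le hψ hfi).trans (hV.cov_le hfL)
  refine (abs_add_le _ _).trans ((add_le_add hR1 hf1).trans ?_)
  nlinarith [mul_nonneg hη hs, mul_nonneg (mul_nonneg hη hs) hB]

theorem hasDerivAt_sm_scale (σ r : ℝ) (x : E d) :
    HasDerivAt (fun r => sm (r * σ) W x)
      (σ * (r * σ) * ∑ i, fderiv ℝ (sm (r * σ) fun y => ⟪grad W y, stdOrthonormalBasis ℝ (E d) i⟫) x
        (stdOrthonormalBasis ℝ (E d) i)) r := by
  set γ := stdGaussian (E d)
  set b := stdOrthonormalBasis ℝ (E d)
  have hd : Differentiable ℝ W := hW.contDiff.differentiable (by norm_num)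
  have hWc := hW.contDiff.continuous
  have hgc := hW.contDiff_grad.continuous
  set bd : E d → ℝ := fun z =>
    |σ| * (η * (B * √d + (‖x‖ + (|r| + 1) * |σ| * ‖z‖))) * ‖z‖
  have hbi : Integrable bd γ := by
    refine PolyBd.integrable _ ?_ (Continuous.aestronglyMeasurable (by fun_prop))
    exact ((PolyBd.const |σ|).mul ((PolyBd.const η).mul ((PolyBd.const (B * √d)).add
      ((PolyBd.const ‖x‖).add ((PolyBd.const ((|r| + 1) * |σ|)).mul PolyBd.id.norm))))).mul
        PolyBd.id.norm
  have h := (hasDerivAt_integral_of_dominated_loc_of_deriv_le (μ := γ)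
    (F := fun r z => W (x + (r * σ) • z))
    (F' := fun r z => σ * ⟪grad W (x + (r * σ) • z), z⟫) (bound := bd)
    (Metric.ball_mem_nhds r one_pos)
    (Eventually.of_forall fun s => (integrable_shift hWc hW.polyBd_self (s * σ) x).aestronglyMeasurable)
    (integrable_shift hWc hW.polyBd_self (r * σ) x)
    (Continuous.aestronglyMeasurable (by fun_prop))
    (ae_of_all _ fun z s hs => ?_) hbi (ae_of_all _ fun z s _ => ?_)).2
  · refine h.congr_deriv ?_
    rw [integral_const_mul, mul_assoc]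
    congr 1
    have e1 : ∀ z, ⟪grad W (x + (r * σ) • z), z⟫ =
        ∑ i, ⟪z, b i⟫ * ⟪grad W (x + (r * σ) • z), b i⟫ := fun z => by
      conv_lhs => rw [← b.sum_inner_mul_inner (grad W (x + (r * σ) • z)) z]
      exact Finset.sum_congr rfl fun i _ => by rw [mul_comm, real_inner_comm z]
    simp_rw [e1]
    rw [integral_finsetSum _ fun i _ => ((polyBd_inner (b i)).mul
      (polyBd_shift (hW.coord_polyBd (b i)) _ x)).integrable _ (by fun_prop), Finset.mul_sum]
    refine Finset.sum_congr rfl fun i _ => ?_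
    set f := fun y => ⟪grad W y, b i⟫
    have hf : ContDiff ℝ 1 f := hW.coord_contDiff _
    have hfd : ∀ z, fderiv ℝ (fun z => f (x + (r * σ) • z)) z =
        (r * σ) • fderiv ℝ f (x + (r * σ) • z) := fun z => by
      refine HasFDerivAt.fderiv ?_
      refine (((hf.differentiable one_ne_zero) (x + (r * σ) • z)).hasFDerivAt.comp z
        (((hasFDerivAt_id z).const_smul (r * σ)).const_add x)).congr_fderiv ?_
      ext v; simp
    have hg := gauss_ibp (φ := fun z => f (x + (r * σ) • z)) (by fun_prop)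
      (polyBd_shift (hW.coord_polyBd _) _ x) (((PolyBd.const (r * σ)).smul
        (polyBd_shift (hW.coord_polyBd' (b i)) _ x)).of_le fun z => by rw [hfd]) (b i)
    simp only [hfd, _root_.smul_apply, smul_eq_mul, integral_const_mul] at hg
    rw [← hg, (sm_hasFDerivAt hf (hW.coord_polyBd _) (hW.coord_polyBd' _) _ x).fderiv, sm,
      ContinuousLinearMap.integral_apply
        (integrable_shift (hf.continuous_fderiv one_ne_zero) (hW.coord_polyBd' _) _ x)]
  · rw [Real.norm_eq_abs, abs_mul]
    simp only [bd]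
    rw [mul_assoc |σ|]
    refine mul_le_mul_of_nonneg_left ?_ (abs_nonneg σ)
    refine (abs_real_inner_le_norm _ _).trans (mul_le_mul_of_nonneg_right ?_ (norm_nonneg z))
    refine (hW.norm_grad_le _).trans (mul_le_mul_of_nonneg_left ?_ hW.eta_nonneg)
    gcongr
    refine (norm_add_le _ _).trans (add_le_add le_rfl ?_)
    rw [norm_smul, Real.norm_eq_abs, abs_mul]
    rw [Metric.mem_ball, Real.dist_eq] at hs
    have : |s| ≤ |r| + 1 := by linarith [abs_sub_abs_le_abs_sub s r]
    gcongr
  · have h1 : HasDerivAt (fun s : ℝ => x + (s * σ) • z) (σ • z) s := by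
      simpa using (((hasDerivAt_id s).mul_const σ).smul_const z).const_add x
    have h2 := (hd (x + (s * σ) • z)).hasFDerivAt.comp_hasDerivAt s h1
    rw [map_smul, ← inner_grad, smul_eq_mul] at h2
    exact h2

theorem cov_sm_sub_le {V : E d → ℝ} (hV : Pert η (B + 1) V) {σ : ℝ} (hσ : 0 < σ) (hσ1 : σ ≤ 1)
    {ψ : E d → ℝ} (hψm : Measurable ψ) (hψ : ∀ x, |ψ x| ≤ 1) (h0 : ∫ x, ψ x ∂law V = 0) :
    |∫ x, ψ x * (sm σ W x - W x) ∂law V| ≤ 10000 * (1 + B) * η * σ ^ 2 * √d := by
  have := hV.isProbabilityMeasure_law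
  set b := stdOrthonormalBasis ℝ (E d)
  set μ := law V
  set Λ : ℝ → E d → ℝ := fun t x =>
    ∑ i, fderiv ℝ (sm t fun y => ⟪grad W y, b i⟫) x (b i) with hΛ
  set G : ℝ → ℝ := fun r => ∫ x, ψ x * sm (r * σ) W x ∂μ
  have hs : ∀ r, Continuous (sm (r * σ) W) ∧ PolyBd (sm (r * σ) W) := fun r =>
    ⟨sm_continuous hW.contDiff.continuous hW.polyBd_self _, sm_polyBd hW.polyBd_self _⟩
  have hi : ∀ r, Integrable (fun x => ψ x * sm (r * σ) W x) μ := fun r =>
    (hV.integrable_law (hs r).2 (hs r).1).bdd_mul hψm.aestronglyMeasurable (ae_of_all _ hψ)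
  have hΛb : ∀ t x, |Λ t x| ≤ d * η := fun t x => by
    refine (Finset.abs_sum_le_sum_abs _ _).trans ?_
    calc ∑ i, |fderiv ℝ (sm t fun y => ⟪grad W y, b i⟫) x (b i)|
        ≤ ∑ _i : Fin (Module.finrank ℝ (E d)), η := Finset.sum_le_sum fun i _ => by
          have hle := (fderiv ℝ (sm t fun y => ⟪grad W y, b i⟫) x).le_opNorm (b i)
          rw [Real.norm_eq_abs, b.norm_eq_one, mul_one] at hle
          refine hle.trans ?_
          rw [(sm_hasFDerivAt (hW.coord_contDiff _) (hW.coord_polyBd _) (hW.coord_polyBd' _) t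
            x).fderiv, sm]
          refine (norm_integral_le_of_norm_le (integrable_const η) (ae_of_all _ fun z => ?_)).trans
            (by simp)
          simpa using hW.norm_coord_fderiv_le (b i) (x + t • z)
      _ = d * η := by simp
  have hΛm : ∀ t, Continuous (Λ t) := fun t => continuous_finsetSum _ fun i _ =>
    ((sm_contDiff_one (hW.coord_contDiff _) (hW.coord_polyBd _) (hW.coord_polyBd' _)
      t).continuous_fderiv one_ne_zero).clm_apply continuous_const
  have hG : ∀ r, HasDerivAt G (σ * (r * σ) * ∫ x, ψ x * Λ (r * σ) x ∂μ) r := fun r => by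
    have h := (hasDerivAt_integral_of_dominated_loc_of_deriv_le (μ := μ)
      (F := fun r x => ψ x * sm (r * σ) W x)
      (F' := fun r x => ψ x * (σ * (r * σ) * Λ (r * σ) x))
      (bound := fun _ => |σ| * ((|r| + 1) * |σ|) * (d * η))
      (Metric.ball_mem_nhds r one_pos) (Eventually.of_forall fun s => (hi s).aestronglyMeasurable)
      (hi r) ((hψm.mul ((hΛm _).measurable.const_mul _)).aestronglyMeasurable)
      (ae_of_all _ fun x s hs => ?_) (integrable_const _)
      (ae_of_all _ fun x s _ => (hW.hasDerivAt_sm_scale σ s x).const_mul (ψ x))).2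
    · refine h.congr_deriv ?_
      rw [← integral_const_mul]
      congr 1; funext x; ring
    · rw [Metric.mem_ball, Real.dist_eq] at hs
      have hsr : |s| ≤ |r| + 1 := by linarith [abs_sub_abs_le_abs_sub s r]
      rw [Real.norm_eq_abs, abs_mul, abs_mul, abs_mul, abs_mul]
      refine (mul_le_of_le_one_left (by positivity) (hψ x)).trans ?_
      gcongr
      exact hΛb _ x
  obtain ⟨c, hc, hslope⟩ := exists_hasDerivAt_eq_slope G
    (fun r => σ * (r * σ) * ∫ x, ψ x * Λ (r * σ) x ∂μ) (zero_lt_one (α := ℝ))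
    (fun r _ => (hG r).continuousAt.continuousWithinAt) fun r _ => hG r
  simp only [sub_zero, div_one] at hslope
  have hG0 : G 0 = ∫ x, ψ x * W x ∂μ := by
    simp only [G, zero_mul, sm, zero_smul, add_zero, integral_const, probReal_univ, one_smul]
  have e : ∫ x, ψ x * (sm σ W x - W x) ∂μ = G 1 - G 0 := by
    have h1 := hi 1
    rw [one_mul] at h1
    rw [hG0]
    simp only [G, one_mul]
    rw [← integral_sub h1 ((hV.integrable_law hW.polyBd_self hW.contDiff.continuous).bdd_mul
      hψm.aestronglyMeasurable (ae_of_all _ hψ))]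
    congr 1; funext x; ring
  rw [e, ← hslope, abs_mul]
  have hcσ : 0 < c * σ := mul_pos hc.1 hσ
  have hcσ1 : |c * σ| ≤ 1 := by
    rw [abs_of_pos hcσ]; exact mul_le_one₀ hc.2.le hσ.le hσ1
  have hbound := hW.cov_trace_le hV hcσ.ne' hcσ1 hψm hψ h0
  have hfac : |σ * (c * σ)| ≤ σ ^ 2 := by
    rw [abs_of_nonneg (by positivity)]
    nlinarith [hc.2, sq_nonneg σ]
  calc |σ * (c * σ)| * |∫ x, ψ x * Λ (c * σ) x ∂μ|
      ≤ σ ^ 2 * (10000 * (1 + B) * η * √d) :=
        mul_le_mul hfac hbound (abs_nonneg _) (sq_nonneg σ)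
    _ = _ := by ring

end Pert

/-- Smoothing at scale `σ` costs `O((1+B)² η σ² √d)` in total variation. -/
theorem tv_sm : ∃ C : ℝ, ∀ (d : ℕ) (η B σ : ℝ) (W : E d → ℝ), Pert η B W → 0 < σ → σ ≤ 1 →
    TVLe (law W) (law (sm σ W)) (C * (1 + B) ^ 2 * η * σ ^ 2 * √d) := by
  refine ⟨10000, fun d η B σ W hW hσ hσ1 => ?_⟩
  have h0 : Pert η (B + 1) W :=
    ⟨hW.eta_nonneg, hW.eta_le_one, by linarith [hW.bound_nonneg], hW.contDiff, hW.hess_nonneg,
      hW.hess_le, hW.grad_zero_le.trans (by
        have := hW.eta_nonneg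
        have := Real.sqrt_nonneg (d : ℝ)
        gcongr
        linarith)⟩
  have h1 : Pert η (B + 1) (sm σ W) := hW.sm_pert (by rw [abs_of_pos hσ]; exact hσ1)
  have h := tv_interp h0 h1 fun s hs ψ hψm hψ hψ0 =>
    hW.cov_sm_sub_le (pert_mix h0 h1 hs) hσ hσ1 hψm hψ hψ0
  intro S hS
  refine (h S hS).trans ?_
  have hB := hW.bound_nonneg
  have : (1 + B) ≤ (1 + B) ^ 2 := by nlinarith
  have := hW.eta_nonneg
  gcongr

end Vale.Agent.P347
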