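import Vale.Agent.P347.Poincare
import Vale.Agent.P347.Smoothing

/-!
# P347: a centred Lipschitz kick of a standard Gaussian vector

If `F` is `L`-Lipschitz and centred under a standard Gaussian, then `ζ + F Z` is within
`C L² √d` of a standard Gaussian: the likelihood ratio `h` satisfies
`E h² = E exp ⟪F Z, F Z'⟫`.
-/

open MeasureTheory ProbabilityTheory Real Set
open scoped RealInnerProductSpace ENNReal

namespace Vale.Agent.P347

variable {d : ℕ}

/-- Translation of the standard Gaussian. -/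
theorem integral_translate_stdGaussian (u : E d → ℝ) (m : E d) :
    ∫ v, u (v + m) ∂stdGaussian (E d) =
      ∫ v, u v * exp (⟪m, v⟫ - ‖m‖ ^ 2 / 2) ∂stdGaussian (E d) := by
  simp only [integral_stdGaussian, smul_eq_mul]
  congr 1
  rw [← integral_add_right_eq_self (fun v => exp (-gPot v) * u (v + m)) (-m)]
  congr 1
  funext v
  have e : -gPot (v + -m) = -gPot v + (⟪m, v⟫ - ‖m‖ ^ 2 / 2) := by
    rw [gPot, gPot, norm_add_sq_real, norm_neg, inner_neg_right, real_inner_comm m v]; ring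
  rw [neg_add_cancel_right, e, exp_add]
  ring

section
variable {R : Type*} [NormedAddCommGroup R] [InnerProductSpace ℝ R] [FiniteDimensional ℝ R]
  [MeasurableSpace R] [BorelSpace R]

theorem kick_chi2 {F : R → E d} (hF : ContDiff ℝ 1 F) {u : E d → ℝ} (hu : Measurable u)
    (hu1 : ∀ v, |u v| ≤ 1) {K : ℝ} (hK0 : 0 ≤ K)
    (hK : ∫⁻ p, ENNReal.ofReal (exp ⟪F p.1, F p.2⟫) ∂(stdGaussian R).prod (stdGaussian R)
      ≤ ENNReal.ofReal K) :
    |(∫ v, ∫ z, u (v + F z) ∂stdGaussian R ∂stdGaussian (E d)) - ∫ v, u v ∂stdGaussian (E d)|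
      ≤ √(K - 1) := by
  set γ := stdGaussian (E d)
  set ρ := stdGaussian R
  have hFc := hF.continuous
  set k : R → E d → ℝ := fun z v => exp (⟪F z, v⟫ - ‖F z‖ ^ 2 / 2) with hk
  have hkc : Continuous fun p : E d × R => k p.2 p.1 := by simp only [hk]; fun_prop
  have hkv : ∀ v, Measurable fun z => ENNReal.ofReal (k z v) := fun v => by
    simp only [hk]; fun_prop
  have hkz : ∀ z, ∫⁻ v, ENNReal.ofReal (k z v) ∂γ = 1 := fun z => by
    have e : ∀ v, ENNReal.ofReal (k z v) =
        ENNReal.ofReal (exp (-(‖F z‖ ^ 2 / 2))) * ENNReal.ofReal (exp ⟪F z, v⟫) := fun v => by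
      rw [← ENNReal.ofReal_mul (exp_pos _).le, ← exp_add]; simp only [hk]; ring_nf
    simp_rw [e]
    rw [lintegral_const_mul _ (by fun_prop), lintegral_exp_inner,
      ← ENNReal.ofReal_mul (exp_pos _).le, ← exp_add]
    simp
  have hint : Integrable (fun p : E d × R => k p.2 p.1) (γ.prod ρ) := by
    refine ⟨hkc.aestronglyMeasurable, ?_⟩
    rw [hasFiniteIntegral_iff_ofReal (ae_of_all _ fun p => (exp_pos _).le),
      lintegral_prod_symm _ (hkc.measurable.ennreal_ofReal.aemeasurable)]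
    simp [hkz]
  set h : E d → ℝ := fun v => ∫ z, k z v ∂ρ
  have hh0 : ∀ v, 0 ≤ h v := fun v => integral_nonneg fun z => (exp_pos _).le
  have hhm : AEStronglyMeasurable h γ := hint.aestronglyMeasurable.integral_prod_right'
  have hhi : Integrable h γ := hint.integral_prod_left
  have hh1 : ∫ v, h v ∂γ = 1 := by
    have e1 : ∀ z, ∫ v, k z v ∂γ = 1 := fun z => by
      rw [integral_eq_lintegral_of_nonneg_ae (f := fun v => k z v)
        (ae_of_all _ fun v => (exp_pos _).le) (by simp only [hk]; fun_prop), hkz,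
        ENNReal.toReal_one]
    calc ∫ v, h v ∂γ = ∫ z, ∫ v, k z v ∂γ ∂ρ := integral_integral_swap hint
      _ = 1 := by simp [e1]
  have hsq : ∫⁻ v, ENNReal.ofReal (h v ^ 2) ∂γ ≤ ENNReal.ofReal K := by
    refine le_trans ?_ hK
    calc ∫⁻ v, ENNReal.ofReal (h v ^ 2) ∂γ
        ≤ ∫⁻ v, (∫⁻ z, ENNReal.ofReal (k z v) ∂ρ) ^ 2 ∂γ := by
          refine lintegral_mono fun v => ?_
          rw [ENNReal.ofReal_pow (hh0 v)]
          refine pow_le_pow_left₀ zero_le ?_ 2
          by_cases hi : Integrable (fun z => k z v) ρ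
          · rw [ofReal_integral_eq_lintegral_ofReal hi (ae_of_all _ fun z => (exp_pos _).le)]
          · simp [h, integral_undef hi]
      _ = ∫⁻ v, ∫⁻ p, ENNReal.ofReal (k p.1 v) * ENNReal.ofReal (k p.2 v) ∂ρ.prod ρ ∂γ := by
          refine lintegral_congr fun v => ?_
          rw [pow_two, lintegral_prod_mul (f := fun z => ENNReal.ofReal (k z v))
            (g := fun z => ENNReal.ofReal (k z v)) (hkv v).aemeasurable (hkv v).aemeasurable]
      _ = ∫⁻ p, ∫⁻ v, ENNReal.ofReal (k p.1 v) * ENNReal.ofReal (k p.2 v) ∂γ ∂ρ.prod ρ := by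
          refine lintegral_lintegral_swap (Measurable.aemeasurable ?_)
          simp only [hk]
          fun_prop
      _ = _ := by
          refine lintegral_congr fun p => ?_
          have e : ∀ v, ENNReal.ofReal (k p.1 v) * ENNReal.ofReal (k p.2 v) =
              ENNReal.ofReal (exp (-(‖F p.1‖ ^ 2 / 2) - ‖F p.2‖ ^ 2 / 2)) *
                ENNReal.ofReal (exp ⟪F p.1 + F p.2, v⟫) := fun v => by
            simp only [hk]
            rw [← ENNReal.ofReal_mul (exp_pos _).le, ← ENNReal.ofReal_mul (exp_pos _).le,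
              ← exp_add, ← exp_add, inner_add_left]
            ring_nf
          simp_rw [e]
          rw [lintegral_const_mul _ (by fun_prop), lintegral_exp_inner,
            ← ENNReal.ofReal_mul (exp_pos _).le, ← exp_add, norm_add_sq_real]
          ring_nf
  have hh2 : Integrable (fun v => h v ^ 2) γ := by
    refine ⟨hhm.pow 2, ?_⟩
    rw [hasFiniteIntegral_iff_ofReal (ae_of_all _ fun v => sq_nonneg _)]
    exact hsq.trans_lt ENNReal.ofReal_lt_top
  have hh2le : ∫ v, h v ^ 2 ∂γ ≤ K := by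
    rw [← ofReal_integral_eq_lintegral_ofReal hh2 (ae_of_all _ fun v => sq_nonneg _),
      ENNReal.ofReal_le_ofReal_iff hK0] at hsq
    exact hsq
  have hiu : Integrable (fun p : E d × R => u p.1 * k p.2 p.1) (γ.prod ρ) :=
    hint.bdd_mul (hu.comp measurable_fst).aestronglyMeasurable (ae_of_all _ fun p => hu1 p.1)
  have hiu2 : Integrable (fun p : E d × R => u (p.1 + F p.2)) (γ.prod ρ) :=
    Integrable.of_bound (hu.comp (by fun_prop)).aestronglyMeasurable 1 (ae_of_all _ fun p => hu1 _)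
  have e : ∫ v, ∫ z, u (v + F z) ∂ρ ∂γ = ∫ v, u v * h v ∂γ := by
    calc ∫ v, ∫ z, u (v + F z) ∂ρ ∂γ = ∫ z, ∫ v, u (v + F z) ∂γ ∂ρ :=
          integral_integral_swap hiu2
      _ = ∫ z, ∫ v, u v * k z v ∂γ ∂ρ := by
          congr 1; funext z; exact integral_translate_stdGaussian u (F z)
      _ = ∫ v, ∫ z, u v * k z v ∂ρ ∂γ := (integral_integral_swap hiu).symm
      _ = _ := by congr 1; funext v; rw [integral_const_mul]
  have hiu0 : Integrable u γ := Integrable.of_bound hu.aestronglyMeasurable 1 (ae_of_all _ hu1)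
  have hiuh : Integrable (fun v => u v * h v) γ :=
    hhi.bdd_mul hu.aestronglyMeasurable (ae_of_all _ hu1)
  have hd : Integrable (fun v => h v - 1) γ := hhi.sub (integrable_const _)
  rw [e, ← integral_sub hiuh hiu0, show (fun v => u v * h v - u v) = fun v => u v * (h v - 1) by
    funext v; ring]
  have e2 : ∀ v, (h v - 1) ^ 2 = h v ^ 2 - 2 * h v + 1 := fun v => by ring
  have i2 : Integrable (fun v => (h v - 1) ^ 2) γ := by
    simp_rw [e2]
    exact (hh2.sub (hhi.const_mul 2)).add (integrable_const 1)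
  refine (abs_integral_mul_le hu1 hd).trans ((integral_abs_le_sqrt hd i2).trans
    (Real.sqrt_le_sqrt ?_))
  simp_rw [e2]
  rw [integral_add (f := fun v => h v ^ 2 - 2 * h v) (hh2.sub (hhi.const_mul 2))
    (integrable_const _), integral_sub hh2 (hhi.const_mul 2), integral_const_mul, hh1]
  simp
  linarith

theorem kick_le_const {F : R → E d} (hF : ContDiff ℝ 1 F) {L : ℝ}
    (hL : ∀ z, ‖fderiv ℝ F z‖ ≤ L) (h0 : ∫ z, F z ∂stdGaussian R = 0) {u : E d → ℝ}
    (hu : Measurable u) (hu1 : ∀ v, |u v| ≤ 1) :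
    |(∫ v, ∫ z, u (v + F z) ∂stdGaussian R ∂stdGaussian (E d)) - ∫ v, u v ∂stdGaussian (E d)|
      ≤ 12 * L ^ 2 * √d := by
  rcases Nat.eq_zero_or_pos d with rfl | hd
  · have hF0 : ∀ z, F z = 0 := fun z => Subsingleton.elim _ _
    simp [hF0]
  have hd1 : (1 : ℝ) ≤ d := by exact_mod_cast hd
  set x := Real.pi ^ 4 * L ^ 4 / 16 with hx
  have hx0 : 0 ≤ x := by positivity
  have hsd := Real.sq_sqrt (d.cast_nonneg (α := ℝ))
  have hq : x * d = Real.pi ^ 4 / 16 * (L ^ 2 * √d) ^ 2 := by rw [hx, mul_pow, hsd]; ring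
  have hpi : Real.pi ^ 4 ≤ 256 :=
    (pow_le_pow_left₀ Real.pi_pos.le Real.pi_le_four 4).trans (by norm_num)
  have hy0 : 0 ≤ L ^ 2 * √(d : ℝ) := by positivity
  by_cases hsmall : x * d ≤ 1 / 2
  · have hx1 : x ≤ 1 / 2 := (le_mul_of_one_le_right hx0 hd1).trans hsmall
    have hpair := lintegral_exp_inner_pair_le hF hL h0 (one_pos : (0 : ℝ) < 1)
      (by rw [one_pow, mul_one]; linarith)
    simp only [div_one, one_pow, mul_one, finrank_euclideanSpace_fin] at hpair
    refine (kick_chi2 hF hu hu1 (by positivity) hpair).trans ?_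
    have hb : (√(1 - x))⁻¹ ≤ exp x := by
      have h1 : exp (-x) ≤ √(1 - x) := by
        refine Real.le_sqrt_of_sq_le ?_
        rw [← exp_nat_mul]
        have := add_one_le_exp (((2 : ℕ) : ℝ) * x)
        push_cast at this ⊢
        rw [show (2 : ℝ) * -x = -(2 * x) by ring, exp_neg]
        refine inv_le_of_inv_le₀ (by linarith) (le_trans ?_ this)
        rw [inv_eq_one_div, div_le_iff₀ (by linarith)]
        nlinarith
      calc (√(1 - x))⁻¹ ≤ (exp (-x))⁻¹ := inv_anti₀ (exp_pos _) h1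
        _ = exp x := by rw [exp_neg, inv_inv]
    have hpow : ((√(1 - x))⁻¹) ^ d ≤ exp (x * d) := by
      refine (pow_le_pow_left₀ (by positivity) hb d).trans_eq ?_
      rw [← exp_nat_mul, mul_comm]
    have hexp : exp (x * d) - 1 ≤ 2 * (x * d) := by
      have hy : 0 ≤ x * d := mul_nonneg hx0 d.cast_nonneg
      have h1 := add_one_le_exp (-(x * d))
      rw [exp_neg, le_inv_comm₀ (by linarith) (exp_pos _)] at h1
      have h2 : (-(x * d) + 1)⁻¹ ≤ 1 + 2 * (x * d) := by
        rw [inv_eq_one_div, div_le_iff₀ (by linarith)]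
        nlinarith
      linarith
    rw [← Real.sqrt_sq (by positivity : 0 ≤ 12 * L ^ 2 * √d)]
    refine Real.sqrt_le_sqrt (le_trans (sub_le_sub_right hpow 1) (hexp.trans ?_))
    rw [hq]
    nlinarith [sq_nonneg (L ^ 2 * √d)]
  · have h2 : |(∫ v, ∫ z, u (v + F z) ∂stdGaussian R ∂stdGaussian (E d)) -
        ∫ v, u v ∂stdGaussian (E d)| ≤ 2 := by
      refine (abs_sub _ _).trans ?_
      have hb : ∀ v, ‖∫ z, u (v + F z) ∂stdGaussian R‖ ≤ 1 := fun v =>
        (norm_integral_le_of_norm_le_const (ae_of_all _ fun z => hu1 (v + F z))).trans (by simp)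
      have ha := norm_integral_le_of_norm_le_const (μ := stdGaussian (E d)) (ae_of_all _ hb)
      have hc := norm_integral_le_of_norm_le_const (μ := stdGaussian (E d)) (f := u) (C := 1)
        (ae_of_all _ fun v => hu1 v)
      simp only [probReal_univ, mul_one, Real.norm_eq_abs] at ha hc
      linarith
    refine h2.trans ?_
    rw [hq] at hsmall
    nlinarith [mul_le_mul_of_nonneg_right (show Real.pi ^ 4 / 16 ≤ 16 by linarith)
      (sq_nonneg (L ^ 2 * √d))]

end

/-- A centred Lipschitz kick costs `O (L² √d)`. -/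
theorem kick_le : ∃ C : ℝ, ∀ (d : ℕ) {R : Type} [NormedAddCommGroup R] [InnerProductSpace ℝ R]
    [FiniteDimensional ℝ R] [MeasurableSpace R] [BorelSpace R] (F : R → E d) (L : ℝ),
    ContDiff ℝ 1 F → (∀ z, ‖fderiv ℝ F z‖ ≤ L) → (∫ z, F z ∂stdGaussian R) = 0 →
    ∀ (u : E d → ℝ), Measurable u → (∀ v, |u v| ≤ 1) →
      |(∫ v, ∫ z, u (v + F z) ∂stdGaussian R ∂stdGaussian (E d)) - ∫ v, u v ∂stdGaussian (E d)|
        ≤ C * L ^ 2 * √d :=
  ⟨12, fun _ _ _ _ _ _ _ _ _ hF hL h0 _ hu hu1 => kick_le_const hF hL h0 hu hu1⟩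

end Vale.Agent.P347
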