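import Vale.Agent.P347.CellOp
import Vale.Agent.P347.Kick

/-!
# P347: the weak error of one cell against the invariant law

The noise of the final nodes is a kick of the velocity at those nodes. A centred kick of size
`L` costs `L² √d` against a bounded test, whereas all other errors enter through the Lipschitz
constant of the test.
-/

open MeasureTheory ProbabilityTheory Real Set
open scoped RealInnerProductSpace

namespace Vale.Agent.P347

variable {d : ℕ}

/-- The law of a block of noise. -/
theorem measurePreserving_block {ι : Type} [Fintype ι] [DecidableEq ι] (i : ι) :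
    MeasurePreserving (fun R : Noise d ι => R i) (stdGaussian (Noise d ι)) (stdGaussian (E d)) := by
  have hm : Measurable fun R : Noise d ι => R i :=
    (PiLp.proj 2 (𝕜 := ℝ) (fun _ : ι => E d) i).continuous.measurable
  refine ⟨hm, ?_⟩
  rw [← (measurePreserving_repl (d := d) i).map_eq, Measure.map_map hm
    (measurePreserving_repl (d := d) i).measurable,
    show ((fun R : Noise d ι => R i) ∘ fun p : Noise d ι × E d => repl i p.1 p.2) = Prod.snd from
      funext fun p => by simp [repl_apply]]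
  exact measurePreserving_snd.map_eq

variable {gU : E d → E d} {Φ : E d → E d → E d} {b : ℝ} {bias : E d → ℝ}

/-- The centred part of an estimate. -/
noncomputable def fluct (Φ : E d → E d → E d) (p ζ : E d) : E d :=
  Φ p ζ - ∫ x, Φ p x ∂stdGaussian (E d)

namespace Est

variable (hΦ : Est gU Φ b bias)
include hΦ

theorem continuous : Continuous fun q : E d × E d => Φ q.1 q.2 := hΦ.smooth.continuous

theorem integrable (p : E d) : Integrable (Φ p) (stdGaussian (E d)) :=
  (PolyBd.of_lipschitz hΦ.b_nonneg (hΦ.lip_noise p)).integrable _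
    (hΦ.continuous.comp (Continuous.prodMk_right p)).aestronglyMeasurable

theorem lip_fst (p q z : E d) : ‖Φ p z - Φ q z‖ ≤ ‖p - q‖ := by
  have := (hΦ.adm z).1 p q
  simpa using this

theorem mean_lip (p q : E d) :
    ‖(∫ z, Φ p z ∂stdGaussian (E d)) - ∫ z, Φ q z ∂stdGaussian (E d)‖ ≤ ‖p - q‖ := by
  rw [← integral_sub (hΦ.integrable p) (hΦ.integrable q)]
  exact (norm_integral_le_of_norm_le_const (ae_of_all _ fun z => hΦ.lip_fst p q z)).trans (by simp)

theorem continuous_fluct : Continuous fun q : E d × E d => fluct Φ q.1 q.2 := by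
  have h1 : Continuous fun p => ∫ z, Φ p z ∂stdGaussian (E d) :=
    (LipschitzWith.of_dist_le_mul (K := 1) fun p q => by
      rw [dist_eq_norm, dist_eq_norm, NNReal.coe_one, one_mul]; exact hΦ.mean_lip p q).continuous
  exact hΦ.continuous.sub (h1.comp continuous_fst)

theorem fluct_le (p ζ : E d) : ‖fluct Φ p ζ‖ ≤ b * (‖ζ‖ + √d) := by
  have hi : Integrable (fun x : E d => b * (‖ζ‖ + ‖x‖)) (stdGaussian (E d)) :=
    ((integrable_const _).add (PolyBd.id.norm.integrable _ (by fun_prop))).const_mul b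
  rw [fluct, show Φ p ζ - ∫ x, Φ p x ∂stdGaussian (E d) =
      ∫ x, (Φ p ζ - Φ p x) ∂stdGaussian (E d) by
    rw [integral_sub (integrable_const _) (hΦ.integrable p)]; simp]
  refine (norm_integral_le_of_norm_le hi (ae_of_all _ fun x => (hΦ.lip_noise p ζ x).trans
    (mul_le_mul_of_nonneg_left (norm_sub_le _ _) hΦ.b_nonneg))).trans ?_
  rw [integral_const_mul, integral_add (integrable_const _)
    (PolyBd.id.norm.integrable _ (by fun_prop))]
  simp only [integral_const, probReal_univ, one_smul]
  exact mul_le_mul_of_nonneg_left (add_le_add le_rfl integral_norm_stdGaussian_le) hΦ.b_nonneg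

theorem fluct_lip_fst (p q ζ : E d) : ‖fluct Φ p ζ - fluct Φ q ζ‖ ≤ 2 * ‖p - q‖ := by
  rw [fluct, fluct, sub_sub_sub_comm]
  refine (norm_sub_le _ _).trans ?_
  linarith [hΦ.lip_fst p q ζ, hΦ.mean_lip p q]

theorem bias_nonneg (p : E d) : 0 ≤ bias p := (norm_nonneg _).trans (hΦ.bias_le p)

theorem integral_fluct (p : E d) : ∫ ζ, fluct Φ p ζ ∂stdGaussian (E d) = 0 := by
  simp only [fluct]
  rw [integral_sub (hΦ.integrable p) (integrable_const _)]
  simp

/-- The deviation of an estimate. -/
theorem dev_le (p ζ : E d) : ‖Φ p ζ - gU p‖ ≤ b * (‖ζ‖ + √d) + bias p := by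
  rw [show Φ p ζ - gU p = fluct Φ p ζ + ((∫ x, Φ p x ∂stdGaussian (E d)) - gU p) by
    simp [fluct]]
  exact (norm_add_le _ _).trans (add_le_add (hΦ.fluct_le p ζ) (hΦ.bias_le p))

end Est

/-- A centred kick at time `t` against the invariant law. -/
theorem Pert.kick_step {η B : ℝ} {U : E d → ℝ} (hU : Pert η B U) (hΦ : Est gU Φ b bias) {t : ℝ}
    (ht : t ∈ Icc (0 : ℝ) (1 / 4)) {a : ℝ} (ha : 0 ≤ a) {k : E d × E d → ℝ} (hk : Continuous k)
    (hk1 : ∀ z, |k z| ≤ 1) :
    |(∫ ζ, ∫ z, k (backMap U t (flowMap U z t + (0, -(a • fluct Φ (flowMap U z t).1 ζ))))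
        ∂(law U).prod (stdGaussian (E d)) ∂stdGaussian (E d)) -
      ∫ z, k z ∂(law U).prod (stdGaussian (E d))| ≤ 12 * (a * b) ^ 2 * √d := by
  have := hU.isProbabilityMeasure_law
  set γ := stdGaussian (E d)
  set μ := (law U).prod γ
  have hmp : MeasurePreserving (fun z => flowMap U z t) μ μ := by
    have h := hU.measurePreserving_flow ht
    exact h
  have hback := hU.continuous_backMap (t := t)
  have hfl := hΦ.continuous_fluct
  have hbd : ∀ (w : E d × E d), ‖k w‖ ≤ 1 := fun w => hk1 w
  set H : E d → E d × E d → ℝ := fun ζ w => k (backMap U t (w + (0, -(a • fluct Φ w.1 ζ))))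
  have hHc : Continuous fun p : E d × (E d × E d) => H p.1 p.2 := by
    refine hk.comp (hback.comp (continuous_snd.add (continuous_const.prodMk
      (Continuous.neg (Continuous.const_smul ?_ a)))))
    exact hfl.comp ((continuous_fst.comp continuous_snd).prodMk continuous_fst)
  have e1 : ∀ ζ, ∫ z, k (backMap U t (flowMap U z t + (0, -(a • fluct Φ (flowMap U z t).1 ζ)))) ∂μ =
      ∫ w, H ζ w ∂μ := fun ζ => by
    conv_rhs => rw [← hmp.map_eq]
    exact (integral_map hmp.measurable.aemeasurable
      (hHc.comp (Continuous.prodMk_right ζ)).aestronglyMeasurable).symm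
  have e2 : ∫ z, k z ∂μ = ∫ w, k (backMap U t w) ∂μ := by
    conv_rhs => rw [← hmp.map_eq]
    refine Eq.trans ?_ (integral_map hmp.measurable.aemeasurable
      (hk.comp hback).aestronglyMeasurable).symm
    simp [hU.back_flow ht]
  have hi : Integrable (fun p : E d × (E d × E d) => H p.1 p.2) (γ.prod μ) :=
    Integrable.of_bound hHc.aestronglyMeasurable 1 (ae_of_all _ fun p => hbd _)
  have hi2 : Integrable (fun w => k (backMap U t w)) μ :=
    Integrable.of_bound (hk.comp hback).aestronglyMeasurable 1 (ae_of_all _ fun w => hbd _)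
  simp_rw [e1]
  rw [e2, integral_integral_swap hi]
  have hi' : Integrable (fun w => ∫ ζ, H ζ w ∂γ) μ := hi.integral_prod_right
  rw [integral_prod _ hi', integral_prod _ hi2, ← integral_sub hi'.integral_prod_left
    hi2.integral_prod_left, ← Real.norm_eq_abs]
  refine (norm_integral_le_of_norm_le_const (C := 12 * (a * b) ^ 2 * √d)
    (ae_of_all _ fun x => ?_)).trans (by simp)
  set F : E d → E d := fun ζ => -(a • fluct Φ x ζ)
  have hF : ContDiff ℝ 1 F := by
    have h1 : ContDiff ℝ 1 fun ζ : E d => Φ x ζ := hΦ.smooth.comp (contDiff_const.prodMk contDiff_id)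
    exact ((h1.sub contDiff_const).const_smul a).neg
  have hL : ∀ ζ, ‖fderiv ℝ F ζ‖ ≤ a * b := fun ζ =>
    norm_fderiv_le_of_lipschitz ℝ (C := ⟨a * b, mul_nonneg ha hΦ.b_nonneg⟩)
      (LipschitzWith.of_dist_le_mul fun p q => by
        rw [dist_eq_norm, dist_eq_norm]
        show ‖F p - F q‖ ≤ a * b * ‖p - q‖
        simp only [F, neg_sub_neg, ← smul_sub, norm_smul, Real.norm_eq_abs, abs_of_nonneg ha,
          fluct, sub_sub_sub_cancel_right]
        rw [mul_assoc, norm_sub_rev]
        exact mul_le_mul_of_nonneg_left (hΦ.lip_noise x p q) ha)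
  have h0 : ∫ ζ, F ζ ∂γ = 0 := by
    simp only [F]
    rw [integral_neg, integral_smul, hΦ.integral_fluct, smul_zero, neg_zero]
  have h := kick_le_const (u := fun v => k (backMap U t (x, v))) hF hL h0
    ((hk.comp hback).comp (Continuous.prodMk_right x)).measurable fun v => hk1 _
  simpa [H, F, Prod.mk_add_mk, Real.norm_eq_abs] using h

namespace Scheme

variable {S : Scheme} {K : ℕ} {wv : Fin S.I → ℝ} {h c : ℝ}

theorem continuous_cell (hΦ : Est gU Φ b bias) :
    Continuous fun p : Noise d (S.CellSlot K) × (E d × E d) => S.cell K wv Φ p.1 p.2 := by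
  have hr : ∀ q : S.CellSlot K, Continuous fun p : Noise d (S.CellSlot K) × (E d × E d) => p.1 q :=
    fun q => (PiLp.proj 2 (𝕜 := ℝ) (fun _ : S.CellSlot K => E d) q).continuous.comp continuous_fst
  have hrC : ∀ k l, Continuous fun p : Noise d (S.CellSlot K) × (E d × E d) =>
      S.rndC K p.1 k l := fun k l => by
    unfold rndC; split_ifs
    · exact hr _
    · exact continuous_const
  have hx : Continuous fun p : Noise d (S.CellSlot K) × (E d × E d) => p.2.1 := by fun_prop
  have hv : Continuous fun p : Noise d (S.CellSlot K) × (E d × E d) => p.2.2 := by fun_prop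
  have hit : ∀ k j, Continuous fun p : Noise d (S.CellSlot K) × (E d × E d) =>
      S.iter (S.driftC K Φ p.1) p.2.1 p.2.2 k j := by
    intro k
    induction k with
    | zero => intro j; simp only [iter]; fun_prop
    | succ k ih =>
      intro j
      simp only [iter, driftC]
      exact (hx.fun_add (hv.fun_const_smul _)).fun_sub (continuous_finsetSum _ fun l _ =>
        ((ih l).fun_add (hΦ.continuous.comp' ((ih l).prodMk (hrC k l)))).fun_const_smul _)
  have hfi : ∀ i, Continuous fun p : Noise d (S.CellSlot K) × (E d × E d) =>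
      S.fin K (S.driftC K Φ p.1) p.2.1 p.2.2 i := fun i => by
    simp only [fin, driftC]
    exact (hx.fun_add (hv.fun_const_smul _)).fun_sub (continuous_finsetSum _ fun l _ =>
      ((hit K l).fun_add (hΦ.continuous.comp' ((hit K l).prodMk (hrC K l)))).fun_const_smul _)
  simp only [cell, step, driftCf, rndCf]
  exact ((hx.fun_add (hv.fun_const_smul _)).fun_sub (continuous_finsetSum _ fun l _ =>
      ((hfi l).fun_add (hΦ.continuous.comp' ((hfi l).prodMk (hr _)))).fun_const_smul _)).prodMk
    (hv.fun_sub (continuous_finsetSum _ fun l _ =>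
      ((hfi l).fun_add (hΦ.continuous.comp' ((hfi l).prodMk (hr _)))).fun_const_smul _))

/-- The kick produced by final node `i`. -/
noncomputable def kickAt (S : Scheme) (K : ℕ) (wv : Fin S.I → ℝ) (U : E d → ℝ)
    (Φ : E d → E d → E d) (z : E d × E d) (R : Noise d (S.CellSlot K)) (i : Fin S.I) : E d × E d :=
  (S.w i • fluct Φ (traj U z.1 z.2 (S.s i)) (S.rndCf K R i),
    wv i • fluct Φ (traj U z.1 z.2 (S.s i)) (S.rndCf K R i))

/-- The flow with the kicks of a set of final nodes. -/
noncomputable def kicked (S : Scheme) (K : ℕ) (wv : Fin S.I → ℝ) (U : E d → ℝ)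
    (Φ : E d → E d → E d) (h : ℝ) (s : Finset (Fin S.I)) (z : E d × E d)
    (R : Noise d (S.CellSlot K)) : E d × E d :=
  flowMap U z h - ∑ i ∈ s, S.kickAt K wv U Φ z R i

variable {η B : ℝ} {U : E d → ℝ}

theorem continuous_kickAt (hU : Pert η B U) (hΦ : Est gU Φ b bias) (i : Fin S.I) :
    Continuous fun p : (E d × E d) × Noise d (S.CellSlot K) => S.kickAt K wv U Φ p.1 p.2 i := by
  have h1 : Continuous fun p : (E d × E d) × Noise d (S.CellSlot K) =>
      fluct Φ (traj U p.1.1 p.1.2 (S.s i)) (S.rndCf K p.2 i) :=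
    hΦ.continuous_fluct.comp ((hU.continuous_traj.comp (continuous_fst.prodMk continuous_const)).prodMk
      ((PiLp.proj 2 (𝕜 := ℝ) (fun _ : S.CellSlot K => E d) (Sum.inr i)).continuous.comp
        continuous_snd))
  exact (h1.fun_const_smul _).prodMk (h1.fun_const_smul _)

theorem continuous_kicked (hU : Pert η B U) (hΦ : Est gU Φ b bias) (s : Finset (Fin S.I)) :
    Continuous fun p : (E d × E d) × Noise d (S.CellSlot K) => S.kicked K wv U Φ h s p.1 p.2 :=
  ((hU.lipschitz_flowMap h).continuous.comp continuous_fst).sub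
    (continuous_finsetSum _ fun i _ => continuous_kickAt hU hΦ i)

theorem kicked_repl {a : Fin S.I} {s : Finset (Fin S.I)} (ha : a ∉ s) (z : E d × E d)
    (R : Noise d (S.CellSlot K)) (ζ : E d) :
    S.kicked K wv U Φ h s z (repl (Sum.inr a) R ζ) = S.kicked K wv U Φ h s z R := by
  refine congrArg (flowMap U z h - ·) (Finset.sum_congr rfl fun i hi => ?_)
  have hne : i ≠ a := fun e => ha (e ▸ hi)
  simp [kickAt, rndCf, repl_apply, hne]

/-- Adding the kick of one node. -/
theorem kicked_insert_close (hU : Pert η B U) (hS : CellRule S wv h c) (hΦ : Est gU Φ b bias)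
    {a : Fin S.I} {s : Finset (Fin S.I)} (ha : a ∉ s) (z : E d × E d)
    (R : Noise d (S.CellSlot K)) :
    ‖S.kicked K wv U Φ h (insert a s) z R - S.kicked K wv U Φ h s
      (backMap U (S.s a) (flowMap U z (S.s a) +
        (0, -(wv a • fluct Φ (flowMap U z (S.s a)).1 (S.rndCf K R a))))) R‖ ≤
      32 * h ^ 2 * (wv a * ‖fluct Φ (flowMap U z (S.s a)).1 (S.rndCf K R a)‖) := by
  have hh := hS.h_nonneg
  have hh4 : h ≤ 1 / 4 := hS.h_le.trans (by norm_num)
  set F := fluct Φ (flowMap U z (S.s a)).1 (S.rndCf K R a)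
  set z' := backMap U (S.s a) (flowMap U z (S.s a) + (0, -(wv a • F)))
  set n := wv a * ‖F‖
  have he : ‖-(wv a • F)‖ = n := by
    rw [norm_neg, norm_smul, Real.norm_eq_abs, abs_of_nonneg (hS.wv_nonneg a)]
  have hk := hU.flow_kick hh4 (hS.s_mem a) z (-(wv a • F))
  have h1 : ∀ i, ‖S.kickAt K wv U Φ z' R i - S.kickAt K wv U Φ z R i‖ ≤
      wv i * (16 * h * n) := by
    intro i
    have hd := (hk (S.s i) (hS.s_mem i)).1
    rw [he] at hd
    have hf : ‖fluct Φ (traj U z'.1 z'.2 (S.s i)) (S.rndCf K R i) -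
        fluct Φ (traj U z.1 z.2 (S.s i)) (S.rndCf K R i)‖ ≤ 16 * h * n := by
      refine (hΦ.fluct_lip_fst _ _ _).trans ?_
      simp only [traj, Prod.mk.eta, Prod.fst_sub, z'] at hd ⊢
      linarith
    rw [kickAt, kickAt, Prod.mk_sub_mk, Prod.norm_def, ← smul_sub, ← smul_sub, norm_smul, norm_smul,
      Real.norm_eq_abs, Real.norm_eq_abs, abs_of_nonneg (w_nonneg_of_rule hS i),
      abs_of_nonneg (hS.wv_nonneg i), hS.w_eq]
    refine max_le (mul_le_mul (mul_le_of_le_one_right (hS.wv_nonneg i)
      (by linarith [(hS.s_mem i).1])) hf (norm_nonneg _) (hS.wv_nonneg i))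
      (mul_le_mul_of_nonneg_left hf (hS.wv_nonneg i))
  have h2 : ‖(flowMap U z' h - flowMap U z h) - (-(S.kickAt K wv U Φ z R a))‖ ≤
      16 * h ^ 2 * n := by
    have h := (hk h (right_mem_Icc.2 hh)).2
    rw [he] at h
    refine le_trans (le_of_eq ?_) h
    congr 2
    simp only [kickAt, Prod.neg_mk, hS.w_eq, smul_neg, smul_smul, F, traj, Prod.mk.eta]
    rw [mul_comm (wv a)]
  rw [kicked, kicked, Finset.sum_insert ha,
    show flowMap U z h - (S.kickAt K wv U Φ z R a + ∑ i ∈ s, S.kickAt K wv U Φ z R i) -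
        (flowMap U z' h - ∑ i ∈ s, S.kickAt K wv U Φ z' R i) =
      ∑ i ∈ s, (S.kickAt K wv U Φ z' R i - S.kickAt K wv U Φ z R i) -
        ((flowMap U z' h - flowMap U z h) - (-(S.kickAt K wv U Φ z R a))) by
      rw [Finset.sum_sub_distrib]; abel]
  refine (norm_sub_le _ _).trans ((add_le_add ((norm_sum_le _ _).trans
    ((Finset.sum_le_sum fun i _ => h1 i).trans ?_)) h2).trans
      (le_of_eq (by ring : h * (16 * h * n) + 16 * h ^ 2 * n = _)))
  refine (Finset.sum_le_sum_of_subset_of_nonneg (Finset.subset_univ s) fun i _ _ => ?_).trans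
    (le_of_eq (by rw [← Finset.sum_mul, hS.sum_wv]))
  have : 0 ≤ n := mul_nonneg (hS.wv_nonneg a) (norm_nonneg _)
  exact mul_nonneg (hS.wv_nonneg i) (by positivity)

/-- The kicks cost their squares. -/
theorem kicked_error (hU : Pert η B U) (hS : CellRule S wv h c) (hΦ : Est gU Φ b bias) {Λ : ℝ}
    (hΛ : 0 ≤ Λ) {f : E d × E d → ℝ} (hf : Continuous f) (hf1 : ∀ z, |f z| ≤ 1)
    (hfL : ∀ z z', |f z - f z'| ≤ Λ * ‖z - z'‖) (s : Finset (Fin S.I)) :
    |(∫ p, f (S.kicked K wv U Φ h s p.1 p.2)
        ∂((law U).prod (stdGaussian (E d))).prod (stdGaussian (Noise d (S.CellSlot K)))) -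
      ∫ z, f z ∂(law U).prod (stdGaussian (E d))| ≤
      ∑ i ∈ s, (64 * Λ * h ^ 2 * b * √d * wv i + 12 * (wv i * b) ^ 2 * √d) := by
  have := hU.isProbabilityMeasure_law
  set γ := stdGaussian (E d)
  set γR := stdGaussian (Noise d (S.CellSlot K))
  set μ := (law U).prod γ
  have hh := hS.h_nonneg
  have hh4 : h ≤ 1 / 4 := hS.h_le.trans (by norm_num)
  induction s using Finset.induction_on with
  | empty =>
    have hmp : MeasurePreserving (fun z => flowMap U z h) μ μ :=
      hU.measurePreserving_flow ⟨hh, hh4⟩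
    have e : ∫ p, f (S.kicked K wv U Φ h ∅ p.1 p.2) ∂μ.prod γR = ∫ z, f z ∂μ := by
      simp only [kicked, Finset.sum_empty, sub_zero]
      rw [← integral_map (φ := Prod.fst) (f := fun z => f (flowMap U z h))
        measurable_fst.aemeasurable (hf.comp (hU.lipschitz_flowMap h).continuous).aestronglyMeasurable,
        measurePreserving_fst.map_eq]
      conv_rhs => rw [← hmp.map_eq]
      exact (integral_map hmp.measurable.aemeasurable hf.aestronglyMeasurable).symm
    simp [e]
  | insert a s ha ih =>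
    rw [Finset.sum_insert ha]
    refine (abs_sub_le _ (∫ p, f (S.kicked K wv U Φ h s p.1 p.2) ∂μ.prod γR) _).trans
      (add_le_add ?_ ih)
    set t := S.s a
    have ht4 : t ∈ Icc (0 : ℝ) (1 / 4) := ⟨(hS.s_mem a).1, (hS.s_mem a).2.trans hh4⟩
    set wa := wv a
    have hwa := hS.wv_nonneg a
    set k : Noise d (S.CellSlot K) → E d × E d → ℝ :=
      fun R z => f (S.kicked K wv U Φ h s z R)
    set T : E d × E d → E d → E d × E d := fun z ζ =>
      backMap U t (flowMap U z t + (0, -(wa • fluct Φ (flowMap U z t).1 ζ)))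
    set Ω := (E d × E d) × (Noise d (S.CellSlot K) × E d)
    set χ : Ω → (E d × E d) × Noise d (S.CellSlot K) := fun p =>
      (p.1, repl (Sum.inr a) p.2.1 p.2.2)
    have hχ : MeasurePreserving χ (μ.prod (γR.prod γ)) (μ.prod γR) :=
      (MeasurePreserving.id μ).prod (measurePreserving_repl _)
    have hkc : Continuous fun p : (E d × E d) × Noise d (S.CellSlot K) => k p.2 p.1 :=
      hf.comp (continuous_kicked hU hΦ s)
    have hfl : Continuous fun z => flowMap U z t := (hU.lipschitz_flowMap t).continuous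
    have hTc : Continuous fun q : (E d × E d) × E d => T q.1 q.2 :=
      (hU.continuous_backMap (t := t)).comp ((hfl.comp continuous_fst).add
        (continuous_const.prodMk (Continuous.neg (Continuous.const_smul
          (hΦ.continuous_fluct.comp (((continuous_fst.comp hfl).comp continuous_fst).prodMk
            continuous_snd)) wa))))
    have e1 : ∀ g : (E d × E d) × Noise d (S.CellSlot K) → ℝ, Continuous g →
        ∫ p, g p ∂μ.prod γR = ∫ p, g (χ p) ∂μ.prod (γR.prod γ) := fun g hg => by
      conv_lhs => rw [← hχ.map_eq]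
      exact integral_map hχ.measurable.aemeasurable hg.aestronglyMeasurable
    set A : Ω → ℝ := fun p => k p.2.1 (T p.1 p.2.2) with hA
    set A' : Ω → ℝ := fun p => k p.2.1 p.1 with hA'
    have hAc : Continuous A := hkc.comp
      ((hTc.comp (continuous_fst.prodMk (continuous_snd.comp continuous_snd))).prodMk
        (continuous_fst.comp continuous_snd))
    have hA'c : Continuous A' := hkc.comp (continuous_fst.prodMk (continuous_fst.comp continuous_snd))
    have hiA : Integrable A (μ.prod (γR.prod γ)) :=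
      Integrable.of_bound hAc.aestronglyMeasurable 1 (ae_of_all _ fun p => hf1 _)
    have hiA' : Integrable A' (μ.prod (γR.prod γ)) :=
      Integrable.of_bound hA'c.aestronglyMeasurable 1 (ae_of_all _ fun p => hf1 _)
    have hins : Continuous fun p : (E d × E d) × Noise d (S.CellSlot K) =>
        f (S.kicked K wv U Φ h (insert a s) p.1 p.2) := hf.comp (continuous_kicked hU hΦ _)
    rw [e1 _ hins, e1 _ hkc]
    have e2 : (fun p => k (χ p).2 (χ p).1) = A' := by
      funext p; simp only [k, χ, A', kicked_repl ha]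
    rw [show ∫ p, k (χ p).2 (χ p).1 ∂μ.prod (γR.prod γ) = ∫ p, A' p ∂μ.prod (γR.prod γ) by rw [e2]]
    refine (abs_sub_le _ (∫ p, A p ∂μ.prod (γR.prod γ)) _).trans (add_le_add ?_ ?_)
    · have hi1 : Integrable (fun p => f (S.kicked K wv U Φ h (insert a s) (χ p).1 (χ p).2))
          (μ.prod (γR.prod γ)) :=
        Integrable.of_bound (hins.measurable.comp hχ.measurable).aestronglyMeasurable 1
          (ae_of_all _ fun p => hf1 _)
      have hn : Integrable (fun ζ : E d => ‖ζ‖) γ := PolyBd.id.norm.integrable _ (by fun_prop)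
      have hb : Integrable (fun p : Ω => Λ * (32 * h ^ 2 * (wa * (b * (‖p.2.2‖ + √d)))))
          (μ.prod (γR.prod γ)) :=
        ((((((hn.add (integrable_const _)).const_mul b).const_mul wa).const_mul _).const_mul
          Λ).comp_snd γR).comp_snd μ
      rw [← integral_sub hi1 hiA, ← Real.norm_eq_abs]
      refine (norm_integral_le_of_norm_le hb (ae_of_all _ fun p => ?_)).trans ?_
      · rw [Real.norm_eq_abs]
        refine le_trans (le_of_eq ?_) ((hfL (S.kicked K wv U Φ h (insert a s) (χ p).1 (χ p).2)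
          (S.kicked K wv U Φ h s (backMap U t (flowMap U (χ p).1 t +
            (0, -(wa • fluct Φ (flowMap U (χ p).1 t).1 (S.rndCf K (χ p).2 a))))) (χ p).2)).trans
          (mul_le_mul_of_nonneg_left ?_ hΛ))
        rotate_left
        · refine (kicked_insert_close hU hS hΦ ha (χ p).1 (χ p).2).trans ?_
          refine mul_le_mul_of_nonneg_left (mul_le_mul_of_nonneg_left ?_ hwa) (by positivity)
          refine (hΦ.fluct_le _ _).trans (le_of_eq ?_)
          simp [χ, rndCf, repl_apply]
        · simp only [A, k, T, χ, rndCf, repl_apply, if_pos, kicked_repl ha, t, wa]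
      · rw [integral_const_mul, integral_const_mul, integral_const_mul, integral_const_mul,
          integral_fun_snd (fun q : Noise d (S.CellSlot K) × E d => ‖q.2‖ + √d),
          integral_fun_snd (fun ζ : E d => ‖ζ‖ + √d), integral_add hn (integrable_const _)]
        simp only [probReal_univ, one_smul, integral_const]
        have := mul_le_mul_of_nonneg_left (integral_norm_stdGaussian_le (d := d))
          (by have := hΦ.b_nonneg; positivity : 0 ≤ Λ * (32 * h ^ 2) * wa * b)
        linarith
    · rw [integral_prod_symm _ hiA, integral_prod_symm _ hiA', integral_prod _ hiA.integral_prod_right,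
        integral_prod _ hiA'.integral_prod_right,
        ← integral_sub hiA.integral_prod_right.integral_prod_left
          hiA'.integral_prod_right.integral_prod_left, ← Real.norm_eq_abs]
      refine (norm_integral_le_of_norm_le_const (C := 12 * (wa * b) ^ 2 * √d)
        (ae_of_all _ fun R => ?_)).trans (by simp)
      rw [Real.norm_eq_abs]
      have hk' := hU.kick_step hΦ ht4 hwa (k := k R)
        (hkc.comp (Continuous.prodMk_left R)) fun z => hf1 _
      simpa [A, A', T] using hk'

/-- The weak error of a cell. -/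
theorem cell_error (hU : Pert η B U) (hS : CellRule S wv h c) (hΦ : Est (grad U) Φ b bias)
    (hbc : Continuous bias) (hbi : Integrable bias (law U)) {a₀ e ev : E d × E d → ℝ}
    (ha₀ : ∀ z, 0 ≤ a₀ z) (he : ∀ z, 0 ≤ e z)
    (hai : Integrable a₀ ((law U).prod (stdGaussian (E d))))
    (hei : Integrable e ((law U).prod (stdGaussian (E d))))
    (hvi : Integrable ev ((law U).prod (stdGaussian (E d))))
    (hcons : ∀ x v,
      (∀ j, ‖(x + S.t j • v) - traj U x v (S.t j)‖ ≤ a₀ (x, v)) ∧
      (∀ j, ‖x + S.t j • v -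
          ∑ l, S.A j l • (traj U x v (S.t l) + grad U (traj U x v (S.t l))) -
        traj U x v (S.t j)‖ ≤ e (x, v)) ∧
      (∀ i, ‖x + S.s i • v -
          ∑ l, S.Af i l • (traj U x v (S.t l) + grad U (traj U x v (S.t l))) -
        traj U x v (S.s i)‖ ≤ e (x, v)) ∧
      ‖x + S.T • v - ∑ i, S.w i • (traj U x v (S.s i) + grad U (traj U x v (S.s i))) -
        traj U x v S.T‖ ≤ e (x, v) ∧
      ‖v - ∑ i, wv i • (traj U x v (S.s i) + grad U (traj U x v (S.s i))) - vel U x v h‖ ≤
        ev (x, v))
    {Λ : ℝ} (hΛ : 0 ≤ Λ) {f : E d × E d → ℝ} (hf : Continuous f) (hf1 : ∀ z, |f z| ≤ 1)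
    (hfL : ∀ z z', |f z - f z'| ≤ Λ * ‖z - z'‖) :
    |(∫ z, S.cellOp K wv Φ f z ∂(law U).prod (stdGaussian (E d))) -
      ∫ z, f z ∂(law U).prod (stdGaussian (E d))| ≤
      Λ * (2 * (∫ z, e z ∂(law U).prod (stdGaussian (E d))) +
          (∫ z, ev z ∂(law U).prod (stdGaussian (E d))) +
          4 * c * h ^ 3 * (((K + 1) * S.J : ℕ) * (2 * b * √d + ∫ x, bias x ∂law U)) +
          2 * h * ((2 * c * h ^ 2) ^ K * ∫ z, a₀ z ∂(law U).prod (stdGaussian (E d))) +
          h * (∫ x, bias x ∂law U) + 64 * h ^ 3 * b * √d) +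
        12 * h ^ 2 * b ^ 2 * √d := by
  have := hU.isProbabilityMeasure_law
  set γ := stdGaussian (E d)
  set γR := stdGaussian (Noise d (S.CellSlot K))
  set μ := (law U).prod γ
  set β := ∫ x, bias x ∂law U
  have hh := hS.h_nonneg
  have hh4 : h ≤ 1 / 4 := hS.h_le.trans (by norm_num)
  have hb := hΦ.b_nonneg
  set ν := μ.prod γR
  have hcell : Continuous fun p : (E d × E d) × Noise d (S.CellSlot K) =>
      f (S.cell K wv Φ p.2 p.1) := hf.comp ((continuous_cell hΦ).comp continuous_swap)
  have hi1 : Integrable (fun p : (E d × E d) × Noise d (S.CellSlot K) =>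
      f (S.cell K wv Φ p.2 p.1)) ν :=
    Integrable.of_bound hcell.aestronglyMeasurable 1 (ae_of_all _ fun p => hf1 _)
  have hi2 : Integrable (fun p : (E d × E d) × Noise d (S.CellSlot K) =>
      f (S.kicked K wv U Φ h Finset.univ p.1 p.2)) ν :=
    Integrable.of_bound (hf.comp (continuous_kicked hU hΦ _)).aestronglyMeasurable 1
      (ae_of_all _ fun p => hf1 _)
  rw [show ∫ z, S.cellOp K wv Φ f z ∂μ = ∫ p, f (S.cell K wv Φ p.2 p.1) ∂ν from
    (integral_prod _ hi1).symm]
  refine (abs_sub_le _ (∫ p, f (S.kicked K wv U Φ h Finset.univ p.1 p.2) ∂ν) _).trans ?_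
  have htl : ∀ u ∈ Icc 0 h,
      Integrable (fun z : E d × E d => bias (traj U z.1 z.2 u)) μ ∧
      ∫ z, bias (traj U z.1 z.2 u) ∂μ = β := fun u hu => by
    have hp : MeasurePreserving (fun z : E d × E d => traj U z.1 z.2 u) μ (law U) :=
      measurePreserving_fst.comp (hU.measurePreserving_flow ⟨hu.1, hu.2.trans hh4⟩)
    refine ⟨hp.integrable_comp_of_integrable hbi, ?_⟩
    simp only [β]
    conv_rhs => rw [← hp.map_eq]
    exact (integral_map hp.measurable.aemeasurable hbc.aestronglyMeasurable).symm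
  have hslot : ∀ q : S.CellSlot K, Integrable (fun R : Noise d (S.CellSlot K) => ‖R q‖) γR ∧
      ∫ R, ‖R q‖ ∂γR ≤ √d := fun q => by
    have hp := measurePreserving_block (d := d) q
    have hn : Integrable (fun ζ : E d => ‖ζ‖) γ := PolyBd.id.norm.integrable _ (by fun_prop)
    refine ⟨hp.integrable_comp_of_integrable hn, le_trans (le_of_eq ?_)
      (integral_norm_stdGaussian_le (d := d))⟩
    conv_rhs => rw [← hp.map_eq]
    exact (integral_map hp.measurable.aemeasurable continuous_norm.aestronglyMeasurable).symm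
  set M : (E d × E d) × Noise d (S.CellSlot K) → ℝ := fun p => ∑ q : Fin (K + 1) × Fin S.J,
    (b * (‖p.2 (Sum.inl q)‖ + √d) + bias (traj U p.1.1 p.1.2 (S.t q.2))) with hMdef
  set Bs : (E d × E d) × Noise d (S.CellSlot K) → ℝ := fun p =>
    ∑ i, wv i * bias (traj U p.1.1 p.1.2 (S.s i)) with hBdef
  have hMq : ∀ q : Fin (K + 1) × Fin S.J, Integrable (fun p : (E d × E d) × Noise d (S.CellSlot K) =>
      b * (‖p.2 (Sum.inl q)‖ + √d) + bias (traj U p.1.1 p.1.2 (S.t q.2))) ν := fun q =>
    ((((hslot _).1.fun_add (integrable_const _)).const_mul b).comp_snd μ).fun_add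
      ((htl _ (hS.t_mem q.2)).1.comp_fst γR)
  have hMi : Integrable M ν := integrable_finsetSum _ fun q _ => hMq q
  have hBi : Integrable Bs ν :=
    integrable_finsetSum _ fun i _ => (((htl _ (hS.s_mem i)).1.comp_fst γR).const_mul _)
  have hM : ∫ p, M p ∂ν ≤ ((K + 1) * S.J : ℕ) * (2 * b * √d + β) := by
    rw [hMdef, integral_finsetSum _ fun q _ => hMq q]
    refine (Finset.sum_le_card_nsmul _ _ (2 * b * √d + β) fun q _ => ?_).trans (le_of_eq ?_)
    · rw [integral_add ((((hslot _).1.fun_add (integrable_const _)).const_mul b).comp_snd μ)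
        ((htl _ (hS.t_mem q.2)).1.comp_fst γR),
        integral_fun_snd (fun R : Noise d (S.CellSlot K) => b * (‖R (Sum.inl q)‖ + √d)),
        integral_fun_fst (fun z : E d × E d => bias (traj U z.1 z.2 (S.t q.2))),
        (htl _ (hS.t_mem q.2)).2, integral_const_mul, integral_add (hslot _).1 (integrable_const _)]
      simp only [probReal_univ, one_smul, integral_const]
      nlinarith [mul_le_mul_of_nonneg_left (hslot (Sum.inl q)).2 hb]
    · simp [Finset.card_univ]; ring
  have hB : ∫ p, Bs p ∂ν = h * β := by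
    rw [hBdef, integral_finsetSum _ fun i _ =>
      (((htl _ (hS.s_mem i)).1.comp_fst γR).const_mul _), ← hS.sum_wv, Finset.sum_mul]
    refine Finset.sum_congr rfl fun i _ => ?_
    rw [integral_const_mul, integral_fun_fst (fun z : E d × E d => bias (traj U z.1 z.2 (S.s i))),
      (htl _ (hS.s_mem i)).2]
    simp
  have hM0 : ∀ p, 0 ≤ M p := fun p => Finset.sum_nonneg fun q _ => by
    have := hΦ.bias_nonneg (traj U p.1.1 p.1.2 (S.t q.2))
    positivity
  set bd : (E d × E d) × Noise d (S.CellSlot K) → ℝ := fun p =>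
    Λ * (2 * e p.1 + ev p.1 + 4 * c * h ^ 3 * M p + 2 * h * ((2 * c * h ^ 2) ^ K * a₀ p.1) + Bs p)
    with hbd
  have hbdi : Integrable bd ν := ((((((hei.comp_fst γR).const_mul 2).fun_add (hvi.comp_fst γR)).fun_add
    (hMi.const_mul _)).fun_add (((hai.comp_fst γR).const_mul _).const_mul _)).add hBi).const_mul Λ
  have hpt : ∀ p : (E d × E d) × Noise d (S.CellSlot K),
      ‖f (S.cell K wv Φ p.2 p.1) - f (S.kicked K wv U Φ h Finset.univ p.1 p.2)‖ ≤ bd p := by
    rintro ⟨⟨x, v⟩, R⟩
    rw [Real.norm_eq_abs]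
    refine (hfL _ _).trans (mul_le_mul_of_nonneg_left ?_ hΛ)
    obtain ⟨c0, cA, cF, cy, cv⟩ := hcons x v
    have hid := cell_ideal (K := K) hS hΦ R x v (ha₀ (x, v)) (he (x, v)) (hM0 ((x, v), R)) c0 cA cF
      cy cv fun k l hk => by
        refine le_trans ?_ (Finset.single_le_sum (fun q _ => ?_)
          (Finset.mem_univ ((⟨k, Nat.lt_succ_of_le hk⟩ : Fin (K + 1)), l)))
        · simp only [rndC, dif_pos hk]
          exact hΦ.dev_le _ _
        · have := hΦ.bias_nonneg (traj U x v (S.t q.2))
          positivity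
    refine (norm_sub_le_norm_sub_add_norm_sub _ _ _).trans (add_le_add hid ?_)
    set D : Fin S.I → E d := fun i =>
      (∫ z, Φ (traj U x v (S.s i)) z ∂γ) - grad U (traj U x v (S.s i))
    have e1 : (traj U x v h - ∑ i, S.w i •
          (Φ (traj U x v (S.s i)) (S.rndCf K R i) - grad U (traj U x v (S.s i))),
        vel U x v h - ∑ i, wv i •
          (Φ (traj U x v (S.s i)) (S.rndCf K R i) - grad U (traj U x v (S.s i)))) -
        S.kicked K wv U Φ h Finset.univ (x, v) R =
        (-∑ i, S.w i • D i, -∑ i, wv i • D i) := by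
      simp only [kicked, kickAt, traj, vel, D, fluct, Prod.ext_iff, Prod.fst_sub, Prod.snd_sub,
        Prod.fst_sum, Prod.snd_sum, γ, smul_sub, Finset.sum_sub_distrib]
      constructor <;> abel
    rw [e1, Prod.norm_def]
    simp only [norm_neg]
    have hD : ∀ (cf : Fin S.I → ℝ), (∀ i, |cf i| ≤ wv i) →
        ‖∑ i, cf i • D i‖ ≤ Bs ((x, v), R) := fun cf hcf => by
      refine (norm_sum_le _ _).trans (Finset.sum_le_sum fun i _ => ?_)
      rw [norm_smul, Real.norm_eq_abs]
      exact mul_le_mul (hcf i) (hΦ.bias_le _) (norm_nonneg _) (hS.wv_nonneg i)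
    refine max_le (hD _ fun i => ?_) (hD _ fun i => (abs_of_nonneg (hS.wv_nonneg i)).le)
    rw [abs_of_nonneg (w_nonneg_of_rule hS i), hS.w_eq]
    exact mul_le_of_le_one_right (hS.wv_nonneg i) (by linarith [(hS.s_mem i).1])
  refine le_trans (add_le_add (?_ : _ ≤ ∫ p, bd p ∂ν)
    (kicked_error hU hS hΦ hΛ hf hf1 hfL Finset.univ)) ?_
  · rw [← integral_sub hi1 hi2, ← Real.norm_eq_abs]
    exact norm_integral_le_of_norm_le hbdi (ae_of_all _ hpt)
  have hsq : ∑ i, wv i ^ 2 ≤ h ^ 2 := by
    calc ∑ i, wv i ^ 2 ≤ ∑ i, wv i * h := Finset.sum_le_sum fun i _ => by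
          rw [sq, ← hS.sum_wv]
          exact mul_le_mul_of_nonneg_left (Finset.single_le_sum (fun j _ => hS.wv_nonneg j)
            (Finset.mem_univ i)) (hS.wv_nonneg i)
      _ = h ^ 2 := by rw [← Finset.sum_mul, hS.sum_wv, sq]
  have hsum : ∑ i, (64 * Λ * h ^ 2 * b * √d * wv i + 12 * (wv i * b) ^ 2 * √d) ≤
      64 * Λ * h ^ 2 * b * √d * h + 12 * b ^ 2 * √d * h ^ 2 := by
    rw [Finset.sum_add_distrib, ← Finset.mul_sum, hS.sum_wv]
    refine add_le_add le_rfl (le_trans (le_of_eq ?_)
      (mul_le_mul_of_nonneg_left hsq (by positivity)))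
    rw [Finset.mul_sum]
    exact Finset.sum_congr rfl fun i _ => by ring
  refine (add_le_add le_rfl hsum).trans ?_
  rw [hbd, integral_const_mul, integral_add ((((hei.comp_fst γR).const_mul 2).fun_add
      (hvi.comp_fst γR)).fun_add (hMi.const_mul _) |>.fun_add
        (((hai.comp_fst γR).const_mul _).const_mul _)) hBi,
    integral_add (((hei.comp_fst γR).const_mul 2).fun_add (hvi.comp_fst γR) |>.fun_add (hMi.const_mul _))
      (((hai.comp_fst γR).const_mul _).const_mul _),
    integral_add (((hei.comp_fst γR).const_mul 2).fun_add (hvi.comp_fst γR)) (hMi.const_mul _),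
    integral_add ((hei.comp_fst γR).const_mul 2) (hvi.comp_fst γR),
    integral_const_mul, integral_const_mul, integral_const_mul, integral_const_mul, hB,
    integral_fun_fst e, integral_fun_fst ev, integral_fun_fst a₀]
  simp only [probReal_univ, one_smul]
  have := mul_le_mul_of_nonneg_left hM
    (by have := hS.c_nonneg; positivity : 0 ≤ Λ * (4 * c * h ^ 3))
  linarith

end Scheme

end Vale.Agent.P347
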