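import Vale.Agent.P347.Model

/-!
# P347: the Hamiltonian flow of a perturbed Gaussian potential

`traj W x v` and `vel W x v` solve `x' = v`, `v' = -(x + ∇W x)` on `[0, 1/4]`. The flow preserves
`law W ⊗ γ`: symplectic Euler steps preserve Lebesgue measure, converge pointwise to the flow,
and the flow conserves the energy.
-/

open MeasureTheory ProbabilityTheory Real Set Filter
open scoped RealInnerProductSpace Topology NNReal ENNReal BoundedContinuousFunction

namespace Vale.Agent.P347

variable {d : ℕ}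

/-- The Hamiltonian vector field. -/
noncomputable def field (W : E d → ℝ) (z : E d × E d) : E d × E d :=
  (z.2, -(z.1 + grad W z.1))

/-- A solution of the Hamiltonian equations on `[0, 1/4]` started at `z`. -/
def IsSol (W : E d → ℝ) (z : E d × E d) (γ : ℝ → E d × E d) : Prop :=
  γ 0 = z ∧
    ∀ t ∈ Icc (0 : ℝ) (1 / 4), HasDerivWithinAt γ (field W (γ t)) (Icc (0 : ℝ) (1 / 4)) t

open Classical in
/-- The flow, clamped outside `[0, 1/4]`. -/
noncomputable def flowMap (W : E d → ℝ) (z : E d × E d) (t : ℝ) : E d × E d :=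
  if h : ∃ γ, IsSol W z γ then
    Classical.choose h (projIcc (0 : ℝ) (1 / 4) (by norm_num) t)
  else 0

/-- The position at time `t`. -/
noncomputable def traj (W : E d → ℝ) (x v : E d) (t : ℝ) : E d := (flowMap W (x, v) t).1

/-- The velocity at time `t`. -/
noncomputable def vel (W : E d → ℝ) (x v : E d) (t : ℝ) : E d := (flowMap W (x, v) t).2

/-- The total energy. -/
noncomputable def energy (W : E d → ℝ) (z : E d × E d) : ℝ := pot W z.1 + ‖z.2‖ ^ 2 / 2

/-- A symplectic Euler step. -/
noncomputable def eulerStep (W : E d → ℝ) (δ : ℝ) (z : E d × E d) : E d × E d :=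
  (z.1 + δ • z.2, z.2 - δ • ((z.1 + δ • z.2) + grad W (z.1 + δ • z.2)))

/-- A measurable map that can only decrease the integrals of bounded nonnegative continuous
functions preserves a finite measure. -/
theorem map_eq_self_of_lintegral_le {Ω : Type*} [MeasurableSpace Ω] [TopologicalSpace Ω]
    [HasOuterApproxClosed Ω] [BorelSpace Ω] {μ : Measure Ω} [IsFiniteMeasure μ] {T : Ω → Ω}
    (hT : Measurable T) (h : ∀ f : Ω →ᵇ ℝ≥0, ∫⁻ x, f (T x) ∂μ ≤ ∫⁻ x, f x ∂μ) :
    μ.map T = μ := by
  refine ext_of_forall_lintegral_eq_of_IsFiniteMeasure fun f => ?_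
  have hfm : Measurable fun x => (f x : ℝ≥0∞) := f.continuous.measurable.coe_nnreal_ennreal
  rw [lintegral_map hfm hT]
  refine le_antisymm (h f) ?_
  set M : ℝ≥0 := nndist f 0
  set g : Ω →ᵇ ℝ≥0 := BoundedContinuousFunction.const Ω M - f
  have hg : ∀ x, (f x : ℝ≥0∞) + g x = M := fun x => by
    rw [← ENNReal.coe_add]
    simp [g, add_tsub_cancel_of_le (BoundedContinuousFunction.NNReal.upper_bound f x), M]
  have hgm : Measurable fun x => (g x : ℝ≥0∞) := g.continuous.measurable.coe_nnreal_ennreal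
  have h1 : (∫⁻ x, f (T x) ∂μ) + ∫⁻ x, g (T x) ∂μ = (∫⁻ x, f x ∂μ) + ∫⁻ x, g x ∂μ := by
    rw [← lintegral_add_left (f := fun x => (f (T x) : ℝ≥0∞)) (hfm.comp hT),
      ← lintegral_add_left (f := fun x => (f x : ℝ≥0∞)) hfm]
    simp [hg]
  have hfin : ∫⁻ x, g x ∂μ ≠ ∞ := (g.lintegral_lt_top_of_nnreal μ).ne
  refine ENNReal.le_of_add_le_add_right hfin ?_
  calc (∫⁻ x, f x ∂μ) + ∫⁻ x, g x ∂μ = (∫⁻ x, f (T x) ∂μ) + ∫⁻ x, g (T x) ∂μ := h1.symm
    _ ≤ (∫⁻ x, f (T x) ∂μ) + ∫⁻ x, g x ∂μ := add_le_add le_rfl (h g)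

namespace Pert

variable {η B : ℝ} {W : E d → ℝ} (hW : Pert η B W)
include hW

theorem grad_mono (x y : E d) : 0 ≤ ⟪grad W x - grad W y, x - y⟫ := by
  have hgd := hW.contDiff_grad.differentiable one_ne_zero
  set u := x - y
  have h2 : ∀ t : ℝ, HasDerivAt (fun s : ℝ => ⟪grad W (y + s • u), u⟫)
      ⟪fderiv ℝ (grad W) (y + t • u) u, u⟫ t := fun t => by
    have h := (hgd _).hasFDerivAt.comp_hasDerivAt t (((hasDerivAt_id t).smul_const u).const_add y)
    simp only [Function.comp_def, one_smul, id] at h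
    simpa using h.inner ℝ (hasDerivAt_const t u)
  have hm : Monotone fun t : ℝ => ⟪grad W (y + t • u), u⟫ :=
    monotone_of_deriv_nonneg (fun t => (h2 t).differentiableAt) fun t => by
      rw [(h2 t).deriv]; exact hW.hess_nonneg _ _
  have := hm zero_le_one
  simp only [zero_smul, add_zero, one_smul] at this
  rw [inner_sub_left]
  simp only [u, add_sub_cancel] at this ⊢
  linarith

theorem force_lipschitz (x y : E d) :
    ‖(x + grad W x) - (y + grad W y)‖ ≤ 2 * ‖x - y‖ := by
  have h := hW.grad_lipschitz x y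
  have h1 : (x + grad W x) - (y + grad W y) = (x - y) + (grad W x - grad W y) := by abel
  rw [h1]
  refine (norm_add_le _ _).trans ?_
  nlinarith [hW.eta_le_one, norm_nonneg (x - y)]

theorem lipschitz_field : LipschitzWith 2 (field W) := by
  refine LipschitzWith.of_dist_le_mul fun z w => ?_
  rw [dist_eq_norm, dist_eq_norm]
  simp only [field, Prod.norm_def, Prod.fst_sub, Prod.snd_sub, NNReal.coe_ofNat]
  rw [show -(z.1 + grad W z.1) - -(w.1 + grad W w.1) =
      -((z.1 + grad W z.1) - (w.1 + grad W w.1)) by abel, norm_neg]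
  refine max_le ?_ ?_
  · linarith [le_max_right ‖z.1 - w.1‖ ‖z.2 - w.2‖, norm_nonneg (z.2 - w.2)]
  · linarith [le_max_left ‖z.1 - w.1‖ ‖z.2 - w.2‖, hW.force_lipschitz z.1 w.1]

theorem exists_isSol (z : E d × E d) : ∃ γ, IsSol W z γ := by
  set a : ℝ≥0 := ‖field W z‖₊
  have hp : IsPicardLindelof (fun _ : ℝ => field W)
      (⟨0, le_rfl, by norm_num⟩ : Icc (0 : ℝ) (1 / 4)) z a 0 (3 * a) 2 := by
    refine IsPicardLindelof.of_time_independent (fun x hx => ?_) hW.lipschitz_field.lipschitzOnWith ?_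
    · have h1 := hW.lipschitz_field.norm_sub_le x z
      rw [Metric.mem_closedBall, dist_eq_norm] at hx
      have h2 := norm_le_norm_add_norm_sub' (field W x) (field W z)
      simp only [a, coe_nnnorm, NNReal.coe_mul, NNReal.coe_ofNat] at hx h1 ⊢
      linarith
    · simp only [NNReal.coe_mul, NNReal.coe_ofNat, NNReal.coe_zero, sub_zero]
      rw [max_eq_left (by norm_num)]
      linarith [a.coe_nonneg]
  exact hp.exists_eq_forall_mem_Icc_hasDerivWithinAt₀

theorem exists_flow (z : E d × E d) :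
    ∃ γ, IsSol W z γ ∧ ∀ t ∈ Icc (0 : ℝ) (1 / 4), flowMap W z t = γ t := by
  refine ⟨_, Classical.choose_spec (hW.exists_isSol z), fun t ht => ?_⟩
  rw [flowMap, dif_pos (hW.exists_isSol z), projIcc_of_mem _ ht]

theorem flowMap_zero (z : E d × E d) : flowMap W z 0 = z := by
  obtain ⟨γ, hγ, h⟩ := hW.exists_flow z
  rw [h 0 ⟨le_rfl, by norm_num⟩, hγ.1]

theorem hasDerivWithinAt_flowMap (z : E d × E d) {t : ℝ} (ht : t ∈ Icc (0 : ℝ) (1 / 4)) :
    HasDerivWithinAt (flowMap W z) (field W (flowMap W z t)) (Icc (0 : ℝ) (1 / 4)) t := by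
  obtain ⟨γ, hγ, h⟩ := hW.exists_flow z
  rw [h t ht]
  exact (hγ.2 t ht).congr h (h t ht)

theorem continuousOn_flowMap (z : E d × E d) :
    ContinuousOn (flowMap W z) (Icc (0 : ℝ) (1 / 4)) :=
  fun _ ht => (hW.hasDerivWithinAt_flowMap z ht).continuousWithinAt

omit hW in
theorem flowMap_projIcc (z : E d × E d) (t : ℝ) :
    flowMap W z (projIcc (0 : ℝ) (1 / 4) (by norm_num) t) = flowMap W z t := by
  unfold flowMap
  split
  · rw [projIcc_val]
  · rfl

theorem continuous_flowMap_left (z : E d × E d) : Continuous (flowMap W z) :=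
  (((hW.continuousOn_flowMap z).domRestrict).comp
    (continuous_projIcc (h := (by norm_num : (0 : ℝ) ≤ 1 / 4)))).congr
    fun t => flowMap_projIcc z t

theorem lipschitz_flowMap (t : ℝ) :
    LipschitzWith ⟨exp 1, (exp_pos 1).le⟩ fun z => flowMap W z t := by
  refine LipschitzWith.of_dist_le_mul fun z w => ?_
  set s : ℝ := ↑(projIcc (0 : ℝ) (1 / 4) (by norm_num) t)
  have hs : s ∈ Icc (0 : ℝ) (1 / 4) := (projIcc (0 : ℝ) (1 / 4) (by norm_num) t).2
  have hd : ∀ z, ∀ r ∈ Ico (0 : ℝ) (1 / 4),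
      HasDerivWithinAt (flowMap W z) (field W (flowMap W z r)) (Ici r) r := fun z r hr =>
    (hW.hasDerivWithinAt_flowMap z (Ico_subset_Icc_self hr)).mono_of_mem_nhdsWithin
      (Icc_mem_nhdsGE_of_mem hr)
  have h := dist_le_of_trajectories_ODE (fun _ => hW.lipschitz_field) (hW.continuousOn_flowMap z)
    (hd z) (hW.continuousOn_flowMap w) (hd w) (δ := dist z w)
    (by rw [hW.flowMap_zero, hW.flowMap_zero]) s hs
  rw [← flowMap_projIcc z t, ← flowMap_projIcc w t]
  refine h.trans ?_
  rw [mul_comm]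
  refine mul_le_mul_of_nonneg_right (exp_le_exp.2 ?_) dist_nonneg
  simp only [NNReal.coe_ofNat, sub_zero]
  linarith [hs.2]

theorem continuous_flowMap :
    Continuous fun p : (E d × E d) × ℝ => flowMap W p.1 p.2 :=
  continuous_prod_of_continuous_lipschitzWith _ ⟨exp 1, (exp_pos 1).le⟩
    hW.continuous_flowMap_left hW.lipschitz_flowMap

theorem traj_zero (x v : E d) : traj W x v 0 = x := by
  rw [traj, hW.flowMap_zero]

theorem vel_zero (x v : E d) : vel W x v 0 = v := by
  rw [vel, hW.flowMap_zero]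

theorem continuous_traj :
    Continuous fun p : (E d × E d) × ℝ => traj W p.1.1 p.1.2 p.2 :=
  continuous_fst.comp hW.continuous_flowMap

theorem continuous_vel :
    Continuous fun p : (E d × E d) × ℝ => vel W p.1.1 p.1.2 p.2 :=
  continuous_snd.comp hW.continuous_flowMap

theorem hasDerivWithinAt_traj (x v : E d) {t : ℝ} (ht : t ∈ Icc (0 : ℝ) (1 / 4)) :
    HasDerivWithinAt (traj W x v) (vel W x v t) (Icc (0 : ℝ) (1 / 4)) t :=
  (ContinuousLinearMap.fst ℝ (E d) (E d)).hasFDerivAt.comp_hasDerivWithinAt t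
    (hW.hasDerivWithinAt_flowMap (x, v) ht)

theorem hasDerivWithinAt_vel (x v : E d) {t : ℝ} (ht : t ∈ Icc (0 : ℝ) (1 / 4)) :
    HasDerivWithinAt (vel W x v) (-(traj W x v t + grad W (traj W x v t)))
      (Icc (0 : ℝ) (1 / 4)) t :=
  (ContinuousLinearMap.snd ℝ (E d) (E d)).hasFDerivAt.comp_hasDerivWithinAt t
    (hW.hasDerivWithinAt_flowMap (x, v) ht)

theorem hasFDerivAt_pot (x : E d) :
    HasFDerivAt (pot W) (innerSL ℝ (x + grad W x)) x := by
  have h1 : HasFDerivAt (fun y : E d => ‖y‖ ^ 2 / 2) (innerSL ℝ x) x := by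
    have h := (hasStrictFDerivAt_norm_sq x).hasFDerivAt.const_mul (1 / 2 : ℝ)
    have e : (fun y : E d => ‖y‖ ^ 2 / 2) = fun y => 1 / 2 * ‖y‖ ^ 2 := by funext y; ring
    rw [e]
    exact h.congr_fderiv (by ext y; simp)
  refine (h1.add (hW.contDiff.differentiable (by norm_num) x).hasFDerivAt).congr_fderiv ?_
  ext v
  simp [inner_grad]

theorem continuous_energy : Continuous (energy W) :=
  (hW.decay.1.comp continuous_fst).add (((continuous_snd.norm).pow 2).div_const 2)

theorem energy_flowMap (z : E d × E d) {t : ℝ} (ht : t ∈ Icc (0 : ℝ) (1 / 4)) :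
    energy W (flowMap W z t) = energy W z := by
  have h : ∀ r ∈ Icc (0 : ℝ) (1 / 4),
      HasDerivWithinAt (fun r => energy W (flowMap W z r)) 0 (Icc (0 : ℝ) (1 / 4)) r := by
    intro r hr
    have hf := hW.hasDerivWithinAt_flowMap z hr
    have h1 := (hW.hasFDerivAt_pot _).comp_hasDerivWithinAt r
      ((ContinuousLinearMap.fst ℝ (E d) (E d)).hasFDerivAt.comp_hasDerivWithinAt r hf)
    have h2 := (((ContinuousLinearMap.snd ℝ (E d) (E d)).hasFDerivAt.comp_hasDerivWithinAt r
      hf).norm_sq).div_const 2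
    refine (h1.add h2).congr_deriv ?_
    simp [field, inner_neg_right, inner_add_right, real_inner_comm]
  have := constant_of_has_deriv_right_zero (fun r hr => (h r hr).continuousWithinAt)
    (fun r hr => (h r (Ico_subset_Icc_self hr)).mono_of_mem_nhdsWithin (Icc_mem_nhdsGE_of_mem hr))
    t ht
  rw [this, hW.flowMap_zero]

theorem continuous_eulerStep (δ : ℝ) : Continuous (eulerStep W δ) := by
  have := hW.contDiff_grad.continuous
  unfold eulerStep
  fun_prop

theorem measurePreserving_eulerStep (δ : ℝ) :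
    MeasurePreserving (eulerStep W δ) ((volume : Measure (E d)).prod volume)
      ((volume : Measure (E d)).prod volume) := by
  have hc := hW.contDiff_grad.continuous
  have h1 : MeasurePreserving (fun p : E d × E d => (p.1, p.2 + δ • p.1))
      ((volume : Measure (E d)).prod volume) ((volume : Measure (E d)).prod volume) :=
    (MeasurePreserving.id volume).skew_product (g := fun a c => c + δ • a)
      (by fun_prop : Measurable fun p : E d × E d => p.2 + δ • p.1)
      (ae_of_all _ fun a => map_add_right_eq_self volume _)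
  have h2 : MeasurePreserving (fun p : E d × E d => (p.1, p.2 - δ • (p.1 + grad W p.1)))
      ((volume : Measure (E d)).prod volume) ((volume : Measure (E d)).prod volume) :=
    (MeasurePreserving.id volume).skew_product
      (g := fun a c => c - δ • (a + grad W a))
      (by fun_prop : Measurable fun p : E d × E d => p.2 - δ • (p.1 + grad W p.1))
      (ae_of_all _ fun a => by
        simp only [sub_eq_add_neg]
        exact map_add_right_eq_self volume _)
  have h3 := h2.comp ((Measure.measurePreserving_swap (μ := (volume : Measure (E d)))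
    (ν := (volume : Measure (E d)))).comp
      (h1.comp (Measure.measurePreserving_swap (μ := (volume : Measure (E d)))
        (ν := (volume : Measure (E d))))))
  exact h3

theorem dist_eulerStep_le {δ : ℝ} (h0 : 0 ≤ δ) (h1 : δ ≤ 1) (z w : E d × E d) :
    ‖eulerStep W δ z - eulerStep W δ w‖ ≤ (1 + 4 * δ) * ‖z - w‖ := by
  have hx := norm_fst_le (z - w)
  have hv := norm_snd_le (z - w)
  simp only [Prod.fst_sub, Prod.snd_sub] at hx hv
  set e := ‖z - w‖
  have he : 0 ≤ e := norm_nonneg _
  set a := z.1 + δ • z.2 with ha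
  set b := w.1 + δ • w.2 with hb
  have hab : ‖a - b‖ ≤ (1 + δ) * e := by
    rw [ha, hb, show z.1 + δ • z.2 - (w.1 + δ • w.2) = (z.1 - w.1) + δ • (z.2 - w.2) by
      rw [smul_sub]; abel]
    refine (norm_add_le _ _).trans ?_
    rw [norm_smul, Real.norm_eq_abs, abs_of_nonneg h0]
    nlinarith
  have hF := hW.force_lipschitz a b
  rw [Prod.norm_def]
  refine max_le ?_ ?_
  · simp only [eulerStep, Prod.fst_sub, ← ha, ← hb]
    nlinarith
  · simp only [eulerStep, Prod.snd_sub, ← ha, ← hb]
    rw [show z.2 - δ • (a + grad W a) - (w.2 - δ • (b + grad W b)) =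
      (z.2 - w.2) - δ • ((a + grad W a) - (b + grad W b)) by rw [smul_sub δ]; abel]
    refine (norm_sub_le _ _).trans ?_
    rw [norm_smul, Real.norm_eq_abs, abs_of_nonneg h0]
    nlinarith [mul_le_mul_of_nonneg_left (hF.trans (mul_le_mul_of_nonneg_left hab zero_le_two)) h0,
      mul_nonneg (mul_nonneg h0 (sub_nonneg.2 h1)) he]

theorem exists_local_error (z : E d × E d) :
    ∃ C : ℝ, ∀ s δ : ℝ, 0 ≤ s → 0 ≤ δ → s + δ ≤ 1 / 4 →
      ‖flowMap W z (s + δ) - eulerStep W δ (flowMap W z s)‖ ≤ C * δ ^ 2 := by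
  obtain ⟨M, hM⟩ := isCompact_Icc.exists_bound_of_continuousOn
    (f := fun t => field W (flowMap W z t))
    (hW.lipschitz_field.continuous.comp_continuousOn (hW.continuousOn_flowMap z))
  have hM0 : 0 ≤ M := (norm_nonneg _).trans (hM 0 ⟨le_rfl, by norm_num⟩)
  refine ⟨4 * M, fun s δ hs hδ hsd => ?_⟩
  have hI : Icc s (s + δ) ⊆ Icc (0 : ℝ) (1 / 4) := Icc_subset_Icc hs hsd
  have hd : ∀ r ∈ Icc s (s + δ),
      HasDerivWithinAt (flowMap W z) (field W (flowMap W z r)) (Icc s (s + δ)) r :=
    fun r hr => (hW.hasDerivWithinAt_flowMap z (hI hr)).mono hI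
  have hlin : ∀ r ∈ Icc s (s + δ), ‖flowMap W z r - flowMap W z s‖ ≤ M * δ := fun r hr => by
    refine ((convex_Icc s (s + δ)).norm_image_sub_le_of_norm_hasDerivWithin_le hd
      (fun u hu => hM u (hI hu)) (left_mem_Icc.2 (by linarith)) hr).trans ?_
    rw [Real.norm_eq_abs, abs_of_nonneg (by linarith [hr.1])]
    exact mul_le_mul_of_nonneg_left (by linarith [hr.2]) hM0
  set p := fun r => (flowMap W z r).1
  set q := fun r => (flowMap W z r).2
  have hp : ∀ r ∈ Icc s (s + δ), HasDerivWithinAt p (q r) (Icc s (s + δ)) r := fun r hr =>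
    (ContinuousLinearMap.fst ℝ (E d) (E d)).hasFDerivAt.comp_hasDerivWithinAt r (hd r hr)
  have hq : ∀ r ∈ Icc s (s + δ),
      HasDerivWithinAt q (-(p r + grad W (p r))) (Icc s (s + δ)) r := fun r hr =>
    (ContinuousLinearMap.snd ℝ (E d) (E d)).hasFDerivAt.comp_hasDerivWithinAt r (hd r hr)
  have hqs : ‖q s‖ ≤ M :=
    (norm_fst_le (field W (flowMap W z s))).trans (hM s ⟨hs, by linarith⟩)
  have e1 : ‖(p (s + δ) - (s + δ) • q s) - (p s - s • q s)‖ ≤ M * δ * δ := by
    refine ((convex_Icc s (s + δ)).norm_image_sub_le_of_norm_hasDerivWithin_le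
      (f := fun r => p r - r • q s) (f' := fun r => q r - q s)
      (fun r hr => ((hp r hr).sub ((hasDerivWithinAt_id r _).smul_const (q s))).congr_deriv
        (by simp))
      (fun r hr => (norm_snd_le _).trans (hlin r hr))
      (left_mem_Icc.2 (by linarith)) (right_mem_Icc.2 (by linarith))).trans ?_
    simp [abs_of_nonneg hδ]
  set x' := p s + δ • q s
  have e2 : ‖(q (s + δ) + (s + δ) • (x' + grad W x')) - (q s + s • (x' + grad W x'))‖
      ≤ 4 * M * δ * δ := by
    refine ((convex_Icc s (s + δ)).norm_image_sub_le_of_norm_hasDerivWithin_le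
      (f := fun r => q r + r • (x' + grad W x'))
      (f' := fun r => (x' + grad W x') - (p r + grad W (p r))) (C := 4 * M * δ)
      (fun r hr => ((hq r hr).add ((hasDerivWithinAt_id r _).smul_const
        (x' + grad W x'))).congr_deriv (by rw [one_smul]; abel))
      (fun r hr => ?_)
      (left_mem_Icc.2 (by linarith)) (right_mem_Icc.2 (by linarith))).trans ?_
    · refine (hW.force_lipschitz _ _).trans ?_
      have h1 : x' - p r = δ • q s - (p r - p s) := by simp only [x']; abel
      have h2 : ‖δ • q s - (p r - p s)‖ ≤ δ * M + M * δ := by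
        refine (norm_sub_le _ _).trans (add_le_add ?_ ((norm_fst_le _).trans (hlin r hr)))
        rw [norm_smul, Real.norm_eq_abs, abs_of_nonneg hδ]
        exact mul_le_mul_of_nonneg_left hqs hδ
      rw [h1]
      linarith
    · simp [abs_of_nonneg hδ]
  rw [Prod.norm_def]
  refine max_le ?_ ?_
  · simp only [eulerStep, Prod.fst_sub]
    rw [show (flowMap W z (s + δ)).1 - ((flowMap W z s).1 + δ • (flowMap W z s).2) =
      (p (s + δ) - (s + δ) • q s) - (p s - s • q s) by simp only [p, q, add_smul]; abel]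
    nlinarith
  · simp only [eulerStep, Prod.snd_sub]
    rw [show (flowMap W z (s + δ)).2 - ((flowMap W z s).2 - δ • (x' + grad W x')) =
      (q (s + δ) + (s + δ) • (x' + grad W x')) - (q s + s • (x' + grad W x')) by
        simp only [q, add_smul]; abel]
    nlinarith

theorem tendsto_euler (z : E d × E d) {t : ℝ} (ht : t ∈ Icc (0 : ℝ) (1 / 4)) :
    Tendsto (fun n : ℕ => (eulerStep W (t / (n + 1)))^[n + 1] z) atTop (𝓝 (flowMap W z t)) := by
  obtain ⟨C, hC⟩ := hW.exists_local_error z
  have hC0 : 0 ≤ C := by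
    have := hC 0 (1 / 4) le_rfl (by norm_num) (by norm_num)
    nlinarith [norm_nonneg (flowMap W z (0 + 1 / 4) - eulerStep W (1 / 4) (flowMap W z 0))]
  rw [tendsto_iff_norm_sub_tendsto_zero]
  refine squeeze_zero (fun n => norm_nonneg _) (g := fun n : ℕ => exp 1 * C * (1 / ((n : ℝ) + 1)))
    (fun n => ?_) ?_
  swap
  · simpa using (tendsto_one_div_add_atTop_nhds_zero_nat (𝕜 := ℝ)).const_mul (exp 1 * C)
  set δ := t / ((n : ℝ) + 1) with hδ
  have hn : (0 : ℝ) < (n : ℝ) + 1 := by positivity
  have hδ0 : 0 ≤ δ := div_nonneg ht.1 hn.le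
  have hnδ : ((n : ℝ) + 1) * δ = t := by rw [hδ]; field_simp
  have hδ1 : δ ≤ 1 := by nlinarith [ht.2, n.cast_nonneg (α := ℝ)]
  have key : ∀ k : ℕ, k ≤ n + 1 →
      ‖flowMap W z ((k : ℝ) * δ) - (eulerStep W δ)^[k] z‖ ≤
        (1 + 4 * δ) ^ k * ((k : ℝ) * (C * δ ^ 2)) := by
    intro k
    induction k with
    | zero => intro _; simp [hW.flowMap_zero]
    | succ k ih =>
      intro hk
      have hkd : (k : ℝ) * δ + δ ≤ 1 / 4 := by
        have h1 : ((k : ℝ) + 1) ≤ (n : ℝ) + 1 := by exact_mod_cast hk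
        nlinarith [mul_le_mul_of_nonneg_right h1 hδ0, ht.2]
      rw [Function.iterate_succ_apply', Nat.cast_succ, add_mul, one_mul]
      refine (norm_sub_le_norm_sub_add_norm_sub _ (eulerStep W δ (flowMap W z (k * δ))) _).trans ?_
      refine (add_le_add (hC _ _ (by positivity) hδ0 hkd)
        ((hW.dist_eulerStep_le hδ0 hδ1 _ _).trans
          (mul_le_mul_of_nonneg_left (ih (by omega)) (by positivity)))).trans ?_
      have h1 : 1 ≤ (1 + 4 * δ) ^ (k + 1) := one_le_pow₀ (by linarith)
      rw [pow_succ (1 + 4 * δ) k] at h1 ⊢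
      nlinarith [mul_le_mul_of_nonneg_right h1 (mul_nonneg hC0 (sq_nonneg δ))]
  have h := key (n + 1) le_rfl
  push_cast at h
  rw [hnδ, norm_sub_rev] at h
  refine h.trans ?_
  have hp : (1 + 4 * δ) ^ (n + 1) ≤ exp 1 := by
    calc (1 + 4 * δ) ^ (n + 1) ≤ exp (4 * δ) ^ (n + 1) :=
          pow_le_pow_left₀ (by positivity) (by linarith [add_one_le_exp (4 * δ)]) _
      _ = exp (((n : ℝ) + 1) * (4 * δ)) := by rw [← exp_nat_mul]; push_cast; ring_nf
      _ ≤ exp 1 := exp_le_exp.2 (by nlinarith [ht.2])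
  rw [mul_assoc (exp 1) C]
  refine mul_le_mul hp ?_ (by positivity) (exp_pos 1).le
  rw [mul_one_div, le_div_iff₀ hn]
  have : ((n : ℝ) + 1) * (C * δ ^ 2) * ((n : ℝ) + 1) = C * t ^ 2 := by rw [← hnδ]; ring
  rw [this]
  have ht2 : t ^ 2 ≤ 1 := pow_le_one₀ ht.1 (by linarith [ht.2])
  exact mul_le_of_le_one_right hC0 ht2

theorem measurePreserving_flowMap {t : ℝ} (ht : t ∈ Icc (0 : ℝ) (1 / 4)) :
    MeasurePreserving (fun z => flowMap W z t) ((law W).prod (stdGaussian (E d)))
      ((law W).prod (stdGaussian (E d))) := by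
  set T := fun z => flowMap W z t
  have hT : Measurable T := (hW.lipschitz_flowMap t).continuous.measurable
  set f : E d → ℝ≥0∞ := fun x => ENNReal.ofReal (exp (-pot W x))
  set g : E d → ℝ≥0∞ := fun v => ENNReal.ofReal (exp (-gPot v))
  have hf : Measurable f := hW.decay.1.neg.rexp.measurable.ennreal_ofReal
  have hg : Measurable g := decay_gPot.1.neg.rexp.measurable.ennreal_ofReal
  set b : ℝ≥0∞ := ENNReal.ofReal ((∫ y : E d, exp (-gPot y))⁻¹)
  have hγ : stdGaussian (E d) = b • (volume : Measure (E d)).withDensity g := by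
    rw [stdGaussian_eq_withDensity, ← withDensity_smul b hg]
    congr 1
    funext x
    exact ENNReal.ofReal_mul (inv_nonneg.2 (integral_nonneg fun y => (exp_pos _).le))
  set m₀ := ((volume : Measure (E d)).prod volume).withDensity
    fun z => ENNReal.ofReal (exp (-energy W z))
  have hm₀ : ((volume : Measure (E d)).withDensity f).prod (volume.withDensity g) = m₀ := by
    rw [prod_withDensity hf hg]
    congr 1
    funext z
    simp only [f, g, energy, gPot, neg_add, exp_add]
    exact (ENNReal.ofReal_mul (exp_pos _).le).symm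
  have hm : ∃ c : ℝ≥0∞, (law W).prod (stdGaussian (E d)) = c • m₀ := by
    refine ⟨(∫⁻ x, ENNReal.ofReal (exp (-pot W x))) ⁻¹ * b, ?_⟩
    rw [law, gibbs, hγ, Measure.prod_smul_left, Measure.prod_smul_right, hm₀, smul_smul]
  obtain ⟨c, hc⟩ := hm
  rw [hc]
  refine MeasurePreserving.smul_measure ⟨hT, ?_⟩ c
  have hint : ∀ {Ψ : E d → ℝ}, Decay Ψ →
      IsFiniteMeasure ((volume : Measure (E d)).withDensity fun x => ENNReal.ofReal (exp (-Ψ x))) :=
    fun hΨ => isFiniteMeasure_withDensity_ofReal (by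
      simpa using (hΨ.integrable (f := fun _ : E d => (1 : ℝ)) aestronglyMeasurable_const
        (PolyBd.const 1)).2)
  have hfin : IsFiniteMeasure m₀ := by
    rw [← hm₀]
    have : IsFiniteMeasure ((volume : Measure (E d)).withDensity f) := hint hW.decay
    have : IsFiniteMeasure ((volume : Measure (E d)).withDensity g) := hint decay_gPot
    infer_instance
  refine map_eq_self_of_lintegral_le hT fun φ => ?_
  have hH : Measurable fun z => ENNReal.ofReal (exp (-energy W z)) :=
    hW.continuous_energy.neg.rexp.measurable.ennreal_ofReal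
  have hφ : Measurable fun z => (φ z : ℝ≥0∞) := φ.continuous.measurable.coe_nnreal_ennreal
  have hφT : Measurable fun z => (φ (T z) : ℝ≥0∞) := hφ.comp hT
  simp only [m₀]
  rw [lintegral_withDensity_eq_lintegral_mul _ hH hφT,
    lintegral_withDensity_eq_lintegral_mul _ hH hφ]
  simp only [Pi.mul_apply]
  set F : E d × E d → ℝ≥0∞ := fun z => ENNReal.ofReal (exp (-energy W z)) * φ z
  have hF : Continuous F :=
    continuous_iff_continuousAt.2 fun z =>
      ENNReal.Tendsto.mul ((ENNReal.continuous_ofReal.comp hW.continuous_energy.neg.rexp).tendsto z)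
        (Or.inr ENNReal.coe_ne_top) ((ENNReal.continuous_coe.comp φ.continuous).tendsto z)
        (Or.inr ENNReal.ofReal_ne_top)
  set S := fun n : ℕ => (eulerStep W (t / (n + 1)))^[n + 1]
  have hS : ∀ n : ℕ, MeasurePreserving (S n) ((volume : Measure (E d)).prod volume)
      ((volume : Measure (E d)).prod volume) := fun n =>
    (hW.measurePreserving_eulerStep _).iterate _
  calc ∫⁻ z, ENNReal.ofReal (exp (-energy W z)) * φ (T z) ∂(volume : Measure (E d)).prod volume
      = ∫⁻ z, liminf (fun n => F (S n z)) atTop ∂(volume : Measure (E d)).prod volume := by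
        refine lintegral_congr fun z => ?_
        have h := ((hF.tendsto _).comp (hW.tendsto_euler z ht)).liminf_eq
        simp only [Function.comp_def] at h
        rw [h]
        simp only [F, hW.energy_flowMap z ht, T]
    _ ≤ liminf (fun n => ∫⁻ z, F (S n z) ∂(volume : Measure (E d)).prod volume) atTop :=
        lintegral_liminf_le fun n => hF.measurable.comp (hS n).measurable
    _ = ∫⁻ z, F z ∂(volume : Measure (E d)).prod volume := by
        simp only [(hS _).lintegral_comp hF.measurable, liminf_const]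

theorem measurePreserving_flow {t : ℝ} (ht : t ∈ Icc (0 : ℝ) (1 / 4)) :
    MeasurePreserving (fun z : E d × E d => (traj W z.1 z.2 t, vel W z.1 z.2 t))
      ((law W).prod (stdGaussian (E d))) ((law W).prod (stdGaussian (E d))) :=
  hW.measurePreserving_flowMap ht

end Pert

end Vale.Agent.P347
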