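import Vale.Agent.P347.Scheme
import Vale.Agent.P347.Noise
import Vale.Agent.P347.Flow

/-!
# P347: the randomized chain as a function of its noise

It is Lipschitz in the noise with constant of order `κ η σ`, and its mean is a run of the same
scheme with the smoothed drift, perturbed by at most the second order bias.
-/

open MeasureTheory ProbabilityTheory Real Set
open scoped RealInnerProductSpace

namespace Vale.Agent.P347

variable {d : ℕ}

namespace Scheme

/-- The queries of one step. -/
abbrev Slot (S : Scheme) (K : ℕ) : Type := (Fin (K + 1) × Fin S.J) ⊕ Fin S.I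

/-- The queries of `L` steps. -/
abbrev Idx (S : Scheme) (K L : ℕ) : Type := Fin L × S.Slot K

/-- The chain started at `0`. -/
noncomputable def chain (S : Scheme) (K : ℕ) (G : ℕ → ℕ → Fin S.J → E d → E d)
    (Gf : ℕ → Fin S.I → E d → E d) (v : ℕ → E d) : ℕ → E d
  | 0 => 0
  | i + 1 => S.step K (G i) (Gf i) (S.chain K G Gf v i) (v i)

variable (S : Scheme) (K L : ℕ)

/-- The noise of query `l` of iteration `k` of step `i`. -/
noncomputable def rnd (R : Noise d (S.Idx K L)) (i k : ℕ) (l : Fin S.J) : E d :=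
  if h : i < L ∧ k ≤ K then R (⟨i, h.1⟩, Sum.inl (⟨k, Nat.lt_succ_of_le h.2⟩, l)) else 0

/-- The noise of final query `l` of step `i`. -/
noncomputable def rndf (R : Noise d (S.Idx K L)) (i : ℕ) (l : Fin S.I) : E d :=
  if h : i < L then R (⟨i, h⟩, Sum.inr l) else 0

/-- The randomized drift of the iterations. -/
noncomputable def drift (g : E d → E d) (σ : ℝ) (R : Noise d (S.Idx K L)) (i k : ℕ) (l : Fin S.J)
    (p : E d) : E d :=
  p + g (p + σ • S.rnd K L R i k l)

/-- The randomized drift of the final row. -/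
noncomputable def driftf (g : E d → E d) (σ : ℝ) (R : Noise d (S.Idx K L)) (i : ℕ) (l : Fin S.I)
    (p : E d) : E d :=
  p + g (p + σ • S.rndf K L R i l)

/-- The position after `i` steps of the randomized chain. -/
noncomputable def xR (g : E d → E d) (σ : ℝ) (v : ℕ → E d) (i : ℕ) (R : Noise d (S.Idx K L)) :
    E d :=
  S.chain K (S.drift K L g σ R) (S.driftf K L g σ R) v i

/-- The nodes of iteration `k` of step `i`. -/
noncomputable def pR (g : E d → E d) (σ : ℝ) (v : ℕ → E d) (i k : ℕ) (j : Fin S.J)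
    (R : Noise d (S.Idx K L)) : E d :=
  S.iter (S.drift K L g σ R i) (S.xR K L g σ v i R) (v i) k j

/-- The final nodes of step `i`. -/
noncomputable def zR (g : E d → E d) (σ : ℝ) (v : ℕ → E d) (i : ℕ) (j : Fin S.I)
    (R : Noise d (S.Idx K L)) : E d :=
  S.fin K (S.drift K L g σ R i) (S.xR K L g σ v i R) (v i) j

variable {S K L} {g : E d → E d} {σ : ℝ} {v : ℕ → E d}

theorem contDiff_rnd (i k : ℕ) (l : Fin S.J) :
    ContDiff ℝ 1 fun R : Noise d (S.Idx K L) => S.rnd K L R i k l := by
  unfold rnd
  split_ifs with h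
  · exact (PiLp.proj 2 (𝕜 := ℝ) (fun _ : S.Idx K L => E d) _).contDiff
  · exact contDiff_const

theorem contDiff_rndf (i : ℕ) (l : Fin S.I) :
    ContDiff ℝ 1 fun R : Noise d (S.Idx K L) => S.rndf K L R i l := by
  unfold rndf
  split_ifs with h
  · exact (PiLp.proj 2 (𝕜 := ℝ) (fun _ : S.Idx K L => E d) _).contDiff
  · exact contDiff_const

theorem contDiff_step (hg : ContDiff ℝ 1 g) {i : ℕ}
    {x : Noise d (S.Idx K L) → E d} (hx : ContDiff ℝ 1 x) :
    (∀ k j, ContDiff ℝ 1 fun R => S.iter (S.drift K L g σ R i) (x R) (v i) k j) ∧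
    (∀ j, ContDiff ℝ 1 fun R => S.fin K (S.drift K L g σ R i) (x R) (v i) j) ∧
    ContDiff ℝ 1 fun R => S.step K (S.drift K L g σ R i) (S.driftf K L g σ R i) (x R) (v i) := by
  have hit : ∀ k j, ContDiff ℝ 1 fun R => S.iter (S.drift K L g σ R i) (x R) (v i) k j := by
    intro k
    induction k with
    | zero => intro j; simp only [iter]; fun_prop
    | succ k ih =>
      intro j
      simp only [iter, drift]
      refine (hx.add contDiff_const).sub (ContDiff.sum fun l _ => ?_)
      exact ((ih l).add (hg.comp ((ih l).add ((contDiff_rnd i k l).const_smul σ)))).const_smul _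
  have hfi : ∀ j, ContDiff ℝ 1 fun R => S.fin K (S.drift K L g σ R i) (x R) (v i) j := by
    intro j
    simp only [fin, drift]
    refine (hx.add contDiff_const).sub (ContDiff.sum fun l _ => ?_)
    exact ((hit K l).add (hg.comp ((hit K l).add ((contDiff_rnd i K l).const_smul σ)))).const_smul _
  refine ⟨hit, hfi, ?_⟩
  simp only [step, driftf]
  refine (hx.add contDiff_const).sub (ContDiff.sum fun l _ => ?_)
  exact ((hfi l).add (hg.comp ((hfi l).add ((contDiff_rndf i l).const_smul σ)))).const_smul _

theorem contDiff_xR (hg : ContDiff ℝ 1 g) (i : ℕ) : ContDiff ℝ 1 (S.xR K L g σ v i) := by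
  induction i with
  | zero => exact contDiff_const
  | succ i ih => exact (contDiff_step hg ih).2.2

theorem contDiff_pR (hg : ContDiff ℝ 1 g) (i k : ℕ) (j : Fin S.J) :
    ContDiff ℝ 1 (S.pR K L g σ v i k j) :=
  (contDiff_step hg (contDiff_xR hg i)).1 k j

theorem contDiff_zR (hg : ContDiff ℝ 1 g) (i : ℕ) (j : Fin S.I) :
    ContDiff ℝ 1 (S.zR K L g σ v i j) :=
  (contDiff_step hg (contDiff_xR hg i)).2.1 j

theorem iter_congr {G G' : ℕ → Fin S.J → E d → E d} {x w : E d} {k : ℕ}
    (h : ∀ k' < k, G k' = G' k') (j : Fin S.J) : S.iter G x w k j = S.iter G' x w k j := by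
  induction k generalizing j with
  | zero => rfl
  | succ k ih =>
    simp only [iter, h k k.lt_succ_self, ih fun k' hk' => h k' (hk'.trans k.lt_succ_self)]

theorem fin_congr {G G' : ℕ → Fin S.J → E d → E d} {x w : E d}
    (h : ∀ k' ≤ K, G k' = G' k') (j : Fin S.I) : S.fin K G x w j = S.fin K G' x w j := by
  simp only [fin, h K le_rfl, iter_congr fun k' hk' => h k' hk'.le]

variable [DecidableEq (S.Idx K L)]

theorem rnd_repl {q : S.Idx K L} {i k : ℕ} {l : Fin S.J}
    (hq : ∀ (h : i < L) (h' : k ≤ K), q ≠ (⟨i, h⟩, Sum.inl (⟨k, Nat.lt_succ_of_le h'⟩, l)))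
    (R : Noise d (S.Idx K L)) (z : E d) :
    S.rnd K L (repl q R z) i k l = S.rnd K L R i k l := by
  unfold rnd
  split_ifs with h
  · rw [repl_apply, if_neg fun e => hq h.1 h.2 e.symm]
  · rfl

theorem rndf_repl {q : S.Idx K L} {i : ℕ} {l : Fin S.I}
    (hq : ∀ h : i < L, q ≠ (⟨i, h⟩, Sum.inr l)) (R : Noise d (S.Idx K L)) (z : E d) :
    S.rndf K L (repl q R z) i l = S.rndf K L R i l := by
  unfold rndf
  split_ifs with h
  · rw [repl_apply, if_neg fun e => hq h e.symm]
  · rfl

/-- Noise of step `i` does not change the first `i` steps. -/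
theorem xR_repl (q : S.Idx K L) (R : Noise d (S.Idx K L)) (z : E d) {i : ℕ} (hi : i ≤ q.1) :
    S.xR K L g σ v i (repl q R z) = S.xR K L g σ v i R := by
  induction i with
  | zero => rfl
  | succ i ih =>
    have h1 : S.drift K L g σ (repl q R z) i = S.drift K L g σ R i := by
      funext k l p
      simp only [drift]
      rw [rnd_repl fun h h' e => by rw [e] at hi; exact Nat.not_succ_le_self _ hi]
    have h2 : S.driftf K L g σ (repl q R z) i = S.driftf K L g σ R i := by
      funext l p
      simp only [driftf]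
      rw [rndf_repl fun h e => by rw [e] at hi; exact Nat.not_succ_le_self _ hi]
    have h3 := ih (Nat.le_of_succ_le hi)
    simp only [xR, chain, h1, h2] at h3 ⊢
    rw [h3]

theorem pR_repl {i k : ℕ} (hi : i < L) (hk : k ≤ K) (l j : Fin S.J) (R : Noise d (S.Idx K L))
    (z : E d) :
    S.pR K L g σ v i k j (repl (⟨i, hi⟩, Sum.inl (⟨k, Nat.lt_succ_of_le hk⟩, l)) R z) =
      S.pR K L g σ v i k j R := by
  simp only [pR, xR_repl ((⟨i, hi⟩, Sum.inl (⟨k, Nat.lt_succ_of_le hk⟩, l)) : S.Idx K L) R z
    (i := i) le_rfl]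
  refine iter_congr (fun k' hk' => ?_) j
  funext l' p
  simp only [drift]
  rw [rnd_repl fun h h' e => by
    simp only [Prod.mk.injEq, Sum.inl.injEq, Fin.mk.injEq] at e; omega]

theorem zR_repl {i : ℕ} (hi : i < L) (l j : Fin S.I) (R : Noise d (S.Idx K L)) (z : E d) :
    S.zR K L g σ v i j (repl (⟨i, hi⟩, Sum.inr l) R z) = S.zR K L g σ v i j R := by
  simp only [zR, xR_repl ((⟨i, hi⟩, Sum.inr l) : S.Idx K L) R z (i := i) le_rfl]
  refine fin_congr (fun k' hk' => ?_) j
  funext l' p
  simp only [drift]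
  rw [rnd_repl fun h h' e => by simp at e]

end Scheme

/-- The identity plus the gradient of a perturbation is admissible. -/
theorem Pert.admissible {η B : ℝ} {W : E d → ℝ} (hW : Pert η B W) (u b : E d) :
    Scheme.Admissible fun p => p + grad W (p + u) + b := by
  constructor <;> intro a c
  · rw [show a + grad W (a + u) + b - a - (c + grad W (c + u) + b - c) =
      grad W (a + u) - grad W (c + u) by abel]
    refine (hW.grad_lipschitz _ _).trans ?_
    rw [add_sub_add_right_eq_sub]
    exact mul_le_of_le_one_left (norm_nonneg _) hW.eta_le_one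
  · rw [show a + grad W (a + u) + b - a - (c + grad W (c + u) + b - c) =
      grad W (a + u) - grad W (c + u) by abel]
    have h := hW.grad_mono (a + u) (c + u)
    rw [add_sub_add_right_eq_sub] at h
    nlinarith [sq_nonneg ‖a - c‖]

namespace Scheme

variable {S : Scheme} {K L : ℕ} {τ κ σ η B : ℝ} {W : E d → ℝ} {v : ℕ → E d}

theorem sum_blocks_le {ι κ' : Type} [Fintype ι] [Fintype κ'] (f : κ' → ι) (hf : Function.Injective f)
    (R : Noise d ι) : ∑ l, ‖R (f l)‖ ^ 2 ≤ ‖R‖ ^ 2 := by
  classical
  rw [PiLp.norm_sq_eq_of_L2 (fun _ : ι => E d), ← Finset.sum_image (f := fun i => ‖R i‖ ^ 2)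
    fun a _ b _ h => hf h]
  exact Finset.sum_le_sum_of_subset_of_nonneg (Finset.subset_univ _) fun i _ _ => sq_nonneg _

/-- Lipschitz dependence on the noise, and the same for all the query points. -/
theorem lipschitz_noise (hS : S.Good τ κ) (hW : Pert η B W) (hσ : 0 ≤ σ)
    (R R' : Noise d (S.Idx K L)) {i : ℕ} (hi : i < L) :
    (∀ k ≤ K, ∀ j, ‖S.pR K L (grad W) σ v i k j R - S.pR K L (grad W) σ v i k j R'‖ ≤
      36 / τ * (κ * (η * σ)) * ‖R - R'‖) ∧
    (∀ j, ‖S.zR K L (grad W) σ v i j R - S.zR K L (grad W) σ v i j R'‖ ≤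
      36 / τ * (κ * (η * σ)) * ‖R - R'‖) ∧
    ‖S.xR K L (grad W) σ v (i + 1) R - S.xR K L (grad W) σ v (i + 1) R'‖ ≤
      16 / τ * (κ * (η * σ)) * ‖R - R'‖ := by
  classical
  have hη := hW.eta_nonneg
  have hκ := hS.kappa_nonneg
  have hτ := hS.tau_pos
  have hτ1 : τ ≤ 1 := hS.tau_le.trans (by norm_num)
  set g := grad W
  set e := κ * (η * σ) * ‖R - R'‖ with he_def
  have he : 0 ≤ e := by positivity
  have hadm : ∀ (R : Noise d (S.Idx K L)) i k l, Admissible (S.drift K L g σ R i k l) :=
    fun R i k l => by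
      have h := hW.admissible (σ • S.rnd K L R i k l) 0
      simp only [add_zero] at h
      exact h
  have hadmf : ∀ (R : Noise d (S.Idx K L)) i l, Admissible (S.driftf K L g σ R i l) :=
    fun R i l => by
      have h := hW.admissible (σ • S.rndf K L R i l) 0
      simp only [add_zero] at h
      exact h
  have hA : ∀ (i k : ℕ) (c : Fin S.J → ℝ), i < L → k ≤ K → ∑ l, c l ^ 2 ≤ κ ^ 2 →
      ∀ p : Fin S.J → E d, ‖∑ l, c l •
        (S.drift K L g σ R i k l (p l) - S.drift K L g σ R' i k l (p l))‖ ≤ e := by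
    intro i k c hi hk hc p
    refine (norm_sum_smul_le_sq hc hκ (by positivity : 0 ≤ η * σ * ‖R - R'‖) ?_).trans
      (le_of_eq (by rw [he_def]; ring))
    rw [mul_pow]
    refine le_trans ?_ (mul_le_mul_of_nonneg_left (sum_blocks_le
      (fun l : Fin S.J => ((⟨i, hi⟩, Sum.inl (⟨k, Nat.lt_succ_of_le hk⟩, l)) : S.Idx K L))
      (fun a b h => by simpa using h) (R - R')) (sq_nonneg _))
    rw [Finset.mul_sum]
    refine Finset.sum_le_sum fun l _ => ?_
    rw [← mul_pow]
    refine pow_le_pow_left₀ (norm_nonneg _) ?_ 2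
    simp only [drift, rnd, dif_pos (And.intro hi hk)]
    rw [add_sub_add_left_eq_sub]
    refine (hW.grad_lipschitz _ _).trans (le_of_eq ?_)
    rw [add_sub_add_left_eq_sub, ← smul_sub, norm_smul, Real.norm_eq_abs, abs_of_nonneg hσ,
      WithLp.ofLp_sub, Pi.sub_apply]
    ring
  have hF : ∀ (i : ℕ), i < L → ∀ p : Fin S.I → E d, ‖∑ l, S.w l •
      (S.driftf K L g σ R i l (p l) - S.driftf K L g σ R' i l (p l))‖ ≤ e := by
    intro i hi p
    refine (norm_sum_smul_le_sq hS.sq_w hκ (by positivity : 0 ≤ η * σ * ‖R - R'‖) ?_).trans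
      (le_of_eq (by rw [he_def]; ring))
    rw [mul_pow]
    refine le_trans ?_ (mul_le_mul_of_nonneg_left (sum_blocks_le
      (fun l : Fin S.I => ((⟨i, hi⟩, Sum.inr l) : S.Idx K L))
      (fun a b h => by simpa using h) (R - R')) (sq_nonneg _))
    rw [Finset.mul_sum]
    refine Finset.sum_le_sum fun l _ => ?_
    rw [← mul_pow]
    refine pow_le_pow_left₀ (norm_nonneg _) ?_ 2
    simp only [driftf, rndf, dif_pos hi]
    rw [add_sub_add_left_eq_sub]
    refine (hW.grad_lipschitz _ _).trans (le_of_eq ?_)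
    rw [add_sub_add_left_eq_sub, ← smul_sub, norm_smul, Real.norm_eq_abs, abs_of_nonneg hσ,
      WithLp.ofLp_sub, Pi.sub_apply]
    ring
  have hstep : ∀ i < L,
      (∀ k j, k ≤ K → ‖S.pR K L g σ v i k j R - S.pR K L g σ v i k j R'‖ ≤
        2 * ‖S.xR K L g σ v i R - S.xR K L g σ v i R'‖ + 4 * e) ∧
      (∀ j, ‖S.zR K L g σ v i j R - S.zR K L g σ v i j R'‖ ≤
        2 * ‖S.xR K L g σ v i R - S.xR K L g σ v i R'‖ + 4 * e) ∧
      ‖S.xR K L g σ v (i + 1) R - S.xR K L g σ v (i + 1) R'‖ ≤
        (1 - τ / 4) * ‖S.xR K L g σ v i R - S.xR K L g σ v i R'‖ + 4 * e := by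
    intro i hi
    set x := S.xR K L g σ v i R
    set x' := S.xR K L g σ v i R'
    have h := stable hS (hadm R i) (hadmf R i) x x' (v i) K (fun k j => S.pR K L g σ v i k j R')
      (fun j => S.zR K L g σ v i j R') (S.xR K L g σ v (i + 1) R') (S.drift K L g σ R' i)
      (S.driftf K L g σ R' i) le_rfl he (fun j => by simp [pR, Scheme.iter, x'])
      (fun k j _ => by simp [pR, Scheme.iter, x', he])
      (fun k j hk => hA i k _ hi hk.le (hS.sq_A j) _)
      (fun j => by simp [pR, zR, Scheme.fin, x', he])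
      (fun j => hA i K _ hi le_rfl (hS.sq_Af j) _)
      (by simp [zR, xR, Scheme.chain, Scheme.step, x', he]) (hF i hi _)
    simp only [zero_div, add_zero] at h
    exact h
  have hx : ∀ i ≤ L, ‖S.xR K L g σ v i R - S.xR K L g σ v i R'‖ ≤ 16 / τ * e := by
    intro i
    induction i with
    | zero => intro _; simp [xR, Scheme.chain]; positivity
    | succ i ih =>
      intro hi
      refine (hstep i hi).2.2.trans ?_
      have h1 := mul_le_mul_of_nonneg_left (ih (by omega)) (by linarith : (0 : ℝ) ≤ 1 - τ / 4)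
      have h2 : (1 - τ / 4) * (16 / τ * e) = 16 / τ * e - 4 * e := by field_simp; ring
      linarith
  have h36 : 2 * (16 / τ * e) + 4 * e ≤ 36 / τ * e := by
    have : 4 * e ≤ 4 / τ * e :=
      mul_le_mul_of_nonneg_right (le_div_self (by norm_num) hτ hτ1) he
    have e1 : 36 / τ * e = 2 * (16 / τ * e) + 4 / τ * e := by ring
    linarith
  refine ⟨fun k hk j => ?_, fun j => ?_, ?_⟩
  · refine le_trans ((hstep i hi).1 k j hk) ?_
    rw [mul_assoc (36 / τ)]
    linarith [hx i hi.le]
  · refine le_trans ((hstep i hi).2.1 j) ?_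
    rw [mul_assoc (36 / τ)]
    linarith [hx i hi.le]
  · rw [mul_assoc (16 / τ)]
    exact hx (i + 1) hi

/-- The bias of the mean drift. -/
noncomputable def biasLip (τ κ η σ : ℝ) : ℝ := 36 / τ * (κ * (η * σ))

/-- The three facts about the randomized chain used by a stage. -/
theorem noisy_chain (hS : S.Good τ κ) (hW : Pert η B W) (hσ : 0 < σ) :
    ContDiff ℝ 1 (S.xR K L (grad W) σ v L) ∧
    (∀ R, ‖fderiv ℝ (S.xR K L (grad W) σ v L) R‖ ≤ biasLip τ κ η σ) ∧
    ∃ (b : ℕ → ℕ → Fin S.J → E d) (bf : ℕ → Fin S.I → E d),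
      (∀ i k l, i < L → k ≤ K → ‖b i k l‖ ≤ 2 * biasLip τ κ η σ ^ 2 * (η / σ) * √d) ∧
      (∀ i l, i < L → ‖bf i l‖ ≤ 2 * biasLip τ κ η σ ^ 2 * (η / σ) * √d) ∧
      ∫ R, S.xR K L (grad W) σ v L R ∂stdGaussian (Noise d (S.Idx K L)) =
        S.chain K (fun i k l p => p + sm σ (grad W) p + b i k l)
          (fun i l p => p + sm σ (grad W) p + bf i l) v L := by
  classical
  set g := grad W
  set Λ := biasLip τ κ η σ
  set γ := stdGaussian (Noise d (S.Idx K L))
  have hη := hW.eta_nonneg
  have hκ := hS.kappa_nonneg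
  have hτ := hS.tau_pos
  have hΛ : 0 ≤ Λ := by simp only [Λ, biasLip]; positivity
  have hgC : ContDiff ℝ 1 g := hW.contDiff_grad
  have hD : ∀ {F : Noise d (S.Idx K L) → E d},
      (∀ R R', ‖F R - F R'‖ ≤ Λ * ‖R - R'‖) → ∀ R, ‖fderiv ℝ F R‖ ≤ Λ := fun {F} h R =>
    norm_fderiv_le_of_lipschitz ℝ (C := ⟨Λ, hΛ⟩)
      (LipschitzWith.of_dist_le_mul fun R R' => by rw [dist_eq_norm, dist_eq_norm]; exact h R R')
  have hlip := fun (R R' : Noise d (S.Idx K L)) {i : ℕ} (hi : i < L) =>
    lipschitz_noise (v := v) hS hW hσ.le R R' hi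
  have hint : ∀ {F : Noise d (S.Idx K L) → E d}, Continuous F →
      (∀ R R', ‖F R - F R'‖ ≤ Λ * ‖R - R'‖) → Integrable F γ := fun {F} hc h =>
    (PolyBd.of_lipschitz hΛ h).integrable _ hc.aestronglyMeasurable
  have hxl : ∀ i ≤ L, ∀ R R', ‖S.xR K L g σ v i R - S.xR K L g σ v i R'‖ ≤ Λ * ‖R - R'‖ := by
    intro i hi R R'
    cases i with
    | zero => simp [xR, Scheme.chain]; positivity
    | succ i =>
      refine (hlip R R' hi).2.2.trans (mul_le_mul_of_nonneg_right ?_ (norm_nonneg _))
      simp only [Λ, biasLip]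
      gcongr
      norm_num
  refine ⟨contDiff_xR hgC L, hD (hxl L le_rfl), ?_⟩
  set b : ℕ → ℕ → Fin S.J → E d := fun i k l =>
    (∫ R, g (S.pR K L g σ v i k l R + σ • S.rnd K L R i k l) ∂γ) -
      sm σ g (∫ R, S.pR K L g σ v i k l R ∂γ)
  set bf : ℕ → Fin S.I → E d := fun i l =>
    (∫ R, g (S.zR K L g σ v i l R + σ • S.rndf K L R i l) ∂γ) -
      sm σ g (∫ R, S.zR K L g σ v i l R ∂γ)
  refine ⟨b, bf, fun i k l hi hk => ?_, fun i l hi => ?_, ?_⟩
  · have hc := contDiff_pR (S := S) (K := K) (L := L) (σ := σ) (v := v) hgC i k l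
    have hl : ∀ R R', ‖S.pR K L g σ v i k l R - S.pR K L g σ v i k l R'‖ ≤ Λ * ‖R - R'‖ :=
      fun R R' => (hlip R R' hi).1 k hk l
    simp only [b, rnd, dif_pos (And.intro hi hk)]
    rw [integral_replace _ hc.continuous (PolyBd.of_lipschitz hΛ hl) (pR_repl hi hk l l)
      hgC.continuous hW.polyBd_grad σ]
    exact smoothed_bias hW hσ hc (hD hl)
  · have hc := contDiff_zR (S := S) (K := K) (L := L) (σ := σ) (v := v) hgC i l
    have hl : ∀ R R', ‖S.zR K L g σ v i l R - S.zR K L g σ v i l R'‖ ≤ Λ * ‖R - R'‖ :=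
      fun R R' => (hlip R R' hi).2.1 l
    simp only [bf, rndf, dif_pos hi]
    rw [integral_replace _ hc.continuous (PolyBd.of_lipschitz hΛ hl) (zR_repl hi l l)
      hgC.continuous hW.polyBd_grad σ]
    exact smoothed_bias hW hσ hc (hD hl)
  · set G : ℕ → ℕ → Fin S.J → E d → E d := fun i k l p => p + sm σ g p + b i k l
    set Gf : ℕ → Fin S.I → E d → E d := fun i l p => p + sm σ g p + bf i l
    have hgi : ∀ {F : Noise d (S.Idx K L) → E d}, Continuous F → PolyBd F →
        Integrable (fun R => g (F R)) γ := fun hc hp =>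
      (hW.polyBd_grad.comp hp).integrable _ (hgC.continuous.comp hc).aestronglyMeasurable
    have hrp : ∀ i k l, PolyBd fun R : Noise d (S.Idx K L) => S.rnd K L R i k l := fun i k l => by
      unfold rnd; split_ifs
      · exact PolyBd.id.of_le fun R => PiLp.norm_apply_le R _
      · exact PolyBd.const 0
    have hrpf : ∀ i l, PolyBd fun R : Noise d (S.Idx K L) => S.rndf K L R i l := fun i l => by
      unfold rndf; split_ifs
      · exact PolyBd.id.of_le fun R => PiLp.norm_apply_le R _
      · exact PolyBd.const 0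
    have key : ∀ i ≤ L, ∫ R, S.xR K L g σ v i R ∂γ = S.chain K G Gf v i := by
      intro i
      induction i with
      | zero => intro _; simp [xR, Scheme.chain]
      | succ i ih =>
        intro hi
        have hiL : i < L := hi
        have hxi := hint (contDiff_xR (S := S) (v := v) hgC i).continuous (hxl i hiL.le)
        have hdi : ∀ k ≤ K, ∀ l, Integrable
            (fun R => S.drift K L g σ R i k l (S.pR K L g σ v i k l R)) γ := fun k hk l => by
          have hc := (contDiff_pR (S := S) (K := K) (L := L) (σ := σ) (v := v) hgC i k l).continuous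
          have hl : ∀ R R', ‖S.pR K L g σ v i k l R - S.pR K L g σ v i k l R'‖ ≤ Λ * ‖R - R'‖ :=
            fun R R' => (hlip R R' hiL).1 k hk l
          exact (hint hc hl).add (hgi (F := fun R => S.pR K L g σ v i k l R + σ • S.rnd K L R i k l)
            (hc.add ((contDiff_rnd i k l).continuous.const_smul σ))
            ((PolyBd.of_lipschitz hΛ hl).add ((PolyBd.const σ).smul (hrp i k l))))
        have hdm : ∀ k ≤ K, ∀ l, ∫ R, S.drift K L g σ R i k l (S.pR K L g σ v i k l R) ∂γ =
            G i k l (∫ R, S.pR K L g σ v i k l R ∂γ) := fun k hk l => by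
          have hc := (contDiff_pR (S := S) (K := K) (L := L) (σ := σ) (v := v) hgC i k l).continuous
          have hl : ∀ R R', ‖S.pR K L g σ v i k l R - S.pR K L g σ v i k l R'‖ ≤ Λ * ‖R - R'‖ :=
            fun R R' => (hlip R R' hiL).1 k hk l
          simp only [drift]
          rw [integral_add (hint hc hl) (hgi
            (F := fun R => S.pR K L g σ v i k l R + σ • S.rnd K L R i k l)
            (hc.add ((contDiff_rnd i k l).continuous.const_smul σ))
            ((PolyBd.of_lipschitz hΛ hl).add ((PolyBd.const σ).smul (hrp i k l))))]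
          simp only [G, b]
          abel
        have hp : ∀ k ≤ K, ∀ j, ∫ R, S.pR K L g σ v i k j R ∂γ =
            S.iter (G i) (S.chain K G Gf v i) (v i) k j := by
          intro k
          induction k with
          | zero =>
            intro _ j
            simp only [pR, Scheme.iter]
            rw [integral_add hxi (integrable_const _), ih hiL.le]
            simp
          | succ k ihk =>
            intro hk j
            have hsi : ∀ l, Integrable (fun R => S.A j l •
                S.drift K L g σ R i k l (S.pR K L g σ v i k l R)) γ :=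
              fun l => (hdi k (by omega) l).smul (S.A j l)
            show ∫ R, (S.xR K L g σ v i R + S.t j • v i - ∑ l, S.A j l •
              S.drift K L g σ R i k l (S.pR K L g σ v i k l R)) ∂γ = _
            rw [integral_sub (f := fun R => S.xR K L g σ v i R + S.t j • v i)
              (hxi.add (integrable_const _)) (integrable_finsetSum _ fun l _ => hsi l),
              integral_add hxi (integrable_const _), ih hiL.le,
              integral_finsetSum _ fun l _ => hsi l]
            simp only [integral_const, probReal_univ, one_smul, integral_smul, Scheme.iter,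
              hdm k (by omega), ihk (by omega)]
        have hz : ∀ j, ∫ R, S.zR K L g σ v i j R ∂γ =
            S.fin K (G i) (S.chain K G Gf v i) (v i) j := by
          intro j
          have hsi : ∀ l, Integrable (fun R => S.Af j l •
              S.drift K L g σ R i K l (S.pR K L g σ v i K l R)) γ :=
            fun l => (hdi K le_rfl l).smul (S.Af j l)
          show ∫ R, (S.xR K L g σ v i R + S.s j • v i - ∑ l, S.Af j l •
            S.drift K L g σ R i K l (S.pR K L g σ v i K l R)) ∂γ = _
          rw [integral_sub (f := fun R => S.xR K L g σ v i R + S.s j • v i)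
            (hxi.add (integrable_const _)) (integrable_finsetSum _ fun l _ => hsi l),
            integral_add hxi (integrable_const _), ih hiL.le,
            integral_finsetSum _ fun l _ => hsi l]
          simp only [integral_const, probReal_univ, one_smul, integral_smul, Scheme.fin,
            hdm K le_rfl, hp K le_rfl]
        have hfi : ∀ l, Integrable
            (fun R => S.driftf K L g σ R i l (S.zR K L g σ v i l R)) γ ∧
            ∫ R, S.driftf K L g σ R i l (S.zR K L g σ v i l R) ∂γ =
              Gf i l (∫ R, S.zR K L g σ v i l R ∂γ) := fun l => by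
          have hc := (contDiff_zR (S := S) (K := K) (L := L) (σ := σ) (v := v) hgC i l).continuous
          have hl : ∀ R R', ‖S.zR K L g σ v i l R - S.zR K L g σ v i l R'‖ ≤ Λ * ‖R - R'‖ :=
            fun R R' => (hlip R R' hiL).2.1 l
          have hg2 := hgi (F := fun R => S.zR K L g σ v i l R + σ • S.rndf K L R i l)
            (hc.add ((contDiff_rndf i l).continuous.const_smul σ))
            ((PolyBd.of_lipschitz hΛ hl).add ((PolyBd.const σ).smul (hrpf i l)))
          refine ⟨(hint hc hl).add hg2, ?_⟩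
          simp only [driftf]
          rw [integral_add (hint hc hl) hg2]
          simp only [Gf, bf]
          abel
        have hsi : ∀ l, Integrable (fun R => S.w l •
            S.driftf K L g σ R i l (S.zR K L g σ v i l R)) γ := fun l => (hfi l).1.smul (S.w l)
        show ∫ R, (S.xR K L g σ v i R + S.T • v i - ∑ l, S.w l •
          S.driftf K L g σ R i l (S.zR K L g σ v i l R)) ∂γ = _
        rw [integral_sub (f := fun R => S.xR K L g σ v i R + S.T • v i)
          (hxi.add (integrable_const _)) (integrable_finsetSum _ fun l _ => hsi l),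
          integral_add hxi (integrable_const _), ih hiL.le, integral_finsetSum _ fun l _ => hsi l]
        simp only [integral_const, probReal_univ, one_smul, integral_smul, Scheme.chain,
          Scheme.step, (hfi _).2, hz]
    exact key L le_rfl

end Scheme

end Vale.Agent.P347
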