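import Vale.Agent.P347.Flow

/-!
# P347: the stationary chain driven by given velocities
-/

open MeasureTheory ProbabilityTheory Real Set Function
open scoped RealInnerProductSpace

namespace Vale.Agent.P347

variable {d L : ℕ}

/-- `L` independent velocities. -/
noncomputable def velLaw (d L : ℕ) : Measure (Fin L → E d) :=
  Measure.pi fun _ => stdGaussian (E d)

instance : IsProbabilityMeasure (velLaw d L) := by unfold velLaw; infer_instance

/-- A sequence extending `v`. -/
def extend (v : Fin L → E d) (i : ℕ) : E d := if h : i < L then v ⟨i, h⟩ else 0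

theorem measurePreserving_update (i : Fin L) :
    MeasurePreserving (fun p : E d × (Fin L → E d) => update p.2 i p.1)
      ((stdGaussian (E d)).prod (velLaw d L)) (velLaw d L) := by
  have hm : Measurable fun p : E d × (Fin L → E d) => update p.2 i p.1 := by
    refine measurable_pi_lambda _ fun j => ?_
    rcases eq_or_ne j i with rfl | h
    · simpa using measurable_fst
    · simpa [Function.comp_def, h] using (measurable_pi_apply (X := fun _ : Fin L => E d) j).comp measurable_snd
  refine ⟨hm, (Measure.pi_eq fun s hs => ?_).symm⟩
  have e : (fun p : E d × (Fin L → E d) => update p.2 i p.1) ⁻¹' univ.pi s =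
      s i ×ˢ univ.pi (update s i univ) := by
    ext ⟨u, v⟩
    simp only [mem_preimage, mem_pi, mem_univ, true_implies, mem_prod]
    constructor
    · intro h
      refine ⟨by simpa using h i, fun j => ?_⟩
      rcases eq_or_ne j i with rfl | hj
      · simp
      · simpa [hj] using h j
    · rintro ⟨h1, h2⟩ j
      rcases eq_or_ne j i with rfl | hj
      · simpa using h1
      · simpa [hj] using h2 j
  rw [Measure.map_apply hm (MeasurableSet.univ_pi hs), e, Measure.prod_prod, velLaw, Measure.pi_pi,
    ← Finset.mul_prod_erase _ _ (Finset.mem_univ i),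
    ← Finset.mul_prod_erase _ (fun j => stdGaussian (E d) (s j)) (Finset.mem_univ i)]
  simp only [update_self, measure_univ, one_mul]
  congr 1
  exact Finset.prod_congr rfl fun j hj => by rw [update_of_ne (Finset.mem_erase.1 hj).1]

variable (W : E d → ℝ) (T : ℝ)

/-- Replace position and the velocity of step `i` by their images under the flow. -/
noncomputable def moveAt (i : Fin L) (p : E d × (Fin L → E d)) : E d × (Fin L → E d) :=
  (traj W p.1 (p.2 i) T, update p.2 i (vel W p.1 (p.2 i) T))

/-- The state before step `i`. -/
noncomputable def state : ℕ → E d × (Fin L → E d) → E d × (Fin L → E d)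
  | 0, p => p
  | i + 1, p => if h : i < L then moveAt W T ⟨i, h⟩ (state i p) else state i p

/-- The stationary position before step `i`. -/
noncomputable def statPos (i : ℕ) (p : E d × (Fin L → E d)) : E d := (state W T i p).1

variable {W T}

theorem state_snd (p : E d × (Fin L → E d)) : ∀ {i : ℕ} {j : Fin L}, i ≤ j →
    (state W T i p).2 j = p.2 j
  | 0, _, _ => rfl
  | i + 1, j, h => by
    simp only [state]
    split
    · simp only [moveAt]
      rw [update_of_ne (Fin.ne_of_val_ne (by simp only; omega)), state_snd p (by omega)]
    · exact state_snd p (by omega)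

theorem statPos_succ {i : ℕ} (hi : i < L) (p : E d × (Fin L → E d)) :
    statPos W T (i + 1) p = traj W (statPos W T i p) (p.2 ⟨i, hi⟩) T := by
  simp only [statPos, state, dif_pos hi, moveAt, state_snd p (j := (⟨i, hi⟩ : Fin L)) (le_refl i)]

namespace Pert

variable {η B : ℝ} (hW : Pert η B W)
include hW

theorem measurePreserving_moveAt (hT : T ∈ Icc (0 : ℝ) (1 / 4)) (i : Fin L) :
    MeasurePreserving (moveAt W T i) ((law W).prod (velLaw d L))
      ((law W).prod (velLaw d L)) := by
  have := hW.isProbabilityMeasure_law
  set Upd : (E d × E d) × (Fin L → E d) → E d × (Fin L → E d) :=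
    fun q => (q.1.1, update q.2 i q.1.2)
  have hUpd : MeasurePreserving Upd (((law W).prod (stdGaussian (E d))).prod (velLaw d L))
      ((law W).prod (velLaw d L)) :=
    ((MeasurePreserving.id (law W)).prod (measurePreserving_update i)).comp
      (measurePreserving_prodAssoc (law W) (stdGaussian (E d)) (velLaw d L))
  have hF := (hW.measurePreserving_flow hT).prod (MeasurePreserving.id (velLaw d L))
  have hm : Measurable (moveAt W T i) := by
    have h2 : Continuous fun p : E d × (Fin L → E d) => ((p.1, p.2 i), T) := by fun_prop
    have ht : Measurable fun p : E d × (Fin L → E d) => traj W p.1 (p.2 i) T :=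
      (hW.continuous_traj.comp h2).measurable
    have hv : Measurable fun p : E d × (Fin L → E d) => vel W p.1 (p.2 i) T :=
      (hW.continuous_vel.comp h2).measurable
    refine ht.prodMk (measurable_pi_lambda _ fun j => ?_)
    rcases eq_or_ne j i with rfl | h
    · simpa using hv
    · simpa [Function.comp_def, h] using (measurable_pi_apply (X := fun _ : Fin L => E d) j).comp measurable_snd
  refine ⟨hm, ?_⟩
  have e : moveAt W T i ∘ Upd =
      Upd ∘ Prod.map (fun z : E d × E d => (traj W z.1 z.2 T, vel W z.1 z.2 T)) id := by
    funext q
    simp [moveAt, Upd]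
  rw [← hUpd.map_eq, Measure.map_map hm hUpd.measurable, e,
    ← Measure.map_map hUpd.measurable hF.measurable, hF.map_eq, hUpd.map_eq]

theorem measurePreserving_state (hT : T ∈ Icc (0 : ℝ) (1 / 4)) : ∀ i : ℕ,
    MeasurePreserving (state W T i) ((law W).prod (velLaw d L)) ((law W).prod (velLaw d L))
  | 0 => MeasurePreserving.id _
  | i + 1 => by
    have h := measurePreserving_state hT i
    by_cases hi : i < L
    · have e : state W T (i + 1) = moveAt W T ⟨i, hi⟩ ∘ state (L := L) W T i := by
        funext p; simp only [state, dif_pos hi, Function.comp]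
      rw [e]; exact (hW.measurePreserving_moveAt hT _).comp h
    · have e : state W T (i + 1) = state (L := L) W T i := by
        funext p; simp only [state, dif_neg hi]
      rw [e]; exact h

theorem measurePreserving_statPos (hT : T ∈ Icc (0 : ℝ) (1 / 4)) (i : ℕ) :
    MeasurePreserving (statPos W T i) ((law W).prod (velLaw d L)) (law W) :=
  measurePreserving_fst.comp (hW.measurePreserving_state hT i)

theorem measurePreserving_pair (hT : T ∈ Icc (0 : ℝ) (1 / 4)) (i : Fin L) :
    MeasurePreserving (fun p => (statPos W T i p, p.2 i))
      ((law W).prod (velLaw d L)) ((law W).prod (stdGaussian (E d))) := by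
  have := hW.isProbabilityMeasure_law
  have h1 : MeasurePreserving (fun p : E d × (Fin L → E d) => (p.1, p.2 i))
      ((law W).prod (velLaw d L)) ((law W).prod (stdGaussian (E d))) :=
    (MeasurePreserving.id (law W)).prod
      (measurePreserving_eval (μ := fun _ : Fin L => stdGaussian (E d)) i)
  have h2 := h1.comp (hW.measurePreserving_state hT (i : ℕ))
  convert h2 using 1
  funext p
  simp [statPos, state_snd p (le_refl (i : ℕ))]

end Pert

end Vale.Agent.P347
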