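import Mathlib

/-!
# P347: the query model

Definitions used in the statement: the class of potentials, the Gibbs law, first-order query
algorithms with random reals, the query complexity and its exponent.
-/

open MeasureTheory Filter
open scoped RealInnerProductSpace Gradient

namespace Vale.Agent.P347

/-- The Euclidean space of dimension `d`. -/
abbrev E (d : ℕ) : Type := EuclideanSpace ℝ (Fin d)

/-- The class of the problem: `C²`, `V 0 = 0`, `∇V 0 = 0`, Hessian between `1` and `2`. -/
structure InClass {d : ℕ} (V : E d → ℝ) : Prop where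
  contDiff : ContDiff ℝ 2 V
  map_zero : V 0 = 0
  grad_zero : ∇ V 0 = 0
  hess_lower : ∀ x v : E d, ‖v‖ ^ 2 ≤ iteratedFDeriv ℝ 2 V x ![v, v]
  hess_upper : ∀ x v : E d, iteratedFDeriv ℝ 2 V x ![v, v] ≤ 2 * ‖v‖ ^ 2

/-- The Gibbs probability law, proportional to `exp (-V)`. -/
noncomputable def gibbs {d : ℕ} (V : E d → ℝ) : Measure (E d) :=
  (∫⁻ x, ENNReal.ofReal (Real.exp (-V x)))⁻¹ •
    volume.withDensity (fun x => ENNReal.ofReal (Real.exp (-V x)))

/-- The exact first-order oracle of `V`. -/
noncomputable def oracleOf {d : ℕ} (V : E d → ℝ) : E d → ℝ × E d :=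
  fun x => (V x, ∇ V x)

/-- A randomized adaptive algorithm with the query budget `q` in dimension `d`: the law of its
random reals, the measurable rule for each query (random reals and earlier answers only), and the
measurable output rule. Only `d` (not the potential) is known to it. -/
structure Algorithm (d q : ℕ) where
  seedLaw : Measure (ℕ → ℝ)
  seedLaw_isProb : IsProbabilityMeasure seedLaw
  query : (k : Fin q) → (ℕ → ℝ) × (Fin (k : ℕ) → ℝ × E d) → E d
  query_meas : ∀ k, Measurable (query k)
  output : (ℕ → ℝ) × (Fin q → ℝ × E d) → E d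
  output_meas : Measurable output

variable {d q : ℕ}

/-- The first `k` answers of the oracle `O` when the random reals are `ω`. -/
noncomputable def Algorithm.answers (A : Algorithm d q) (O : E d → ℝ × E d) (ω : ℕ → ℝ) :
    (k : ℕ) → k ≤ q → Fin k → ℝ × E d
  | 0, _ => Fin.elim0
  | k + 1, h =>
    Fin.snoc (A.answers O ω k (Nat.le_of_succ_le h))
      (O (A.query ⟨k, h⟩ (ω, A.answers O ω k (Nat.le_of_succ_le h))))

/-- The output as a function of the random reals. -/
noncomputable def Algorithm.run (A : Algorithm d q) (O : E d → ℝ × E d) (ω : ℕ → ℝ) : E d :=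
  A.output (ω, A.answers O ω q le_rfl)

/-- The law of the output on the potential `V`. -/
noncomputable def Algorithm.law (A : Algorithm d q) (V : E d → ℝ) : Measure (E d) :=
  A.seedLaw.map (A.run (oracleOf V))

/-- Total variation distance at most `ε`: the two laws differ by at most `ε` on every Borel set. -/
def TVLe {α : Type*} [MeasurableSpace α] (μ ν : Measure α) (ε : ℝ) : Prop :=
  ∀ s, MeasurableSet s → |μ.real s - ν.real s| ≤ ε

/-- Some algorithm with at most `q` queries samples every law of the class within `1/10`. -/
def Sampleable (d q : ℕ) : Prop :=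
  ∃ A : Algorithm d q, ∀ V : E d → ℝ, InClass V → TVLe (A.law V) (gibbs V) (1 / 10)

/-- The query complexity `Q(d)`. -/
noncomputable def Q (d : ℕ) : ℕ := sInf {q | Sampleable d q}

/-- The dimension exponent `limsup log Q(d) / log d`, as an extended real. -/
noncomputable def gammaStar : EReal :=
  atTop.limsup fun d : ℕ => ((Real.log (Q d) / Real.log d : ℝ) : EReal)

end Vale.Agent.P347
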