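import Vale.Agent.P347.DerivSob

/-!
# P347: derivatives along the stationary flow of a smoothed potential

The `k`-th derivative of the force along the flow has mean size `O (σ⁻¹ ^ k * √d)`.
-/

open MeasureTheory ProbabilityTheory Real
open scoped RealInnerProductSpace

namespace Vale.Agent.P347

namespace Deriv

variable {d : ℕ}

/-- identity matrix as a family of constants -/
noncomputable def delta (d : ℕ) : Fin d × Fin d → Z d → ℝ :=
  fun p _ => if p.1 = p.2 then 1 else 0

theorem good_delta (n : ℕ) (p : Fin d × Fin d) : Good n (delta d p) := good_const n _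

theorem Q_delta {η B σ : ℝ} {U : E d → ℝ} (hU : Pert η B U) (r : ℕ) :
    Q U σ r (delta d) = d := by
  have h := Q_const (σ := σ) hU r (fun p : Fin d × Fin d => if p.1 = p.2 then (1 : ℝ) else 0)
  refine h.trans ?_
  rw [Fintype.sum_prod_type]
  simp

theorem opLe_sm {ι κ : Type} [Fintype ι] [Fintype κ] {c t : ℝ} {M : ι → κ → E d → ℝ}
    (hop : OpLe c M) (hM : ∀ i k, Good 0 (M i k)) :
    OpLe c (fun i k => sm t (M i k)) := by
  intro x a
  set g : ι → E d → ℝ := fun i y => ∑ k, M i k y * a k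
  have hg : ∀ i, Good 0 (g i) := fun i => Good.sum _ fun k _ => (hM i k).mul (good_const 0 (a k))
  have hi : ∀ i, Integrable (fun z => g i (x + t • z)) (stdGaussian (E d)) := fun i =>
    integrable_shift (hg i).continuous (hg i).polyBd t x
  have hi2 : ∀ i, Integrable (fun z => g i (x + t • z) ^ 2) (stdGaussian (E d)) := fun i =>
    integrable_shift (f := fun y => g i y ^ 2) ((hg i).sq).continuous ((hg i).sq).polyBd t x
  have e : ∀ i, ∑ k, sm t (M i k) x * a k = ∫ z, g i (x + t • z) ∂stdGaussian (E d) := by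
    intro i
    simp only [sm, g, ← integral_mul_const]
    rw [integral_finsetSum _ fun k _ =>
      (integrable_shift (hM i k).continuous (hM i k).polyBd t x).mul_const (a k)]
  have hj : ∀ i, (∫ z, g i (x + t • z) ∂stdGaussian (E d)) ^ 2 ≤
      ∫ z, g i (x + t • z) ^ 2 ∂stdGaussian (E d) := by
    intro i
    set m := ∫ z, g i (x + t • z) ∂stdGaussian (E d)
    have h0 : 0 ≤ ∫ z, (g i (x + t • z) - m) ^ 2 ∂stdGaussian (E d) :=
      integral_nonneg fun z => sq_nonneg _
    have e2 : ∀ z, (g i (x + t • z) - m) ^ 2 = g i (x + t • z) ^ 2 - 2 * m * g i (x + t • z) + m ^ 2 :=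
      fun z => by ring
    simp only [e2] at h0
    rw [integral_add ((hi2 i).sub' ((hi i).const_mul _)) (integrable_const _),
      integral_sub (hi2 i) ((hi i).const_mul _), integral_const_mul] at h0
    simp only [integral_const, probReal_univ, one_smul] at h0
    nlinarith
  calc ∑ i, (∑ k, sm t (M i k) x * a k) ^ 2
      ≤ ∑ i, ∫ z, g i (x + t • z) ^ 2 ∂stdGaussian (E d) :=
        Finset.sum_le_sum fun i _ => by rw [e i]; exact hj i
    _ = ∫ z, ∑ i, g i (x + t • z) ^ 2 ∂stdGaussian (E d) :=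
        (integral_finsetSum _ fun i _ => hi2 i).symm
    _ ≤ ∫ _, c * ∑ k, a k ^ 2 ∂stdGaussian (E d) :=
        integral_mono (integrable_finsetSum _ fun i _ => hi2 i) (integrable_const _)
          fun z => hop (x + t • z) a
    _ = _ := by simp

theorem opLe_iter {ι κ : Type} [Fintype ι] [Fintype κ] {c t : ℝ} (ht : t ≠ 0)
    {M : ι → κ → E d → ℝ} (hop : OpLe c M) (hM : ∀ i k, Good 1 (M i k)) :
    ∀ n : ℕ, OpLe c (fun i k => (sm t)^[n] (M i k))
  | 0 => hop
  | n + 1 => by
    simp only [Function.iterate_succ_apply']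
    exact opLe_sm (opLe_iter ht hop hM n) fun i k =>
      (good_sm_iter ht (k := 0) (hM i k) n).mono (Nat.zero_le _)

theorem sm_const_mul (t c : ℝ) (f : E d → ℝ) :
    sm t (fun x => c * f x) = fun x => c * sm t f x := by
  funext x; simp only [sm, integral_const_mul]

theorem sm_iter_const_mul (t c : ℝ) (f : E d → ℝ) :
    ∀ n : ℕ, (sm t)^[n] (fun x => c * f x) = fun x => c * (sm t)^[n] f x
  | 0 => rfl
  | n + 1 => by
    rw [Function.iterate_succ_apply', Function.iterate_succ_apply', sm_iter_const_mul t c f n,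
      sm_const_mul]

/-- Bessel: one smoothing turns an operator bound into one for the derivative. -/
theorem opLe_dM {ι κ : Type} [Fintype ι] [Fintype κ] {c t σ : ℝ} (ht : t ≠ 0)
    {M : ι → κ → E d → ℝ} (hop : OpLe c M) (hM : ∀ i k, Good 1 (M i k)) :
    OpLe (c * (σ ^ 2 / t ^ 2)) (dM σ fun i k => sm t (M i k)) := by
  intro x a
  set g : ι → E d → ℝ := fun i y => ∑ k, M i k y * a k
  have hg : ∀ i, Good 1 (g i) := fun i => Good.sum _ fun k _ => (hM i k).mul (good_const 1 (a k))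
  have hi2 : ∀ i, Integrable (fun z => g i (x + t • z) ^ 2) (stdGaussian (E d)) := fun i =>
    integrable_shift (f := fun y => g i y ^ 2) ((hg i).sq).continuous ((hg i).sq).polyBd t x
  have e : ∀ i j, ∑ k, dM σ (fun i k => sm t (M i k)) (i, j) k x * a k =
      σ * fderiv ℝ (sm t (g i)) x (bas j) := by
    intro i j
    have h1 : sm t (g i) = fun y => ∑ k, sm t (M i k) y * a k := by
      funext y
      simp only [sm, g, ← integral_mul_const]
      rw [integral_finsetSum _ fun k _ =>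
        (integrable_shift (hM i k).continuous (hM i k).polyBd t y).mul_const (a k)]
    show _ = σ * dd (bas j) (sm t (g i)) x
    have hd : ∀ k, Differentiable ℝ (sm t (M i k)) := fun k =>
      (good_sm (n := 0) (hM i k) ht).differentiable
    rw [h1, dd_sum _ fun k _ => (hd k).mul_const (a k), Finset.mul_sum]
    refine Finset.sum_congr rfl fun k _ => ?_
    rw [dd_mul (hd k) (differentiable_const (a k)), dd_const]
    simp [dM]; ring
  have hb : ∀ i, ∑ j, (σ * fderiv ℝ (sm t (g i)) x (bas j)) ^ 2 ≤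
      σ ^ 2 / t ^ 2 * ∫ z, g i (x + t • z) ^ 2 ∂stdGaussian (E d) := by
    intro i
    simp only [mul_pow, ← Finset.mul_sum]
    rw [div_eq_mul_inv, mul_assoc]
    exact mul_le_mul_of_nonneg_left (sum_fderiv_sm_sq_le (hg i).contDiff_one (hg i).polyBd
      (hg i).polyBd_fderiv ht x) (sq_nonneg σ)
  simp only [Fintype.sum_prod_type, e]
  refine (Finset.sum_le_sum fun i _ => hb i).trans ?_
  rw [← Finset.mul_sum, ← integral_finsetSum _ fun i _ => hi2 i, mul_right_comm, mul_comm]
  refine mul_le_mul_of_nonneg_right ?_ (by positivity)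
  refine (integral_mono (integrable_finsetSum _ fun i _ => hi2 i) (integrable_const _)
    fun z => hop (x + t • z) a).trans ?_
  simp

theorem bd_iter {t σ K : ℝ} (ht : t ≠ 0) (hK : σ ^ 2 / t ^ 2 = K) (hK1 : 1 ≤ K) :
    ∀ (r n : ℕ) (c : ℝ), 0 ≤ c → r ≤ n → ∀ {ι κ : Type} [Fintype ι] [Fintype κ]
      (M : ι → κ → E d → ℝ), OpLe c M → (∀ i k, Good 1 (M i k)) →
        Bd σ (c * K ^ r) r (fun i k => (sm t)^[n] (M i k))
  | 0, n, c, _, _, _, _, _, _, M, hop, hM => by
    rw [pow_zero, mul_one]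
    exact ⟨opLe_iter ht hop hM n, fun i k =>
      (good_sm_iter ht (k := 0) (hM i k) n).mono (Nat.zero_le _)⟩
  | r + 1, 0, _, _, h, _, _, _, _, _, _, _ => absurd h (by omega)
  | r + 1, n + 1, c, hc, h, ι, κ, _, _, M, hop, hM => by
    refine ⟨fun x a => (opLe_iter ht hop hM (n + 1) x a).trans ?_, fun i k =>
      (good_sm_iter ht (k := 0) (hM i k) (n + 1)).mono (by omega), ?_⟩
    · exact mul_le_mul_of_nonneg_right (le_mul_of_one_le_right hc (one_le_pow₀ hK1))
        (Finset.sum_nonneg fun k _ => sq_nonneg _)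
    · have e : dM σ (fun i k => (sm t)^[n + 1] (M i k)) =
          fun p k => (sm t)^[n] (dM σ (fun i k => sm t (M i k)) p k) := by
        funext p k
        show (fun x => σ * dd (bas p.2) ((sm t)^[n + 1] (M p.1 k)) x) =
          (sm t)^[n] (fun x => σ * dd (bas p.2) (sm t (M p.1 k)) x)
        simp only [Function.iterate_succ_apply]
        rw [dd_sm_iter ht ((good_sm (n := 0) (hM p.1 k) ht).pred) (bas p.2) n]
        exact (sm_iter_const_mul t σ _ n).symm
      rw [e, show c * K ^ (r + 1) = c * K * K ^ r by ring]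
      refine bd_iter ht hK hK1 r n (c * K) (mul_nonneg hc (le_trans zero_le_one hK1))
        (Nat.le_of_succ_le_succ h) _ (hK ▸ opLe_dM ht hop hM) fun p k => ?_
      exact ((good_sm (n := 0) (hM p.1 k) ht).dd _).const_mul σ

theorem good_two {U : E d → ℝ} {η B : ℝ} (hW : Pert η B U) : Good 2 U := by
  refine ⟨hW.contDiff.differentiable (by norm_num), hW.polyBd_self, fun u => ?_⟩
  have e : dd u U = fun x => ⟪grad U x, u⟫ := funext fun x => (inner_grad x u).symm
  have hgd := hW.contDiff_grad.differentiable one_ne_zero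
  have hd : Differentiable ℝ (dd u U) := e ▸ hgd.inner ℝ (differentiable_const u)
  refine ⟨hd, ?_, fun w => ?_⟩
  · rw [e]; exact hW.polyBd_grad.mul_of_le (PolyBd.const u) fun x => norm_inner_le_norm _ _
  · have e2 : dd w (dd u U) = fun x => ⟪fderiv ℝ (grad U) x w, u⟫ := by
      funext x
      rw [e]
      show fderiv ℝ (fun y => ⟪grad U y, u⟫) x w = _
      rw [fderiv_inner_apply ℝ (hgd x) (differentiableAt_const u)]
      simp
    rw [e2]
    exact ⟨((hW.contDiff_grad.continuous_fderiv one_ne_zero).clm_apply continuous_const).inner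
      continuous_const, (hW.polyBd_hess.mul_of_le (PolyBd.const w)
        fun x => (fderiv ℝ (grad U) x).le_opNorm w).mul_of_le (PolyBd.const u)
          fun x => norm_inner_le_norm _ _⟩

theorem opLe_hessM {η B : ℝ} {U : E d → ℝ} (hW : Pert η B U) : OpLe 1 (hessM U) := by
  intro x a
  have hgd := hW.contDiff_grad.differentiable one_ne_zero
  set w : E d := ∑ k, a k • bas k with hw
  have e : ∀ i k, hessM U i k x = ⟪bas i, fderiv ℝ (grad U) x (bas k)⟫ := by
    intro i k
    show dd (bas i) (dd (bas k) U) x = _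
    rw [show dd (bas k) U = fun y => ⟪grad U y, bas k⟫ from funext fun y => (inner_grad y _).symm,
      ← hW.hess_symm]
    show fderiv ℝ (fun y => ⟪grad U y, bas k⟫) x (bas i) = _
    rw [fderiv_inner_apply ℝ (hgd x) (differentiableAt_const _)]
    simp
  have e2 : ∀ i, ∑ k, hessM U i k x * a k = ⟪bas i, fderiv ℝ (grad U) x w⟫ := by
    intro i
    simp [hw, e, map_sum, inner_sum, real_inner_smul_right, mul_comm]
  simp only [e2]
  rw [show ∑ i, ⟪bas i, fderiv ℝ (grad U) x w⟫ ^ 2 = ‖fderiv ℝ (grad U) x w‖ ^ 2 from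
    (EuclideanSpace.basisFun (Fin d) ℝ).sum_sq_inner_right _, one_mul]
  have hw2 : ‖w‖ ^ 2 = ∑ k, a k ^ 2 := by
    rw [← real_inner_self_eq_norm_sq, hw,
      show (⟪∑ k, a k • bas k, ∑ k, a k • bas k⟫ : ℝ) = ∑ k, starRingEnd ℝ (a k) * a k from
        (EuclideanSpace.basisFun (Fin d) ℝ).orthonormal.inner_sum a a Finset.univ]
    simp [pow_two]
  rw [← hw2]
  exact pow_le_pow_left₀ (norm_nonneg _) ((hW.norm_hess_apply_le x w).trans
    (mul_le_of_le_one_left (norm_nonneg _) hW.eta_le_one)) 2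

/-- the smoothed potential is smooth enough and its Hessian is bounded to every order needed -/
theorem smoothed {η B σ : ℝ} {W : E d → ℝ} (hW : Pert η B W) (hσ : 0 < σ) (hσ1 : σ ≤ 1) (R : ℕ) :
    Good (R + 3) (sm σ W) ∧ Bd σ (((R + 1 : ℕ) : ℝ) ^ R) R (hessM (sm σ W)) := by
  set t : ℝ := σ / √((R + 1 : ℕ) : ℝ) with ht
  have hn : (0 : ℝ) < ((R + 1 : ℕ) : ℝ) := by positivity
  have hsq : (1 : ℝ) ≤ √((R + 1 : ℕ) : ℝ) := Real.one_le_sqrt.2 (by norm_cast; omega)
  have ht0 : 0 < t := div_pos hσ (Real.sqrt_pos.2 hn)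
  have ht1 : |t| ≤ 1 := by rw [abs_of_pos ht0]; exact (div_le_self hσ.le hsq).trans hσ1
  have hW1 : Good 3 (sm t W) := good_sm (n := 1) (good_two hW) ht0.ne'
  have hU : sm σ W = (sm t)^[R] (sm t W) := by
    rw [sm_iter ht0.le hW.contDiff.continuous hW.polyBd_self]
    congr 1
    rw [ht, div_pow, Real.sq_sqrt hn.le, mul_div_assoc']
    push_cast
    rw [mul_div_cancel_left₀ _ (by positivity), Real.sqrt_sq hσ.le]
  have hK : σ ^ 2 / t ^ 2 = ((R + 1 : ℕ) : ℝ) := by
    rw [ht, div_pow, Real.sq_sqrt hn.le]; field_simp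
  refine ⟨?_, ?_⟩
  · rw [hU]
    exact (good_sm_iter ht0.ne' (k := 2) hW1 R).mono (by omega)
  · have e : hessM (sm σ W) = fun i k => (sm t)^[R] (hessM (sm t W) i k) := by
      funext i k
      simp only [hessM, hU]
      rw [dd_sm_iter ht0.ne' (hW1.mono (by omega)) (bas k) R,
        dd_sm_iter ht0.ne' ((hW1.dd _).mono (by omega)) (bas i) R]
    rw [e, ← one_mul (((R + 1 : ℕ) : ℝ) ^ R)]
    exact bd_iter ht0.ne' hK (by norm_cast; omega) R R 1 zero_le_one le_rfl _
      (opLe_hessM (hW.sm_pert ht1)) fun i k => (hW1.dd _).dd _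

theorem Q_px_le (c : ℝ) (hc : 0 ≤ c) (r : ℕ) : ∃ C : ℝ, 0 ≤ C ∧
    ∀ (d : ℕ) (σ η B : ℝ) (U : E d → ℝ), Pert η B U → σ ^ 2 ≤ 1 → Good (r + 3) U →
      Bd σ c r (hessM U) → Q U σ r (px U) ≤ C * d := by
  obtain ⟨Cm, hCm, hmul⟩ := exists_Q_mulF_le c hc r
  refine ⟨(2 + c) + (2 + 2 * Cm), by positivity, fun d σ η B U hU hσ hUg hM => ?_⟩
  have hprob := isProb_mu hU
  have hd0 : (0 : ℝ) ≤ d := Nat.cast_nonneg d
  have hss : ss U (px U) ≤ (2 + c) * d := by
    have key : ∀ j, ∫ z, px U j z ^ 2 ∂mu U ≤ 2 + c := by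
      intro j
      have hUg2 : Good 2 U := hUg.mono (by omega)
      have h := ibp_x hU hUg2.pred j (good_px (n := 1) hUg2 j)
      simp only [pow_two]
      rw [← h]
      refine (integral_mono ((good_px (n := 1) hUg2 j).dd _ |>.integrable hU)
        (integrable_const (2 + c)) fun z => ?_).trans (by simp)
      have := quad_px hM.opLe hUg2 z (fun k => if k = j then 1 else 0)
      simpa [ite_mul, mul_ite] using this
    calc ss U (px U) ≤ ∑ _j : Fin d, (2 + c) := Finset.sum_le_sum fun j _ => key j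
      _ = _ := by simp; ring
  rcases r with _ | r
  · exact hss.trans (mul_le_mul_of_nonneg_right (by linarith) hd0)
  have hUg2 : Good 2 U := hUg.mono (by omega)
  set D0 : Fin d × Fin d → Z d → ℝ := fun p z => delta d p z + mulF (hessM U) (delta d) p z
    with hD0
  have e1 : dX (px U) = D0 := by
    funext p z
    obtain ⟨j, i⟩ := p
    show dd (ex i) (px U j) z = _
    rw [dd_px hUg2]
    simp [hD0, ex, delta, mulF, hessM, inner_bas]
  have e2 : dV (px U) = fun _ _ => 0 := by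
    funext p z
    show dd (ev p.2) (px U p.1) z = _
    rw [dd_px hUg2]
    simp [ev, dd]
  have hMp : Bd σ c r (hessM U) := hM.pred
  have h1 := Q_add_le (σ := σ) hU r (delta d) (mulF (hessM U) (delta d)) (good_delta r)
    (good_mulF hMp.good (good_delta r))
  have h2 := hmul d σ η B U hU (Fin d) (Fin d) (Fin d) (hessM U) (delta d) hM
    (good_delta (r + 1))
  have h3 := Q_succ_ge (U := U) (σ := σ) r (mulF (hessM U) (delta d))
  rw [Q_delta hU] at h1 h2
  have h4 : σ ^ 2 * Q U σ r D0 ≤ (2 + 2 * Cm) * d := by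
    refine (mul_le_of_le_one_left (Q_nonneg r D0) hσ).trans ?_
    rw [hD0]
    nlinarith
  simp only [Q]
  rw [e1, e2, Q_zero]
  linarith

theorem exists_Q_iter_le (c : ℝ) (hc : 0 ≤ c) : ∀ k r : ℕ, ∃ C : ℝ, 0 ≤ C ∧
    ∀ (d : ℕ) (σ η B : ℝ) (U : E d → ℝ), Pert η B U → 0 < σ → σ ≤ 1 →
    Good (r + 3 * k + 3) U → Bd σ c (r + 2 * k) (hessM U) →
    ∀ (ι : Type) [Fintype ι] (F : ι → Z d → ℝ), (∀ i, Good (r + 3 * k + 1) (F i)) →
      Q U σ r ((lvF U)^[k] F) ≤ C / (σ ^ 2) ^ k * Q U σ (r + 2 * k) F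
  | 0, r => ⟨1, zero_le_one, fun d σ η B U _ _ _ _ _ ι _ F _ => by simp⟩
  | k + 1, r => by
    obtain ⟨C, hC, ih⟩ := exists_Q_iter_le c hc k r
    obtain ⟨C', hC', hl⟩ := exists_Q_lv_le c hc (r + 2 * k)
    refine ⟨C * C', by positivity, fun d σ η B U hU hσ hσ1 hUg hM ι _ F hF => ?_⟩
    rw [Function.iterate_succ_apply]
    refine (ih d σ η B U hU hσ hσ1 (hUg.mono (by omega)) (hM.mono (by omega)) ι (lvF U F)
      fun i => (good_lv (n := r + 3 * k + 1) (hUg.mono (by omega)) ((hF i).mono (by omega)))).trans ?_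
    refine le_trans (mul_le_mul_of_nonneg_left (hl d σ η B U hU hσ hσ1 (hUg.mono (by omega))
      (hM.mono (by omega)) ι F fun i => (hF i).mono (by omega)) (by positivity)) (le_of_eq ?_)
    rw [show r + 2 * k + 2 = r + 2 * (k + 1) from rfl, pow_succ]
    ring

end Deriv

open Deriv in
/-- Derivatives of the force along the stationary flow of a potential with bounded derivatives. -/
theorem stationary_deriv_of {c : ℝ} (hc0 : 0 ≤ c) (m : ℕ) :
    ∃ C : ℝ, ∀ (d : ℕ) (η B σ : ℝ) (U : E d → ℝ),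
    Pert η B U → 0 < σ → σ ≤ 1 → Good (3 * m + 4 + 3) U → Bd σ c (3 * m + 4) (hessM U) →
    ∃ G : ℕ → E d × E d → E d,
      (∀ z, G 0 z = z.1 + grad U z.1) ∧
      (∀ k ≤ m, ContDiff ℝ 1 (G k) ∧ PolyBd (G k)) ∧
      (∀ k < m, ∀ z, fderiv ℝ (G k) z (z.2, -(z.1 + grad U z.1)) = G (k + 1) z) ∧
      (∀ k ≤ m, ∫ z, ‖G k z‖ ∂((law U).prod (stdGaussian (E d))) ≤ C * σ⁻¹ ^ k * √d) := by
  set R : ℕ := 3 * m + 4 with hR
  choose C1 hC1 h1 using fun k => exists_Q_iter_le c hc0 k 0
  choose C2 hC2 h2 using fun r => Q_px_le c hc0 r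
  set S : ℝ := ∑ k ∈ Finset.range (m + 1), C1 k * C2 (0 + 2 * k) with hS
  refine ⟨√S, fun d η B σ U hP hσ hσ1 hUg hUM => ?_⟩
  set Gc : ℕ → Fin d → Z d → ℝ := fun k => (lvF U)^[k] (px U) with hGc
  have hgood : ∀ k n, k + n ≤ R + 2 → ∀ j, Good n (Gc k j) := by
    intro k
    induction k with
    | zero => exact fun n hn j => good_px (hUg.mono (by omega)) j
    | succ k ih =>
      intro n hn j
      simp only [hGc, Function.iterate_succ_apply']
      exact good_lv (hUg.mono (by omega)) (ih (n + 1) (by omega) j)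
  set G : ℕ → E d × E d → E d := fun k z => WithLp.toLp 2 fun j => Gc k j z with hG
  have hcoord : ∀ k j, (fun z => G k z j) = Gc k j := fun k j => rfl
  have hCD : ∀ k ≤ m, ContDiff ℝ 1 (G k) := fun k hk =>
    contDiff_euclidean.2 fun j => (hgood k 1 (by omega) j).contDiff_one
  have hgU : ∀ x k, grad U x k = dd (bas k) U x := fun x k => by
    rw [Deriv.dd, ← inner_grad]
    simp [bas, EuclideanSpace.inner_single_right]
  have hcrd : ∀ (x : E d) k, ⟪bas k, x⟫ = x k := fun x k => by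
    simp [bas, EuclideanSpace.inner_single_left]
  have hnorm : ∀ k z, ‖G k z‖ ^ 2 = ∑ j, Gc k j z ^ 2 := by
    intro k z
    rw [EuclideanSpace.norm_eq, Real.sq_sqrt (Finset.sum_nonneg fun i _ => sq_nonneg _)]
    simp [hG]
  have hPB : ∀ k ≤ m, PolyBd (G k) := fun k hk => by
    refine (PolyBd.sum Finset.univ fun j _ => (hgood k 0 (by omega) j).polyBd.norm).of_le
      fun z => ?_
    rw [Real.norm_eq_abs, abs_of_nonneg (Finset.sum_nonneg fun j _ => norm_nonneg _)]
    refine abs_le_of_sq_le_sq' ?_ (Finset.sum_nonneg fun j _ => norm_nonneg _) |>.2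
    rw [hnorm]
    refine le_trans (le_of_eq (Finset.sum_congr rfl fun j _ => ?_))
      (Finset.sum_sq_le_sq_sum_of_nonneg fun j _ => norm_nonneg _)
    rw [Real.norm_eq_abs, sq_abs]
  refine ⟨G, fun z => ?_, fun k hk => ⟨hCD k hk, hPB k hk⟩, fun k hk z => ?_, fun k hk => ?_⟩
  · ext j
    show px U j z = _
    simp [px, hcrd, hgU]
  · ext j
    set X : Z d := (z.2, -(z.1 + grad U z.1))
    have hd : Differentiable ℝ (G k) := (hCD k hk.le).differentiable one_ne_zero
    have e : fderiv ℝ (G k) z X j = fderiv ℝ (Gc k j) z X := by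
      have h := ((EuclideanSpace.proj (𝕜 := ℝ) j).hasFDerivAt.comp z (hd z).hasFDerivAt).fderiv
      rw [← hcoord k j]
      rw [show (fun z => G k z j) = (EuclideanSpace.proj (𝕜 := ℝ) j) ∘ G k from rfl, h]
      rfl
    show fderiv ℝ (G k) z X j = Gc (k + 1) j z
    rw [e]
    simp only [hGc, Function.iterate_succ_apply', lvF]
    have hX : X = ∑ i, (pv i z • ex i - px U i z • ev i) := by
      refine Prod.ext ?_ ?_
      · simp only [X, Prod.fst_sum, ex, ev, Prod.smul_mk, Prod.fst_sub, smul_zero, sub_zero, pv]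
        exact ((EuclideanSpace.basisFun (Fin d) ℝ).sum_repr' z.2).symm
      · simp only [X, Prod.snd_sum, ex, ev, Prod.smul_mk, Prod.snd_sub, smul_zero, zero_sub, px,
          Finset.sum_neg_distrib]
        congr 1
        conv_lhs => rw [← (EuclideanSpace.basisFun (Fin d) ℝ).sum_repr' (z.1 + grad U z.1)]
        refine Finset.sum_congr rfl fun i _ => ?_
        rw [inner_add_right]
        show (⟪bas i, z.1⟫ + ⟪bas i, grad U z.1⟫) • bas i = _
        rw [hcrd (grad U z.1), hgU]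
    rw [hX, map_sum]
    exact Finset.sum_congr rfl fun i _ => by simp [Deriv.dd]
  · have hint : Integrable (fun z => ‖G k z‖) (mu U) :=
      integrable_mu hP (hPB k hk).norm (hCD k hk).continuous.norm
    have hint2 : Integrable (fun z => ‖G k z‖ ^ 2) (mu U) :=
      integrable_mu hP ((hPB k hk).norm.pow 2) ((hCD k hk).continuous.norm.pow 2)
    have hprob := isProb_mu hP
    set a := ∫ z, ‖G k z‖ ∂mu U with ha
    have hvar : a ^ 2 ≤ ∫ z, ‖G k z‖ ^ 2 ∂mu U := by
      have h0 : 0 ≤ ∫ z, (‖G k z‖ - a) ^ 2 ∂mu U := integral_nonneg fun z => sq_nonneg _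
      have e2 : ∀ z, (‖G k z‖ - a) ^ 2 = ‖G k z‖ ^ 2 - 2 * a * ‖G k z‖ + a ^ 2 := fun z => by ring
      simp only [e2] at h0
      rw [integral_add (hint2.sub' (hint.const_mul _)) (integrable_const _),
        integral_sub hint2 (hint.const_mul _), integral_const_mul] at h0
      simp only [integral_const, probReal_univ, one_smul, ← ha] at h0
      nlinarith
    have hq : ∫ z, ‖G k z‖ ^ 2 ∂mu U = Deriv.Q U σ 0 (Gc k) := by
      show _ = ss U (Gc k)
      rw [ss_eq_integral_sum hP fun j => hgood k 0 (by omega) j]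
      simp only [hnorm]
    have hq2 : Deriv.Q U σ 0 (Gc k) ≤ S / (σ ^ 2) ^ k * d := by
      refine (h1 k d σ η B U hP hσ hσ1 (hUg.mono (by omega)) (hUM.mono (by omega)) (Fin d)
        (px U) fun j => good_px (hUg.mono (by omega)) j).trans ?_
      have hle : C1 k * C2 (0 + 2 * k) ≤ S := Finset.single_le_sum
        (f := fun k => C1 k * C2 (0 + 2 * k))
        (fun i _ => mul_nonneg (hC1 i) (hC2 _)) (Finset.mem_range.2 (by omega))
      have hpx := h2 (0 + 2 * k) d σ η B U hP (pow_le_one₀ hσ.le hσ1)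
        (hUg.mono (by omega)) (hUM.mono (by omega))
      calc C1 k / (σ ^ 2) ^ k * Deriv.Q U σ (0 + 2 * k) (px U)
          ≤ C1 k / (σ ^ 2) ^ k * (C2 (0 + 2 * k) * d) :=
            mul_le_mul_of_nonneg_left hpx (div_nonneg (hC1 k) (by positivity))
        _ = C1 k * C2 (0 + 2 * k) / (σ ^ 2) ^ k * d := by ring
        _ ≤ _ := by gcongr
    have hS0 : 0 ≤ S := Finset.sum_nonneg fun i _ => mul_nonneg (hC1 i) (hC2 _)
    have ha2 : a ^ 2 ≤ (√S * σ⁻¹ ^ k * √(d : ℝ)) ^ 2 := by
      refine (hvar.trans_eq hq).trans (hq2.trans_eq ?_)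
      rw [mul_pow, mul_pow, Real.sq_sqrt hS0, Real.sq_sqrt (Nat.cast_nonneg d), inv_pow, inv_pow,
        ← pow_mul, ← pow_mul, mul_comm 2 k, div_eq_mul_inv]
    exact (abs_le_of_sq_le_sq' ha2 (by positivity)).2

open Deriv in
/-- Derivatives of the force along the stationary flow of the smoothed potential. -/
theorem stationary_deriv (m : ℕ) : ∃ C : ℝ, ∀ (d : ℕ) (η B σ : ℝ) (W : E d → ℝ),
    Pert η B W → 0 < σ → σ ≤ 1 →
    ∃ G : ℕ → E d × E d → E d,
      (∀ z, G 0 z = z.1 + grad (sm σ W) z.1) ∧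
      (∀ k ≤ m, ContDiff ℝ 1 (G k) ∧ PolyBd (G k)) ∧
      (∀ k < m, ∀ z, fderiv ℝ (G k) z (z.2, -(z.1 + grad (sm σ W) z.1)) = G (k + 1) z) ∧
      (∀ k ≤ m, ∫ z, ‖G k z‖ ∂((law (sm σ W)).prod (stdGaussian (E d))) ≤ C * σ⁻¹ ^ k * √d) := by
  set R : ℕ := 3 * m + 4 with hR
  obtain ⟨C, hC⟩ := stationary_deriv_of (c := ((R + 1 : ℕ) : ℝ) ^ R) (by positivity) m
  refine ⟨C, fun d η B σ W hW hσ hσ1 => ?_⟩
  obtain ⟨hg, hM⟩ := smoothed hW hσ hσ1 R
  exact hC d η (B + 1) σ (sm σ W) (hW.sm_pert (by rwa [abs_of_pos hσ])) hσ hσ1 hg hM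

end Vale.Agent.P347
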