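import Vale.Agent.P347.SecondOrder
import Vale.Agent.P347.Model

/-!
# P347: finitely differentiable functions of polynomial growth

`Good n f`: the directional derivatives of `f` up to order `n` exist, are continuous and have
polynomial growth.  Gaussian smoothing raises the order by one.
-/

open MeasureTheory ProbabilityTheory Real
open scoped RealInnerProductSpace

namespace Vale.Agent.P347.Deriv

section general

variable {V V' : Type*} [NormedAddCommGroup V] [NormedSpace ℝ V]
  [NormedAddCommGroup V'] [NormedSpace ℝ V']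

/-- directional derivative -/
noncomputable def dd (u : V) (f : V → ℝ) : V → ℝ := fun z => fderiv ℝ f z u

/-- derivatives up to order `n` are continuous with polynomial growth -/
def Good : ℕ → (V → ℝ) → Prop
  | 0, f => Continuous f ∧ PolyBd f
  | n + 1, f => Differentiable ℝ f ∧ PolyBd f ∧ ∀ u, Good n (dd u f)

theorem Good.polyBd {n : ℕ} {f : V → ℝ} (h : Good n f) : PolyBd f := by
  cases n
  · exact h.2
  · exact h.2.1

theorem Good.continuous {n : ℕ} {f : V → ℝ} (h : Good n f) : Continuous f := by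
  cases n
  · exact h.1
  · exact h.1.continuous

theorem Good.differentiable {n : ℕ} {f : V → ℝ} (h : Good (n + 1) f) : Differentiable ℝ f := h.1

theorem Good.dd {n : ℕ} {f : V → ℝ} (h : Good (n + 1) f) (u : V) : Good n (dd u f) := h.2.2 u

theorem Good.pred : ∀ {n : ℕ} {f : V → ℝ}, Good (n + 1) f → Good n f
  | 0, _, h => ⟨h.continuous, h.polyBd⟩
  | _ + 1, _, h => ⟨h.1, h.2.1, fun u => (h.2.2 u).pred⟩

theorem Good.mono {n k : ℕ} {f : V → ℝ} (h : Good n f) (hk : k ≤ n) : Good k f := by
  induction hk with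
  | refl => exact h
  | step _ ih => exact ih h.pred

theorem dd_const (u : V) (c : ℝ) : dd u (fun _ : V => c) = fun _ => 0 := by
  funext z; simp [Deriv.dd]

theorem good_const : ∀ (n : ℕ) (c : ℝ), Good n (fun _ : V => c)
  | 0, c => ⟨continuous_const, PolyBd.const c⟩
  | n + 1, c => ⟨differentiable_const c, PolyBd.const c, fun u => by
      rw [dd_const]; exact good_const n 0⟩

theorem dd_add {f g : V → ℝ} (hf : Differentiable ℝ f) (hg : Differentiable ℝ g) (u : V) :
    Deriv.dd u (fun z => f z + g z) = fun z => Deriv.dd u f z + Deriv.dd u g z := by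
  funext z; simp [Deriv.dd, fderiv_fun_add (hf z) (hg z)]

theorem dd_sub {f g : V → ℝ} (hf : Differentiable ℝ f) (hg : Differentiable ℝ g) (u : V) :
    Deriv.dd u (fun z => f z - g z) = fun z => Deriv.dd u f z - Deriv.dd u g z := by
  funext z; simp [Deriv.dd, fderiv_fun_sub (hf z) (hg z)]

theorem dd_mul {f g : V → ℝ} (hf : Differentiable ℝ f) (hg : Differentiable ℝ g) (u : V) :
    Deriv.dd u (fun z => f z * g z) = fun z => Deriv.dd u f z * g z + f z * Deriv.dd u g z := by
  funext z; simp [Deriv.dd, fderiv_fun_mul (hf z) (hg z)]; ring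

theorem dd_const_mul {f : V → ℝ} (hf : Differentiable ℝ f) (c : ℝ) (u : V) :
    Deriv.dd u (fun z => c * f z) = fun z => c * Deriv.dd u f z := by
  funext z; simp [Deriv.dd, fderiv_const_mul (hf z) c]

theorem dd_sum {ι : Type*} (s : Finset ι) {f : ι → V → ℝ} (hf : ∀ i ∈ s, Differentiable ℝ (f i))
    (u : V) : Deriv.dd u (fun z => ∑ i ∈ s, f i z) = fun z => ∑ i ∈ s, Deriv.dd u (f i) z := by
  funext z
  simp [Deriv.dd, fderiv_fun_sum fun i hi => hf i hi z]

theorem Good.add : ∀ {n : ℕ} {f g : V → ℝ}, Good n f → Good n g → Good n (fun z => f z + g z)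
  | 0, _, _, hf, hg => ⟨hf.1.add hg.1, hf.2.add hg.2⟩
  | _ + 1, _, _, hf, hg => ⟨hf.1.add hg.1, hf.2.1.add hg.2.1, fun u => by
      rw [dd_add hf.1 hg.1]; exact (hf.2.2 u).add (hg.2.2 u)⟩

theorem Good.mul : ∀ {n : ℕ} {f g : V → ℝ}, Good n f → Good n g → Good n (fun z => f z * g z)
  | 0, _, _, hf, hg => ⟨hf.1.mul hg.1, hf.2.mul hg.2⟩
  | _ + 1, _, _, hf, hg => ⟨hf.1.mul hg.1, hf.2.1.mul hg.2.1, fun u => by
      rw [dd_mul hf.1 hg.1]; exact ((hf.2.2 u).mul hg.pred).add (hf.pred.mul (hg.2.2 u))⟩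

theorem Good.const_mul {n : ℕ} {f : V → ℝ} (h : Good n f) (c : ℝ) : Good n (fun z => c * f z) :=
  (good_const n c).mul h

theorem Good.neg {n : ℕ} {f : V → ℝ} (h : Good n f) : Good n (fun z => -f z) := by
  simpa using h.const_mul (-1)

theorem Good.sub {n : ℕ} {f g : V → ℝ} (hf : Good n f) (hg : Good n g) :
    Good n (fun z => f z - g z) := by
  simpa [sub_eq_add_neg] using hf.add hg.neg

theorem Good.sum {n : ℕ} {ι : Type*} (s : Finset ι) {f : ι → V → ℝ}
    (hf : ∀ i ∈ s, Good n (f i)) : Good n (fun z => ∑ i ∈ s, f i z) := by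
  induction s using Finset.cons_induction with
  | empty => simpa using good_const n (0 : ℝ)
  | cons a s ha ih =>
    simp only [Finset.sum_cons]
    exact (hf a (Finset.mem_cons_self a s)).add (ih fun i hi => hf i (Finset.mem_cons_of_mem hi))

theorem good_linear : ∀ (n : ℕ) (A : V →L[ℝ] ℝ), Good n (fun z => A z)
  | 0, A => ⟨A.continuous, (PolyBd.id.mul_of_le (PolyBd.const A) fun z => by
      rw [mul_comm]; exact A.le_opNorm z)⟩
  | n + 1, A => ⟨A.differentiable, (good_linear 0 A).2, fun u => by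
      have : Deriv.dd u (fun z => A z) = fun _ => A u := by
        funext z; simp [Deriv.dd, ContinuousLinearMap.fderiv]
      rw [this]; exact good_const n _⟩

theorem dd_comp {f : V' → ℝ} (hf : Differentiable ℝ f) (A : V →L[ℝ] V') (u : V) :
    Deriv.dd u (fun z => f (A z)) = fun z => Deriv.dd (A u) f (A z) := by
  funext z
  have h := (hf (A z)).hasFDerivAt.comp z A.hasFDerivAt
  rw [Deriv.dd, show (fun z => f (A z)) = f ∘ A from rfl, h.fderiv]
  rfl

theorem Good.comp : ∀ {n : ℕ} {f : V' → ℝ}, Good n f → ∀ A : V →L[ℝ] V', Good n (fun z => f (A z))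
  | 0, _, h, A => ⟨h.1.comp A.continuous,
      h.2.comp (PolyBd.id.mul_of_le (PolyBd.const A) fun z => by
        rw [mul_comm]; exact A.le_opNorm z)⟩
  | _ + 1, _, h, A => ⟨h.1.comp A.differentiable,
      h.2.1.comp (PolyBd.id.mul_of_le (PolyBd.const A) fun z => by
        rw [mul_comm]; exact A.le_opNorm z),
      fun u => by rw [dd_comp h.1]; exact (h.2.2 (A u)).comp A⟩

variable [FiniteDimensional ℝ V]

theorem Good.contDiff : ∀ {n : ℕ} {f : V → ℝ}, Good n f → ContDiff ℝ n f
  | 0, _, h => contDiff_zero.2 h.1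
  | n + 1, _, h => by
    rw [Nat.cast_add, Nat.cast_one]
    exact contDiff_succ_iff_fderiv.2
      ⟨h.1, by simp, contDiff_clm_apply_iff.2 fun u => (h.2.2 u).contDiff⟩

theorem Good.contDiff_one {n : ℕ} {f : V → ℝ} (h : Good (n + 1) f) : ContDiff ℝ 1 f := by
  simpa using (h.mono (by omega : 1 ≤ n + 1)).contDiff

theorem Good.polyBd_fderiv {n : ℕ} {f : V → ℝ} (h : Good (n + 1) f) :
    PolyBd fun z => fderiv ℝ f z := by
  set b := Module.finBasis ℝ V
  set c : Fin (Module.finrank ℝ V) → V →L[ℝ] ℝ := fun i =>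
    LinearMap.toContinuousLinearMap (b.coord i)
  have hb : PolyBd fun z => ∑ i, |Deriv.dd (b i) f z| * ‖c i‖ :=
    PolyBd.sum _ fun i _ => ((h.dd (b i)).polyBd.norm.mul (PolyBd.const ‖c i‖))
  refine hb.of_le fun z => ?_
  rw [Real.norm_eq_abs, abs_of_nonneg (Finset.sum_nonneg fun i _ => by positivity)]
  refine ContinuousLinearMap.opNorm_le_bound _ (Finset.sum_nonneg fun i _ => by positivity)
    fun u => ?_
  have e : fderiv ℝ f z u = ∑ i, c i u * Deriv.dd (b i) f z := by
    conv_lhs => rw [← b.sum_repr u, map_sum]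
    simp [Deriv.dd, c]
  rw [e, Finset.sum_mul]
  refine (norm_sum_le _ _).trans (Finset.sum_le_sum fun i _ => ?_)
  rw [norm_mul, mul_comm, mul_assoc, Real.norm_eq_abs (Deriv.dd (b i) f z)]
  exact mul_le_mul_of_nonneg_left ((c i).le_opNorm u) (abs_nonneg _)

theorem dd_comm {f : V → ℝ} (h : Good 2 f) (u w : V) :
    Deriv.dd u (Deriv.dd w f) = Deriv.dd w (Deriv.dd u f) := by
  have hc : ContDiff ℝ 2 f := by simpa using h.contDiff
  have h1 : Differentiable ℝ fun z => fderiv ℝ f z :=
    (hc.fderiv_right (m := 1) (by norm_num)).differentiable one_ne_zero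
  have e : ∀ a b z, Deriv.dd a (Deriv.dd b f) z = fderiv ℝ (fun y => fderiv ℝ f y) z a b := by
    intro a b z
    show fderiv ℝ (fun y => fderiv ℝ f y b) z a = _
    rw [fderiv_clm_apply (h1 z) (differentiableAt_const b)]
    simp
  funext z
  rw [e, e]
  exact (hc.contDiffAt.isSymmSndFDerivAt (by simp [minSmoothness_of_isRCLikeNormedField])).eq u w

end general

/-! ### Gaussian parameter integrals -/

variable {d : ℕ}

/-- integrate out a Gaussian second variable -/
noncomputable def par (g : E d × E d → ℝ) (x : E d) : ℝ := ∫ z, g (x, z) ∂stdGaussian (E d)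

theorem exists_par_bound {F : Type*} [NormedAddCommGroup F] {g : E d × E d → F} (hp : PolyBd g)
    (x : E d) : ∃ b : E d → ℝ, Integrable b (stdGaussian (E d)) ∧
      ∀ y ∈ Metric.ball x 1, ∀ z, ‖g (y, z)‖ ≤ b z := by
  obtain ⟨C, k, hC, hb⟩ := hp
  refine ⟨fun z => C * (1 + (‖x‖ + 1 + ‖z‖)) ^ k, ?_, fun y hy z => (hb _).trans ?_⟩
  · refine PolyBd.integrable _ ?_ (Continuous.aestronglyMeasurable (by fun_prop))
    exact (PolyBd.const C).mul (((PolyBd.const 1).add ((PolyBd.const (‖x‖ + 1)).add
      PolyBd.id.norm)).pow k)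
  · have hy' : ‖y‖ ≤ ‖x‖ + 1 := by
      have := norm_le_norm_add_norm_sub' y x
      rw [Metric.mem_ball, dist_eq_norm] at hy
      linarith
    beta_reduce
    gcongr
    rw [Prod.norm_def, max_le_iff]
    constructor <;> linarith [norm_nonneg x, norm_nonneg z]

theorem polyBd_par {g : E d × E d → ℝ} (hp : PolyBd g) : PolyBd (par g) := by
  obtain ⟨C, k, hC, hb⟩ := hp
  have hpk : PolyBd fun z : E d => (1 + ‖z‖) ^ k := ((PolyBd.const 1).add PolyBd.id.norm).pow k
  have hint := hpk.integrable (stdGaussian (E d)) (Continuous.aestronglyMeasurable (by fun_prop))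
  refine ⟨C * ∫ z, (1 + ‖z‖) ^ k ∂stdGaussian (E d), k,
    mul_nonneg hC (integral_nonneg fun z => by positivity), fun x => ?_⟩
  refine (norm_integral_le_of_norm_le ((hint.const_mul (C * (1 + ‖x‖) ^ k)))
    (ae_of_all _ fun z => (hb _).trans ?_)).trans (le_of_eq ?_)
  · rw [mul_assoc, ← mul_pow]
    gcongr
    rw [Prod.norm_def]
    nlinarith [max_le (le_add_of_nonneg_right (norm_nonneg z) : ‖x‖ ≤ ‖x‖ + ‖z‖)
      (le_add_of_nonneg_left (norm_nonneg x)), mul_nonneg (norm_nonneg x) (norm_nonneg z)]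
  · rw [integral_const_mul]; ring

theorem integrable_par {g : E d × E d → ℝ} (hc : Continuous g) (hp : PolyBd g) (x : E d) :
    Integrable (fun z => g (x, z)) (stdGaussian (E d)) := by
  obtain ⟨b, hb, hbd⟩ := exists_par_bound hp x
  exact hb.mono' (by fun_prop : Continuous fun z => g (x, z)).aestronglyMeasurable
    (ae_of_all _ (hbd x (Metric.mem_ball_self one_pos)))

theorem continuous_par {g : E d × E d → ℝ} (hc : Continuous g) (hp : PolyBd g) :
    Continuous (par g) := by
  refine continuous_iff_continuousAt.2 fun x => ?_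
  obtain ⟨b, hb, hbd⟩ := exists_par_bound hp x
  exact continuousAt_of_dominated
    (Filter.Eventually.of_forall fun y =>
      (by fun_prop : Continuous fun z => g (y, z)).aestronglyMeasurable)
    (Filter.eventually_of_mem (Metric.ball_mem_nhds x one_pos)
      fun y hy => ae_of_all _ (hbd y hy))
    hb (ae_of_all _ fun z => by fun_prop)

theorem Good.par : ∀ {n : ℕ} {g : E d × E d → ℝ}, Good n g → Good n (Deriv.par g)
  | 0, _, h => ⟨continuous_par h.1 h.2, polyBd_par h.2⟩
  | n + 1, g, h => by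
    have hd : ∀ x, HasFDerivAt (Deriv.par g)
        (∫ z, (fderiv ℝ g (x, z)).comp (ContinuousLinearMap.inl ℝ (E d) (E d))
          ∂stdGaussian (E d)) x := by
      intro x
      have hp' : PolyBd fun p : E d × E d =>
          (fderiv ℝ g p).comp (ContinuousLinearMap.inl ℝ (E d) (E d)) :=
        h.polyBd_fderiv.mul_of_le (PolyBd.const (ContinuousLinearMap.inl ℝ (E d) (E d)))
          fun p => ContinuousLinearMap.opNorm_comp_le _ _
      have hc' := h.contDiff_one.continuous_fderiv one_ne_zero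
      obtain ⟨b, hb, hbd⟩ := exists_par_bound hp' x
      refine hasFDerivAt_integral_of_dominated_of_fderiv_le (𝕜 := ℝ)
        (F := fun y z => g (y, z))
        (F' := fun y z => (fderiv ℝ g (y, z)).comp (ContinuousLinearMap.inl ℝ (E d) (E d)))
        (Metric.ball_mem_nhds x one_pos)
        (Filter.Eventually.of_forall fun y =>
          (integrable_par h.continuous h.polyBd y).aestronglyMeasurable)
        (integrable_par h.continuous h.polyBd x)
        (by fun_prop : Continuous fun z =>
          (fderiv ℝ g (x, z)).comp (ContinuousLinearMap.inl ℝ (E d) (E d))).aestronglyMeasurable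
        (ae_of_all _ fun z y hy => hbd y hy z) hb (ae_of_all _ fun z y _ => ?_)
      exact (h.differentiable (y, z)).hasFDerivAt.comp y
        ((hasFDerivAt_id y).prodMk (hasFDerivAt_const z y))
    refine ⟨fun x => (hd x).differentiableAt, polyBd_par h.polyBd, fun u => ?_⟩
    have e : Deriv.dd u (Deriv.par g) = Deriv.par (Deriv.dd ((u, 0) : E d × E d) g) := by
      funext x
      have hp' : PolyBd fun z : E d =>
          (fderiv ℝ g (x, z)).comp (ContinuousLinearMap.inl ℝ (E d) (E d)) :=
        (h.polyBd_fderiv.comp (g := fun z : E d => ((x, z) : E d × E d))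
          ((PolyBd.id.norm.add (PolyBd.const ‖x‖)).of_le fun z => by
            rw [Prod.norm_def, max_le_iff, Real.norm_eq_abs, abs_of_nonneg (by positivity)]
            constructor <;> linarith [norm_nonneg x, norm_nonneg z])).mul_of_le
          (PolyBd.const (ContinuousLinearMap.inl ℝ (E d) (E d)))
          fun p => ContinuousLinearMap.opNorm_comp_le _ _
      have hc' := h.contDiff_one.continuous_fderiv one_ne_zero
      rw [Deriv.dd, (hd x).fderiv, ContinuousLinearMap.integral_apply
        (hp'.integrable _ (Continuous.aestronglyMeasurable (by fun_prop)))]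
      rfl
    rw [e]
    exact (h.dd _).par

/-- translation along the Gaussian variable -/
noncomputable def shiftMap (t : ℝ) : E d × E d →L[ℝ] E d :=
  ContinuousLinearMap.fst ℝ (E d) (E d) + t • ContinuousLinearMap.snd ℝ (E d) (E d)

theorem dd_sm {f : E d → ℝ} (hf : Good 1 f) (t : ℝ) (u : E d) :
    Deriv.dd u (sm t f) = sm t (Deriv.dd u f) := by
  funext x
  rw [Deriv.dd, (sm_hasFDerivAt hf.contDiff_one hf.polyBd hf.polyBd_fderiv t x).fderiv, sm,
    ContinuousLinearMap.integral_apply
      (integrable_shift (hf.contDiff_one.continuous_fderiv one_ne_zero) hf.polyBd_fderiv t x)]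
  rfl

theorem good_sm {n : ℕ} {f : E d → ℝ} (hf : Good (n + 1) f) {t : ℝ} (ht : t ≠ 0) :
    Good (n + 2) (sm t f) := by
  have h1 : Good 1 f := hf.mono (by omega)
  refine ⟨fun x => (sm_hasFDerivAt h1.contDiff_one h1.polyBd h1.polyBd_fderiv t x).differentiableAt,
    sm_polyBd h1.polyBd t, fun u => ?_⟩
  have e : Deriv.dd u (sm t f) = par fun p : E d × E d =>
      t⁻¹ * (f (shiftMap t p) * innerSL ℝ u (ContinuousLinearMap.snd ℝ (E d) (E d) p)) := by
    funext x
    rw [Deriv.dd, sm_fderiv_ibp h1.contDiff_one h1.polyBd h1.polyBd_fderiv ht, par,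
      ← integral_const_mul]
    refine integral_congr_ae (ae_of_all _ fun z => ?_)
    simp [shiftMap, real_inner_comm u]
  rw [e]
  exact (((hf.comp (shiftMap t)).mul
    (((good_linear (n + 1) (innerSL ℝ u)).comp
      (ContinuousLinearMap.snd ℝ (E d) (E d))))).const_mul t⁻¹).par

theorem good_sm_iter {t : ℝ} (ht : t ≠ 0) {f : E d → ℝ} {k : ℕ} (hf : Good (k + 1) f) :
    ∀ n : ℕ, Good (k + 1 + n) ((sm t)^[n] f)
  | 0 => hf
  | n + 1 => by
    rw [Function.iterate_succ_apply']
    have h := good_sm_iter ht hf n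
    have e : k + 1 + n = (k + n) + 1 := by omega
    rw [e] at h
    exact (good_sm h ht).mono (by omega)

theorem dd_sm_iter {t : ℝ} (ht : t ≠ 0) {f : E d → ℝ} (hf : Good 1 f) (u : E d) :
    ∀ n : ℕ, Deriv.dd u ((sm t)^[n] f) = (sm t)^[n] (Deriv.dd u f)
  | 0 => rfl
  | n + 1 => by
    rw [Function.iterate_succ_apply', Function.iterate_succ_apply',
      dd_sm ((good_sm_iter ht (k := 0) hf n).mono (by omega)) t u, dd_sm_iter ht hf u n]

theorem sm_iter {t : ℝ} (ht : 0 ≤ t) {f : E d → ℝ} (hf : Continuous f) (hp : PolyBd f) :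
    ∀ n : ℕ, (sm t)^[n] (sm t f) = sm (√(((n : ℝ) + 1) * t ^ 2)) f
  | 0 => by simp [Real.sqrt_sq ht]
  | n + 1 => by
    funext x
    rw [Function.iterate_succ_apply', sm_iter ht hf hp n, sm_sm hf hp,
      Real.sq_sqrt (by positivity)]
    congr 2
    push_cast; ring

end Vale.Agent.P347.Deriv
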