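import Vale.Agent.P347.DerivGood

/-!
# P347: weighted Sobolev sums and the Liouville operator

`Q r F` is a weighted square Sobolev sum of a finite family `F` of functions on phase space for the
stationary law. The Liouville operator costs two orders and one factor `σ⁻¹`.
-/

open MeasureTheory ProbabilityTheory Real
open scoped RealInnerProductSpace

namespace Vale.Agent.P347.Deriv

/-- phase space -/
abbrev Z (d : ℕ) : Type := E d × E d

variable {d : ℕ}

/-- standard basis vector -/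
noncomputable def bas (j : Fin d) : E d := EuclideanSpace.basisFun (Fin d) ℝ j

/-- position direction -/
noncomputable def ex (j : Fin d) : Z d := (bas j, 0)

/-- velocity direction -/
noncomputable def ev (j : Fin d) : Z d := (0, bas j)

/-- the stationary law -/
noncomputable def mu (U : E d → ℝ) : Measure (Z d) := (law U).prod (stdGaussian (E d))

theorem isProb_mu {η B : ℝ} {U : E d → ℝ} (hU : Pert η B U) : IsProbabilityMeasure (mu U) := by
  have := hU.isProbabilityMeasure_law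
  exact inferInstanceAs (IsProbabilityMeasure ((law U).prod (stdGaussian (E d))))

theorem integrable_mu {η B : ℝ} {U : E d → ℝ} (hU : Pert η B U) {F : Type*} [NormedAddCommGroup F]
    {f : Z d → F} (hp : PolyBd f) (hc : Continuous f) : Integrable f (mu U) := by
  have := hU.isProbabilityMeasure_law
  obtain ⟨C, k, hC, hb⟩ := hp
  have h1 : Integrable (fun x : E d => (1 + ‖x‖) ^ k) (law U) :=
    hU.integrable_law (((PolyBd.const 1).add PolyBd.id.norm).pow k) (by fun_prop)
  have h2 : Integrable (fun x : E d => (1 + ‖x‖) ^ k) (stdGaussian (E d)) :=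
    (((PolyBd.const 1).add PolyBd.id.norm).pow k).integrable _
      (Continuous.aestronglyMeasurable (by fun_prop))
  refine ((h1.mul_prod h2).const_mul C).mono' hc.aestronglyMeasurable
    (ae_of_all _ fun z => (hb z).trans ?_)
  rw [← mul_pow]
  gcongr
  rw [Prod.norm_def]
  nlinarith [max_le (le_add_of_nonneg_right (norm_nonneg z.2) : ‖z.1‖ ≤ ‖z.1‖ + ‖z.2‖)
    (le_add_of_nonneg_left (norm_nonneg z.1)), mul_nonneg (norm_nonneg z.1) (norm_nonneg z.2)]

theorem Good.integrable {η B : ℝ} {U : E d → ℝ} (hU : Pert η B U) {n : ℕ} {f : Z d → ℝ}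
    (h : Good n f) : Integrable f (mu U) := integrable_mu hU h.polyBd h.continuous

/-- force coordinate: derivative of the potential -/
noncomputable def px (U : E d → ℝ) (j : Fin d) (z : Z d) : ℝ :=
  ⟪bas j, z.1⟫ + dd (bas j) U z.1

/-- velocity coordinate -/
noncomputable def pv (j : Fin d) (z : Z d) : ℝ := ⟪bas j, z.2⟫

theorem good_pv (n : ℕ) (j : Fin d) : Good n (pv j) :=
  (good_linear n (innerSL ℝ (bas j))).comp (ContinuousLinearMap.snd ℝ (E d) (E d))

theorem good_px {U : E d → ℝ} {n : ℕ} (h : Good (n + 1) U) (j : Fin d) : Good n (px U j) :=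
  ((good_linear n (innerSL ℝ (bas j))).comp (ContinuousLinearMap.fst ℝ (E d) (E d))).add
    ((h.dd (bas j)).comp (ContinuousLinearMap.fst ℝ (E d) (E d)))

theorem inner_bas (j k : Fin d) : ⟪bas j, bas k⟫ = if j = k then (1 : ℝ) else 0 :=
  orthonormal_iff_ite.1 (EuclideanSpace.basisFun (Fin d) ℝ).orthonormal j k

theorem dd_fst {f : E d → ℝ} (hf : Differentiable ℝ f) (u : Z d) :
    dd u (fun z : Z d => f z.1) = fun z => dd u.1 f z.1 :=
  dd_comp hf (ContinuousLinearMap.fst ℝ (E d) (E d)) u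

theorem dd_px {U : E d → ℝ} (h : Good 2 U) (u : Z d) (j : Fin d) :
    dd u (px U j) = fun z => ⟪bas j, u.1⟫ + dd u.1 (dd (bas j) U) z.1 := by
  have h0 : Differentiable ℝ fun x : E d => innerSL ℝ (bas j) x :=
    (innerSL ℝ (bas j)).differentiable
  have h1 : Differentiable ℝ fun z : Z d => innerSL ℝ (bas j) z.1 := h0.comp differentiable_fst
  have h2 : Differentiable ℝ fun z : Z d => dd (bas j) U z.1 :=
    (h.dd (bas j)).differentiable.comp differentiable_fst
  have e : dd u (fun z : Z d => ⟪bas j, z.1⟫) = fun _ => ⟪bas j, u.1⟫ := by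
    show dd u (fun z : Z d => innerSL ℝ (bas j) z.1) = _
    rw [dd_fst h0 u]
    funext z
    show fderiv ℝ (⇑(innerSL ℝ (bas j))) z.1 u.1 = _
    rw [ContinuousLinearMap.fderiv]
    rfl
  show dd u (fun z : Z d => innerSL ℝ (bas j) z.1 + dd (bas j) U z.1) = _
  have e' : dd u (fun z : Z d => innerSL ℝ (bas j) z.1) = fun _ => ⟪bas j, u.1⟫ := e
  rw [dd_add h1 h2, dd_fst (h.dd (bas j)).differentiable, e']

theorem dd_pv (u : Z d) (j : Fin d) : dd u (pv j) = fun _ => ⟪bas j, u.2⟫ := by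
  funext z
  show fderiv ℝ ((innerSL ℝ (bas j)).comp (ContinuousLinearMap.snd ℝ (E d) (E d))) z u = _
  simp

/-- integration by parts in position -/
theorem ibp_x {η B : ℝ} {U : E d → ℝ} (hU : Pert η B U) (hg : Good 1 U) (j : Fin d)
    {φ : Z d → ℝ} (hφ : Good 1 φ) :
    ∫ z, dd (ex j) φ z ∂mu U = ∫ z, px U j z * φ z ∂mu U := by
  have := hU.isProbabilityMeasure_law
  have hp0 : Good 0 (px U j) := good_px hg j
  have hi1 : Integrable (dd (ex j) φ) ((law U).prod (stdGaussian (E d))) :=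
    (hφ.dd _).integrable hU
  have hi2 : Integrable (fun z => px U j z * φ z) ((law U).prod (stdGaussian (E d))) :=
    (hp0.mul (hφ.mono (Nat.zero_le 1))).integrable hU
  rw [mu, integral_prod_symm _ hi1, integral_prod_symm _ hi2]
  refine integral_congr_ae (ae_of_all _ fun v => ?_)
  set ψ : E d → ℝ := fun x => φ (x, v) with hψ
  have hc : ContDiff ℝ 1 ψ := hφ.contDiff_one.comp (contDiff_id.prodMk contDiff_const)
  have hfd : ∀ x, fderiv ℝ ψ x = (fderiv ℝ φ (x, v)).comp (ContinuousLinearMap.inl ℝ (E d) (E d)) :=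
    fun x => ((hφ.differentiable (x, v)).hasFDerivAt.comp x
      ((hasFDerivAt_id x).prodMk (hasFDerivAt_const v x))).fderiv
  have hsec : PolyBd fun x : E d => ((x, v) : Z d) := (PolyBd.id.norm.add (PolyBd.const ‖v‖)).of_le
    fun x => by
      rw [Prod.norm_def, max_le_iff, Real.norm_eq_abs, abs_of_nonneg (by positivity)]
      constructor <;> linarith [norm_nonneg x, norm_nonneg v]
  have hψp : PolyBd ψ := hφ.polyBd.comp hsec
  have hψ'p : PolyBd fun x => fderiv ℝ ψ x := by
    refine (hφ.polyBd_fderiv.comp hsec).mul_of_le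
      (PolyBd.const (ContinuousLinearMap.inl ℝ (E d) (E d))) fun x => ?_
    rw [hfd]
    exact ContinuousLinearMap.opNorm_comp_le _ _
  have hpot : ∀ x, HasFDerivAt (pot U) (innerSL ℝ x + fderiv ℝ U x) x := by
    intro x
    have h := (hasStrictFDerivAt_norm_sq x).hasFDerivAt.const_mul (1 / 2 : ℝ)
    have e : (fun y : E d => ‖y‖ ^ 2 / 2) = fun y => 1 / 2 * ‖y‖ ^ 2 := by funext y; ring
    have h' : HasFDerivAt (fun y : E d => ‖y‖ ^ 2 / 2) (innerSL ℝ x) x := by
      rw [e]; exact h.congr_fderiv (by ext y; simp)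
    exact h'.add (hg.differentiable x).hasFDerivAt
  have hpp : PolyBd fun x => fderiv ℝ (pot U) x := by
    have e : (fun x => fderiv ℝ (pot U) x) = fun x => innerSL ℝ x + fderiv ℝ U x :=
      funext fun x => (hpot x).fderiv
    rw [e]
    exact (PolyBd.id.of_le fun x => by simp).add hg.polyBd_fderiv
  have hpc : ContDiff ℝ 1 (pot U) :=
    ((contDiff_norm_sq ℝ).div_const 2).add hg.contDiff_one
  have h := hU.decay.ibp hpc hpp hc hψp hψ'p (bas j)
  simp only [hU.integral_law, smul_eq_mul]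
  congr 1
  rw [show (fun x => exp (-pot U x) * dd (ex j) φ (x, v)) =
    fun x => exp (-pot U x) * fderiv ℝ ψ x (bas j) from funext fun x => by
      rw [hfd]; rfl, h]
  refine integral_congr_ae (ae_of_all _ fun x => ?_)
  simp [(hpot x).fderiv, px, dd, hψ, real_inner_comm x]

/-- integration by parts in velocity -/
theorem ibp_v {η B : ℝ} {U : E d → ℝ} (hU : Pert η B U) (j : Fin d) {φ : Z d → ℝ} (hφ : Good 1 φ) :
    ∫ z, dd (ev j) φ z ∂mu U = ∫ z, pv j z * φ z ∂mu U := by
  have := hU.isProbabilityMeasure_law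
  have hi1 : Integrable (dd (ev j) φ) ((law U).prod (stdGaussian (E d))) :=
    (hφ.dd _).integrable hU
  have hi2 : Integrable (fun z => pv j z * φ z) ((law U).prod (stdGaussian (E d))) :=
    ((good_pv 1 j).mul hφ).integrable hU
  rw [mu, integral_prod _ hi1, integral_prod _ hi2]
  refine integral_congr_ae (ae_of_all _ fun x => ?_)
  set ψ : E d → ℝ := fun v => φ (x, v) with hψ
  have hc : ContDiff ℝ 1 ψ := hφ.contDiff_one.comp (contDiff_const.prodMk contDiff_id)
  have hfd : ∀ v, fderiv ℝ ψ v = (fderiv ℝ φ (x, v)).comp (ContinuousLinearMap.inr ℝ (E d) (E d)) :=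
    fun v => ((hφ.differentiable (x, v)).hasFDerivAt.comp v
      ((hasFDerivAt_const x v).prodMk (hasFDerivAt_id v))).fderiv
  have hsec : PolyBd fun v : E d => ((x, v) : Z d) := (PolyBd.id.norm.add (PolyBd.const ‖x‖)).of_le
    fun v => by
      rw [Prod.norm_def, max_le_iff, Real.norm_eq_abs, abs_of_nonneg (by positivity)]
      constructor <;> linarith [norm_nonneg x, norm_nonneg v]
  have hψp : PolyBd ψ := hφ.polyBd.comp hsec
  have hψ'p : PolyBd fun v => fderiv ℝ ψ v := by
    refine (hφ.polyBd_fderiv.comp hsec).mul_of_le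
      (PolyBd.const (ContinuousLinearMap.inr ℝ (E d) (E d))) fun v => ?_
    rw [hfd]
    exact ContinuousLinearMap.opNorm_comp_le _ _
  have h := gauss_ibp hc hψp hψ'p (bas j)
  beta_reduce
  rw [show (fun v => dd (ev j) φ (x, v)) = fun v => fderiv ℝ ψ v (bas j) from funext fun v => by
      rw [hfd]; rfl, h]
  refine integral_congr_ae (ae_of_all _ fun v => ?_)
  simp [pv, hψ, real_inner_comm v]

/-- the total square of a family -/
noncomputable def ss (U : E d → ℝ) {ι : Type} [Fintype ι] (F : ι → Z d → ℝ) : ℝ :=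
  ∑ i, ∫ z, F i z ^ 2 ∂mu U

theorem ss_nonneg (U : E d → ℝ) {ι : Type} [Fintype ι] (F : ι → Z d → ℝ) : 0 ≤ ss U F :=
  Finset.sum_nonneg fun i _ => integral_nonneg fun z => sq_nonneg _

theorem Good.sq {n : ℕ} {V : Type*} [NormedAddCommGroup V] [NormedSpace ℝ V] {f : V → ℝ}
    (h : Good n f) : Good n (fun z => f z ^ 2) := by
  simpa [pow_two] using h.mul h

theorem ss_eq_integral_sum {η B : ℝ} {U : E d → ℝ} (hU : Pert η B U) {ι : Type} [Fintype ι]
    {F : ι → Z d → ℝ} (hF : ∀ i, Good 0 (F i)) : ss U F = ∫ z, ∑ i, F i z ^ 2 ∂mu U :=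
  (integral_finsetSum _ fun i _ => (hF i).sq.integrable hU).symm

/-- Bochner: a divergence is controlled by the vector field and its derivatives. -/
theorem bochner {η B : ℝ} {U : E d → ℝ} (hU : Pert η B U) (u : Fin d → Z d) (p : Fin d → Z d → ℝ)
    (hp : ∀ j, Good 1 (p j))
    (hibp : ∀ j φ, Good 1 φ → ∫ z, dd (u j) φ z ∂mu U = ∫ z, p j z * φ z ∂mu U)
    {c : ℝ} (hc : ∀ z (a : Fin d → ℝ), ∑ j, ∑ k, a j * a k * dd (u j) (p k) z ≤ c * ∑ j, a j ^ 2)
    {a : Fin d → Z d → ℝ} (ha : ∀ j, Good 2 (a j)) :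
    ∫ z, (∑ k, (p k z * a k z - dd (u k) (a k) z)) ^ 2 ∂mu U ≤
      c * ss U a + ∑ j, ∑ k, ∫ z, dd (u k) (a j) z ^ 2 ∂mu U := by
  set δ : Z d → ℝ := fun z => ∑ k, (p k z * a k z - dd (u k) (a k) z) with hδ
  have hterm : ∀ k, Good 1 (fun z => p k z * a k z - dd (u k) (a k) z) := fun k =>
    ((hp k).mul (ha k).pred).sub ((ha k).dd _)
  have hδg : Good 1 δ := Good.sum _ fun k _ => hterm k
  have ia : ∀ j k, Integrable (fun z => a j z * (dd (u j) (p k) z * a k z)) (mu U) := fun j k =>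
    ((ha j).mono (Nat.zero_le 2)).mul (((hp k).dd _).mul ((ha k).mono (Nat.zero_le 2)))
      |>.integrable hU
  have ib : ∀ j k, Integrable (fun z => p k z * (a j z * dd (u j) (a k) z)) (mu U) := fun j k =>
    ((hp k).pred.mul (((ha j).mono (Nat.zero_le 2)).mul ((ha k).dd _).pred)).integrable hU
  have ic : ∀ j k, Integrable (fun z => a j z * dd (u k) (dd (u j) (a k)) z) (mu U) := fun j k =>
    (((ha j).mono (Nat.zero_le 2)).mul (((ha k).dd _).dd _)).integrable hU
  have id' : ∀ j k, Integrable (fun z => dd (u k) (a j) z * dd (u j) (a k) z) (mu U) := fun j k =>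
    (((ha j).dd _).mul ((ha k).dd _)).integrable hU
  -- step 1
  have h1 : ∫ z, δ z ^ 2 ∂mu U = ∑ j, ∫ z, a j z * dd (u j) δ z ∂mu U := by
    have e1 : ∀ j, ∫ z, a j z * dd (u j) δ z ∂mu U =
        ∫ z, δ z * (p j z * a j z - dd (u j) (a j) z) ∂mu U := by
      intro j
      have h := hibp j (fun z => a j z * δ z) ((ha j).pred.mul hδg)
      rw [dd_mul (ha j).differentiable hδg.differentiable] at h
      have i1 : Integrable (fun z => dd (u j) (a j) z * δ z) (mu U) :=
        (((ha j).dd _).mul hδg).integrable hU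
      have i2 : Integrable (fun z => a j z * dd (u j) δ z) (mu U) :=
        (((ha j).mono (Nat.zero_le 2)).mul (hδg.dd _)).integrable hU
      have i3 : Integrable (fun z => p j z * (a j z * δ z)) (mu U) :=
        ((hp j).mul ((ha j).pred.mul hδg)).integrable hU
      rw [integral_add i1 i2] at h
      calc ∫ z, a j z * dd (u j) δ z ∂mu U
          = ∫ z, p j z * (a j z * δ z) ∂mu U - ∫ z, dd (u j) (a j) z * δ z ∂mu U := by linarith
        _ = _ := by
          rw [← integral_sub i3 i1]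
          exact integral_congr_ae (ae_of_all _ fun z => by ring)
    simp only [e1]
    rw [← integral_finsetSum _ fun j _ => (hδg.mul (hterm j)).integrable hU]
    refine integral_congr_ae (ae_of_all _ fun z => ?_)
    simp only [← Finset.mul_sum, hδ, pow_two]
  -- step 2
  have h2 : ∀ j, ∫ z, a j z * dd (u j) δ z ∂mu U = ∑ k,
      ((∫ z, a j z * (dd (u j) (p k) z * a k z) ∂mu U) +
        ∫ z, dd (u k) (a j) z * dd (u j) (a k) z ∂mu U) := by
    intro j
    have hd : dd (u j) δ = fun z => ∑ k, (dd (u j) (p k) z * a k z + p k z * dd (u j) (a k) z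
        - dd (u j) (dd (u k) (a k)) z) := by
      rw [hδ, dd_sum _ fun k _ => (hterm k).differentiable]
      funext z
      refine Finset.sum_congr rfl fun k _ => ?_
      rw [dd_sub ((hp k).mul (ha k).pred).differentiable ((ha k).dd _).differentiable,
        dd_mul (hp k).differentiable (ha k).differentiable]
    have e : ∀ z, a j z * dd (u j) δ z = ∑ k, (a j z * (dd (u j) (p k) z * a k z)
        + (p k z * (a j z * dd (u j) (a k) z) - a j z * dd (u k) (dd (u j) (a k)) z)) := by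
      intro z
      rw [hd, Finset.mul_sum]
      refine Finset.sum_congr rfl fun k _ => ?_
      rw [dd_comm (ha k) (u j) (u k)]
      ring
    simp only [e]
    rw [integral_finsetSum]
    · refine Finset.sum_congr rfl fun k _ => ?_
      have h := hibp k (fun z => a j z * dd (u j) (a k) z) ((ha j).pred.mul ((ha k).dd _))
      rw [dd_mul (ha j).differentiable ((ha k).dd _).differentiable] at h
      rw [integral_add (id' j k) (ic j k)] at h
      rw [integral_add (ia j k) ?_, integral_sub (ib j k) (ic j k), ← h]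
      · ring
      · exact (ib j k).sub (ic j k)
    · exact fun k _ => (ia j k).add ((ib j k).sub (ic j k))
  -- step 3
  rw [show (fun z => (∑ k, (p k z * a k z - dd (u k) (a k) z)) ^ 2) = fun z => δ z ^ 2 from rfl, h1]
  simp only [h2, Finset.sum_add_distrib]
  refine add_le_add ?_ ?_
  · rw [ss_eq_integral_sum hU (fun j => (ha j).mono (Nat.zero_le 2)), ← integral_const_mul]
    simp only [← integral_finsetSum _ fun k _ => ia _ k]
    rw [← integral_finsetSum _ fun j _ => integrable_finsetSum _ fun k _ => ia j k]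
    refine integral_mono (integrable_finsetSum _ fun j _ => integrable_finsetSum _ fun k _ => ia j k)
      ((Good.sum _ fun j _ => ((ha j).mono (Nat.zero_le 2)).sq).integrable hU |>.const_mul c)
      fun z => ?_
    refine le_of_eq_of_le (Finset.sum_congr rfl fun j _ => Finset.sum_congr rfl fun k _ => ?_)
      (hc z fun j => a j z)
    ring
  · have hs : ∀ j k, ∫ z, dd (u k) (a j) z * dd (u j) (a k) z ∂mu U ≤
        1 / 2 * ∫ z, dd (u k) (a j) z ^ 2 ∂mu U + 1 / 2 * ∫ z, dd (u j) (a k) z ^ 2 ∂mu U := by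
      intro j k
      rw [← integral_const_mul, ← integral_const_mul, ← integral_add
        (((ha j).dd _).sq.integrable hU |>.const_mul _) (((ha k).dd _).sq.integrable hU |>.const_mul _)]
      refine integral_mono (id' j k)
        ((((ha j).dd _).sq.integrable hU |>.const_mul _).add
          (((ha k).dd _).sq.integrable hU |>.const_mul _)) fun z => ?_
      simp only
      nlinarith [sq_nonneg (dd (u k) (a j) z - dd (u j) (a k) z)]
    refine (Finset.sum_le_sum fun j _ => Finset.sum_le_sum fun k _ => hs j k).trans_eq ?_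
    simp only [Finset.sum_add_distrib]
    rw [Finset.sum_comm (f := fun j k => 1 / 2 * ∫ z, dd (u j) (a k) z ^ 2 ∂mu U)]
    rw [← Finset.sum_add_distrib]
    refine Finset.sum_congr rfl fun j _ => ?_
    rw [← Finset.sum_add_distrib]
    exact Finset.sum_congr rfl fun k _ => by ring

/-- position derivatives of a family -/
noncomputable def dX {ι : Type} (F : ι → Z d → ℝ) : ι × Fin d → Z d → ℝ :=
  fun p => dd (ex p.2) (F p.1)

/-- velocity derivatives of a family -/
noncomputable def dV {ι : Type} (F : ι → Z d → ℝ) : ι × Fin d → Z d → ℝ :=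
  fun p => dd (ev p.2) (F p.1)

/-- weighted square Sobolev sum of order `r` -/
noncomputable def Q (U : E d → ℝ) (σ : ℝ) : ℕ → {ι : Type} → [Fintype ι] → (ι → Z d → ℝ) → ℝ
  | 0, _, _, F => ss U F
  | r + 1, _, _, F => ss U F + σ ^ 2 * Q U σ r (dX F) + Q U σ r (dV F)

variable {U : E d → ℝ} {σ : ℝ}

theorem Q_nonneg : ∀ (r : ℕ) {ι : Type} [Fintype ι] (F : ι → Z d → ℝ), 0 ≤ Q U σ r F
  | 0, _, _, F => ss_nonneg U F
  | r + 1, _, _, F => add_nonneg (add_nonneg (ss_nonneg U F)
      (mul_nonneg (sq_nonneg σ) (Q_nonneg r (dX F)))) (Q_nonneg r (dV F))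

theorem Q_succ_ge : ∀ (r : ℕ) {ι : Type} [Fintype ι] (F : ι → Z d → ℝ),
    Q U σ r F ≤ Q U σ (r + 1) F
  | 0, _, _, F => by
    simp only [Q]
    have := ss_nonneg U (dV F)
    have := mul_nonneg (sq_nonneg σ) (ss_nonneg U (dX F))
    linarith
  | r + 1, _, _, F => by
    rw [Q, Q]
    have := mul_le_mul_of_nonneg_left (Q_succ_ge r (dX F)) (sq_nonneg σ)
    have := Q_succ_ge r (dV F)
    linarith

theorem Q_mono {r r' : ℕ} (h : r ≤ r') {ι : Type} [Fintype ι] (F : ι → Z d → ℝ) :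
    Q U σ r F ≤ Q U σ r' F := by
  induction h with
  | refl => exact le_rfl
  | step _ ih => exact ih.trans (Q_succ_ge _ F)

theorem ss_le_Q (r : ℕ) {ι : Type} [Fintype ι] (F : ι → Z d → ℝ) : ss U F ≤ Q U σ r F :=
  Q_mono (Nat.zero_le r) F

theorem Q_reindex : ∀ (r : ℕ) {ι κ : Type} [Fintype ι] [Fintype κ] (e : ι ≃ κ)
    (F : κ → Z d → ℝ), Q U σ r (fun i => F (e i)) = Q U σ r F
  | 0, _, _, _, _, e, F => e.sum_comp fun k => ∫ z, F k z ^ 2 ∂mu U
  | r + 1, _, _, _, _, e, F => by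
    have h1 : dX (fun i => F (e i)) = fun p => dX F (e.prodCongr (Equiv.refl (Fin d)) p) := rfl
    have h2 : dV (fun i => F (e i)) = fun p => dV F (e.prodCongr (Equiv.refl (Fin d)) p) := rfl
    have h0 : ss U (fun i => F (e i)) = ss U F := e.sum_comp fun k => ∫ z, F k z ^ 2 ∂mu U
    simp only [Q]
    rw [h0, h1, h2, Q_reindex r (e.prodCongr (Equiv.refl (Fin d))) (dX F),
      Q_reindex r (e.prodCongr (Equiv.refl (Fin d))) (dV F)]

theorem Q_smul : ∀ (r : ℕ) {ι : Type} [Fintype ι] (F : ι → Z d → ℝ) (c : ℝ),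
    (∀ i, Good r (F i)) → Q U σ r (fun i z => c * F i z) = c ^ 2 * Q U σ r F
  | 0, _, _, F, c, _ => by
    simp only [Q, ss, mul_pow, integral_const_mul, Finset.mul_sum]
  | r + 1, _, _, F, c, hF => by
    have h1 : dX (fun i z => c * F i z) = fun p z => c * dX F p z :=
      funext fun p => dd_const_mul (hF p.1).differentiable c (ex p.2)
    have h2 : dV (fun i z => c * F i z) = fun p z => c * dV F p z :=
      funext fun p => dd_const_mul (hF p.1).differentiable c (ev p.2)
    simp only [Q]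
    rw [h1, h2, Q_smul r (dX F) c (fun p => (hF p.1).dd _),
      Q_smul r (dV F) c (fun p => (hF p.1).dd _)]
    simp only [ss, mul_pow, integral_const_mul, ← Finset.mul_sum]
    ring

theorem ss_add_le {η B : ℝ} (hU : Pert η B U) {ι : Type} [Fintype ι] {F G : ι → Z d → ℝ}
    (hF : ∀ i, Good 0 (F i)) (hG : ∀ i, Good 0 (G i)) :
    ss U (fun i z => F i z + G i z) ≤ 2 * ss U F + 2 * ss U G := by
  simp only [ss, Finset.mul_sum, ← Finset.sum_add_distrib]
  refine Finset.sum_le_sum fun i _ => ?_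
  have h1 := (hF i).sq.integrable hU
  have h2 := (hG i).sq.integrable hU
  rw [← integral_const_mul, ← integral_const_mul, ← integral_add (h1.const_mul 2) (h2.const_mul 2)]
  refine integral_mono (((hF i).add (hG i)).sq.integrable hU) ((h1.const_mul 2).add (h2.const_mul 2))
    fun z => ?_
  simp only
  nlinarith [sq_nonneg (F i z - G i z)]

theorem Q_add_le {η B : ℝ} (hU : Pert η B U) : ∀ (r : ℕ) {ι : Type} [Fintype ι]
    (F G : ι → Z d → ℝ), (∀ i, Good r (F i)) → (∀ i, Good r (G i)) →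
      Q U σ r (fun i z => F i z + G i z) ≤ 2 * Q U σ r F + 2 * Q U σ r G
  | 0, _, _, _, _, hF, hG => ss_add_le hU hF hG
  | r + 1, _, _, F, G, hF, hG => by
    have h1 : dX (fun i z => F i z + G i z) = fun p z => dX F p z + dX G p z :=
      funext fun p => dd_add (hF p.1).differentiable (hG p.1).differentiable (ex p.2)
    have h2 : dV (fun i z => F i z + G i z) = fun p z => dV F p z + dV G p z :=
      funext fun p => dd_add (hF p.1).differentiable (hG p.1).differentiable (ev p.2)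
    have a0 := ss_add_le hU (fun i => (hF i).mono (Nat.zero_le _))
      (fun i => (hG i).mono (Nat.zero_le _))
    have a1 := mul_le_mul_of_nonneg_left (Q_add_le hU r (dX F) (dX G) (fun p => (hF p.1).dd _)
      (fun p => (hG p.1).dd _)) (sq_nonneg σ)
    have a2 := Q_add_le hU r (dV F) (dV G) (fun p => (hF p.1).dd _) (fun p => (hG p.1).dd _)
    simp only [Q]
    rw [h1, h2]
    linarith

theorem Q_zero : ∀ (r : ℕ) (ι : Type) [Fintype ι],
    Q U σ r (fun (_ : ι) (_ : Z d) => (0 : ℝ)) = 0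
  | 0, _, _ => by simp [Q, ss]
  | r + 1, ι, _ => by
    have h1 : dX (fun (_ : ι) (_ : Z d) => (0 : ℝ)) = fun _ _ => 0 :=
      funext fun p => dd_const _ _
    have h2 : dV (fun (_ : ι) (_ : Z d) => (0 : ℝ)) = fun _ _ => 0 :=
      funext fun p => dd_const _ _
    simp only [Q]
    rw [h1, h2, Q_zero r]
    simp [ss]

theorem Q_const {η B : ℝ} (hU : Pert η B U) : ∀ (r : ℕ) {ι : Type} [Fintype ι] (c : ι → ℝ),
    Q U σ r (fun i (_ : Z d) => c i) = ∑ i, c i ^ 2
  | 0, _, _, c => by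
    have := isProb_mu hU
    simp [Q, ss]
  | r + 1, ι, _, c => by
    have := isProb_mu hU
    have h1 : dX (fun i (_ : Z d) => c i) = fun _ _ => 0 := funext fun p => dd_const _ _
    have h2 : dV (fun i (_ : Z d) => c i) = fun _ _ => 0 := funext fun p => dd_const _ _
    simp only [Q]
    rw [h1, h2, Q_zero r]
    simp [ss]

/-! ### Multiplication by a matrix of functions of position -/

/-- operator bound of a matrix of functions -/
def OpLe {ι κ : Type} [Fintype ι] [Fintype κ] (c : ℝ) (M : ι → κ → E d → ℝ) : Prop :=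
  ∀ x (a : κ → ℝ), ∑ i, (∑ k, M i k x * a k) ^ 2 ≤ c * ∑ k, a k ^ 2

/-- the matrix of the scaled derivatives -/
noncomputable def dM {ι κ : Type} (σ : ℝ) (M : ι → κ → E d → ℝ) :
    ι × Fin d → κ → E d → ℝ := fun p k x => σ * dd (bas p.2) (M p.1 k) x

/-- bounded to order `r` -/
def Bd (σ c : ℝ) : ℕ → {ι κ : Type} → [Fintype ι] → [Fintype κ] → (ι → κ → E d → ℝ) → Prop
  | 0, _, _, _, _, M => OpLe c M ∧ ∀ i k, Good 0 (M i k)
  | r + 1, _, _, _, _, M => OpLe c M ∧ (∀ i k, Good (r + 1) (M i k)) ∧ Bd σ c r (dM σ M)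

theorem Bd.opLe {c : ℝ} {r : ℕ} {ι κ : Type} [Fintype ι] [Fintype κ] {M : ι → κ → E d → ℝ}
    (h : Bd σ c r M) : OpLe c M := by
  cases r <;> exact h.1

theorem Bd.good {c : ℝ} {r : ℕ} {ι κ : Type} [Fintype ι] [Fintype κ] {M : ι → κ → E d → ℝ}
    (h : Bd σ c r M) : ∀ i k, Good r (M i k) := by
  cases r
  · exact h.2
  · exact h.2.1

theorem Bd.pred {c : ℝ} : ∀ {r : ℕ} {ι κ : Type} [Fintype ι] [Fintype κ]
    {M : ι → κ → E d → ℝ}, Bd σ c (r + 1) M → Bd σ c r M
  | 0, _, _, _, _, _, h => ⟨h.1, fun i k => (h.2.1 i k).pred⟩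
  | _ + 1, _, _, _, _, _, h => ⟨h.1, fun i k => (h.2.1 i k).pred, h.2.2.pred⟩

theorem Bd.mono {c : ℝ} {r r' : ℕ} {ι κ : Type} [Fintype ι] [Fintype κ] {M : ι → κ → E d → ℝ}
    (hr : r ≤ r') (h : Bd σ c r' M) : Bd σ c r M := by
  induction hr with
  | refl => exact h
  | step _ ih => exact ih h.pred

/-- the product of a matrix with the last index of a family -/
noncomputable def mulF {ι κ α : Type} [Fintype κ] (M : ι → κ → E d → ℝ)
    (F : α × κ → Z d → ℝ) : α × ι → Z d → ℝ := fun p z => ∑ k, M p.2 k z.1 * F (p.1, k) z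

theorem good_mulF {n : ℕ} {ι κ α : Type} [Fintype κ] {M : ι → κ → E d → ℝ}
    {F : α × κ → Z d → ℝ} (hM : ∀ i k, Good n (M i k)) (hF : ∀ p, Good n (F p)) (p : α × ι) :
    Good n (mulF M F p) :=
  Good.sum _ fun k _ => ((hM _ _).comp (ContinuousLinearMap.fst ℝ (E d) (E d))).mul (hF _)

theorem ss_mulF_le {η B : ℝ} (hU : Pert η B U) {c : ℝ} {ι κ α : Type} [Fintype ι] [Fintype κ]
    [Fintype α] {M : ι → κ → E d → ℝ} {F : α × κ → Z d → ℝ} (hop : OpLe c M)
    (hM : ∀ i k, Good 0 (M i k)) (hF : ∀ p, Good 0 (F p)) :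
    ss U (mulF M F) ≤ c * ss U F := by
  rw [ss_eq_integral_sum hU (good_mulF hM hF), ss_eq_integral_sum hU hF, ← integral_const_mul]
  refine integral_mono ((Good.sum _ fun p _ => (good_mulF hM hF p).sq).integrable hU)
    (((Good.sum _ fun p _ => (hF p).sq).integrable hU).const_mul c) fun z => ?_
  simp only [Fintype.sum_prod_type, mulF, Finset.mul_sum]
  refine Finset.sum_le_sum fun a _ => ?_
  rw [← Finset.mul_sum]
  exact hop z.1 fun k => F (a, k) z

/-- exchange the last two indices -/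
def swapLast (α β γ : Type) : (α × β) × γ ≃ (α × γ) × β where
  toFun p := ((p.1.1, p.2), p.1.2)
  invFun p := ((p.1.1, p.2), p.1.2)
  left_inv _ := rfl
  right_inv _ := rfl

theorem exists_Q_mulF_le (c : ℝ) (hc : 0 ≤ c) : ∀ r : ℕ, ∃ C : ℝ, 0 ≤ C ∧
    ∀ (d : ℕ) (σ η B : ℝ) (U : E d → ℝ), Pert η B U →
    ∀ (ι κ α : Type) [Fintype ι] [Fintype κ] [Fintype α] (M : ι → κ → E d → ℝ)
      (F : α × κ → Z d → ℝ), Bd σ c r M → (∀ p, Good r (F p)) →
      Q U σ r (mulF M F) ≤ C * Q U σ r F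
  | 0 => ⟨c, hc, fun d σ η B U hU ι κ α _ _ _ M F hM hF => ss_mulF_le hU hM.1 hM.2 hF⟩
  | r + 1 => by
    obtain ⟨C, hC, ih⟩ := exists_Q_mulF_le c hc r
    refine ⟨c + 5 * C, by positivity, fun d σ η B U hU ι κ α _ _ _ M F hM hF => ?_⟩
    have hMg := hM.good
    have hMp : Bd σ c r M := hM.pred
    set Fx : (α × Fin d) × κ → Z d → ℝ := fun q => dX F (swapLast α (Fin d) κ q) with hFx
    set Fv : (α × Fin d) × κ → Z d → ℝ := fun q => dV F (swapLast α (Fin d) κ q) with hFv
    set A : (α × ι) × Fin d → Z d → ℝ := fun p => mulF M Fx (swapLast α ι (Fin d) p) with hA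
    set D : (α × ι) × Fin d → Z d → ℝ := fun p =>
      mulF (fun (q : ι × Fin d) k => dd (bas q.2) (M q.1 k)) F (Equiv.prodAssoc α ι (Fin d) p)
      with hD
    have hterm : ∀ (q : α × ι) (k : κ), Differentiable ℝ fun z : Z d => M q.2 k z.1 * F (q.1, k) z :=
      fun q k => (((hMg q.2 k).differentiable.comp differentiable_fst)).mul (hF _).differentiable
    have ex1 : ∀ p, dX (mulF M F) p = fun z => A p z + D p z := by
      rintro ⟨q, j⟩
      show dd (ex j) (fun z => ∑ k, M q.2 k z.1 * F (q.1, k) z) = _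
      rw [dd_sum _ fun k _ => hterm q k]
      funext z
      simp only [hA, hD, hFx, mulF, dX, swapLast, Equiv.coe_fn_mk, Equiv.prodAssoc_apply,
        ← Finset.sum_add_distrib]
      refine Finset.sum_congr rfl fun k _ => ?_
      rw [dd_mul (f := fun z : Z d => M q.2 k z.1)
        ((hMg q.2 k).differentiable.comp differentiable_fst) (hF _).differentiable,
        dd_fst (hMg q.2 k).differentiable]
      simp [ex]
      ring
    have ev1 : dV (mulF M F) = fun p => mulF M Fv (swapLast α ι (Fin d) p) := by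
      funext p
      obtain ⟨q, j⟩ := p
      show dd (ev j) (fun z => ∑ k, M q.2 k z.1 * F (q.1, k) z) = _
      rw [dd_sum _ fun k _ => hterm q k]
      funext z
      simp only [hFv, mulF, dV, swapLast, Equiv.coe_fn_mk]
      refine Finset.sum_congr rfl fun k _ => ?_
      rw [dd_mul (f := fun z : Z d => M q.2 k z.1)
        ((hMg q.2 k).differentiable.comp differentiable_fst) (hF _).differentiable,
        dd_fst (hMg q.2 k).differentiable]
      simp [ev, Deriv.dd]
    have hFxg : ∀ q, Good r (Fx q) := fun q => (hF _).dd _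
    have hFvg : ∀ q, Good r (Fv q) := fun q => (hF _).dd _
    have hAg : ∀ p, Good r (A p) := fun p => good_mulF hMp.good hFxg _
    have hDg : ∀ p, Good r (D p) := fun p =>
      good_mulF (n := r) (fun (q : ι × Fin d) k => (hMg q.1 k).dd (bas q.2)) (fun q => (hF q).pred) _
    have b1 : Q U σ r A ≤ C * Q U σ r (dX F) := by
      rw [hA, Q_reindex]
      refine (ih d σ η B U hU ι κ (α × Fin d) M Fx hMp hFxg).trans_eq ?_
      rw [hFx, Q_reindex]
    have b2 : σ ^ 2 * Q U σ r D ≤ C * Q U σ r F := by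
      rw [hD, Q_reindex, ← Q_smul r _ σ
        (good_mulF (n := r) (fun (q : ι × Fin d) k => (hMg q.1 k).dd (bas q.2))
          fun q => (hF q).pred)]
      have e : (fun p z => σ * mulF (fun (q : ι × Fin d) k => dd (bas q.2) (M q.1 k)) F p z) =
          mulF (dM σ M) F := by
        funext p z
        simp only [mulF, dM, Finset.mul_sum, mul_assoc]
      rw [e]
      exact ih d σ η B U hU (ι × Fin d) κ α (dM σ M) F hM.2.2 fun q => (hF q).pred
    have b3 : Q U σ r (dV (mulF M F)) ≤ C * Q U σ r (dV F) := by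
      rw [ev1, Q_reindex]
      refine (ih d σ η B U hU ι κ (α × Fin d) M Fv hMp hFvg).trans_eq ?_
      rw [hFv, Q_reindex]
    have b0 := ss_mulF_le hU hM.opLe (fun i k => (hMg i k).mono (Nat.zero_le _))
      fun p => (hF p).mono (Nat.zero_le _)
    have b4 := mul_le_mul_of_nonneg_left (Q_add_le (σ := σ) hU r A D hAg hDg) (sq_nonneg σ)
    have b5 := mul_le_mul_of_nonneg_left b1 (sq_nonneg σ)
    have b6 := mul_le_mul_of_nonneg_left (Q_succ_ge (U := U) (σ := σ) r F) hC
    have n0 := mul_nonneg hc (mul_nonneg (sq_nonneg σ) (Q_nonneg (U := U) (σ := σ) r (dX F)))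
    have n1 := mul_nonneg hc (Q_nonneg (U := U) (σ := σ) r (dV F))
    have n2 := mul_nonneg hC (ss_nonneg U F)
    have n3 := mul_nonneg hC (Q_nonneg (U := U) (σ := σ) r (dV F))
    have n4 := mul_nonneg hC (mul_nonneg (sq_nonneg σ) (Q_nonneg (U := U) (σ := σ) r (dX F)))
    simp only [Q] at b6 ⊢
    rw [funext ex1]
    linarith

/-! ### The Liouville operator -/

/-- matrix of second derivatives -/
noncomputable def hessM (U : E d → ℝ) : Fin d → Fin d → E d → ℝ :=
  fun i k => dd (bas i) (dd (bas k) U)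

/-- the Liouville operator -/
noncomputable def lv (U : E d → ℝ) (f : Z d → ℝ) (z : Z d) : ℝ :=
  ∑ k, (pv k z * dd (ex k) f z - px U k z * dd (ev k) f z)

/-- the Liouville operator on families -/
noncomputable def lvF (U : E d → ℝ) {ι : Type} (F : ι → Z d → ℝ) : ι → Z d → ℝ :=
  fun i => lv U (F i)

theorem good_lv {n : ℕ} (hU : Good (n + 1) U) {f : Z d → ℝ} (hf : Good (n + 1) f) :
    Good n (lv U f) :=
  Good.sum _ fun k _ => ((good_pv n k).mul (hf.dd _)).sub ((good_px hU k).mul (hf.dd _))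

theorem dd_lv (hU : Good 2 U) {f : Z d → ℝ} (hf : Good 2 f) (u : Z d) :
    dd u (lv U f) = fun z => lv U (dd u f) z + ∑ k, (⟪bas k, u.2⟫ * dd (ex k) f z
      - (⟪bas k, u.1⟫ + dd u.1 (dd (bas k) U) z.1) * dd (ev k) f z) := by
  show dd u (fun z => ∑ k, (pv k z * dd (ex k) f z - px U k z * dd (ev k) f z)) = _
  have h1 : ∀ k, Differentiable ℝ fun z => pv k z * dd (ex k) f z := fun k =>
    ((good_pv 1 k).mul (hf.dd _)).differentiable
  have h2 : ∀ k, Differentiable ℝ fun z => px U k z * dd (ev k) f z := fun k =>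
    ((good_px hU k).mul (hf.dd _)).differentiable
  rw [dd_sum _ fun k _ => ((h1 k).fun_sub (h2 k))]
  funext z
  simp only [lv, ← Finset.sum_add_distrib]
  refine Finset.sum_congr rfl fun k _ => ?_
  rw [dd_sub (h1 k) (h2 k), dd_mul (good_pv 1 k).differentiable (hf.dd _).differentiable,
    dd_mul (good_px hU k).differentiable (hf.dd _).differentiable, dd_pv, dd_px hU,
    dd_comm hf u (ex k), dd_comm hf u (ev k)]
  ring

theorem sum_inner_bas (j : Fin d) (g : Fin d → ℝ) : ∑ k, ⟪bas k, bas j⟫ * g k = g j := by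
  simp [inner_bas]

theorem dd_ev_lv (hU : Good 2 U) {f : Z d → ℝ} (hf : Good 2 f) (j : Fin d) :
    dd (ev j) (lv U f) = fun z => lv U (dd (ev j) f) z + dd (ex j) f z := by
  rw [dd_lv hU hf]
  funext z
  congr 1
  simp [ev, dd, Finset.sum_sub_distrib, inner_bas]

theorem dd_ex_lv (hU : Good 2 U) {f : Z d → ℝ} (hf : Good 2 f) (j : Fin d) :
    dd (ex j) (lv U f) = fun z => lv U (dd (ex j) f) z +
      ((-1) * (dd (ev j) f z + ∑ k, hessM U j k z.1 * dd (ev k) f z)) := by
  rw [dd_lv hU hf]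
  funext z
  congr 1
  simp only [ex, inner_zero_right, zero_mul, zero_sub, Finset.sum_neg_distrib, add_mul,
    Finset.sum_add_distrib, sum_inner_bas, hessM]
  ring

theorem quad_px {c : ℝ} (hop : OpLe c (hessM U)) (hU : Good 2 U) (z : Z d) (a : Fin d → ℝ) :
    ∑ j, ∑ k, a j * a k * dd (ex j) (px U k) z ≤ (2 + c) * ∑ j, a j ^ 2 := by
  have e : ∀ j, ∑ k, a j * a k * dd (ex j) (px U k) z =
      a j ^ 2 + a j * ∑ k, hessM U j k z.1 * a k := by
    intro j
    simp only [dd_px hU, ex, mul_add, Finset.sum_add_distrib, inner_bas, Finset.mul_sum, hessM]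
    congr 1
    · simp [pow_two]
    · exact Finset.sum_congr rfl fun k _ => by ring
  simp only [e, Finset.sum_add_distrib]
  have h := hop z.1 a
  have h2 : ∀ j, a j * ∑ k, hessM U j k z.1 * a k ≤
      a j ^ 2 + (∑ k, hessM U j k z.1 * a k) ^ 2 := fun j => by
    nlinarith [sq_nonneg (a j - ∑ k, hessM U j k z.1 * a k), sq_nonneg (a j),
      sq_nonneg (∑ k, hessM U j k z.1 * a k)]
  have h3 := Finset.sum_le_sum fun j (_ : j ∈ Finset.univ) => h2 j
  rw [Finset.sum_add_distrib] at h3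
  linarith [Finset.sum_nonneg fun j (_ : j ∈ Finset.univ) => sq_nonneg (a j)]

theorem ss_lv_le {η B c : ℝ} (hU : Pert η B U) (hc : 0 ≤ c) (hop : OpLe c (hessM U))
    (hUg : Good 2 U) (hσ : 0 < σ) (hσ1 : σ ≤ 1) {ι : Type} [Fintype ι] {F : ι → Z d → ℝ}
    (hF : ∀ i, Good 3 (F i)) : ss U (lvF U F) ≤ (2 * c + 8) / σ ^ 2 * Q U σ 2 F := by
  have key : ∀ i, ∫ z, lv U (F i) z ^ 2 ∂mu U ≤
      2 * ((∑ k, ∫ z, dd (ex k) (F i) z ^ 2 ∂mu U) +
        ∑ j, ∑ k, ∫ z, dd (ev k) (dd (ex j) (F i)) z ^ 2 ∂mu U) +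
      2 * ((2 + c) * (∑ k, ∫ z, dd (ev k) (F i) z ^ 2 ∂mu U) +
        ∑ j, ∑ k, ∫ z, dd (ex k) (dd (ev j) (F i)) z ^ 2 ∂mu U) := by
    intro i
    set f := F i
    set P : Z d → ℝ := fun z => ∑ k, (pv k z * dd (ex k) f z - dd (ev k) (dd (ex k) f) z)
    set R : Z d → ℝ := fun z => ∑ k, (px U k z * dd (ev k) f z - dd (ex k) (dd (ev k) f) z)
    have e : ∀ z, lv U f z = P z - R z := by
      intro z
      simp only [lv, P, R, ← Finset.sum_sub_distrib]
      refine Finset.sum_congr rfl fun k _ => ?_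
      rw [dd_comm ((hF i).pred) (ev k) (ex k)]
      ring
    have hP := bochner hU ev pv (fun j => good_pv 1 j) (fun j φ hφ => ibp_v hU j hφ) (c := 1)
      (fun z a => by
        simp only [dd_pv, ev, inner_bas, one_mul]
        simp [pow_two])
      (a := fun k => dd (ex k) f) (fun k => (hF i).dd _)
    have hR := bochner hU ex (px U) (fun j => good_px hUg j)
      (fun j φ hφ => ibp_x hU hUg.pred j hφ) (c := 2 + c) (fun z a => quad_px hop hUg z a)
      (a := fun k => dd (ev k) f) (fun k => (hF i).dd _)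
    have hPg : Good 1 P := Good.sum _ fun k _ =>
      ((good_pv 1 k).mul ((hF i).dd _).pred).sub (((hF i).dd _).dd _)
    have hRg : Good 1 R := Good.sum _ fun k _ =>
      ((good_px hUg k).mul ((hF i).dd _).pred).sub (((hF i).dd _).dd _)
    have i1 := hPg.sq.integrable hU
    have i2 := hRg.sq.integrable hU
    calc ∫ z, lv U f z ^ 2 ∂mu U = ∫ z, (P z - R z) ^ 2 ∂mu U := by simp only [e]
      _ ≤ ∫ z, (2 * P z ^ 2 + 2 * R z ^ 2) ∂mu U :=
          integral_mono ((hPg.sub hRg).sq.integrable hU) ((i1.const_mul 2).add (i2.const_mul 2))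
            fun z => by nlinarith [sq_nonneg (P z + R z)]
      _ = 2 * ∫ z, P z ^ 2 ∂mu U + 2 * ∫ z, R z ^ 2 ∂mu U := by
          rw [integral_add (i1.const_mul 2) (i2.const_mul 2), integral_const_mul, integral_const_mul]
      _ ≤ _ := by
          simp only [ss, one_mul] at hP hR
          linarith
  have s := Finset.sum_le_sum fun i (_ : i ∈ Finset.univ) => key i
  simp only [Finset.sum_add_distrib, ← Finset.mul_sum] at s
  have e1 : ∑ i, ∑ k, ∫ z, dd (ex k) (F i) z ^ 2 ∂mu U = ss U (dX F) := by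
    simp [ss, dX, Fintype.sum_prod_type]
  have e2 : ∑ i, ∑ k, ∫ z, dd (ev k) (F i) z ^ 2 ∂mu U = ss U (dV F) := by
    simp [ss, dV, Fintype.sum_prod_type]
  have e3 : ∑ i, ∑ j, ∑ k, ∫ z, dd (ev k) (dd (ex j) (F i)) z ^ 2 ∂mu U = ss U (dV (dX F)) := by
    simp [ss, dX, dV, Fintype.sum_prod_type]
  have e4 : ∑ i, ∑ j, ∑ k, ∫ z, dd (ex k) (dd (ev j) (F i)) z ^ 2 ∂mu U = ss U (dX (dV F)) := by
    simp [ss, dX, dV, Fintype.sum_prod_type]
  rw [e1, e2, e3, e4] at s
  have hs : ss U (lvF U F) = ∑ i, ∫ z, lv U (F i) z ^ 2 ∂mu U := rfl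
  rw [hs, div_mul_eq_mul_div, le_div_iff₀ (pow_pos hσ 2)]
  refine (mul_le_mul_of_nonneg_right s (sq_nonneg σ)).trans ?_
  have hσ2 : σ ^ 2 ≤ 1 := pow_le_one₀ hσ.le hσ1
  have a1 : σ ^ 2 * ss U (dX F) + σ ^ 2 * ss U (dV (dX F)) + ss U (dV F)
      + σ ^ 2 * ss U (dX (dV F)) ≤ Q U σ 2 F := by
    simp only [Q]
    have := ss_nonneg U F
    have := mul_nonneg (mul_nonneg (sq_nonneg σ) (sq_nonneg σ)) (ss_nonneg U (dX (dX F)))
    have := ss_nonneg U (dV (dV F))
    nlinarith
  have a2 := mul_le_mul_of_nonneg_left a1 (show (0 : ℝ) ≤ 2 * c + 8 by positivity)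
  have n1 := mul_nonneg (sq_nonneg σ) (ss_nonneg U (dX F))
  have n2 := mul_nonneg (sq_nonneg σ) (ss_nonneg U (dV (dX F)))
  have n3 := mul_nonneg (sq_nonneg σ) (ss_nonneg U (dX (dV F)))
  have n4 := mul_le_mul_of_nonneg_left hσ2 (ss_nonneg U (dV F))
  have n5 := mul_le_mul_of_nonneg_left n4 hc
  have n6 := mul_nonneg hc n1
  have n7 := mul_nonneg hc n2
  have n8 := mul_nonneg hc n3
  have n9 := mul_nonneg hc (ss_nonneg U (dV F))
  nlinarith [ss_nonneg U (dV F)]

theorem exists_Q_lv_le (c : ℝ) (hc : 0 ≤ c) : ∀ r : ℕ, ∃ C : ℝ, 0 ≤ C ∧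
    ∀ (d : ℕ) (σ η B : ℝ) (U : E d → ℝ), Pert η B U → 0 < σ → σ ≤ 1 →
    Good (r + 2) U → Bd σ c r (hessM U) →
    ∀ (ι : Type) [Fintype ι] (F : ι → Z d → ℝ), (∀ i, Good (r + 3) (F i)) →
      Q U σ r (lvF U F) ≤ C / σ ^ 2 * Q U σ (r + 2) F
  | 0 => ⟨2 * c + 8, by positivity, fun d σ η B U hU hσ hσ1 hUg hM ι _ F hF =>
      ss_lv_le hU hc hM.opLe hUg hσ hσ1 hF⟩
  | r + 1 => by
    obtain ⟨C, hC, ih⟩ := exists_Q_lv_le c hc r
    obtain ⟨Cm, hCm, hmul⟩ := exists_Q_mulF_le c hc r
    refine ⟨2 * c + 8 + 2 * C + 2 + (4 + 4 * Cm), by positivity,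
      fun d σ η B U hU hσ hσ1 hUg hM ι _ F hF => ?_⟩
    have hU2 : Good 2 U := hUg.mono (by omega)
    have hF2 : ∀ i, Good 2 (F i) := fun i => (hF i).mono (by omega)
    set P : ι × Fin d → Z d → ℝ :=
      fun p z => (-1) * (dV F p z + mulF (hessM U) (dV F) p z) with hP
    have ex1 : dX (lvF U F) = fun p z => lvF U (dX F) p z + P p z :=
      funext fun p => dd_ex_lv hU2 (hF2 p.1) p.2
    have ev1 : dV (lvF U F) = fun p z => lvF U (dV F) p z + dX F p z :=
      funext fun p => dd_ev_lv hU2 (hF2 p.1) p.2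
    have hlx : ∀ p, Good r (lvF U (dX F) p) := fun p =>
      (good_lv (n := r + 1) (hUg.mono (by omega)) (((hF p.1).dd _).mono (by omega))).pred
    have hlv : ∀ p, Good r (lvF U (dV F) p) := fun p =>
      (good_lv (n := r + 1) (hUg.mono (by omega)) (((hF p.1).dd _).mono (by omega))).pred
    have hvg : ∀ p, Good r (dV F p) := fun p => ((hF p.1).dd _).mono (by omega)
    have hxg : ∀ p, Good r (dX F p) := fun p => ((hF p.1).dd _).mono (by omega)
    have hmg : ∀ p, Good r (mulF (hessM U) (dV F) p) := good_mulF hM.pred.good hvg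
    have hPg : ∀ p, Good r (P p) := fun p => ((hvg p).add (hmg p)).const_mul _
    have ihx := ih d σ η B U hU hσ hσ1 (hUg.mono (by omega)) hM.pred (ι × Fin d) (dX F)
      (fun p => ((hF p.1).dd _).mono (by omega))
    have ihv := ih d σ η B U hU hσ hσ1 (hUg.mono (by omega)) hM.pred (ι × Fin d) (dV F)
      (fun p => ((hF p.1).dd _).mono (by omega))
    have qP : Q U σ r P ≤ (2 + 2 * Cm) * Q U σ r (dV F) := by
      rw [hP, Q_smul r (fun p z => dV F p z + mulF (hessM U) (dV F) p z) (-1)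
        (fun p => (hvg p).add (hmg p))]
      have h1 := Q_add_le (σ := σ) hU r (dV F) (mulF (hessM U) (dV F)) hvg hmg
      have h2 := hmul d σ η B U hU (Fin d) (Fin d) ι (hessM U) (dV F) hM.pred hvg
      nlinarith
    have a0 := ss_lv_le hU hc hM.opLe hU2 hσ hσ1 (fun i => (hF i).mono (by omega : 3 ≤ r + 1 + 3))
    have a1 := Q_add_le (σ := σ) hU r (lvF U (dX F)) P hlx hPg
    have a2 := Q_add_le (σ := σ) hU r (lvF U (dV F)) (dX F) hlv hxg
    set X := σ ^ 2 * Q U σ (r + 2) (dX F) with hX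
    set V := Q U σ (r + 2) (dV F) with hV
    set S := ss U F with hS
    have hX0 : 0 ≤ X := mul_nonneg (sq_nonneg σ) (Q_nonneg _ _)
    have hV0 : 0 ≤ V := Q_nonneg _ _
    have hS0 : 0 ≤ S := ss_nonneg _ _
    have hQ : Q U σ (r + 1 + 2) F = S + X + V := rfl
    have hQ2 : Q U σ 2 F ≤ S + X + V := hQ ▸ Q_mono (by omega : 2 ≤ r + 1 + 2) F
    have hx' : Q U σ r (dX F) ≤ Q U σ (r + 2) (dX F) := Q_mono (by omega) _
    have hv' : Q U σ r (dV F) ≤ V := Q_mono (by omega) _
    have hσ2 : σ ^ 2 ≤ 1 := pow_le_one₀ hσ.le hσ1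
    have hp : (0 : ℝ) < σ ^ 2 := pow_pos hσ 2
    rw [div_mul_eq_mul_div, le_div_iff₀ hp] at a0 ihx ihv
    rw [hQ, div_mul_eq_mul_div, le_div_iff₀ hp]
    simp only [Q]
    rw [ex1, ev1]
    have c1 := mul_le_mul_of_nonneg_left a1 (mul_nonneg hp.le hp.le)
    have c2 := mul_le_mul_of_nonneg_left ihx hp.le
    have c3 : σ ^ 2 * σ ^ 2 * Q U σ r P ≤ (2 + 2 * Cm) * V := by
      have h1 : σ ^ 2 * σ ^ 2 ≤ 1 := mul_le_one₀ hσ2 hp.le hσ2
      refine (mul_le_of_le_one_left (Q_nonneg _ _) h1).trans (qP.trans ?_)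
      exact mul_le_mul_of_nonneg_left hv' (by positivity)
    have c4 := mul_le_mul_of_nonneg_right a2 hp.le
    have c5 : σ ^ 2 * Q U σ r (dX F) ≤ X := mul_le_mul_of_nonneg_left hx' hp.le
    have c6 := mul_le_mul_of_nonneg_left hQ2 (show (0 : ℝ) ≤ 2 * c + 8 by positivity)
    have n1 := mul_nonneg hC hS0
    have n2 := mul_nonneg hCm hS0
    have n3 := mul_nonneg hCm hX0
    calc (ss U (lvF U F) + σ ^ 2 * Q U σ r (fun p z => lvF U (dX F) p z + P p z)
          + Q U σ r (fun p z => lvF U (dV F) p z + dX F p z)) * σ ^ 2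
        = ss U (lvF U F) * σ ^ 2
          + σ ^ 2 * σ ^ 2 * Q U σ r (fun p z => lvF U (dX F) p z + P p z)
          + Q U σ r (fun p z => lvF U (dV F) p z + dX F p z) * σ ^ 2 := by ring
      _ ≤ _ := by nlinarith

end Vale.Agent.P347.Deriv
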