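import Vale.Agent.P347.Smoothing
import Vale.Agent.P347.Lsm

/-!
# P347: bias of the one-shot estimate of the log-smoothed gradient

Lipschitz test functions differ in mean by `O (L η (1+B) √d)` between `law W` and the standard
Gaussian. After shifting the noise, `law (post b W u)` is such a law with `η b²` in place of `η`.
-/

open MeasureTheory ProbabilityTheory Real Set Filter
open scoped RealInnerProductSpace Topology

namespace Vale.Agent.P347

variable {d : ℕ}

theorem abs_integral_mul_le_sqrt {α : Type*} [MeasurableSpace α] {μ : Measure α} {f g : α → ℝ}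
    (hf : Integrable (fun x => f x ^ 2) μ) (hg : Integrable (fun x => g x ^ 2) μ)
    (hfg : Integrable (fun x => f x * g x) μ) :
    |∫ x, f x * g x ∂μ| ≤ √(∫ x, f x ^ 2 ∂μ) * √(∫ x, g x ^ 2 ∂μ) := by
  have key : ∀ t : ℝ, 0 ≤ (∫ x, f x ^ 2 ∂μ) * (t * t) + 2 * (∫ x, f x * g x ∂μ) * t +
      ∫ x, g x ^ 2 ∂μ := fun t => by
    have i1 : Integrable (fun x => t * t * f x ^ 2 + 2 * t * (f x * g x)) μ :=
      (hf.const_mul _).add (hfg.const_mul _)
    have h : 0 ≤ ∫ x, (t * t * f x ^ 2 + 2 * t * (f x * g x) + g x ^ 2) ∂μ :=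
      integral_nonneg fun x => by
        simp only [Pi.zero_apply]; nlinarith [sq_nonneg (t * f x + g x)]
    rw [integral_add i1 hg, integral_add (hf.const_mul _) (hfg.const_mul _), integral_const_mul,
      integral_const_mul] at h
    linarith
  have hd := discrim_le_zero key
  simp only [discrim] at hd
  rw [← Real.sqrt_mul (integral_nonneg fun x => sq_nonneg _), ← Real.sqrt_sq_eq_abs]
  exact Real.sqrt_le_sqrt (by linarith)

theorem Pert.wlip_self {η B : ℝ} {W : E d → ℝ} (hW : Pert η B W) : WLip W (η * B * √d) η := by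
  have hB := hW.bound_nonneg
  have hη := hW.eta_nonneg
  refine ⟨by positivity, hη, fun x y => ?_⟩
  have hd : Differentiable ℝ W := hW.contDiff.differentiable (by norm_num)
  have hb : ∀ z ∈ segment ℝ x y, ‖fderiv ℝ W z‖ ≤ η * B * √d + η * (‖x‖ + ‖y‖) := by
    intro z hz
    obtain ⟨a, c, ha, hc, hac, rfl⟩ := hz
    refine ContinuousLinearMap.opNorm_le_bound _ (by positivity) fun v => ?_
    rw [← inner_grad]
    refine (norm_inner_le_norm _ _).trans (mul_le_mul_of_nonneg_right ?_ (norm_nonneg v))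
    refine (hW.norm_grad_le _).trans ?_
    have hn : ‖a • x + c • y‖ ≤ ‖x‖ + ‖y‖ := by
      refine (norm_add_le _ _).trans ?_
      rw [norm_smul, norm_smul, Real.norm_eq_abs, Real.norm_eq_abs, abs_of_nonneg ha,
        abs_of_nonneg hc]
      exact add_le_add (mul_le_of_le_one_left (norm_nonneg _) (by linarith))
        (mul_le_of_le_one_left (norm_nonneg _) (by linarith))
    nlinarith [mul_le_mul_of_nonneg_left hn hη]
  have := (convex_segment x y).norm_image_sub_le_of_norm_fderiv_le (f := W) (fun z _ => hd z)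
    hb (right_mem_segment ℝ x y) (left_mem_segment ℝ x y)
  rw [Real.norm_eq_abs] at this
  linarith

/-- Interpolation bound for the mean of a test function. -/
theorem mean_interp {η B K : ℝ} {W₀ W₁ f : E d → ℝ} (h₀ : Pert η B W₀) (h₁ : Pert η B W₁)
    (hfc : Continuous f) (hfp : PolyBd f)
    (hK : ∀ s ∈ Icc (0 : ℝ) 1, |∫ x, (f x - ∫ y, f y ∂law (mix W₀ W₁ s)) * (W₁ x - W₀ x)
      ∂law (mix W₀ W₁ s)| ≤ K) :
    |∫ x, f x ∂law W₀ - ∫ x, f x ∂law W₁| ≤ K := by
  set D : E d → ℝ := fun x => W₁ x - W₀ x with hD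
  set e : ℝ → E d → ℝ := fun s x => exp (-pot (mix W₀ W₁ s) x) with he
  have hDc : Continuous D := h₁.contDiff.continuous.sub h₀.contDiff.continuous
  have hDp : PolyBd D := h₁.polyBd_self.sub h₀.polyBd_self
  have hec : ∀ s, Continuous (e s) := fun s =>
    Real.continuous_exp.comp ((((continuous_norm.pow 2).div_const 2).add
      ((continuous_const.mul h₀.contDiff.continuous).add
        (continuous_const.mul h₁.contDiff.continuous))).neg)
  have hele : ∀ s ∈ Icc (0 : ℝ) 1, ∀ x, e s x ≤ exp (-pot W₀ x) + exp (-pot W₁ x) := by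
    intro s hs x
    have hx : pot (mix W₀ W₁ s) x = (1 - s) * pot W₀ x + s * pot W₁ x := by
      simp only [pot, mix]; ring
    rcases le_total (pot W₀ x) (pot W₁ x) with h | h
    · have : pot W₀ x ≤ pot (mix W₀ W₁ s) x := by rw [hx]; nlinarith [hs.1]
      exact (exp_le_exp.2 (neg_le_neg this)).trans (le_add_of_nonneg_right (exp_pos _).le)
    · have : pot W₁ x ≤ pot (mix W₀ W₁ s) x := by rw [hx]; nlinarith [hs.2]
      exact (exp_le_exp.2 (neg_le_neg this)).trans (le_add_of_nonneg_left (exp_pos _).le)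
  set N : (E d → ℝ) → ℝ → ℝ := fun φ s => ∫ x, e s x * φ x with hN
  have hbd : ∀ φ : E d → ℝ, Continuous φ → PolyBd φ →
      Integrable fun x => (exp (-pot W₀ x) + exp (-pot W₁ x)) * ‖φ x‖ := fun φ hφ hφp => by
    simpa only [smul_eq_mul, add_mul, Pi.add_apply] using!
      (h₀.decay.integrable hφ.norm.aestronglyMeasurable hφp.norm).add
        (h₁.decay.integrable hφ.norm.aestronglyMeasurable hφp.norm)
  have hnorm : ∀ s ∈ Icc (0 : ℝ) 1, ∀ (φ : E d → ℝ) x,
      ‖e s x * φ x‖ ≤ (exp (-pot W₀ x) + exp (-pot W₁ x)) * ‖φ x‖ := fun s hs φ x => by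
    rw [norm_mul, Real.norm_eq_abs, abs_of_pos (exp_pos _)]
    exact mul_le_mul_of_nonneg_right (hele s hs x) (norm_nonneg _)
  have hcont : ∀ φ : E d → ℝ, Continuous φ → PolyBd φ → ContinuousOn (N φ) (Icc (0 : ℝ) 1) := by
    intro φ hφ hφp
    refine continuousOn_of_dominated (fun s _ => ((hec s).mul hφ).aestronglyMeasurable)
      (fun s hs => ae_of_all _ (hnorm s hs φ)) (hbd φ hφ hφp) (ae_of_all _ fun x => ?_)
    simp only [he, pot, mix]
    exact (by fun_prop : Continuous fun s : ℝ =>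
      exp (-(‖x‖ ^ 2 / 2 + ((1 - s) * W₀ x + s * W₁ x))) * φ x).continuousOn
  have hderiv : ∀ φ : E d → ℝ, Continuous φ → PolyBd φ → ∀ s ∈ Ioo (0 : ℝ) 1,
      HasDerivAt (N φ) (-∫ x, e s x * (φ x * D x)) s := by
    intro φ hφ hφp s hs
    have hm := fun t => ((hec t).mul hφ).aestronglyMeasurable (μ := (volume : Measure (E d)))
    have h := (hasDerivAt_integral_of_dominated_loc_of_deriv_le (μ := (volume : Measure (E d)))
      (F := fun t x => e t x * φ x) (F' := fun t x => -(e t x * (φ x * D x)))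
      (bound := fun x => (exp (-pot W₀ x) + exp (-pot W₁ x)) * ‖φ x * D x‖)
      (isOpen_Ioo.mem_nhds hs) (Eventually.of_forall hm)
      ((hbd φ hφ hφp).mono' (hm s) (ae_of_all _ (hnorm s (Ioo_subset_Icc_self hs) φ)))
      (((hec s).mul (hφ.mul hDc)).neg.aestronglyMeasurable)
      (ae_of_all _ fun x t ht => by
        rw [norm_neg]; exact hnorm t (Ioo_subset_Icc_self ht) (fun x => φ x * D x) x)
      (hbd _ (hφ.mul hDc) (hφp.mul hDp)) (ae_of_all _ fun x t _ => ?_)).2
    · simpa only [integral_neg] using h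
    · have h1 : HasDerivAt (fun t => -pot (mix W₀ W₁ t) x) (-D x) t := by
        have h2 : HasDerivAt (fun t : ℝ => -(‖x‖ ^ 2 / 2 + W₀ x) - t * D x) (-D x) t :=
          (((hasDerivAt_id t).mul_const (D x)).const_sub _).congr_deriv (by ring)
        refine h2.congr_of_eventuallyEq (Eventually.of_forall fun t => ?_)
        simp only [pot, mix, hD]; ring
      exact (h1.exp.mul_const (φ x)).congr_deriv (by simp only [he]; ring)
  set o : E d → ℝ := fun _ => 1
  have hoc : Continuous o := continuous_const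
  have hop : PolyBd o := PolyBd.const 1
  have hlaw : ∀ s ∈ Icc (0 : ℝ) 1, ∀ φ : E d → ℝ,
      ∫ x, φ x ∂law (mix W₀ W₁ s) = N φ s / N o s := fun s hs φ => by
    rw [(pert_mix h₀ h₁ hs).integral_law, div_eq_inv_mul]
    simp [hN, he, o]
  have hpos : ∀ s ∈ Icc (0 : ℝ) 1, 0 < N o s := fun s hs => by
    simpa [hN, he, o] using (pert_mix h₀ h₁ hs).partition_pos
  obtain ⟨c, hc, hslope⟩ := exists_hasDerivAt_eq_slope (fun s => N f s / N o s)
    (fun s => ((-∫ x, e s x * (f x * D x)) * N o s - N f s * (-∫ x, e s x * (o x * D x))) /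
      N o s ^ 2)
    (zero_lt_one (α := ℝ))
    ((hcont f hfc hfp).div (hcont o hoc hop) fun s hs => (hpos s hs).ne')
    (fun s hs => (hderiv f hfc hfp s hs).div (hderiv o hoc hop s hs)
      (hpos s (Ioo_subset_Icc_self hs)).ne')
  simp only [sub_zero, div_one] at hslope
  rw [← hlaw 1 (right_mem_Icc.2 zero_le_one), ← hlaw 0 (left_mem_Icc.2 zero_le_one), mix_zero,
    mix_one] at hslope
  have hcI := Ioo_subset_Icc_self hc
  have hV := pert_mix h₀ h₁ hcI
  have hb := hK c hcI
  have hi : Integrable (fun x => f x * D x) (law (mix W₀ W₁ c)) :=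
    hV.integrable_law (hfp.mul hDp) (hfc.mul hDc)
  set m := ∫ y, f y ∂law (mix W₀ W₁ c) with hm
  have e1 : ∫ x, (f x - m) * (W₁ x - W₀ x) ∂law (mix W₀ W₁ c) =
      ∫ x, f x ∂law W₀ - ∫ x, f x ∂law W₁ := by
    simp_rw [← show ∀ x, D x = W₁ x - W₀ x from fun x => rfl, sub_mul]
    rw [integral_sub hi ((hV.integrable_law hDp hDc).const_mul m), integral_const_mul, hm,
      hlaw c hcI, hlaw c hcI, hlaw c hcI, ← neg_sub (∫ x, f x ∂law W₁), ← hslope]
    have hne := (hpos c hcI).ne'
    simp only [hN, o, one_mul] at hne ⊢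
    field_simp
    ring
  rw [← e1]
  exact hb

theorem Pert.weak_base_le {η B L : ℝ} {W f : E d → ℝ} (hW : Pert η B W) (hL : 0 ≤ L)
    (hf : ∀ x y, |f x - f y| ≤ L * ‖x - y‖) :
    |∫ x, f x ∂law W - ∫ x, f x ∂stdGaussian (E d)| ≤ 65 * 257 * L * η * (1 + B) * √d := by
  have hB := hW.bound_nonneg
  have hη := hW.eta_nonneg
  have h0 : Pert η B (0 : E d → ℝ) := pert_zero hη hW.eta_le_one hB
  have hfL : WLip f L 0 := ⟨hL, le_rfl, fun x y => by simpa [mul_comm] using hf x y⟩
  have hWL := hW.wlip_self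
  rw [← law_zero]
  refine mean_interp hW h0 hfL.continuous hfL.polyBd fun s hs => ?_
  have hV := pert_mix hW h0 hs
  have := hV.isProbabilityMeasure_law
  set μ := law (mix W 0 s)
  set mf := ∫ y, f y ∂μ
  set mW := ∫ y, W y ∂μ
  have hpF := hfL.polyBd.sub (PolyBd.const mf)
  have hcF : Continuous fun x => f x - mf := hfL.continuous.sub continuous_const
  have hpG := hW.polyBd_self.sub (PolyBd.const mW)
  have hcG : Continuous fun x => W x - mW := hW.contDiff.continuous.sub continuous_const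
  have hiF : Integrable (fun x => f x - mf) μ := hV.integrable_law hpF hcF
  have e : ∫ x, (f x - mf) * ((0 : E d → ℝ) x - W x) ∂μ =
      -∫ x, (f x - mf) * (W x - mW) ∂μ := by
    have e1 : ∀ x, (f x - mf) * ((0 : E d → ℝ) x - W x) =
        -((f x - mf) * (W x - mW)) - mW * (f x - mf) := fun x => by
      simp only [Pi.zero_apply]; ring
    have i1 : Integrable (fun x => (f x - mf) * (W x - mW)) μ :=
      hV.integrable_law (hpF.mul hpG) (hcF.mul hcG)
    simp_rw [e1]
    rw [integral_sub (f := fun x => -((f x - mf) * (W x - mW))) i1.neg (hiF.const_mul mW),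
      integral_neg, integral_const_mul,
      integral_sub (hV.integrable_law hfL.polyBd hfL.continuous) (integrable_const _)]
    simp [mf, μ]
  rw [e, abs_neg]
  refine (abs_integral_mul_le_sqrt (hV.integrable_law (hpF.pow 2) (hcF.pow 2))
    (hV.integrable_law (hpG.pow 2) (hcG.pow 2))
    (hV.integrable_law (hpF.mul hpG) (hcF.mul hcG))).trans ?_
  have h1 := Real.sqrt_le_sqrt (hV.poincare_le hfL)
  have h2 := Real.sqrt_le_sqrt (hV.poincare_le hWL)
  simp only [mul_zero, zero_mul, add_zero] at h1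
  refine (mul_le_mul h1 h2 (Real.sqrt_nonneg _) (Real.sqrt_nonneg _)).trans ?_
  have hpos : 0 ≤ η * B * √d + 256 * η * ((1 + B) * √d) := by positivity
  rw [Real.sqrt_mul (by norm_num : (0 : ℝ) ≤ 65), Real.sqrt_sq hL,
    Real.sqrt_mul (by norm_num : (0 : ℝ) ≤ 65), Real.sqrt_sq hpos]
  have hs := Real.mul_self_sqrt (by norm_num : (0 : ℝ) ≤ 65)
  calc √65 * L * (√65 * (η * B * √d + 256 * η * ((1 + B) * √d)))
      = 65 * L * (η * B * √d + 256 * η * ((1 + B) * √d)) := by
        rw [mul_mul_mul_comm, hs]; ring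
    _ ≤ _ := by
        have : 0 ≤ L * η * √d := by positivity
        nlinarith

/-- Means of Lipschitz functions under `law W` and under the standard Gaussian. -/
theorem weak_base : ∃ C : ℝ, ∀ (d : ℕ) (η B L : ℝ) (W f : E d → ℝ), Pert η B W → 0 ≤ L →
    (∀ x y, |f x - f y| ≤ L * ‖x - y‖) →
    |∫ x, f x ∂law W - ∫ x, f x ∂stdGaussian (E d)| ≤ C * L * η * (1 + B) * √d :=
  ⟨65 * 257, fun _ _ _ _ _ _ hW hL hf => hW.weak_base_le hL hf⟩

/-- An affine reparametrisation of a perturbation plus a linear term. -/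
theorem Pert.affine {η B η' B' b : ℝ} {W : E d → ℝ} (hW : Pert η B W) (p w : E d)
    (h1 : b ^ 2 * η ≤ η') (h2 : η' ≤ 1) (hB' : 0 ≤ B')
    (h3 : ‖b • grad W p + w‖ ≤ η' * B' * √d) :
    Pert η' B' fun z => W (p + b • z) + ⟪w, z⟫ := by
  have hd : Differentiable ℝ W := hW.contDiff.differentiable (by norm_num)
  have hgd := hW.contDiff_grad.differentiable one_ne_zero
  have hA : ∀ z : E d, HasFDerivAt (fun z => p + b • z) (b • ContinuousLinearMap.id ℝ (E d)) z :=
    fun z => ((hasFDerivAt_id z).const_smul b).const_add p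
  have hg : grad (fun z => W (p + b • z) + ⟪w, z⟫) = fun z => b • grad W (p + b • z) + w := by
    funext z
    refine ext_inner_right ℝ fun v => ?_
    have h : HasFDerivAt (fun z => W (p + b • z) + ⟪w, z⟫)
        ((fderiv ℝ W (p + b • z)).comp (b • ContinuousLinearMap.id ℝ (E d)) + innerSL ℝ w) z :=
      ((hd _).hasFDerivAt.comp z (hA z)).add (innerSL ℝ w).hasFDerivAt
    rw [inner_grad, h.fderiv, inner_add_left, real_inner_smul_left, inner_grad]
    simp
  have hfd : ∀ z v, ⟪fderiv ℝ (grad fun z => W (p + b • z) + ⟪w, z⟫) z v, v⟫ =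
      b ^ 2 * ⟪fderiv ℝ (grad W) (p + b • z) v, v⟫ := fun z v => by
    have h : HasFDerivAt (fun z => b • grad W (p + b • z) + w)
        (b • (fderiv ℝ (grad W) (p + b • z)).comp (b • ContinuousLinearMap.id ℝ (E d))) z :=
      (((hgd _).hasFDerivAt.comp z (hA z)).const_smul b).add_const w
    rw [hg, h.fderiv]
    simp [real_inner_smul_left, smul_smul, pow_two]
  refine ⟨(mul_nonneg (sq_nonneg b) hW.eta_nonneg).trans h1, h2, hB', ?_, fun z v => ?_,
    fun z v => ?_, ?_⟩
  · have h1 : ContDiff ℝ 2 fun z : E d => p + b • z := contDiff_const.add (contDiff_id.const_smul _)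
    exact (hW.contDiff.comp h1).add (contDiff_const.inner ℝ contDiff_id)
  · rw [hfd]; exact mul_nonneg (sq_nonneg b) (hW.hess_nonneg _ v)
  · rw [hfd]
    refine (mul_le_mul_of_nonneg_left (hW.hess_le _ v) (sq_nonneg b)).trans ?_
    rw [← mul_assoc]
    exact mul_le_mul_of_nonneg_right h1 (sq_nonneg _)
  · rw [hg]; simpa using h3

/-- The bias of the one-shot estimate. -/
theorem post_bias : ∃ C : ℝ, ∀ (d : ℕ) (η B b : ℝ) (W : E d → ℝ) (u : E d), Pert η B W →
    0 < b → b ≤ 1 / 2 →
    ‖(∫ z, est b (grad W) u z ∂stdGaussian (E d)) -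
        cosB b • ∫ z, grad W (cosB b • u + b • z) ∂law (post b W u)‖ ≤
      C * η ^ 2 * b ^ 3 * (1 + B) * (√d + ‖u‖) := by
  refine ⟨65 * 257, fun d η B b W u hW hb hb1 => ?_⟩
  have hB := hW.bound_nonneg
  have hη := hW.eta_nonneg
  rcases Nat.eq_zero_or_pos d with rfl | hd
  · simp [EuclideanSpace.norm_eq]
  have hsd : 0 < √(d : ℝ) := Real.sqrt_pos.2 (by exact_mod_cast hd)
  set a := cosB b
  set m := a • u with hm
  set G := grad W m with hG
  set p := m - b ^ 2 • G with hp
  set V : E d → ℝ := fun z => W (p + b • z) + ⟪-(b • G), z⟫ with hVdef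
  set B' := ‖G‖ / √d with hB'
  have hB'0 : 0 ≤ B' := by positivity
  have hB's : B' * √d = ‖G‖ := div_mul_cancel₀ _ hsd.ne'
  have hb2 : b ^ 2 * η ≤ 1 :=
    mul_le_one₀ (pow_le_one₀ hb.le (by linarith)) hη hW.eta_le_one
  have hg0 : ‖b • grad W p + -(b • G)‖ ≤ b ^ 2 * η * B' * √d := by
    rw [← sub_eq_add_neg, ← smul_sub, norm_smul, Real.norm_eq_abs, abs_of_pos hb, mul_assoc,
      hB's]
    refine (mul_le_mul_of_nonneg_left (hW.grad_lipschitz p m) hb.le).trans ?_
    rw [hp, show m - b ^ 2 • G - m = -(b ^ 2 • G) by abel, norm_neg, norm_smul, Real.norm_eq_abs,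
      abs_of_nonneg (sq_nonneg b)]
    calc b * (η * (b ^ 2 * ‖G‖)) = b * (b ^ 2 * η * ‖G‖) := by ring
      _ ≤ 1 * (b ^ 2 * η * ‖G‖) := mul_le_mul_of_nonneg_right (by linarith) (by positivity)
      _ = _ := one_mul _
  have hV : Pert (b ^ 2 * η) B' V := hW.affine p (-(b • G)) le_rfl hb2 hB'0 hg0
  have hU : Pert 1 B' fun z => W (m + b • z) + ⟪(0 : E d), z⟫ :=
    hW.affine m 0 hb2 le_rfl hB'0 (by
      rw [add_zero, norm_smul, Real.norm_eq_abs, abs_of_pos hb, one_mul, hB's]
      exact mul_le_of_le_one_left (norm_nonneg _) (by linarith))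
  have hpost : (fun z => W (m + b • z) + ⟪(0 : E d), z⟫) = post b W u := by
    funext z; simp [post, m, a]
  rw [hpost] at hU
  have hshift : ∀ z, pot (post b W u) (z + -(b • G)) = pot V z + b ^ 2 * ‖G‖ ^ 2 / 2 := fun z => by
    have e : a • u + b • (z + -(b • G)) = p + b • z := by
      rw [hp, hm, pow_two, smul_add, smul_neg, smul_smul]; abel
    simp only [pot, post, hVdef]
    rw [e, norm_add_sq_real, norm_neg, norm_smul, mul_pow, Real.norm_eq_abs, sq_abs,
      inner_neg_left, inner_neg_right, real_inner_comm (b • G) z]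
    ring
  have hint : ∀ (φ : E d → E d),
      ∫ z, φ z ∂law (post b W u) = ∫ z, φ (z + -(b • G)) ∂law V := by
    intro φ
    set κ := exp (-(b ^ 2 * ‖G‖ ^ 2 / 2))
    have e : ∀ z, exp (-pot (post b W u) (z + -(b • G))) = exp (-pot V z) * κ := fun z => by
      rw [hshift, neg_add, exp_add]
    have e1 : ∫ z, exp (-pot (post b W u) z) = (∫ z, exp (-pot V z)) * κ := by
      rw [← integral_add_right_eq_self (fun z => exp (-pot (post b W u) z)) (-(b • G)),
        ← integral_mul_const]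
      simp_rw [e]
    have e2 : ∫ z, exp (-pot (post b W u) z) • φ z =
        κ • ∫ z, exp (-pot V z) • φ (z + -(b • G)) := by
      rw [← integral_add_right_eq_self (fun z => exp (-pot (post b W u) z) • φ z) (-(b • G)),
        ← integral_smul]
      simp_rw [e, smul_smul, mul_comm κ]
    rw [hU.integral_law, hV.integral_law, e1, e2, smul_smul, mul_inv, mul_assoc,
      inv_mul_cancel₀ (exp_pos _).ne', mul_one]
  set F : E d → E d := fun z => grad W (p + b • z) with hFdef
  have hFc : Continuous F := by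
    have := hW.contDiff_grad.continuous
    simp only [hFdef]; fun_prop
  have hFl : ∀ x y, ‖F x - F y‖ ≤ η * b * ‖x - y‖ := fun x y => by
    refine (hW.grad_lipschitz _ _).trans (le_of_eq ?_)
    rw [add_sub_add_left_eq_sub, ← smul_sub, norm_smul, Real.norm_eq_abs, abs_of_pos hb,
      mul_assoc]
  have hFp : PolyBd F := PolyBd.of_lipschitz (by positivity) hFl
  have e1 : ∫ z, est b (grad W) u z ∂stdGaussian (E d) = a • ∫ z, F z ∂stdGaussian (E d) := by
    rw [← integral_smul]
    congr 1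
  have e2 : ∫ z, grad W (a • u + b • z) ∂law (post b W u) = ∫ z, F z ∂law V := by
    rw [hint fun z => grad W (a • u + b • z)]
    congr 1
    funext z
    simp only [hFdef]
    congr 1
    rw [hp, hm, pow_two, smul_add, smul_neg, smul_smul]; abel
  rw [e1, e2, ← smul_sub, norm_smul, Real.norm_eq_abs, abs_of_nonneg (cosB_nonneg b)]
  refine (mul_le_of_le_one_left (norm_nonneg _) (cosB_le_one b)).trans ?_
  set v := (∫ z, F z ∂stdGaussian (E d)) - ∫ z, F z ∂law V
  have hi1 : Integrable F (stdGaussian (E d)) := hFp.integrable _ hFc.aestronglyMeasurable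
  have hi2 : Integrable F (law V) := hV.integrable_law hFp hFc
  have hv : ‖v‖ ^ 2 = (∫ z, ⟪v, F z⟫ ∂stdGaussian (E d)) - ∫ z, ⟪v, F z⟫ ∂law V := by
    rw [integral_inner hi1, integral_inner hi2, ← inner_sub_right, real_inner_self_eq_norm_sq]
  have hb' := hV.weak_base_le (f := fun z => ⟪v, F z⟫) (L := ‖v‖ * (η * b)) (by positivity)
    fun x y => by
      rw [← inner_sub_right, mul_assoc]
      exact (abs_real_inner_le_norm _ _).trans (mul_le_mul_of_nonneg_left (hFl x y) (norm_nonneg _))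
  rw [abs_sub_comm, ← hv, abs_of_nonneg (sq_nonneg ‖v‖)] at hb'
  have hG1 : ‖G‖ ≤ B * √d + ‖u‖ := by
    refine (hW.norm_grad_le m).trans ((mul_le_of_le_one_left (by positivity) hW.eta_le_one).trans ?_)
    refine add_le_add le_rfl ?_
    rw [hm, norm_smul, Real.norm_eq_abs, abs_of_nonneg (cosB_nonneg b)]
    exact mul_le_of_le_one_left (norm_nonneg _) (cosB_le_one b)
  have hsum : (1 + B') * √d ≤ (1 + B) * (√d + ‖u‖) := by
    rw [add_mul 1 B' (√d : ℝ), hB's, one_mul]
    nlinarith [mul_nonneg hB (norm_nonneg u)]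
  rcases eq_or_ne ‖v‖ 0 with h0 | h0
  · rw [h0]; positivity
  have h5 : ‖v‖ ≤ 65 * 257 * (η * b) * (b ^ 2 * η) * ((1 + B') * √d) := by
    refine le_of_mul_le_mul_left ?_ (lt_of_le_of_ne (norm_nonneg v) (Ne.symm h0))
    rw [← pow_two]
    exact hb'.trans (le_of_eq (by ring))
  refine h5.trans ((mul_le_mul_of_nonneg_left hsum (by positivity)).trans (le_of_eq ?_))
  ring

end Vale.Agent.P347
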