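import Vale.Agent.P347.Cell
import Vale.Agent.P347.PostBias

/-!
# P347: the one-shot estimate of the log-smoothed gradient is an admissible randomized drift
-/

open MeasureTheory ProbabilityTheory Real
open scoped RealInnerProductSpace

namespace Vale.Agent.P347

variable {d : ℕ}

theorem est_lsm : ∃ C : ℝ, 0 ≤ C ∧ ∀ (d : ℕ) (η B b : ℝ) (W U : E d → ℝ), Pert η B W → 0 < b →
    b ≤ 1 / 4 →
    (∀ u, grad U u = cosB b • ∫ z, grad W (cosB b • u + b • z) ∂law (post b W u)) →
    Est (grad U) (est b (grad W)) b (fun p => C * (1 + B) * b ^ 3 * (√d + ‖p‖)) := by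
  obtain ⟨C, hC⟩ := post_bias
  refine ⟨max C 0, le_max_right _ _, fun d η B b W U hW hb hb1 hU => ?_⟩
  set g := grad W
  set a := cosB b
  have ha0 : 0 ≤ a := cosB_nonneg b
  have ha1 : a ≤ 1 := cosB_le_one b
  have hb2 : a ^ 2 = 1 - b ^ 2 := cosB_sq (by rw [abs_of_pos hb]; linarith)
  have hη := hW.eta_nonneg
  have hlip : ∀ x y, ‖g x - g y‖ ≤ ‖x - y‖ := fun x y =>
    (hW.grad_lipschitz x y).trans (mul_le_of_le_one_left (norm_nonneg _) hW.eta_le_one)
  refine ⟨hb.le, fun z => ⟨fun p q => ?_, fun p q => ?_⟩, fun p z z' => ?_, ?_, fun p => ?_⟩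
  · simp only [add_sub_cancel_left, est]
    rw [← smul_sub, norm_smul, Real.norm_eq_abs, abs_of_nonneg ha0]
    refine (mul_le_mul_of_nonneg_left (hlip _ _) ha0).trans ?_
    rw [show a • p - b ^ 2 • g (a • p) + b • z - (a • q - b ^ 2 • g (a • q) + b • z) =
      a • (p - q) - b ^ 2 • (g (a • p) - g (a • q)) by rw [smul_sub, smul_sub]; abel]
    have h1 : ‖a • p - a • q‖ = a * ‖p - q‖ := by
      rw [← smul_sub, norm_smul, Real.norm_eq_abs, abs_of_nonneg ha0]
    have h2 := hlip (a • p) (a • q)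
    refine (mul_le_mul_of_nonneg_left (norm_sub_le _ _) ha0).trans ?_
    rw [norm_smul, norm_smul, Real.norm_eq_abs, Real.norm_eq_abs, abs_of_nonneg ha0,
      abs_of_nonneg (sq_nonneg b)]
    calc a * (a * ‖p - q‖ + b ^ 2 * ‖g (a • p) - g (a • q)‖)
        ≤ a * (a * ‖p - q‖ + b ^ 2 * (a * ‖p - q‖)) :=
          mul_le_mul_of_nonneg_left (add_le_add le_rfl
            (mul_le_mul_of_nonneg_left (h2.trans_eq h1) (sq_nonneg b))) ha0
      _ = (1 - b ^ 4) * ‖p - q‖ := by
          calc _ = a ^ 2 * (1 + b ^ 2) * ‖p - q‖ := by ring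
            _ = _ := by rw [hb2]; ring
      _ ≤ ‖p - q‖ := mul_le_of_le_one_left (norm_nonneg _) (sub_le_self _ (by positivity))
  · simp only [add_sub_cancel_left, est]
    rw [← smul_sub, real_inner_smul_left]
    set G := g (a • p) - g (a • q)
    set w₁ := a • p - b ^ 2 • g (a • p) + b • z
    set w₂ := a • q - b ^ 2 • g (a • q) + b • z
    have hw : w₁ - w₂ = a • (p - q) - b ^ 2 • G := by
      simp only [w₁, w₂, G, smul_sub]; abel
    have h1 := hW.grad_mono w₁ w₂
    rw [hw, inner_sub_right, real_inner_smul_right, real_inner_smul_right] at h1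
    have hG : ‖G‖ ≤ a * ‖p - q‖ := (hlip _ _).trans_eq (by
      rw [← smul_sub, norm_smul, Real.norm_eq_abs, abs_of_nonneg ha0])
    have hD : ‖g w₁ - g w₂‖ ≤ 2 * ‖p - q‖ := by
      refine (hlip _ _).trans ?_
      rw [hw]
      refine (norm_sub_le _ _).trans ?_
      rw [norm_smul, norm_smul, Real.norm_eq_abs, Real.norm_eq_abs, abs_of_nonneg ha0,
        abs_of_nonneg (sq_nonneg b)]
      calc a * ‖p - q‖ + b ^ 2 * ‖G‖ ≤ 1 * ‖p - q‖ + 1 * (a * ‖p - q‖) :=
            add_le_add (mul_le_mul_of_nonneg_right ha1 (norm_nonneg _))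
              (mul_le_mul (pow_le_one₀ hb.le (by linarith)) hG (norm_nonneg _) zero_le_one)
        _ ≤ 2 * ‖p - q‖ := by nlinarith [norm_nonneg (p - q)]
    have h2 := neg_le_of_abs_le (abs_real_inner_le_norm (g w₁ - g w₂) G)
    have h3 : ‖g w₁ - g w₂‖ * ‖G‖ ≤ 2 * ‖p - q‖ ^ 2 := by
      refine (mul_le_mul hD hG (norm_nonneg _) (by positivity)).trans ?_
      nlinarith [sq_nonneg ‖p - q‖]
    have h4 : b ^ 2 ≤ 1 / 16 := by nlinarith
    nlinarith [mul_le_mul_of_nonneg_left h2 (sq_nonneg b),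
      mul_le_mul_of_nonneg_left h3 (sq_nonneg b), mul_le_mul_of_nonneg_right h4 (sq_nonneg ‖p - q‖)]
  · simp only [est]
    rw [← smul_sub, norm_smul, Real.norm_eq_abs, abs_of_nonneg ha0]
    refine (mul_le_of_le_one_left (norm_nonneg _) ha1).trans ((hlip _ _).trans (le_of_eq ?_))
    rw [add_sub_add_left_eq_sub, ← smul_sub, norm_smul, Real.norm_eq_abs, abs_of_pos hb]
  · have := hW.contDiff_grad
    unfold est
    fun_prop
  · rw [hU]
    have hB := hW.bound_nonneg
    calc _ ≤ C * η ^ 2 * b ^ 3 * (1 + B) * (√d + ‖p‖) := hC d η B b W p hW hb (by linarith)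
      _ ≤ max C 0 * 1 * b ^ 3 * (1 + B) * (√d + ‖p‖) := by
          refine mul_le_mul_of_nonneg_right (mul_le_mul_of_nonneg_right
            (mul_le_mul_of_nonneg_right ?_ (by positivity)) (by positivity)) (by positivity)
          exact mul_le_mul (le_max_left _ _) (pow_le_one₀ hη hW.eta_le_one) (sq_nonneg η)
            (le_max_right _ _)
      _ = _ := by ring

end Vale.Agent.P347
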