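import Vale.Agent.P347.Coupling
import Vale.Agent.P347.Noise

/-!
# P347: the sharp Gaussian Poincaré inequality, and independent blocks

`Var h ≤ E ‖Dh‖²` under the standard Gaussian of a Euclidean space, by rotation and one integration
by parts in the second variable.
-/

open MeasureTheory ProbabilityTheory Real Set
open scoped RealInnerProductSpace

namespace Vale.Agent.P347

section
variable {V : Type*} [NormedAddCommGroup V] [InnerProductSpace ℝ V] [FiniteDimensional ℝ V]
  [MeasurableSpace V] [BorelSpace V]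

/-- derivative of the covariance along a rotation -/
theorem rot_cov_deriv_le {h : V → ℝ} (hc : ContDiff ℝ 1 h) (hp : PolyBd h)
    (hp' : PolyBd fun x => fderiv ℝ h x) (θ : ℝ) (hθ : 0 ≤ sin θ) :
    -(sin θ * ∫ x, ‖fderiv ℝ h x‖ ^ 2 ∂stdGaussian V) ≤
      ∫ p, h p.1 * fderiv ℝ h (cos θ • p.1 + sin θ • p.2) (-sin θ • p.1 + cos θ • p.2)
        ∂(stdGaussian V).prod (stdGaussian V) := by
  set γ := stdGaussian V
  set c := cos θ
  set s := sin θ
  have hcs : c ^ 2 + s ^ 2 = 1 := cos_sq_add_sin_sq θ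
  have hD : Continuous fun x => fderiv ℝ h x := hc.continuous_fderiv one_ne_zero
  -- pull back by the inverse rotation
  have hg : Continuous fun p : V × V =>
      h p.1 * fderiv ℝ h (c • p.1 + s • p.2) (-s • p.1 + c • p.2) :=
    (hc.continuous.comp continuous_fst).mul ((hD.comp (by fun_prop)).clm_apply (by fun_prop))
  have e0 : ∫ p, h p.1 * fderiv ℝ h (c • p.1 + s • p.2) (-s • p.1 + c • p.2) ∂γ.prod γ =
      ∫ p, h (c • p.1 - s • p.2) * fderiv ℝ h p.1 p.2 ∂γ.prod γ := by
    rw [← integral_rot (-θ) hg]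
    refine integral_congr_ae (ae_of_all _ fun p => ?_)
    simp only [cos_neg, sin_neg, neg_neg]
    have e1 : c • (c • p.1 + -s • p.2) + s • (s • p.1 + c • p.2) = p.1 := by
      match_scalars <;> linarith
    have e2 : -s • (c • p.1 + -s • p.2) + c • (s • p.1 + c • p.2) = p.2 := by
      match_scalars <;> linarith
    show h (c • p.1 + -s • p.2) * fderiv ℝ h (c • (c • p.1 + -s • p.2) + s • (s • p.1 + c • p.2))
      (-s • (c • p.1 + -s • p.2) + c • (s • p.1 + c • p.2)) = _
    rw [e1, e2, neg_smul, ← sub_eq_add_neg]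
  rw [e0]
  set grd : V → V := fun y => (InnerProductSpace.toDual ℝ V).symm (fderiv ℝ h y) with hgrd
  have hgr : ∀ y v, fderiv ℝ h y v = ⟪v, grd y⟫ := fun y v => by
    rw [real_inner_comm]; exact (InnerProductSpace.toDual_symm_apply).symm
  have hgn : ∀ y, ‖grd y‖ = ‖fderiv ℝ h y‖ := fun y => by simp [hgrd]
  have hgc : Continuous grd := (InnerProductSpace.toDual ℝ V).symm.continuous.comp hD
  have hsub : PolyBd fun p : V × V => c • p.1 - s • p.2 :=
    ((PolyBd.const c).smul (PolyBd.id.of_le fun p => norm_fst_le p)).sub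
      ((PolyBd.const s).smul (PolyBd.id.of_le fun p => norm_snd_le p))
  have hb1 : PolyBd fun p : V × V => fderiv ℝ h p.1 :=
    hp'.comp (PolyBd.id.of_le fun p => norm_fst_le p)
  have hb2 : PolyBd fun p : V × V => fderiv ℝ h p.1 p.2 :=
    hb1.mul_of_le (PolyBd.id.of_le fun p => norm_snd_le p) fun p => (fderiv ℝ h p.1).le_opNorm p.2
  have i1 : Integrable (fun p : V × V => h (c • p.1 - s • p.2) * fderiv ℝ h p.1 p.2) (γ.prod γ) :=
    ((hp.comp hsub).mul hb2).integrable _
      ((hc.continuous.comp (by fun_prop)).mul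
        ((hD.comp continuous_fst).clm_apply continuous_snd)).aestronglyMeasurable
  have i2 : Integrable (fun p : V × V => fderiv ℝ h (c • p.1 - s • p.2) (grd p.1)) (γ.prod γ) :=
    ((hp'.comp hsub).mul_of_le (hb1.of_le fun p => (hgn p.1).le)
        fun p => (fderiv ℝ h _).le_opNorm (grd p.1)).integrable _
      ((hD.comp (by fun_prop)).clm_apply (hgc.comp continuous_fst)).aestronglyMeasurable
  -- integrate by parts in the second variable
  have key : ∀ y, ∫ z, h (c • y - s • z) * fderiv ℝ h y z ∂γ =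
      ∫ z, -(s * fderiv ℝ h (c • y - s • z) (grd y)) ∂γ := by
    intro y
    have hd : ∀ z, HasFDerivAt (fun z => h (c • y - s • z))
        ((fderiv ℝ h (c • y - s • z)).comp (-(s • ContinuousLinearMap.id ℝ V))) z := fun z =>
      ((hc.differentiable one_ne_zero) _).hasFDerivAt.comp z
        (((hasFDerivAt_id z).const_smul s).const_sub (c • y))
    have hpy : PolyBd fun z : V => c • y - s • z :=
      (PolyBd.const (c • y)).sub ((PolyBd.const s).smul PolyBd.id)
    have h1 := gauss_ibp (φ := fun z => h (c • y - s • z)) (hc.comp (by fun_prop))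
      (hp.comp hpy) ((hp'.comp hpy).mul_of_le (PolyBd.const (-(s • ContinuousLinearMap.id ℝ V)))
        fun z => by rw [(hd z).fderiv]; exact ContinuousLinearMap.opNorm_comp_le _ _) (grd y)
    simp only [hgr y, mul_comm (h _)]
    refine h1.symm.trans (integral_congr_ae (ae_of_all _ fun z => ?_))
    simp [(hd z).fderiv]
  rw [integral_prod _ i1]
  simp only [key]
  have i3 : Integrable (fun p : V × V => -(s * fderiv ℝ h (c • p.1 - s • p.2) (grd p.1)))
      (γ.prod γ) := (i2.const_mul s).neg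
  rw [← integral_prod _ i3, integral_neg, integral_const_mul]
  refine neg_le_neg (mul_le_mul_of_nonneg_left ?_ hθ)
  -- Cauchy-Schwarz and invariance
  set N : V → ℝ := fun x => ‖fderiv ℝ h x‖ ^ 2
  have hNc : Continuous N := hD.norm.pow 2
  have hNp : PolyBd N := hp'.norm.pow 2
  have hrot : Continuous fun p : V × V => N p.1 := hNc.comp continuous_fst
  have j1 : Integrable (fun p : V × V => N p.1) (γ.prod γ) :=
    (hNp.integrable _ hNc.aestronglyMeasurable).comp_fst γ
  have j2 : Integrable (fun p : V × V => N (c • p.1 - s • p.2)) (γ.prod γ) :=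
    (hNp.comp hsub).integrable _ (hNc.comp (by fun_prop)).aestronglyMeasurable
  have e1 : ∫ p, N p.1 ∂γ.prod γ = ∫ x, N x ∂γ := by simp [integral_fun_fst]
  have e2 : ∫ p, N (c • p.1 - s • p.2) ∂γ.prod γ = ∫ x, N x ∂γ := by
    rw [← e1, ← integral_rot (-θ) hrot]
    refine integral_congr_ae (ae_of_all _ fun p => ?_)
    simp [c, s, sub_eq_add_neg]
  refine (integral_mono i2 ((j1.add j2).div_const 2) fun p => ?_).trans ?_
  · refine (le_abs_self _).trans (((fderiv ℝ h _).le_opNorm _).trans ?_)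
    rw [hgn]
    simp only [Pi.add_apply, N]
    nlinarith [sq_nonneg (‖fderiv ℝ h (c • p.1 - s • p.2)‖ - ‖fderiv ℝ h p.1‖)]
  · simp only [Pi.add_apply]
    rw [integral_div, integral_add j1 j2, e1, e2]
    linarith

/-- The Gaussian Poincaré inequality with constant one. -/
theorem gauss_poincare {h : V → ℝ} (hc : ContDiff ℝ 1 h) (hp : PolyBd h)
    (hp' : PolyBd fun x => fderiv ℝ h x) :
    ∫ x, h x ^ 2 ∂stdGaussian V - (∫ x, h x ∂stdGaussian V) ^ 2 ≤
      ∫ x, ‖fderiv ℝ h x‖ ^ 2 ∂stdGaussian V := by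
  set γ := stdGaussian V
  set M := ∫ x, ‖fderiv ℝ h x‖ ^ 2 ∂γ with hM
  have hD : Continuous fun x => fderiv ℝ h x := hc.continuous_fderiv one_ne_zero
  set C : ℝ → ℝ := fun θ => ∫ p, h p.1 * h (cos θ • p.1 + sin θ • p.2) ∂γ.prod γ with hC
  set F' : ℝ → V × V → ℝ := fun θ p =>
    h p.1 * fderiv ℝ h (cos θ • p.1 + sin θ • p.2) (-sin θ • p.1 + cos θ • p.2)
  have hn : ∀ (a b : ℝ), |a| ≤ 1 → |b| ≤ 1 → ∀ p : V × V, ‖a • p.1 + b • p.2‖ ≤ 2 * ‖p‖ := by
    intro a b ha hb p
    refine (norm_add_le _ _).trans ?_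
    rw [norm_smul, norm_smul, Real.norm_eq_abs, Real.norm_eq_abs]
    nlinarith [mul_le_mul ha (norm_fst_le p) (norm_nonneg _) zero_le_one,
      mul_le_mul hb (norm_snd_le p) (norm_nonneg _) zero_le_one]
  have hrotp : ∀ θ, PolyBd fun p : V × V => cos θ • p.1 + sin θ • p.2 := fun θ =>
    ((PolyBd.const (2 : ℝ)).mul PolyBd.id.norm).of_le fun p => by
      rw [Real.norm_eq_abs, abs_of_nonneg (by positivity)]
      exact hn _ _ (abs_cos_le_one θ) (abs_sin_le_one θ) p
  obtain ⟨Ch, kh, hCh, hbh⟩ := hp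
  obtain ⟨Cd, kd, hCd, hbd⟩ := hp'
  set bd : V × V → ℝ := fun p =>
    Ch * (1 + ‖p‖) ^ kh * (Cd * (1 + 2 * ‖p‖) ^ kd) * (2 * ‖p‖)
  have hbdi : Integrable bd (γ.prod γ) := by
    refine ((((PolyBd.const Ch).mul (((PolyBd.const 1).add PolyBd.id.norm).pow kh)).mul
      ((PolyBd.const Cd).mul (((PolyBd.const 1).add ((PolyBd.const 2).mul PolyBd.id.norm)).pow kd))).mul
        ((PolyBd.const 2).mul PolyBd.id.norm)).integrable _ (Continuous.aestronglyMeasurable ?_)
    fun_prop
  have hpb : PolyBd h := ⟨Ch, kh, hCh, hbh⟩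
  have hFp : ∀ θ, PolyBd fun p : V × V => h p.1 * h (cos θ • p.1 + sin θ • p.2) := fun θ =>
    (hpb.comp (PolyBd.id.of_le fun p => norm_fst_le p)).mul (hpb.comp (hrotp θ))
  have hFc : ∀ θ, Continuous fun p : V × V => h p.1 * h (cos θ • p.1 + sin θ • p.2) := fun θ =>
    (hc.continuous.comp continuous_fst).mul (hc.continuous.comp (by fun_prop))
  have hderiv : ∀ θ, HasDerivAt C (∫ p, F' θ p ∂γ.prod γ) θ := by
    intro θ
    refine (hasDerivAt_integral_of_dominated_loc_of_deriv_le (μ := γ.prod γ)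
      (F := fun θ p => h p.1 * h (cos θ • p.1 + sin θ • p.2)) (F' := F') (bound := bd)
      (Filter.univ_mem (f := nhds θ))
      (Filter.Eventually.of_forall fun t => (hFc t).aestronglyMeasurable)
      ((hFp θ).integrable _ (hFc θ).aestronglyMeasurable)
      ((hc.continuous.comp continuous_fst).mul
        ((hD.comp (by fun_prop)).clm_apply (by fun_prop))).aestronglyMeasurable
      (ae_of_all _ fun p t _ => ?_) hbdi (ae_of_all _ fun p t _ => ?_)).2
    · have h1 := hn _ _ (abs_cos_le_one t) (abs_sin_le_one t) p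
      have h2 := hn (-sin t) (cos t) (by rw [abs_neg]; exact abs_sin_le_one t) (abs_cos_le_one t) p
      have h3 : ‖h p.1‖ ≤ Ch * (1 + ‖p‖) ^ kh := (hbh p.1).trans (mul_le_mul_of_nonneg_left
        (pow_le_pow_left₀ (by positivity) (add_le_add le_rfl (norm_fst_le p)) kh) hCh)
      have h4 : ‖fderiv ℝ h (cos t • p.1 + sin t • p.2)‖ ≤ Cd * (1 + 2 * ‖p‖) ^ kd :=
        (hbd _).trans (mul_le_mul_of_nonneg_left
          (pow_le_pow_left₀ (by positivity) (add_le_add le_rfl h1) kd) hCd)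
      simp only [F', norm_mul, bd]
      rw [mul_assoc (Ch * (1 + ‖p‖) ^ kh)]
      exact mul_le_mul h3 (((fderiv ℝ h _).le_opNorm _).trans
        (mul_le_mul h4 h2 (norm_nonneg _) ((norm_nonneg _).trans h4)))
          (norm_nonneg _) ((norm_nonneg _).trans h3)
    · exact ((hc.differentiable one_ne_zero _).hasFDerivAt.comp_hasDerivAt t
        (((hasDerivAt_cos t).smul_const p.1).add ((hasDerivAt_sin t).smul_const p.2))).const_mul _
  set G : ℝ → ℝ := fun θ => C θ + (1 - cos θ) * M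
  have hG : ∀ θ, HasDerivAt G ((∫ p, F' θ p ∂γ.prod γ) + sin θ * M) θ := fun θ =>
    ((hderiv θ).add (((hasDerivAt_cos θ).const_sub 1).mul_const M)).congr_deriv (by ring)
  have hmono : MonotoneOn G (Icc 0 (π / 2)) := by
    refine monotoneOn_of_hasDerivWithinAt_nonneg (convex_Icc _ _)
      (fun t _ => (hG t).continuousAt.continuousWithinAt) (fun t _ => (hG t).hasDerivWithinAt)
      fun t ht => ?_
    rw [interior_Icc] at ht
    have hs : 0 ≤ sin t := sin_nonneg_of_nonneg_of_le_pi ht.1.le (by linarith [ht.2, pi_pos])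
    linarith [rot_cov_deriv_le hc hpb ⟨Cd, kd, hCd, hbd⟩ t hs]
  have h0 := hmono (left_mem_Icc.2 (by positivity)) (right_mem_Icc.2 (by positivity))
    (by positivity : (0 : ℝ) ≤ π / 2)
  have eC0 : C 0 = ∫ x, h x ^ 2 ∂γ := by
    have : (fun p : V × V => h p.1 * h (cos (0 : ℝ) • p.1 + sin (0 : ℝ) • p.2)) =
        fun p => h p.1 ^ 2 := by funext p; simp [pow_two]
    show ∫ p, h p.1 * h (cos (0 : ℝ) • p.1 + sin (0 : ℝ) • p.2) ∂γ.prod γ = _
    rw [this, integral_fun_fst (f := fun x => h x ^ 2)]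
    simp
  have eC1 : C (π / 2) = (∫ x, h x ∂γ) ^ 2 := by
    have : (fun p : V × V => h p.1 * h (cos (π / 2) • p.1 + sin (π / 2) • p.2)) =
        fun p => h p.1 * h p.2 := by funext p; simp
    show ∫ p, h p.1 * h (cos (π / 2) • p.1 + sin (π / 2) • p.2) ∂γ.prod γ = _
    rw [this, integral_prod_mul, sq]
  simp only [G, eC0, eC1, cos_zero, cos_pi_div_two, sub_self, zero_mul, sub_zero, one_mul,
    add_zero] at h0
  linarith

end

variable {d n : ℕ}

/-- Independent velocities are a standard Gaussian on the product space. -/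
theorem map_toLp_velLaw :
    (velLaw d n).map (WithLp.toLp 2) = stdGaussian (Noise d (Fin n)) := by
  refine Measure.ext_of_charFun (funext fun t => ?_)
  rw [velLaw, charFun_pi, charFun_stdGaussian]
  simp only [charFun_stdGaussian, ← Complex.exp_sum]
  congr 1
  have h : ‖t‖ ^ 2 = ∑ i, ‖t i‖ ^ 2 := PiLp.norm_sq_eq_of_L2 (fun _ : Fin n => E d) t
  have h' : ((‖t‖ : ℂ)) ^ 2 = ∑ i, (‖t i‖ : ℂ) ^ 2 := by exact_mod_cast h
  rw [h', ← Finset.sum_neg_distrib, Finset.sum_div]

end Vale.Agent.P347
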