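import Vale.Agent.P347.Scheme
import Vale.Agent.P347.Flow
import Vale.Agent.P347.Gauss

/-!
# P347: the scheme on a grid of `N` cells, and its consistency with the Hamiltonian flow

Inside a cell the force is interpolated at `m + 1` nodes; the last row uses a positive rule.
-/

open MeasureTheory ProbabilityTheory Real Set Filter
open scoped RealInnerProductSpace Topology

namespace Vale.Agent.P347

variable {d m N : ℕ}

/-- An interpolation rule and a positive quadrature rule of order `m + 1`. -/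
structure Rules (m : ℕ) where
  /-- interpolation nodes -/
  τ : Fin (m + 1) → ℝ
  /-- Lagrange functions -/
  ℓ : Fin (m + 1) → ℝ → ℝ
  /-- the constant -/
  Λ : ℝ
  /-- number of quadrature nodes -/
  n : ℕ
  /-- quadrature nodes -/
  s : Fin n → ℝ
  /-- quadrature weights -/
  w : Fin n → ℝ
  Λ_nonneg : 0 ≤ Λ
  τ_mem : ∀ i, τ i ∈ Icc (0 : ℝ) 1
  ℓ_cont : ∀ i, Continuous (ℓ i)
  ℓ_le : ∀ i, ∀ t ∈ Icc (0 : ℝ) 1, |ℓ i t| ≤ Λ
  interp : ∀ (d : ℕ) (f : ℕ → ℝ → E d) (a h : ℝ), 0 < h →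
    (∀ k ≤ m, ∀ t ∈ Icc a (a + h), HasDerivWithinAt (f k) (f (k + 1) t) (Icc a (a + h)) t) →
    ContinuousOn (f (m + 1)) (Icc a (a + h)) → ∀ t ∈ Icc a (a + h),
      ‖f 0 t - ∑ i, ℓ i ((t - a) / h) • f 0 (a + h * τ i)‖ ≤
        Λ * h ^ m * ∫ s in a..(a + h), ‖f (m + 1) s‖
  s_mem : ∀ i, s i ∈ Icc (0 : ℝ) 1
  w_nonneg : ∀ i, 0 ≤ w i
  w_sum : ∑ i, w i = 1
  w_mean : ∑ i, w i * s i = 1 / 2
  pos : ∀ (d : ℕ) (f : ℕ → ℝ → E d) (a h T : ℝ), 0 ≤ a → 0 < h → a + h ≤ T →
    (∀ k ≤ m, ∀ t ∈ Icc a (a + h), HasDerivWithinAt (f k) (f (k + 1) t) (Icc a (a + h)) t) →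
    ContinuousOn (f (m + 1)) (Icc a (a + h)) →
    ‖(∫ t in a..(a + h), (T - t) • f 0 t) -
      ∑ i, (h * w i * (T - (a + h * s i))) • f 0 (a + h * s i)‖ ≤
        Λ * T * h ^ (m + 1) * ∫ t in a..(a + h), ‖f (m + 1) t‖

theorem norm_integral_max_smul_le {f : ℝ → E d} {t T : ℝ} (ht : t ∈ Icc 0 T)
    (hf : ContinuousOn f (Icc 0 T)) :
    ‖∫ x in (0:ℝ)..T, max (t - x) 0 • f x‖ ≤ T * ∫ x in (0:ℝ)..T, ‖f x‖ := by
  have hT : 0 ≤ T := ht.1.trans ht.2
  refine (intervalIntegral.norm_integral_le_of_norm_le hT (ae_of_all _ fun x hx => ?_)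
    ((hf.norm.intervalIntegrable_of_Icc hT).const_mul T)).trans
      (intervalIntegral.integral_const_mul _ _).le
  rw [norm_smul, Real.norm_eq_abs, abs_of_nonneg (le_max_right _ _)]
  exact mul_le_mul_of_nonneg_right (max_le (by linarith [hx.1, ht.2]) hT) (norm_nonneg _)

namespace Rules

variable (r : Rules m)

/-- Left end of the cell of an index, plus the relative position of a node. -/
def node {k : ℕ} (p : Fin k → ℝ) (h : ℝ) (j : Fin (N * k)) : ℝ :=
  ((finProdFinEquiv.symm j).1 : ℕ) * h + h * p (finProdFinEquiv.symm j).2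

/-- The coefficient of node `i` of cell `b` in the position at time `t`. -/
noncomputable def coef (h t : ℝ) (b : ℕ) (i : Fin (m + 1)) : ℝ :=
  ∫ x in ((b : ℝ) * h)..((b : ℝ) * h + h), max (t - x) 0 * r.ℓ i ((x - b * h) / h)

/-- The scheme with `N` cells on `[0, T]`. -/
noncomputable def scheme (T : ℝ) (N : ℕ) : Scheme where
  J := N * (m + 1)
  I := N * r.n
  T := T
  t := node r.τ (T / N)
  A j l := r.coef (T / N) (node r.τ (T / N) j) (finProdFinEquiv.symm l).1
    (finProdFinEquiv.symm l).2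
  s := node r.s (T / N)
  Af i l := r.coef (T / N) (node r.s (T / N) i) (finProdFinEquiv.symm l).1
    (finProdFinEquiv.symm l).2
  w i := T / N * r.w (finProdFinEquiv.symm i).2 * (T - node r.s (T / N) i)

/-- The step length. -/
noncomputable def T₀ : ℝ := 1 / (8 * (r.Λ + 1) * (m + 1))

/-- The constant in `κ = kap * √h`. -/
noncomputable def kap : ℝ := (m + 1) * (r.Λ + 1) + r.n + 1

theorem T₀_pos : 0 < r.T₀ := by have := r.Λ_nonneg; unfold T₀; positivity

theorem T₀_le : r.T₀ ≤ 1 / 8 := by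
  have := r.Λ_nonneg
  have hm : (0 : ℝ) ≤ m := m.cast_nonneg
  unfold T₀
  exact one_div_le_one_div_of_le (by norm_num) (by nlinarith)

theorem kap_pos : 0 < r.kap := by have := r.Λ_nonneg; unfold kap; positivity

theorem cell_le {T : ℝ} (hT : 0 ≤ T) {b : ℕ} (hb : b < N) :
    (b : ℝ) * (T / N) + T / N ≤ T := by
  have hN : (0 : ℝ) < N := by exact_mod_cast lt_of_le_of_lt (Nat.zero_le b) hb
  calc (b : ℝ) * (T / N) + T / N = ((b : ℝ) + 1) * (T / N) := by ring
    _ ≤ (N : ℝ) * (T / N) :=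
        mul_le_mul_of_nonneg_right (by exact_mod_cast hb) (div_nonneg hT hN.le)
    _ = T := mul_div_cancel₀ _ hN.ne'

theorem node_mem {k : ℕ} {p : Fin k → ℝ} (hp : ∀ i, p i ∈ Icc (0 : ℝ) 1) {T : ℝ} (hT : 0 ≤ T)
    (j : Fin (N * k)) : node p (T / N) j ∈ Icc 0 T := by
  set b := (finProdFinEquiv.symm j).1
  set i := (finProdFinEquiv.symm j).2
  have hh : 0 ≤ T / N := by positivity
  have := cell_le hT b.isLt
  exact ⟨by have := (hp i).1; simp only [node]; positivity,
    by simp only [node]; nlinarith [(hp i).2]⟩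

theorem abs_coef_le {T t : ℝ} (hT : 0 ≤ T) (ht : t ≤ T) {b : ℕ} (i : Fin (m + 1)) :
    |r.coef (T / N) t b i| ≤ T / N * T * r.Λ := by
  have hh : 0 ≤ T / N := by positivity
  set h := T / N
  rcases hh.eq_or_lt with h0 | h0
  · rw [coef, ← h0]; simp
  rw [coef, ← Real.norm_eq_abs]
  refine (intervalIntegral.norm_integral_le_of_norm_le_const (C := T * r.Λ) fun x hx => ?_).trans ?_
  · rw [uIoc_of_le (by linarith)] at hx
    rw [norm_mul, Real.norm_eq_abs, Real.norm_eq_abs, abs_of_nonneg (le_max_right _ _)]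
    refine mul_le_mul (max_le ?_ hT) (r.ℓ_le i _ ⟨?_, ?_⟩) (abs_nonneg _) hT
    · have : (0 : ℝ) ≤ b * h := by positivity
      linarith [hx.1]
    · exact div_nonneg (by linarith [hx.1]) hh
    · rw [div_le_one h0]; linarith [hx.2]
  · rw [add_sub_cancel_left, abs_of_nonneg hh]; exact le_of_eq (by ring)

theorem sum_node_weight {T : ℝ} (hN : N ≠ 0) :
    ∑ i, T / N * r.w (finProdFinEquiv.symm i).2 * (T - node r.s (T / N) (i : Fin (N * r.n))) =
      T ^ 2 / 2 := by
  have hN' : (N : ℝ) ≠ 0 := Nat.cast_ne_zero.2 hN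
  set h := T / N
  have hN2 : (N : ℝ) * h = T := mul_div_cancel₀ _ hN'
  rw [← finProdFinEquiv.sum_comp, Fintype.sum_prod_type]
  simp only [node, Equiv.symm_apply_apply]
  have e : ∀ b : Fin N, ∑ i, h * r.w i * (T - ((b : ℕ) * h + h * r.s i)) =
      h * (T - (b : ℕ) * h - h / 2) := fun b => by
    calc ∑ i, h * r.w i * (T - ((b : ℕ) * h + h * r.s i))
        = h * (T - (b : ℕ) * h) * ∑ i, r.w i - h * h * ∑ i, r.w i * r.s i := by
          rw [Finset.mul_sum, Finset.mul_sum, ← Finset.sum_sub_distrib]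
          exact Finset.sum_congr rfl fun i _ => by ring
      _ = _ := by rw [r.w_sum, r.w_mean]; ring
  rw [Finset.sum_congr rfl fun b _ => e b, Fin.sum_univ_eq_sum_range (fun b : ℕ => h * (T - b * h - h / 2))]
  have hg : ∀ n : ℕ, ∑ b ∈ Finset.range n, h * (T - b * h - h / 2) =
      n * h * T - (n * h) ^ 2 / 2 := by
    intro n
    induction n with
    | zero => simp
    | succ n ih => rw [Finset.sum_range_succ, ih]; push_cast; ring
  rw [hg, hN2]
  ring

theorem scheme_good (hN : N ≠ 0) :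
    (r.scheme r.T₀ N).Good (r.T₀ ^ 2 / 2) (r.kap * √(r.T₀ / N)) := by
  set T := r.T₀ with hTdef
  have hT := r.T₀_pos
  have hT8 := r.T₀_le
  have hN' : (0 : ℝ) < N := Nat.cast_pos.2 (Nat.pos_of_ne_zero hN)
  set h := T / N
  have hh : 0 < h := by positivity
  have hNh : (N : ℝ) * h = T := mul_div_cancel₀ _ hN'.ne'
  have hΛ := r.Λ_nonneg
  have hm : (0 : ℝ) ≤ m := m.cast_nonneg
  have hn : (0 : ℝ) ≤ r.n := r.n.cast_nonneg
  have hrow : ∀ t ≤ T,
      (∑ l : Fin (N * (m + 1)), |r.coef h t (finProdFinEquiv.symm l).1 (finProdFinEquiv.symm l).2|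
        ≤ 1 / 32) ∧
      ∑ l : Fin (N * (m + 1)),
          r.coef h t (finProdFinEquiv.symm l).1 (finProdFinEquiv.symm l).2 ^ 2
        ≤ (r.kap * √h) ^ 2 := by
    intro t ht
    constructor
    · refine (Finset.sum_le_card_nsmul _ _ (h * T * r.Λ) fun l _ =>
        r.abs_coef_le hT.le ht _).trans ?_
      simp only [Finset.card_univ, Fintype.card_fin, nsmul_eq_mul]
      push_cast
      calc (N : ℝ) * ((m : ℝ) + 1) * (h * T * r.Λ) = ((m : ℝ) + 1) * r.Λ * T * T := by
            rw [← hNh]; ring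
        _ ≤ ((m : ℝ) + 1) * (r.Λ + 1) * T * (1 / 4) := by gcongr <;> linarith
        _ = 1 / 32 := by rw [hTdef, T₀]; field_simp; ring
    · refine (Finset.sum_le_card_nsmul _ _ ((h * T * r.Λ) ^ 2) fun l _ => ?_).trans ?_
      · rw [← sq_abs]
        exact pow_le_pow_left₀ (abs_nonneg _) (r.abs_coef_le hT.le ht _) 2
      simp only [Finset.card_univ, Fintype.card_fin, nsmul_eq_mul]
      rw [mul_pow, mul_pow r.kap, Real.sq_sqrt hh.le]
      push_cast
      calc (N : ℝ) * ((m : ℝ) + 1) * ((h * T) ^ 2 * r.Λ ^ 2)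
          = ((m : ℝ) + 1) * r.Λ ^ 2 * T ^ 3 * h := by rw [← hNh]; ring
        _ ≤ ((m : ℝ) + 1) * r.Λ ^ 2 * 1 * h := by
            gcongr; exact pow_le_one₀ hT.le (by linarith)
        _ ≤ r.kap ^ 2 * h := by
            refine mul_le_mul_of_nonneg_right ?_ hh.le
            rw [mul_one, kap]
            nlinarith [mul_nonneg (mul_nonneg hm hΛ) hΛ, mul_nonneg hm hΛ,
              mul_nonneg hn hΛ, mul_nonneg (mul_nonneg hm hn) hΛ, sq_nonneg (m : ℝ), sq_nonneg r.Λ,
              mul_nonneg (mul_nonneg hm hm) (sq_nonneg r.Λ), sq_nonneg ((r.n : ℝ) + 1)]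
  have hw : ∀ i : Fin (N * r.n), 0 ≤ (r.scheme T N).w i ∧ (r.scheme T N).w i ≤ h * T := fun i => by
    have hnm := node_mem r.s_mem hT.le i
    have hwi := r.w_nonneg (finProdFinEquiv.symm i).2
    have hw1 : r.w (finProdFinEquiv.symm i).2 ≤ 1 :=
      r.w_sum ▸ Finset.single_le_sum (fun j _ => r.w_nonneg j) (Finset.mem_univ _)
    refine ⟨mul_nonneg (mul_nonneg hh.le hwi) (sub_nonneg.2 hnm.2), ?_⟩
    show h * r.w _ * (T - node r.s h i) ≤ h * T
    refine mul_le_mul (mul_le_of_le_one_right hh.le hw1) (sub_le_self _ hnm.1)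
      (sub_nonneg.2 hnm.2) hh.le
  refine ⟨fun j => (hrow _ (node_mem r.τ_mem hT.le j).2).1,
    fun i => (hrow _ (node_mem r.s_mem hT.le i).2).1, fun i => (hw i).1,
    r.sum_node_weight hN, by positivity, by nlinarith, fun j => (hrow _ (node_mem r.τ_mem hT.le j).2).2,
    fun i => (hrow _ (node_mem r.s_mem hT.le i).2).2, ?_, mul_nonneg r.kap_pos.le (sqrt_nonneg _)⟩
  show ∑ i : Fin (N * r.n), (r.scheme T N).w i ^ 2 ≤ (r.kap * √h) ^ 2
  refine (Finset.sum_le_card_nsmul _ _ ((h * T) ^ 2) fun i _ => ?_).trans ?_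
  · exact pow_le_pow_left₀ (hw i).1 (hw i).2 2
  simp only [Finset.card_univ, Fintype.card_fin, nsmul_eq_mul]
  rw [mul_pow r.kap, Real.sq_sqrt hh.le]
  push_cast
  calc (N : ℝ) * r.n * (h * T) ^ 2 = (r.n : ℝ) * T ^ 3 * h := by rw [← hNh]; ring
    _ ≤ (r.n : ℝ) * 1 * h := by gcongr; exact pow_le_one₀ hT.le (by linarith)
    _ ≤ r.kap ^ 2 * h := by
        refine mul_le_mul_of_nonneg_right ?_ hh.le
        rw [mul_one, kap]
        nlinarith [mul_nonneg hm hΛ, sq_nonneg ((m : ℝ) + r.n), mul_nonneg hm hn,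
          mul_nonneg hn hΛ, mul_nonneg (mul_nonneg hm hn) hΛ]

section Error

variable {T : ℝ} {f : ℕ → ℝ → E d} (hT : 0 < T) (hN : N ≠ 0)
  (hf : ∀ k ≤ m, ∀ t ∈ Icc 0 T, HasDerivWithinAt (f k) (f (k + 1) t) (Icc 0 T) t)
  (hc : ContinuousOn (f (m + 1)) (Icc 0 T))

include hT hN hf hc

omit hT hN hc in
theorem continuousOn_zero : ContinuousOn (f 0) (Icc 0 T) :=
  fun t ht => (hf 0 (Nat.zero_le _) t ht).continuousWithinAt

/-- Replacing the force by its interpolation in the position at time `t`. -/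
theorem interp_error {t : ℝ} (ht : t ∈ Icc 0 T) :
    ‖(∫ x in (0:ℝ)..T, max (t - x) 0 • f 0 x) -
      ∑ l : Fin (N * (m + 1)),
        r.coef (T / N) t (finProdFinEquiv.symm l).1 (finProdFinEquiv.symm l).2 •
          f 0 (node r.τ (T / N) l)‖ ≤
      T * r.Λ * (T / N) ^ (m + 1) * ∫ x in (0:ℝ)..T, ‖f (m + 1) x‖ := by
  have hN' : (0 : ℝ) < N := Nat.cast_pos.2 (Nat.pos_of_ne_zero hN)
  set h := T / N with hdef
  have hh : 0 < h := by positivity
  set a : ℕ → ℝ := fun b => b * h
  have ha : ∀ b, a (b + 1) = a b + h := fun b => by simp only [a]; push_cast; ring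
  have hsub : ∀ b < N, Icc (a b) (a b + h) ⊆ Icc 0 T := fun b hb =>
    Icc_subset_Icc (by positivity) (cell_le hT.le hb)
  have hint : ∀ {g : ℝ → E d}, ContinuousOn g (Icc 0 T) → ∀ b < N,
      IntervalIntegrable g volume (a b) (a b + h) := fun hg b hb =>
    (hg.mono (hsub b hb)).intervalIntegrable_of_Icc (by linarith)
  have hF : ContinuousOn (fun x => max (t - x) 0 • f 0 x) (Icc 0 T) :=
    ((continuous_const.sub continuous_id).max continuous_const).continuousOn.smul
      (continuousOn_zero hf)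
  have e1 : ∫ x in (0:ℝ)..T, max (t - x) 0 • f 0 x =
      ∑ b : Fin N, ∫ x in a b..a b + h, max (t - x) 0 • f 0 x := by
    rw [Fin.sum_univ_eq_sum_range (fun b => ∫ x in a b..a b + h, max (t - x) 0 • f 0 x)]
    simp_rw [← ha]
    rw [intervalIntegral.sum_integral_adjacent_intervals fun b hb => by
      rw [ha]; exact hint hF b hb]
    congr 1
    · simp [a]
    · simp only [a, hdef]; field_simp
  have e2 : ∫ x in (0:ℝ)..T, ‖f (m + 1) x‖ =
      ∑ b : Fin N, ∫ x in a b..a b + h, ‖f (m + 1) x‖ := by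
    rw [Fin.sum_univ_eq_sum_range (fun b => ∫ x in a b..a b + h, ‖f (m + 1) x‖)]
    simp_rw [← ha]
    rw [intervalIntegral.sum_integral_adjacent_intervals fun b hb => by
      rw [ha]; exact (hc.norm.mono (hsub b hb)).intervalIntegrable_of_Icc (by linarith)]
    congr 1
    · simp [a]
    · simp only [a, hdef]; field_simp
  rw [e1, e2, ← finProdFinEquiv.sum_comp, Fintype.sum_prod_type, ← Finset.sum_sub_distrib,
    Finset.mul_sum]
  refine (norm_sum_le _ _).trans (Finset.sum_le_sum fun b _ => ?_)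
  simp only [node, Equiv.symm_apply_apply]
  have hab := hsub b b.isLt
  have hpc : ∀ i, ContinuousOn
      (fun x => (max (t - x) 0 * r.ℓ i ((x - a b) / h)) • f 0 (a b + h * r.τ i))
      (Icc (a b) (a b + h)) := fun i => by
    have := r.ℓ_cont i
    exact Continuous.continuousOn (by fun_prop)
  have e3 : ∑ i, r.coef h t b i • f 0 (a b + h * r.τ i) =
      ∫ x in a b..a b + h,
        ∑ i, (max (t - x) 0 * r.ℓ i ((x - a b) / h)) • f 0 (a b + h * r.τ i) := by
    rw [intervalIntegral.integral_finsetSum fun i _ =>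
      (hpc i).intervalIntegrable_of_Icc (by linarith)]
    exact Finset.sum_congr rfl fun i _ => (intervalIntegral.integral_smul_const _ _).symm
  show ‖_ - ∑ i, r.coef h t b i • f 0 (a b + h * r.τ i)‖ ≤ _
  rw [e3, ← intervalIntegral.integral_sub (hint hF b b.isLt)
    ((continuousOn_finsetSum _ fun i _ => hpc i).intervalIntegrable_of_Icc (by linarith))]
  set I := ∫ x in a b..a b + h, ‖f (m + 1) x‖
  have hI : 0 ≤ I := intervalIntegral.integral_nonneg (by linarith) fun x _ => norm_nonneg _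
  refine (intervalIntegral.norm_integral_le_of_norm_le_const
    (C := T * (r.Λ * h ^ m * I)) fun x hx => ?_).trans
      (le_of_eq (by rw [add_sub_cancel_left, abs_of_pos hh, pow_succ]; ring))
  rw [uIoc_of_le (by linarith)] at hx
  simp only [mul_smul, ← Finset.smul_sum, ← smul_sub, norm_smul, Real.norm_eq_abs]
  rw [abs_of_nonneg (le_max_right (t - x) 0)]
  refine mul_le_mul (max_le ?_ hT.le) (r.interp d f (a b) h hh
    (fun k hk u hu => (hf k hk u (hab hu)).mono hab) (hc.mono hab) x (Ioc_subset_Icc_self hx))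
    (norm_nonneg _) hT.le
  linarith [(hab (Ioc_subset_Icc_self hx)).1, ht.2]

/-- The positive rule in the final position. -/
theorem final_error :
    ‖(∫ x in (0:ℝ)..T, (T - x) • f 0 x) -
      ∑ i : Fin (N * r.n), (T / N * r.w (finProdFinEquiv.symm i).2 *
        (T - node r.s (T / N) i)) • f 0 (node r.s (T / N) i)‖ ≤
      T * r.Λ * (T / N) ^ (m + 1) * ∫ x in (0:ℝ)..T, ‖f (m + 1) x‖ := by
  have hN' : (0 : ℝ) < N := Nat.cast_pos.2 (Nat.pos_of_ne_zero hN)
  set h := T / N with hdef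
  have hh : 0 < h := by positivity
  set a : ℕ → ℝ := fun b => b * h
  have ha : ∀ b, a (b + 1) = a b + h := fun b => by simp only [a]; push_cast; ring
  have hsub : ∀ b < N, Icc (a b) (a b + h) ⊆ Icc 0 T := fun b hb =>
    Icc_subset_Icc (by positivity) (cell_le hT.le hb)
  have hF : ContinuousOn (fun x => (T - x) • f 0 x) (Icc 0 T) :=
    (continuous_const.sub continuous_id).continuousOn.smul (continuousOn_zero hf)
  have e1 : ∫ x in (0:ℝ)..T, (T - x) • f 0 x =
      ∑ b : Fin N, ∫ x in a b..a b + h, (T - x) • f 0 x := by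
    rw [Fin.sum_univ_eq_sum_range (fun b => ∫ x in a b..a b + h, (T - x) • f 0 x)]
    simp_rw [← ha]
    rw [intervalIntegral.sum_integral_adjacent_intervals fun b hb => by
      rw [ha]; exact (hF.mono (hsub b hb)).intervalIntegrable_of_Icc (by linarith)]
    congr 1
    · simp [a]
    · simp only [a, hdef]; field_simp
  have e2 : ∫ x in (0:ℝ)..T, ‖f (m + 1) x‖ =
      ∑ b : Fin N, ∫ x in a b..a b + h, ‖f (m + 1) x‖ := by
    rw [Fin.sum_univ_eq_sum_range (fun b => ∫ x in a b..a b + h, ‖f (m + 1) x‖)]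
    simp_rw [← ha]
    rw [intervalIntegral.sum_integral_adjacent_intervals fun b hb => by
      rw [ha]; exact (hc.norm.mono (hsub b hb)).intervalIntegrable_of_Icc (by linarith)]
    congr 1
    · simp [a]
    · simp only [a, hdef]; field_simp
  rw [e1, e2, ← finProdFinEquiv.sum_comp, Fintype.sum_prod_type, ← Finset.sum_sub_distrib,
    Finset.mul_sum]
  refine (norm_sum_le _ _).trans (Finset.sum_le_sum fun b _ => ?_)
  simp only [node, Equiv.symm_apply_apply]
  have hab := hsub b b.isLt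
  rw [mul_comm T r.Λ]
  exact r.pos d f (a b) h T (hab (left_mem_Icc.2 (by linarith))).1 hh
    (cell_le hT.le b.isLt) (fun k hk u hu => (hf k hk u (hab hu)).mono hab) (hc.mono hab)

end Error

end Rules

namespace Pert

variable {η B : ℝ} {W : E d → ℝ} (hW : Pert η B W)
include hW

theorem traj_eq (x v : E d) {t T : ℝ} (ht : t ∈ Icc 0 T) (hT : T ≤ 1 / 4) :
    traj W x v t = x + t • v -
      ∫ r in (0:ℝ)..T, max (t - r) 0 • (traj W x v r + grad W (traj W x v r)) := by
  have hg := hW.contDiff_grad.continuous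
  have htr : Continuous (traj W x v) := hW.continuous_traj.comp (Continuous.prodMk_right (x, v))
  have hve : Continuous (vel W x v) := hW.continuous_vel.comp (Continuous.prodMk_right (x, v))
  have hF : Continuous fun r => max (t - r) 0 • (traj W x v r + grad W (traj W x v r)) := by
    fun_prop
  have h1 : ∫ r in t..T, max (t - r) 0 • (traj W x v r + grad W (traj W x v r)) = 0 := by
    refine intervalIntegral.integral_zero_ae (ae_of_all _ fun r hr => ?_)
    rw [uIoc_of_le ht.2] at hr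
    rw [max_eq_right (by linarith [hr.1]), zero_smul]
  rw [← intervalIntegral.integral_add_adjacent_intervals (hF.intervalIntegrable 0 t)
    (hF.intervalIntegrable t T), h1, add_zero]
  have h2 : ∫ r in (0:ℝ)..t, max (t - r) 0 • (traj W x v r + grad W (traj W x v r)) =
      -(traj W x v t + (t - t) • vel W x v t) + (traj W x v 0 + (t - 0) • vel W x v 0) := by
    rw [intervalIntegral.integral_eq_sub_of_hasDerivAt_of_le ht.1
      (f := fun r => -(traj W x v r + (t - r) • vel W x v r)) (Continuous.continuousOn (by fun_prop))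
      (fun r hr => ?_) (hF.intervalIntegrable 0 t), sub_neg_eq_add]
    have hr4 : Icc (0 : ℝ) (1 / 4) ∈ 𝓝 r :=
      Icc_mem_nhds hr.1 (by linarith [hr.2, ht.2])
    have hmem : r ∈ Icc (0 : ℝ) (1 / 4) := mem_of_mem_nhds hr4
    refine (((hW.hasDerivWithinAt_traj x v hmem).hasDerivAt hr4).add
      (((hasDerivAt_id r).const_sub t).smul
        ((hW.hasDerivWithinAt_vel x v hmem).hasDerivAt hr4))).neg.congr_deriv ?_
    rw [max_eq_left (by linarith [hr.2])]
    simp only [id_eq, neg_smul, one_smul, smul_neg]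
    abel
  rw [h2, hW.traj_zero, hW.vel_zero]
  simp only [sub_self, zero_smul, add_zero, sub_zero]
  abel

variable {m : ℕ} {G : ℕ → E d × E d → E d}
  (hG : ∀ k ≤ m + 1, ContDiff ℝ 1 (G k))
  (hrec : ∀ k ≤ m, ∀ z, fderiv ℝ (G k) z (z.2, -(z.1 + grad W z.1)) = G (k + 1) z)

include hG hrec in
theorem hasDerivWithinAt_family (x v : E d) {T : ℝ} (hT : T ≤ 1 / 4) {k : ℕ} (hk : k ≤ m)
    {t : ℝ} (ht : t ∈ Icc 0 T) :
    HasDerivWithinAt (fun r => G k (traj W x v r, vel W x v r))
      (G (k + 1) (traj W x v t, vel W x v t)) (Icc 0 T) t := by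
  have hs : Icc 0 T ⊆ Icc (0 : ℝ) (1 / 4) := Icc_subset_Icc le_rfl hT
  have h := ((hG k (by omega)).differentiable one_ne_zero _).hasFDerivAt.comp_hasDerivWithinAt t
    (((hW.hasDerivWithinAt_traj x v (hs ht)).prodMk
      (hW.hasDerivWithinAt_vel x v (hs ht))).mono hs)
  exact h.congr_deriv (hrec k hk _)

include hG hrec in
/-- The flow solves the discretized equations up to the interpolation error. -/
theorem flow_consistent (r : Rules m) (hG0 : ∀ z, G 0 z = z.1 + grad W z.1) {N : ℕ} (hN : N ≠ 0)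
    {T : ℝ} (hT : 0 < T) (hT4 : T ≤ 1 / 4) (x v : E d) :
    let S := r.scheme T N
    let F := fun p : E d => p + grad W p
    let e := T * r.Λ * (T / N) ^ (m + 1) *
      ∫ u in (0:ℝ)..T, ‖G (m + 1) (traj W x v u, vel W x v u)‖
    (∀ j, ‖(x + S.t j • v) - traj W x v (S.t j)‖ ≤
      T * ∫ u in (0:ℝ)..T, ‖G 0 (traj W x v u, vel W x v u)‖) ∧
    (∀ j, ‖x + S.t j • v - ∑ l, S.A j l • F (traj W x v (S.t l)) - traj W x v (S.t j)‖ ≤ e) ∧
    (∀ i, ‖x + S.s i • v - ∑ l, S.Af i l • F (traj W x v (S.t l)) - traj W x v (S.s i)‖ ≤ e) ∧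
    ‖x + S.T • v - ∑ i, S.w i • F (traj W x v (S.s i)) - traj W x v T‖ ≤ e := by
  intro S F e
  have htr : Continuous (traj W x v) := hW.continuous_traj.comp (Continuous.prodMk_right (x, v))
  have hve : Continuous (vel W x v) := hW.continuous_vel.comp (Continuous.prodMk_right (x, v))
  set f : ℕ → ℝ → E d := fun k t => G k (traj W x v t, vel W x v t)
  have hf : ∀ k ≤ m, ∀ t ∈ Icc 0 T, HasDerivWithinAt (f k) (f (k + 1) t) (Icc 0 T) t :=
    fun k hk t ht => hW.hasDerivWithinAt_family hG hrec x v hT4 hk ht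
  have hcont : ∀ k ≤ m + 1, ContinuousOn (f k) (Icc 0 T) := fun k hk =>
    ((hG k hk).continuous.comp (htr.prodMk hve)).continuousOn
  have hfz : ∀ t, f 0 t = F (traj W x v t) := fun t => hG0 _
  have hx : ∀ t ∈ Icc 0 T,
      traj W x v t = x + t • v - ∫ u in (0:ℝ)..T, max (t - u) 0 • f 0 u := fun t ht => by
    simp only [hfz, F]; exact hW.traj_eq x v ht hT4
  have hmemT : ∀ j, S.t j ∈ Icc 0 T := fun j => Rules.node_mem r.τ_mem hT.le j
  have hmemS : ∀ i, S.s i ∈ Icc 0 T := fun i => Rules.node_mem r.s_mem hT.le i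
  refine ⟨fun j => ?_, fun j => ?_, fun i => ?_, ?_⟩
  · rw [hx _ (hmemT j), sub_sub_cancel]
    exact norm_integral_max_smul_le (hmemT j) (hcont 0 (by omega))
  · rw [hx _ (hmemT j), sub_sub_sub_cancel_left]
    simp only [← hfz]
    exact r.interp_error hT hN hf (hcont (m + 1) le_rfl) (hmemT j)
  · rw [hx _ (hmemS i), sub_sub_sub_cancel_left]
    simp only [← hfz]
    exact r.interp_error hT hN hf (hcont (m + 1) le_rfl) (hmemS i)
  · show ‖x + T • v - _ - _‖ ≤ e
    rw [hx T (right_mem_Icc.2 hT.le), sub_sub_sub_cancel_left]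
    have : ∫ u in (0:ℝ)..T, max (T - u) 0 • f 0 u = ∫ u in (0:ℝ)..T, (T - u) • f 0 u :=
      intervalIntegral.integral_congr fun u hu => by
        rw [uIcc_of_le hT.le] at hu
        simp only [max_eq_left (sub_nonneg.2 hu.2)]
    rw [this]
    simp only [← hfz]
    exact r.final_error hT hN hf (hcont (m + 1) le_rfl)

theorem continuous_flow_comp {g : E d × E d → ℝ} (hg : Continuous g) :
    Continuous fun p : (E d × E d) × ℝ => g (traj W p.1.1 p.1.2 p.2, vel W p.1.1 p.1.2 p.2) :=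
  hg.comp (hW.continuous_traj.prodMk hW.continuous_vel)

theorem integrable_prod_gauss {g : E d × E d → ℝ} (hg : Continuous g) (hp : PolyBd g) :
    Integrable g ((law W).prod (stdGaussian (E d))) := by
  have := hW.isProbabilityMeasure_law
  obtain ⟨C, k, hC, hb⟩ := hp
  have hpow : PolyBd fun x : E d => (1 + ‖x‖) ^ k :=
    ((PolyBd.const (1 : ℝ)).add PolyBd.id.norm).pow k
  have h1 : Integrable (fun x : E d => C * (1 + ‖x‖) ^ k) (law W) :=
    (hW.integrable_law hpow (by fun_prop)).const_mul C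
  have h2 : Integrable (fun x : E d => (1 + ‖x‖) ^ k) (stdGaussian (E d)) :=
    hpow.integrable _ (Continuous.aestronglyMeasurable (by fun_prop))
  refine (h1.mul_prod h2).mono' hg.aestronglyMeasurable (ae_of_all _ fun z => (hb z).trans ?_)
  rw [mul_assoc, ← mul_pow]
  refine mul_le_mul_of_nonneg_left (pow_le_pow_left₀ (by positivity) ?_ k) hC
  rw [Prod.norm_def]
  nlinarith [max_le_add_of_nonneg (norm_nonneg z.1) (norm_nonneg z.2), norm_nonneg z.1,
    norm_nonneg z.2]

/-- Averaging along the flow does not change stationary means. -/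
theorem integral_flow_average {g : E d × E d → ℝ} (hg : Continuous g) (hp : PolyBd g) {T : ℝ}
    (hT : 0 ≤ T) (hT4 : T ≤ 1 / 4) :
    Integrable (fun z => ∫ u in (0:ℝ)..T, g (traj W z.1 z.2 u, vel W z.1 z.2 u))
      ((law W).prod (stdGaussian (E d))) ∧
    ∫ z, (∫ u in (0:ℝ)..T, g (traj W z.1 z.2 u, vel W z.1 z.2 u))
      ∂(law W).prod (stdGaussian (E d)) = T * ∫ z, g z ∂(law W).prod (stdGaussian (E d)) := by
  have := hW.isProbabilityMeasure_law
  set μ := (law W).prod (stdGaussian (E d))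
  set ν := (volume : Measure ℝ).restrict (Ioc 0 T)
  have hgi := hW.integrable_prod_gauss hg hp
  have hc := hW.continuous_flow_comp hg
  have hmp : ∀ u ∈ Ioc 0 T, MeasurePreserving
      (fun z : E d × E d => (traj W z.1 z.2 u, vel W z.1 z.2 u)) μ μ := fun u hu =>
    hW.measurePreserving_flow ⟨hu.1.le, hu.2.trans hT4⟩
  have hae : ∀ᵐ u ∂ν, u ∈ Ioc 0 T := ae_restrict_mem measurableSet_Ioc
  have heq : ∀ {g' : E d × E d → ℝ}, Continuous g' → ∀ u ∈ Ioc 0 T,
      ∫ z, g' (traj W z.1 z.2 u, vel W z.1 z.2 u) ∂μ = ∫ z, g' z ∂μ := fun hg' u hu => by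
    conv_rhs => rw [← (hmp u hu).map_eq]
    exact (integral_map (hmp u hu).measurable.aemeasurable hg'.aestronglyMeasurable).symm
  have hint : Integrable
      (fun p : (E d × E d) × ℝ => g (traj W p.1.1 p.1.2 p.2, vel W p.1.1 p.1.2 p.2))
      (μ.prod ν) := by
    refine (integrable_prod_iff' hc.aestronglyMeasurable).2 ⟨?_, ?_⟩
    · filter_upwards [hae] with u hu
      exact (hmp u hu).integrable_comp_of_integrable hgi
    · refine (integrable_const (∫ z, ‖g z‖ ∂μ)).congr ?_
      filter_upwards [hae] with u hu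
      exact (heq hg.norm u hu).symm
  simp only [intervalIntegral.integral_of_le hT]
  refine ⟨hint.integral_prod_left, ?_⟩
  rw [integral_integral_swap hint,
    integral_congr_ae (hae.mono fun u hu => heq hg u hu)]
  simp [ν, hT]

end Pert

end Vale.Agent.P347
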