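import Vale.Agent.P347.GaussPoincare
import Vale.Agent.P347.DerivSob
import Vale.Agent.P347.Poincare

/-!
# P347: the Poincaré inequality of `law W` with constant one

The unadjusted Langevin chain is a smooth image of Gaussian blocks with derivative bounded by one
up to the step size.  It couples to the stationary Hamiltonian chain of short time steps, so its
laws tend to `law W`.
-/

open MeasureTheory ProbabilityTheory Real Set Filter Function
open scoped RealInnerProductSpace Topology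

namespace Vale.Agent.P347

variable {d n : ℕ}

local instance (priority := high) instContinuousSMulNoise {ι : Type} [Fintype ι] :
    ContinuousSMul ℝ (Noise d ι) :=
  IsBoundedSMul.continuousSMul

/-- The unadjusted Langevin chain with step `τ ^ 2 / 2`, from the origin. -/
noncomputable def ula (W : E d → ℝ) (τ : ℝ) : ℕ → (ℕ → E d) → E d
  | 0, _ => 0
  | i + 1, v =>
    ula W τ i v - (τ ^ 2 / 2) • (ula W τ i v + grad W (ula W τ i v)) + τ • v i

/-- The contraction factor of one step. -/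
noncomputable def ulaRho (τ : ℝ) : ℝ := √((1 - τ ^ 2 / 2) ^ 2 + (τ ^ 2 / 2) ^ 2)

/-- One gradient step contracts. -/
theorem norm_gradient_step_le {τ : ℝ} (hτ : τ ^ 2 ≤ 2) {v w : E d} (h0 : 0 ≤ ⟪v, w⟫)
    (h1 : ‖w‖ ≤ ‖v‖) : ‖v - (τ ^ 2 / 2) • (v + w)‖ ≤ ulaRho τ * ‖v‖ := by
  set h := τ ^ 2 / 2 with hh
  have hh0 : 0 ≤ h := by positivity
  have hh1 : h ≤ 1 := by rw [hh]; linarith
  refine (pow_le_pow_iff_left₀ (norm_nonneg _) (mul_nonneg (sqrt_nonneg _) (norm_nonneg _))
    two_ne_zero).1 ?_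
  have e : v - h • (v + w) = (1 - h) • v - h • w := by module
  rw [e, mul_pow, ← hh, Real.sq_sqrt (by positivity), norm_sub_sq_real, norm_smul,
    norm_smul, real_inner_smul_left, real_inner_smul_right, Real.norm_eq_abs, Real.norm_eq_abs,
    mul_pow, mul_pow, sq_abs, sq_abs]
  nlinarith [mul_nonneg (mul_nonneg hh0 (by linarith : 0 ≤ 1 - h)) h0,
    mul_le_mul_of_nonneg_left (pow_le_pow_left₀ (norm_nonneg _) h1 2) (sq_nonneg h)]

theorem ulaRho_sq (τ : ℝ) :
    ulaRho τ ^ 2 = (1 - τ ^ 2 / 2) ^ 2 + (τ ^ 2 / 2) ^ 2 :=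
  Real.sq_sqrt (by positivity)

theorem ulaRho_nonneg (τ : ℝ) : 0 ≤ ulaRho τ := Real.sqrt_nonneg _

theorem one_sub_ulaRho {τ : ℝ} (hτ : τ ^ 2 ≤ 1) : τ ^ 2 / 4 ≤ 1 - ulaRho τ := by
  have h : ulaRho τ ≤ 1 - τ ^ 2 / 4 := by
    rw [ulaRho, Real.sqrt_le_iff]
    constructor
    · nlinarith
    · nlinarith [sq_nonneg τ, mul_le_mul_of_nonneg_right hτ (sq_nonneg τ)]
  linarith

/-- Projection to the `i`-th block. -/
noncomputable def blockProj (d n i : ℕ) : Noise d (Fin n) →L[ℝ] E d :=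
  if h : i < n then PiLp.proj 2 (fun _ : Fin n => E d) ⟨i, h⟩ else 0

theorem extend_ofLp (R : Noise d (Fin n)) (i : ℕ) :
    extend (WithLp.ofLp R) i = blockProj d n i R := by
  unfold extend blockProj
  split <;> simp

namespace Pert

variable {η B : ℝ} {W : E d → ℝ} (hW : Pert η B W)
include hW

theorem grad_lipschitz_one (x y : E d) : ‖grad W x - grad W y‖ ≤ ‖x - y‖ :=
  (hW.grad_lipschitz x y).trans (mul_le_of_le_one_left (norm_nonneg _) hW.eta_le_one)

theorem continuous_ula (τ : ℝ) : ∀ i : ℕ, Continuous fun v : ℕ → E d => ula W τ i v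
  | 0 => continuous_const
  | i + 1 => by
    have h := continuous_ula τ i
    simp only [ula]
    exact (h.fun_sub ((h.fun_add (hW.contDiff_grad.continuous.comp h)).fun_const_smul _)).fun_add
      ((continuous_apply i).fun_const_smul _)

theorem contDiff_ula (τ : ℝ) : ∀ i : ℕ,
    ContDiff ℝ 1 fun R : Noise d (Fin n) => ula W τ i (extend (WithLp.ofLp R))
  | 0 => contDiff_const
  | i + 1 => by
    have h := contDiff_ula τ i
    simp only [ula, extend_ofLp]
    exact (h.sub ((h.add (hW.contDiff_grad.comp h)).const_smul _)).add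
      ((blockProj d n i).contDiff.const_smul _)

/-- The derivative of one step. -/
theorem fderiv_ula_succ (τ : ℝ) (R δ : Noise d (Fin n)) (i : ℕ) :
    fderiv ℝ (fun R => ula W τ (i + 1) (extend (WithLp.ofLp R))) R δ =
      fderiv ℝ (fun R => ula W τ i (extend (WithLp.ofLp R))) R δ -
        (τ ^ 2 / 2) • (fderiv ℝ (fun R => ula W τ i (extend (WithLp.ofLp R))) R δ +
          fderiv ℝ (grad W) (ula W τ i (extend (WithLp.ofLp R)))
            (fderiv ℝ (fun R => ula W τ i (extend (WithLp.ofLp R))) R δ)) +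
        τ • blockProj d n i δ := by
  set X := fun R : Noise d (Fin n) => ula W τ i (extend (WithLp.ofLp R)) with hXdef
  have hX : HasFDerivAt X (fderiv ℝ X R) R :=
    ((hW.contDiff_ula (n := n) τ i).differentiable one_ne_zero R).hasFDerivAt
  have hg0 : HasFDerivAt (grad W) (fderiv ℝ (grad W) (X R)) (X R) :=
    ((hW.contDiff_grad.differentiable one_ne_zero) (X R)).hasFDerivAt
  have hg : HasFDerivAt (fun R => grad W (X R)) ((fderiv ℝ (grad W) (X R)).comp (fderiv ℝ X R)) R :=
    hg0.comp R hX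
  have hP : HasFDerivAt (fun R : Noise d (Fin n) => blockProj d n i R) (blockProj d n i) R :=
    ContinuousLinearMap.hasFDerivAt _
  have h := (hX.fun_sub ((hX.fun_add hg).fun_const_smul (τ ^ 2 / 2))).fun_add (hP.fun_const_smul τ)
  have e : (fun R : Noise d (Fin n) => ula W τ (i + 1) (extend (WithLp.ofLp R))) =
      fun R => X R - (τ ^ 2 / 2) • (X R + grad W (X R)) + τ • blockProj d n i R := by
    funext R; simp only [ula, hXdef, extend_ofLp]
  rw [e, h.fderiv]
  rfl

omit hW in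
/-- Cauchy-Schwarz for the recursion of the squares. -/
theorem ula_recursion {τ a b S z : ℝ} (hτ : τ ^ 2 ≤ 1) (hS : 0 ≤ S)
    (ha : a ^ 2 ≤ ulaRho τ ^ 2 * (1 / (1 - τ ^ 2 / 2) * S)) (hb : b ^ 2 = τ ^ 2 * z ^ 2) :
    (a + b) ^ 2 ≤ 1 / (1 - τ ^ 2 / 2) * (S + z ^ 2) := by
  have hh : 0 < 1 - τ ^ 2 / 2 := by linarith
  set c := 1 / (1 - τ ^ 2 / 2) with hcdef
  have hc : 0 < c := by positivity
  have hid : ulaRho τ ^ 2 * c + τ ^ 2 = c := by
    have h2 : 2 - τ ^ 2 ≠ 0 := by linarith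
    rw [ulaRho_sq, hcdef]
    field_simp
    ring
  have key : 2 * (a * b) ≤ ulaRho τ ^ 2 * c * z ^ 2 + τ ^ 2 * S := by
    have h1 : (a * b) ^ 2 ≤ (ulaRho τ ^ 2 * c * z ^ 2) * (τ ^ 2 * S) := by
      rw [mul_pow, hb]
      exact (mul_le_mul_of_nonneg_right ha (by positivity)).trans_eq (by ring)
    nlinarith [sq_nonneg (ulaRho τ ^ 2 * c * z ^ 2 - τ ^ 2 * S),
      (by positivity : 0 ≤ ulaRho τ ^ 2 * c * z ^ 2 + τ ^ 2 * S)]
  calc (a + b) ^ 2 = a ^ 2 + b ^ 2 + 2 * (a * b) := by ring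
    _ ≤ ulaRho τ ^ 2 * (c * S) + τ ^ 2 * z ^ 2 + (ulaRho τ ^ 2 * c * z ^ 2 + τ ^ 2 * S) := by
        linarith
    _ = (ulaRho τ ^ 2 * c + τ ^ 2) * (S + z ^ 2) := by ring
    _ = c * (S + z ^ 2) := by rw [hid]

/-- The derivative of the chain. -/
theorem fderiv_ula_sq_le {τ : ℝ} (hτ : τ ^ 2 ≤ 1) (R δ : Noise d (Fin n)) :
    ∀ i : ℕ, ‖fderiv ℝ (fun R => ula W τ i (extend (WithLp.ofLp R))) R δ‖ ^ 2 ≤
      1 / (1 - τ ^ 2 / 2) * ∑ j ∈ Finset.range i, ‖blockProj d n j δ‖ ^ 2 := by
  intro i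
  induction i with
  | zero => simp [ula]
  | succ i ih =>
    rw [hW.fderiv_ula_succ τ R δ i, Finset.sum_range_succ]
    generalize fderiv ℝ (fun R => ula W τ i (extend (WithLp.ofLp R))) R δ = D at ih ⊢
    generalize ula W τ i (extend (WithLp.ofLp R)) = x
    have hstep := norm_gradient_step_le (τ := τ) (by linarith) (v := D)
      (w := fderiv ℝ (grad W) x D)
      (by rw [real_inner_comm]; exact hW.hess_nonneg _ _)
      ((hW.norm_hess_apply_le _ _).trans (mul_le_of_le_one_left (norm_nonneg _) hW.eta_le_one))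
    refine (pow_le_pow_left₀ (norm_nonneg _) ((norm_add_le _ _).trans (add_le_add hstep
      (le_of_eq (norm_smul τ (blockProj d n i δ))))) 2).trans
        (ula_recursion hτ (Finset.sum_nonneg fun j _ => sq_nonneg _) ?_ ?_)
    · rw [mul_pow]; exact mul_le_mul_of_nonneg_left ih (sq_nonneg _)
    · rw [mul_pow, Real.norm_eq_abs, sq_abs]

theorem norm_fderiv_ula_le {τ : ℝ} (hτ : τ ^ 2 ≤ 1) (R : Noise d (Fin n)) :
    ‖fderiv ℝ (fun R => ula W τ n (extend (WithLp.ofLp R))) R‖ ≤ √(1 / (1 - τ ^ 2 / 2)) := by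
  refine ContinuousLinearMap.opNorm_le_bound _ (sqrt_nonneg _) fun δ => ?_
  refine abs_le_of_sq_le_sq' ?_ (mul_nonneg (sqrt_nonneg _) (norm_nonneg _)) |>.2
  rw [mul_pow, Real.sq_sqrt (by have : 0 < 1 - τ ^ 2 / 2 := by linarith
                                positivity)]
  refine (hW.fderiv_ula_sq_le hτ R δ n).trans_eq ?_
  rw [PiLp.norm_sq_eq_of_L2 (fun _ : Fin n => E d) δ,
    ← Fin.sum_univ_eq_sum_range fun j => ‖blockProj d n j δ‖ ^ 2]
  simp [blockProj]

/-- Local error of a step against the flow. -/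
theorem traj_expansion {τ : ℝ} (hτ : τ ∈ Icc (0 : ℝ) (1 / 4)) (x v : E d) :
    ‖traj W x v τ - (x + τ • v - (τ ^ 2 / 2) • (x + grad W x))‖ ≤
      2 * τ ^ 3 * (2 * ‖v‖ + ‖x + grad W x‖) := by
  set bx := x + grad W x
  set I := Icc (0 : ℝ) (1 / 4)
  have h0 : (0 : ℝ) ∈ I := ⟨le_rfl, by norm_num⟩
  obtain ⟨M, hM, h⟩ := second_order_bound (c := ‖bx‖) (u := fun t => traj W x v t - x)
    (fun t ht => (hW.hasDerivWithinAt_traj x v ht).sub_const x)
    (fun t ht => hW.hasDerivWithinAt_vel x v ht)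
    (fun t _ => by
      rw [norm_neg]
      refine (norm_le_norm_add_norm_sub' _ bx).trans ?_
      linarith [hW.force_lipschitz (traj W x v t) x])
  simp only [hW.traj_zero, hW.vel_zero, sub_self, norm_zero] at hM h
  set K := 2 * ‖v‖ + ‖bx‖
  have hK : 0 ≤ K := by positivity
  have hMn : 0 ≤ M := (norm_nonneg _).trans (h 0 h0).1
  have hw : ∀ t ∈ I, ‖vel W x v t‖ ≤ K := fun t ht => by
    linarith [norm_le_norm_add_norm_sub' (vel W x v t) v, (h t ht).2.1, norm_nonneg bx, norm_nonneg v]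
  have hu : ∀ t ∈ I, ‖traj W x v t - x‖ ≤ K * t := by
    intro t ht
    have := (convex_Icc (0 : ℝ) (1 / 4)).norm_image_sub_le_of_norm_hasDerivWithin_le
      (fun t ht => hW.hasDerivWithinAt_traj x v ht) hw h0 ht
    rwa [hW.traj_zero, sub_zero, Real.norm_eq_abs, abs_of_nonneg ht.1] at this
  have hsub : Icc (0 : ℝ) τ ⊆ I := fun t ht => ⟨ht.1, ht.2.trans hτ.2⟩
  have hv : ∀ t ∈ Icc (0 : ℝ) τ, ‖vel W x v t - (v - t • bx)‖ ≤ 2 * K * τ ^ 2 := by
    intro t ht
    have hd : ∀ r ∈ Icc (0 : ℝ) τ, HasDerivWithinAt (fun r => vel W x v r + r • bx)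
        (bx - (traj W x v r + grad W (traj W x v r))) (Icc (0 : ℝ) τ) r := fun r hr =>
      (((hW.hasDerivWithinAt_vel x v (hsub hr)).mono hsub).add
        ((hasDerivWithinAt_id r _).smul_const bx)).congr_deriv (by simp; abel)
    have := (convex_Icc (0 : ℝ) τ).norm_image_sub_le_of_norm_hasDerivWithin_le hd
      (fun r hr => (by
        rw [norm_sub_rev]
        refine (hW.force_lipschitz _ x).trans ?_
        nlinarith [hu r (hsub hr), mul_le_mul_of_nonneg_left hr.2 hK] :
          ‖bx - (traj W x v r + grad W (traj W x v r))‖ ≤ 2 * K * τ)) ⟨le_rfl, hτ.1⟩ ht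
    simp only [zero_smul, add_zero, hW.vel_zero, sub_zero, Real.norm_eq_abs,
      abs_of_nonneg ht.1] at this
    rw [show vel W x v t - (v - t • bx) = vel W x v t + t • bx - v by abel]
    nlinarith [mul_le_mul_of_nonneg_left ht.2 (mul_nonneg (by positivity : 0 ≤ 2 * K) hτ.1)]
  have hd : ∀ r ∈ Icc (0 : ℝ) τ,
      HasDerivWithinAt (fun r => traj W x v r - (x + r • v - (r ^ 2 / 2) • bx))
        (vel W x v r - (v - r • bx)) (Icc (0 : ℝ) τ) r := fun r hr =>
    (((hW.hasDerivWithinAt_traj x v (hsub hr)).mono hsub).sub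
      ((((hasDerivWithinAt_id r _).smul_const v).const_add x).sub
        ((((hasDerivWithinAt_id r _).pow 2).div_const 2).smul_const bx))).congr_deriv (by simp)
  have := (convex_Icc (0 : ℝ) τ).norm_image_sub_le_of_norm_hasDerivWithin_le hd hv
    ⟨le_rfl, hτ.1⟩ (right_mem_Icc.2 hτ.1)
  simp only [hW.traj_zero, zero_smul, ne_eq, OfNat.ofNat_ne_zero, not_false_eq_true, zero_pow,
    zero_div, add_zero, sub_zero, sub_self, Real.norm_eq_abs, abs_of_nonneg hτ.1] at this
  linarith

theorem ula_succ_sub_le {τ : ℝ} (hτ : τ ∈ Icc (0 : ℝ) (1 / 4)) (p : E d × (Fin n → E d)) {i : ℕ}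
    (hi : i < n) :
    ‖ula W τ (i + 1) (extend p.2) - statPos W τ (i + 1) p‖ ≤
      ulaRho τ * ‖ula W τ i (extend p.2) - statPos W τ i p‖ +
        τ ^ 3 * (2 * (2 * ‖p.2 ⟨i, hi⟩‖ +
          ‖statPos W τ i p + grad W (statPos W τ i p)‖)) := by
  rw [statPos_succ hi]
  set X := ula W τ i (extend p.2)
  set Y := statPos W τ i p
  set v := p.2 ⟨i, hi⟩
  have hv : extend p.2 i = v := by simp [extend, hi, v]
  have e : ula W τ (i + 1) (extend p.2) - traj W Y v τ =
      ((X - Y) - (τ ^ 2 / 2) • ((X - Y) + (grad W X - grad W Y))) -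
        (traj W Y v τ - (Y + τ • v - (τ ^ 2 / 2) • (Y + grad W Y))) := by
    simp only [ula, hv]; module
  rw [e]
  refine (norm_sub_le _ _).trans (add_le_add
    (norm_gradient_step_le (by nlinarith [hτ.1, hτ.2]) (by rw [real_inner_comm]; exact hW.grad_mono X Y)
      (hW.grad_lipschitz_one X Y)) ?_)
  exact (hW.traj_expansion hτ Y v).trans_eq (by ring)

/-- All moments of the coupling distance. -/
theorem ula_coupling (q : ℕ) : ∃ M : ℝ, 0 ≤ M ∧ ∀ (n : ℕ) (τ : ℝ), 0 < τ → τ ≤ 1 / 4 →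
    Integrable (fun p => ‖ula W τ n (extend p.2) - statPos W τ n p‖ ^ q)
        ((law W).prod (velLaw d n)) ∧
      ∫ p, ‖ula W τ n (extend p.2) - statPos W τ n p‖ ^ q ∂(law W).prod (velLaw d n) ≤
        M * (ulaRho τ ^ n + τ ^ q) := by
  have := hW.isProbabilityMeasure_law
  set D : E d × E d → ℝ := fun z => (2 * (2 * ‖z.2‖ + ‖z.1 + grad W z.1‖)) ^ q
  have hDc : Continuous D := by
    have := hW.contDiff_grad.continuous
    fun_prop
  have hDp : PolyBd D :=
    ((PolyBd.const 2).mul (((PolyBd.const 2).mul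
      (PolyBd.id.of_le fun z : E d × E d => norm_snd_le z).norm).add
        (((PolyBd.id.add hW.polyBd_grad).norm).comp
          (PolyBd.id.of_le fun z : E d × E d => norm_fst_le z)))).pow q
  have hDi : Integrable D ((law W).prod (stdGaussian (E d))) := Deriv.integrable_mu hW hDp hDc
  have hzi : Integrable (fun x => ‖x‖ ^ q) (law W) :=
    hW.integrable_law (PolyBd.id.norm.pow q) (by fun_prop)
  set MD := ∫ z, D z ∂(law W).prod (stdGaussian (E d))
  set Mz := ∫ x, ‖x‖ ^ q ∂law W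
  have hMD : 0 ≤ MD := integral_nonneg fun z => by positivity
  have hMz : 0 ≤ Mz := integral_nonneg fun z => by positivity
  refine ⟨Mz + 4 ^ q * MD, by positivity, fun n τ hτ0 hτ4 => ?_⟩
  have hτ : τ ∈ Icc (0 : ℝ) (1 / 4) := ⟨hτ0.le, hτ4⟩
  set ρ := ulaRho τ
  set P := (law W).prod (velLaw d n)
  have hρ0 : 0 ≤ ρ := ulaRho_nonneg τ
  have hgap : τ ^ 2 / 4 ≤ 1 - ρ := one_sub_ulaRho (by nlinarith)
  have hρ1 : 0 < 1 - ρ := lt_of_lt_of_le (by positivity) hgap
  set A := (τ ^ 3 / (1 - ρ)) ^ q * MD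
  have hA : 0 ≤ A := by positivity
  have hmeas : ∀ i, AEStronglyMeasurable
      (fun p => ‖ula W τ i (extend p.2) - statPos W τ i p‖ ^ q) P := fun i => by
    refine ((Measurable.sub ?_ (hW.measurePreserving_statPos hτ i).measurable).norm.pow_const
      q).aestronglyMeasurable
    refine (Continuous.comp (g := fun v : ℕ → E d => ula W τ i v) (hW.continuous_ula τ i) ?_).measurable
    refine continuous_pi fun j => ?_
    unfold extend; split_ifs <;> fun_prop
  have key : ∀ i ≤ n, Integrable (fun p => ‖ula W τ i (extend p.2) - statPos W τ i p‖ ^ q) P ∧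
      ∫ p, ‖ula W τ i (extend p.2) - statPos W τ i p‖ ^ q ∂P ≤ ρ ^ i * Mz + A := by
    intro i
    induction i with
    | zero =>
      intro _
      have e : (fun p : E d × (Fin n → E d) =>
          ‖ula W τ 0 (extend p.2) - statPos W τ 0 p‖ ^ q) = fun p => ‖p.1‖ ^ q := by
        funext p; simp [ula, statPos, state]
      rw [e]
      refine ⟨hzi.comp_fst _, ?_⟩
      rw [integral_fun_fst (f := fun x => ‖x‖ ^ q)]
      simp only [probReal_univ, one_smul, pow_zero, one_mul]
      linarith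
    | succ i ih =>
      intro hi
      obtain ⟨hI, hE⟩ := ih (Nat.le_of_succ_le hi)
      have hmp := hW.measurePreserving_pair hτ (⟨i, hi⟩ : Fin n)
      have hD' : Integrable (fun p => D (statPos W τ i p, p.2 ⟨i, hi⟩)) P :=
        hmp.integrable_comp_of_integrable hDi
      set G := fun p => ρ * ‖ula W τ i (extend p.2) - statPos W τ i p‖ ^ q +
        (1 - ρ) * ((τ ^ 3 / (1 - ρ)) ^ q * D (statPos W τ i p, p.2 ⟨i, hi⟩))
      have hG : Integrable G P := (hI.const_mul ρ).add ((hD'.const_mul _).const_mul _)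
      have hle : ∀ p, ‖ula W τ (i + 1) (extend p.2) - statPos W τ (i + 1) p‖ ^ q ≤ G p := by
        intro p
        refine (pow_le_pow_left₀ (norm_nonneg _) (hW.ula_succ_sub_le hτ p hi) q).trans ?_
        set a := ‖ula W τ i (extend p.2) - statPos W τ i p‖
        set r := 2 * (2 * ‖p.2 ⟨i, hi⟩‖ + ‖statPos W τ i p + grad W (statPos W τ i p)‖)
        have hr : 0 ≤ r := by positivity
        have h := (convexOn_pow q).2 (mem_Ici.2 (norm_nonneg _ : 0 ≤ a))
          (mem_Ici.2 (by positivity : 0 ≤ τ ^ 3 / (1 - ρ) * r)) hρ0 hρ1.le (by ring)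
        simp only [smul_eq_mul] at h
        calc (ρ * a + τ ^ 3 * r) ^ q = (ρ * a + (1 - ρ) * (τ ^ 3 / (1 - ρ) * r)) ^ q := by
              congr 1; field_simp
          _ ≤ _ := h.trans_eq (by simp only [G, D, r, mul_pow])
      refine ⟨hG.mono' (hmeas _) (ae_of_all _ fun p => ?_), ?_⟩
      · rw [Real.norm_eq_abs, abs_of_nonneg (by positivity)]; exact hle p
      refine (integral_mono_of_nonneg (ae_of_all _ fun p => by positivity) hG
        (ae_of_all _ hle)).trans ?_
      have hmapD : ∫ p, D (statPos W τ i p, p.2 ⟨i, hi⟩) ∂P = MD := by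
        simp only [MD]
        conv_rhs => rw [← hmp.map_eq]
        exact (integral_map hmp.measurable.aemeasurable hDc.aestronglyMeasurable).symm
      simp only [G]
      rw [integral_add (hI.const_mul ρ) ((hD'.const_mul _).const_mul _), integral_const_mul,
        integral_const_mul, integral_const_mul, hmapD]
      refine (add_le_add_left (mul_le_mul_of_nonneg_left hE hρ0) _).trans_eq ?_
      simp only [A]; ring
  obtain ⟨hI, hE⟩ := key n le_rfl
  refine ⟨hI, hE.trans ?_⟩
  have hA' : A ≤ τ ^ q * (4 ^ q * MD) := by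
    rw [← mul_assoc, ← mul_pow]
    refine mul_le_mul_of_nonneg_right (pow_le_pow_left₀ (by positivity) ?_ q) hMD
    rw [div_le_iff₀ hρ1]
    nlinarith [mul_le_mul_of_nonneg_left hgap (by linarith : (0 : ℝ) ≤ τ * 4)]
  have : 0 ≤ ρ ^ n * (4 ^ q * MD) := by positivity
  have : 0 ≤ τ ^ q * Mz := by positivity
  nlinarith

end Pert

/-- step sizes -/
noncomputable def ulaStep (j : ℕ) : ℝ := 1 / (4 * ((j : ℝ) + 1))

theorem ulaStep_mem (j : ℕ) : 0 < ulaStep j ∧ ulaStep j ≤ 1 / 4 := by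
  refine ⟨by unfold ulaStep; positivity, ?_⟩
  unfold ulaStep
  exact one_div_le_one_div_of_le (by norm_num) (by linarith [j.cast_nonneg (α := ℝ)])

theorem tendsto_ulaStep : Tendsto ulaStep atTop (𝓝 0) := by
  have h := tendsto_one_div_add_atTop_nhds_zero_nat (𝕜 := ℝ)
  have := h.const_mul (1 / 4)
  simp only [mul_zero] at this
  refine this.congr fun j => ?_
  simp only [ulaStep, one_div, mul_inv]

theorem tendsto_rho_pow : Tendsto (fun j => ulaRho (ulaStep j) ^ ((j + 1) ^ 4)) atTop (𝓝 0) := by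
  have h := tendsto_exp_neg_atTop_nhds_zero.comp
    ((tendsto_natCast_atTop_atTop (R := ℝ)).atTop_mul_const (by norm_num : (0 : ℝ) < 1 / 64))
  refine squeeze_zero (fun j => pow_nonneg (ulaRho_nonneg _) _) (fun j => ?_) h
  obtain ⟨h0, h1⟩ := ulaStep_mem j
  have hg := one_sub_ulaRho (τ := ulaStep j) (by nlinarith)
  refine (pow_le_pow_left₀ (ulaRho_nonneg _)
    ((by linarith : ulaRho (ulaStep j) ≤ 1 - ulaStep j ^ 2 / 4).trans (one_sub_le_exp_neg _)) _).trans ?_
  rw [← exp_nat_mul, Function.comp_apply]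
  refine exp_le_exp.2 ?_
  have hj : (0 : ℝ) ≤ j := j.cast_nonneg
  have e : (((j + 1) ^ 4 : ℕ) : ℝ) * (ulaStep j ^ 2 / 4) = ((j : ℝ) + 1) ^ 2 / 64 := by
    simp only [ulaStep]; push_cast; field_simp; ring
  simp only [mul_neg, neg_le_neg_iff, e]
  nlinarith

namespace Pert

variable {η B : ℝ} {W : E d → ℝ} (hW : Pert η B W)
include hW

/-- The laws of the chain tend to `law W` on tests of polynomial growth. -/
theorem tendsto_ula {φ : E d → ℝ} (hφ : ContDiff ℝ 1 φ) (hp : PolyBd φ)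
    (hp' : PolyBd fun x => fderiv ℝ φ x) :
    Tendsto (fun j : ℕ => ∫ R, φ (ula W (ulaStep j) ((j + 1) ^ 4) (extend (WithLp.ofLp R)))
      ∂stdGaussian (Noise d (Fin ((j + 1) ^ 4)))) atTop (𝓝 (∫ x, φ x ∂law W)) := by
  have := hW.isProbabilityMeasure_law
  obtain ⟨C, k, hC, hbd⟩ := hp'
  have hlip : ∀ a b, |φ a - φ b| ≤
      C * 2 ^ k * (2 ^ k * (‖a - b‖ * (1 + ‖b‖) ^ k) + ‖a - b‖ ^ (k + 1)) := by
    intro a b
    have hin : ∀ z ∈ segment ℝ b a, ‖fderiv ℝ φ z‖ ≤ C * (1 + ‖b‖ + ‖a - b‖) ^ k := by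
      intro z hz
      refine (hbd z).trans (mul_le_mul_of_nonneg_left (pow_le_pow_left₀ (by positivity) ?_ k) hC)
      have := norm_sub_le_of_mem_segment hz
      linarith [norm_le_norm_add_norm_sub' z b]
    have h := (convex_segment b a).norm_image_sub_le_of_norm_fderiv_le
      (fun z _ => hφ.differentiable one_ne_zero z) hin (left_mem_segment ℝ b a)
      (right_mem_segment ℝ b a)
    rw [Real.norm_eq_abs] at h
    refine h.trans ?_
    have h2 := add_pow_le (by positivity : 0 ≤ 1 + ‖b‖) (norm_nonneg (a - b)) k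
    have h3 : (2 : ℝ) ^ (k - 1) ≤ 2 ^ k := pow_le_pow_right₀ one_le_two (by omega)
    have h4 : (1 : ℝ) ≤ 2 ^ k := one_le_pow₀ one_le_two
    have hX : 0 ≤ (1 + ‖b‖) ^ k := by positivity
    have hY : 0 ≤ ‖a - b‖ ^ k := by positivity
    calc C * (1 + ‖b‖ + ‖a - b‖) ^ k * ‖a - b‖
        ≤ C * (2 ^ k * (2 ^ k * (1 + ‖b‖) ^ k + ‖a - b‖ ^ k)) * ‖a - b‖ := by
          gcongr
          refine h2.trans (mul_le_mul h3 ?_ (by positivity) (by positivity))
          linarith [mul_le_mul_of_nonneg_right h4 hX]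
      _ = _ := by ring
  obtain ⟨M2, hM2, h2⟩ := hW.ula_coupling 2
  obtain ⟨Mk, hMk, hk⟩ := hW.ula_coupling (k + 1)
  have hNi : Integrable (fun x => (1 + ‖x‖) ^ (2 * k)) (law W) :=
    hW.integrable_law (((PolyBd.const 1).add PolyBd.id.norm).pow _) (by fun_prop)
  set N := ∫ x, (1 + ‖x‖) ^ (2 * k) ∂law W
  set K := C * 2 ^ k * 2 ^ k
  have hN : 0 ≤ N := integral_nonneg fun x => by positivity
  have hK : 0 ≤ K := by positivity
  set diff := fun j : ℕ => |(∫ R, φ (ula W (ulaStep j) ((j + 1) ^ 4) (extend (WithLp.ofLp R)))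
      ∂stdGaussian (Noise d (Fin ((j + 1) ^ 4)))) - ∫ x, φ x ∂law W|
  set S := fun j : ℕ => M2 * (ulaRho (ulaStep j) ^ ((j + 1) ^ 4) + ulaStep j ^ 2)
  set T := fun j : ℕ => Mk * (ulaRho (ulaStep j) ^ ((j + 1) ^ 4) + ulaStep j ^ (k + 1))
  have key : ∀ ε > 0, ∀ j, diff j ≤ K * (S j / (2 * ε) + ε * N / 2 + T j) := by
    intro ε hε j
    obtain ⟨h0, h1⟩ := ulaStep_mem j
    set τ := ulaStep j
    set n := (j + 1) ^ 4
    obtain ⟨i2, e2⟩ := h2 n τ h0 h1
    obtain ⟨ik, ek⟩ := hk n τ h0 h1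
    have hτ : τ ∈ Icc (0 : ℝ) (1 / 4) := ⟨h0.le, h1⟩
    set P := (law W).prod (velLaw d n)
    have hmpY := hW.measurePreserving_statPos (L := n) hτ n
    have hXc : Continuous fun v : Fin n → E d => ula W τ n (extend v) := by
      refine Continuous.comp (g := fun v : ℕ → E d => ula W τ n v) (hW.continuous_ula τ n)
        (continuous_pi fun i => ?_)
      unfold extend; split_ifs <;> fun_prop
    have eX : ∫ R, φ (ula W τ n (extend (WithLp.ofLp R))) ∂stdGaussian (Noise d (Fin n)) =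
        ∫ p, φ (ula W τ n (extend p.2)) ∂P := by
      rw [← map_toLp_velLaw, integral_map (f := fun R : Noise d (Fin n) =>
          φ (ula W τ n (extend (WithLp.ofLp R))))
          (PiLp.continuous_toLp 2 _).measurable.aemeasurable
        ((hφ.continuous.comp hXc).comp (PiLp.continuous_ofLp 2 _)).aestronglyMeasurable,
        integral_fun_snd (f := fun v : Fin n → E d => φ (ula W τ n (extend v)))]
      simp
    have iY : Integrable (fun p => φ (statPos W τ n p)) P :=
      hmpY.integrable_comp_of_integrable (hW.integrable_law hp hφ.continuous)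
    have iN : Integrable (fun p => (1 + ‖statPos W τ n p‖) ^ (2 * k)) P :=
      hmpY.integrable_comp_of_integrable hNi
    have eY : ∫ p, φ (statPos W τ n p) ∂P = ∫ x, φ x ∂law W := by
      conv_rhs => rw [← hmpY.map_eq]
      exact (integral_map hmpY.measurable.aemeasurable hφ.continuous.aestronglyMeasurable).symm
    have eN : ∫ p, (1 + ‖statPos W τ n p‖) ^ (2 * k) ∂P = N := by
      simp only [N]
      conv_rhs => rw [← hmpY.map_eq]
      exact (integral_map (f := fun x : E d => (1 + ‖x‖) ^ (2 * k)) hmpY.measurable.aemeasurable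
        (Continuous.aestronglyMeasurable (by fun_prop))).symm
    set G := fun p => K * (‖ula W τ n (extend p.2) - statPos W τ n p‖ ^ 2 / (2 * ε) +
      ε * (1 + ‖statPos W τ n p‖) ^ (2 * k) / 2 +
        ‖ula W τ n (extend p.2) - statPos W τ n p‖ ^ (k + 1))
    have hG : Integrable G P :=
      (((i2.div_const _).add ((iN.const_mul ε).div_const 2)).add ik).const_mul K
    have hpt : ∀ p, |φ (ula W τ n (extend p.2)) - φ (statPos W τ n p)| ≤ G p := by
      intro p
      refine (hlip _ _).trans ?_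
      set e := ‖ula W τ n (extend p.2) - statPos W τ n p‖
      set u := 1 + ‖statPos W τ n p‖
      have hu : e * u ^ k ≤ e ^ 2 / (2 * ε) + ε * u ^ (2 * k) / 2 := by
        rw [pow_mul' u 2 k, div_add_div _ _ (by positivity) two_ne_zero, le_div_iff₀ (by positivity)]
        nlinarith [sq_nonneg (e - ε * u ^ k)]
      have he : 0 ≤ e ^ (k + 1) := pow_nonneg (norm_nonneg _) _
      simp only [G, K]
      rw [mul_assoc (C * 2 ^ k)]
      refine mul_le_mul_of_nonneg_left ?_ (by positivity)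
      calc 2 ^ k * (e * u ^ k) + e ^ (k + 1)
          ≤ 2 ^ k * (e ^ 2 / (2 * ε) + ε * u ^ (2 * k) / 2) + 2 ^ k * e ^ (k + 1) :=
            add_le_add (mul_le_mul_of_nonneg_left hu (by positivity))
              (le_mul_of_one_le_left he (one_le_pow₀ one_le_two))
        _ = _ := by ring
    have iX : Integrable (fun p => φ (ula W τ n (extend p.2))) P := by
      have := hG.mono' ((hφ.continuous.comp (hXc.comp continuous_snd)).measurable.sub
        (hφ.continuous.measurable.comp hmpY.measurable)).aestronglyMeasurable (ae_of_all _ hpt)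
      exact (this.add iY).congr (ae_of_all _ fun p => by simp)
    show |(∫ R, φ (ula W τ n (extend (WithLp.ofLp R))) ∂stdGaussian (Noise d (Fin n))) -
      ∫ x, φ x ∂law W| ≤ _
    rw [eX, ← eY, ← integral_sub iX iY]
    refine (norm_integral_le_of_norm_le (G := ℝ) hG (ae_of_all _ hpt)).trans ?_
    simp only [G]
    rw [integral_const_mul,
      integral_add (f := fun p => _ + _) ((i2.div_const _).add ((iN.const_mul ε).div_const 2)) ik,
      integral_add (i2.div_const _) ((iN.const_mul ε).div_const 2), integral_div, integral_div,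
      integral_const_mul, eN]
    refine mul_le_mul_of_nonneg_left (add_le_add (add_le_add_left ?_ _) ek) hK
    exact div_le_div_of_nonneg_right e2 (by positivity)
  have hτlim : ∀ q : ℕ, q ≠ 0 → Tendsto (fun j => ulaRho (ulaStep j) ^ ((j + 1) ^ 4) +
      ulaStep j ^ q) atTop (𝓝 0) := fun q hq => by
    simpa [zero_pow hq] using tendsto_rho_pow.add (tendsto_ulaStep.pow q)
  rw [tendsto_iff_norm_sub_tendsto_zero]
  simp only [Real.norm_eq_abs]
  refine Metric.tendsto_atTop.2 fun δ hδ => ?_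
  set ε := δ / (K * N + 1) with hεdef
  have hKN : 0 ≤ K * N := mul_nonneg hK hN
  have hε : 0 < ε := by positivity
  have hlim : Tendsto (fun j => K * (S j / (2 * ε) + ε * N / 2 + T j)) atTop
      (𝓝 (K * (ε * N / 2))) := by
    simpa using ((((hτlim 2 two_ne_zero).const_mul M2).div_const (2 * ε)).add_const
      (ε * N / 2) |>.add ((hτlim (k + 1) (by omega)).const_mul Mk)).const_mul K
  have hlt : K * (ε * N / 2) < δ := by
    have : ε * (K * N + 1) = δ := by rw [hεdef]; field_simp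
    nlinarith
  obtain ⟨J, hJ⟩ := eventually_atTop.1 (hlim.eventually_lt_const hlt)
  exact ⟨J, fun j hj => by
    rw [Real.dist_0_eq_abs, abs_abs]; exact (key ε hε j).trans_lt (hJ j hj)⟩

/-- The Poincaré inequality of `law W` with constant one. -/
theorem poincare_exact {f : E d → ℝ} (hf : Deriv.Good 2 f) :
    ∫ x, f x ^ 2 ∂law W - (∫ x, f x ∂law W) ^ 2 ≤ ∫ x, ‖fderiv ℝ f x‖ ^ 2 ∂law W := by
  have hf1 : ContDiff ℝ 1 f := hf.contDiff_one
  set G : E d → ℝ := fun x => ‖fderiv ℝ f x‖ ^ 2 with hG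
  have eG : G = fun x => ∑ i, Deriv.dd (Deriv.bas i) f x ^ 2 := by
    funext x
    set g := (InnerProductSpace.toDual ℝ (E d)).symm (fderiv ℝ f x) with hg
    have hn : ‖g‖ = ‖fderiv ℝ f x‖ := by simp [hg]
    show ‖fderiv ℝ f x‖ ^ 2 = _
    rw [← hn, ← (EuclideanSpace.basisFun (Fin d) ℝ).sum_sq_inner_left g]
    refine Finset.sum_congr rfl fun i _ => ?_
    simp [hg, Deriv.dd, Deriv.bas, InnerProductSpace.toDual_symm_apply]
  have hGg : Deriv.Good 1 G := by
    rw [eG]; exact Deriv.Good.sum _ fun i _ => (hf.dd _).sq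
  have h1 := hW.tendsto_ula hf1 hf.polyBd hf.polyBd_fderiv
  have hf2 : Deriv.Good 2 fun x => f x ^ 2 := hf.sq
  have h2 := hW.tendsto_ula hf2.contDiff_one hf2.polyBd hf2.polyBd_fderiv
  have h3 := hW.tendsto_ula hGg.contDiff_one hGg.polyBd hGg.polyBd_fderiv
  have hc : Tendsto (fun j => 1 / (1 - ulaStep j ^ 2 / 2)) atTop (𝓝 1) := by
    have := (tendsto_const_nhds (x := (1 : ℝ))).div
      (((tendsto_ulaStep.pow 2).div_const 2).const_sub 1) (by norm_num)
    simpa [Pi.div_apply, one_div, Pi.div_def] using this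
  have h4 := hc.mul h3
  rw [one_mul] at h4
  refine le_of_tendsto_of_tendsto' (h2.sub (h1.pow 2)) h4 fun j => ?_
  set τ := ulaStep j
  set n := (j + 1) ^ 4
  have hτ : τ ^ 2 ≤ 1 := by nlinarith [(ulaStep_mem j).1, (ulaStep_mem j).2]
  set c := 1 / (1 - τ ^ 2 / 2)
  set X := fun R : Noise d (Fin n) => ula W τ n (extend (WithLp.ofLp R))
  have hX : ContDiff ℝ 1 X := hW.contDiff_ula τ n
  have hXd : ∀ R, ‖fderiv ℝ X R‖ ≤ √c := hW.norm_fderiv_ula_le hτ
  have hXp : PolyBd X := PolyBd.of_lipschitz (sqrt_nonneg c) fun a b =>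
    convex_univ.norm_image_sub_le_of_norm_fderiv_le
      (fun z _ => hX.differentiable one_ne_zero z) (fun z _ => hXd z) (mem_univ b) (mem_univ a)
  have hd : ∀ R, ‖fderiv ℝ (fun R => f (X R)) R‖ ≤ ‖fderiv ℝ f (X R)‖ * √c := fun R => by
    have h := ((hf1.differentiable one_ne_zero (X R)).hasFDerivAt.comp R
      (hX.differentiable one_ne_zero R).hasFDerivAt).fderiv
    rw [Function.comp_def] at h
    rw [h]
    exact (ContinuousLinearMap.opNorm_comp_le _ _).trans
      (mul_le_mul_of_nonneg_left (hXd R) (norm_nonneg _))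
  have hfp' : PolyBd fun R => fderiv ℝ (fun R => f (X R)) R :=
    (hf.polyBd_fderiv.comp hXp).mul_of_le (PolyBd.const (√c)) fun R => by
      rw [Real.norm_eq_abs, abs_of_nonneg (sqrt_nonneg c)]; exact hd R
  refine (gauss_poincare (hf1.comp hX) (hf.polyBd.comp hXp) hfp').trans ?_
  rw [← integral_const_mul]
  refine integral_mono ((hfp'.norm.pow 2).integrable _
      (((hf1.comp hX).continuous_fderiv one_ne_zero).norm.pow 2).aestronglyMeasurable)
    (((hGg.polyBd.comp hXp).integrable _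
      (hGg.continuous.comp hX.continuous).aestronglyMeasurable).const_mul c) fun R => ?_
  refine (pow_le_pow_left₀ (norm_nonneg _) (hd R) 2).trans_eq ?_
  have : 0 ≤ c := by have : 0 < 1 - τ ^ 2 / 2 := by linarith
                     positivity
  rw [mul_pow, Real.sq_sqrt this, mul_comm]

end Pert

end Vale.Agent.P347
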