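import Vale.Agent.P347.LangPoincare

/-!
# P347: exponential tilts of a perturbed Gaussian and their Appell functions

`tm W f H ξ` is the mean of `z ↦ f z * H (ξ, z)` under the law tilted by `ξ`.  Its derivatives in
`ξ` are means of `f` times Appell functions `qf`; the Poincaré inequality bounds the
Hilbert-Schmidt norm of each derivative by the standard deviation of `f`.
-/

open MeasureTheory ProbabilityTheory Real Set Function
open scoped RealInnerProductSpace

namespace Vale.Agent.P347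

open Deriv

variable {d : ℕ}

/-- exponential tilt -/
noncomputable def tilt (W : E d → ℝ) (ξ z : E d) : ℝ := W z - ⟪ξ, z⟫

/-- a perturbation with Hessian in `[0, 1]`, with the least bound on the gradient at zero -/
theorem pert_of_hess {W : E d → ℝ} (hW : ContDiff ℝ 2 W)
    (h0 : ∀ x v, 0 ≤ ⟪fderiv ℝ (grad W) x v, v⟫)
    (h1 : ∀ x v, ⟪fderiv ℝ (grad W) x v, v⟫ ≤ ‖v‖ ^ 2) :
    Pert 1 (‖grad W 0‖ / √d) W := by
  refine ⟨zero_le_one, le_rfl, by positivity, hW, h0, fun x v => by simpa using h1 x v, ?_⟩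
  rw [one_mul]
  rcases Nat.eq_zero_or_pos d with rfl | hd
  · simp [Subsingleton.elim (grad W 0) 0]
  · rw [div_mul_cancel₀ _ (Real.sqrt_pos.2 (Nat.cast_pos.2 hd)).ne']

theorem inner_hasFDerivAt (ξ z : E d) :
    HasFDerivAt (fun x : E d => ⟪ξ, x⟫) (innerSL ℝ ξ) z :=
  (innerSL ℝ ξ).hasFDerivAt

theorem grad_tilt {W : E d → ℝ} (hW : ContDiff ℝ 2 W) (ξ z : E d) :
    grad (tilt W ξ) z = grad W z - ξ := by
  refine ext_inner_right ℝ fun v => ?_
  have h : HasFDerivAt (tilt W ξ) (fderiv ℝ W z - innerSL ℝ ξ) z :=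
    ((hW.differentiable (by norm_num) z).hasFDerivAt).sub (inner_hasFDerivAt ξ z)
  rw [inner_grad, h.fderiv, inner_sub_left, inner_grad]
  simp

/-- the mean of `f z * H (ξ, z)` under the tilt by `ξ`, unnormalized -/
noncomputable def nm (W f : E d → ℝ) (H : Z d → ℝ) (ξ : E d) : ℝ :=
  ∫ z, exp (-pot (tilt W ξ) z) * (f z * H (ξ, z))

/-- the mean of `f z * H (ξ, z)` under the tilt by `ξ` -/
noncomputable def tm (W f : E d → ℝ) (H : Z d → ℝ) (ξ : E d) : ℝ :=
  ∫ z, f z * H (ξ, z) ∂law (tilt W ξ)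

/-- the coordinate `⟪z, v⟫` -/
noncomputable def zc (v : E d) (p : Z d) : ℝ := ⟪p.2, v⟫

/-- derivative rule of the unnormalized mean -/
noncomputable def opD (v : E d) (H : Z d → ℝ) (p : Z d) : ℝ := dd (v, 0) H p + zc v p * H p

theorem good_zc (n : ℕ) (v : E d) : Good n (zc v) := by
  have e : zc v = fun p : Z d => innerSL ℝ v (ContinuousLinearMap.snd ℝ (E d) (E d) p) := by
    funext p; simp [zc, real_inner_comm]
  rw [e]
  exact (good_linear n (innerSL ℝ v)).comp _

theorem dd_zc (e v : E d) (p : Z d) : dd ((0, e) : Z d) (zc v) p = ⟪e, v⟫ := by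
  have h : zc v = ⇑((innerSL ℝ v).comp (ContinuousLinearMap.snd ℝ (E d) (E d))) := by
    funext q; simp [zc, real_inner_comm]
  rw [h, Deriv.dd, ContinuousLinearMap.fderiv]
  simp [real_inner_comm e]

theorem good_opD {H : Z d → ℝ} (hH : ∀ n, Good n H) (v : E d) (n : ℕ) : Good n (opD v H) :=
  ((hH (n + 1)).dd _).add ((good_zc n v).mul (hH n))

theorem norm_fderiv_pow_sq_le (m : ℕ) (z : E d) :
    ‖fderiv ℝ (fun z : E d => (1 + ‖z‖ ^ 2) ^ m) z‖ ^ 2 ≤
      4 * (m : ℝ) ^ 2 * (1 + ‖z‖ ^ 2) ^ (2 * m - 1) := by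
  rcases Nat.eq_zero_or_pos m with rfl | hm
  · simp
  have hd : HasFDerivAt (fun z : E d => (1 + ‖z‖ ^ 2) ^ m)
      ((2 * (m : ℝ) * (1 + ‖z‖ ^ 2) ^ (m - 1)) • innerSL ℝ z) z :=
    ((hasStrictFDerivAt_norm_sq z).hasFDerivAt.const_add 1).pow m |>.congr_fderiv (by
      ext v; simp; ring)
  rw [hd.fderiv, norm_smul, innerSL_apply_norm, Real.norm_eq_abs, abs_of_nonneg (by positivity),
    show 2 * m - 1 = (m - 1) * 2 + 1 by omega, pow_succ _ ((m - 1) * 2), pow_mul, mul_pow, mul_pow]
  nlinarith [mul_nonneg (sq_nonneg ((m : ℝ))) (sq_nonneg ((1 + ‖z‖ ^ 2) ^ (m - 1)))]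

theorem pow_pred_le {S c : ℝ} (hS : 0 ≤ S) (hc : 0 < c) {m : ℕ} (hm : 1 ≤ m) :
    S ^ (2 * m - 1) ≤ 1 / c * (S ^ m) ^ 2 + c ^ (2 * m - 1) := by
  rcases le_total S c with h | h
  · exact (pow_le_pow_left₀ hS h _).trans (le_add_of_nonneg_left (by positivity))
  · refine le_add_of_le_of_nonneg ?_ (by positivity)
    rw [one_div, inv_mul_eq_div, le_div_iff₀ hc, ← pow_mul,
      show m * 2 = (2 * m - 1) + 1 by omega, pow_succ]
    exact mul_le_mul_of_nonneg_left h (by positivity)

theorem good_one_add_sq_pow : ∀ (m n : ℕ), Good n fun z : E d => (1 + ‖z‖ ^ 2) ^ m := by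
  have hS : ∀ n, Good n fun z : E d => 1 + ‖z‖ ^ 2 := fun n => by
    have e : (fun z : E d => 1 + ‖z‖ ^ 2) =
        fun z => 1 + ∑ i, innerSL ℝ (bas i) z * innerSL ℝ (bas i) z := by
      funext z
      rw [← (EuclideanSpace.basisFun (Fin d) ℝ).sum_sq_inner_right z]
      simp [pow_two, bas]
    rw [e]
    exact (good_const n 1).add (Good.sum _ fun i _ => (good_linear n _).mul (good_linear n _))
  intro m
  induction m with
  | zero => intro n; simpa using good_const (V := E d) n (1 : ℝ)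
  | succ m ihm => intro n; simpa [pow_succ] using (ihm n).mul (hS n)

theorem Deriv.Good.sect : ∀ {n : ℕ} {f : Z d → ℝ}, Good n f → ∀ ξ : E d,
    Good n fun z => f (ξ, z)
  | 0, f, h, ξ => ⟨h.1.comp (continuous_const.prodMk continuous_id),
      h.2.comp (g := fun z : E d => ((ξ, z) : Z d))
        ((PolyBd.id.norm.add (PolyBd.const ‖ξ‖)).of_le fun z => by
          rw [Prod.norm_def, max_le_iff, Real.norm_eq_abs, abs_of_nonneg (by positivity)]
          constructor <;> linarith [norm_nonneg ξ, norm_nonneg z])⟩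
  | n + 1, f, h, ξ => by
    refine ⟨h.1.comp ((differentiable_const ξ).prodMk differentiable_id),
      (h.pred.sect ξ).polyBd, fun u => ?_⟩
    have e : Deriv.dd u (fun z => f (ξ, z)) = fun z => Deriv.dd ((0, u) : Z d) f (ξ, z) := by
      funext z
      have h' := (h.1 (ξ, z)).hasFDerivAt.comp z
        ((hasFDerivAt_const ξ z).prodMk (hasFDerivAt_id z))
      rw [Deriv.dd, show (fun z => f (ξ, z)) = f ∘ fun z => (ξ, z) from rfl, h'.fderiv]
      rfl
    rw [e]
    exact (h.2.2 _).sect ξ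

namespace Pert

variable {η B : ℝ} {W : E d → ℝ} (hW : Pert η B W)
include hW

theorem pert_tilt (ξ : E d) : Pert 1 (‖grad W 0 - ξ‖ / √d) (tilt W ξ) := by
  have hg : grad (tilt W ξ) = fun z => grad W z - ξ := funext fun z => grad_tilt hW.contDiff ξ z
  have hd : ∀ x, fderiv ℝ (grad (tilt W ξ)) x = fderiv ℝ (grad W) x := fun x => by
    rw [hg, fderiv_sub_const]
  have h := pert_of_hess (W := tilt W ξ) (hW.contDiff.sub (contDiff_const.inner ℝ contDiff_id))
    (fun x v => by rw [hd]; exact hW.hess_nonneg x v)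
    (fun x v => by
      rw [hd]; exact (hW.hess_le x v).trans (mul_le_of_le_one_left (sq_nonneg _) hW.eta_le_one))
  rwa [grad_tilt hW.contDiff] at h

theorem decay_tilt (ξ : E d) : Decay fun z => pot (tilt W ξ) z - ‖z‖ := by
  have hc : Continuous fun z : E d => pot (tilt W ξ) z - ‖z‖ :=
    (hW.pert_tilt ξ).decay.1.sub continuous_norm
  refine decay_of_quadratic hc (a := 1 / 2) (b := |W 0| + ‖grad W 0‖ + ‖ξ‖ + 1) (by norm_num)
    fun z => ?_
  have h := hW.lower z
  have h' := neg_le_of_abs_le (abs_real_inner_le_norm (grad W 0) z)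
  have h'' := le_of_abs_le (abs_real_inner_le_norm ξ z)
  unfold pot tilt
  nlinarith [neg_abs_le (W 0), norm_nonneg z, norm_nonneg (grad W 0), norm_nonneg ξ,
    mul_nonneg (abs_nonneg (W 0)) (norm_nonneg z)]

theorem hasFDerivAt_nm {f : E d → ℝ} (hf : Continuous f) (hfp : PolyBd f) {H : Z d → ℝ}
    (hH : Good 1 H) (ξ : E d) :
    ∃ L : E d →L[ℝ] ℝ, HasFDerivAt (nm W f H) L ξ ∧ ∀ v, L v = nm W f (opD v H) ξ := by
  set F' : E d → E d → (E d →L[ℝ] ℝ) := fun y z =>
    exp (-pot (tilt W y) z) • (f z • (H (y, z) • innerSL ℝ z +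
      (fderiv ℝ H (y, z)).comp (ContinuousLinearMap.inl ℝ (E d) (E d))))
  have hpc : ∀ y, Continuous (pot (tilt W y)) := fun y => (hW.pert_tilt y).decay.1
  have hHd : Continuous fun p => fderiv ℝ H p := hH.contDiff_one.continuous_fderiv one_ne_zero
  have hHp : PolyBd fun p : Z d =>
      |H p| * ‖p.2‖ + ‖fderiv ℝ H p‖ * ‖ContinuousLinearMap.inl ℝ (E d) (E d)‖ :=
    (hH.polyBd.norm.mul (PolyBd.id.of_le fun p : Z d => norm_snd_le p).norm).add
      (hH.polyBd_fderiv.norm.mul (PolyBd.const ‖ContinuousLinearMap.inl ℝ (E d) (E d)‖))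
  obtain ⟨C, k, hC, hbd⟩ := hHp
  set bd : E d → ℝ := fun z => exp (-(pot (tilt W ξ) z - ‖z‖)) •
    (|f z| * (C * (1 + (‖ξ‖ + 1 + ‖z‖)) ^ k))
  have hbdi : Integrable bd :=
    (hW.decay_tilt ξ).integrable (Continuous.aestronglyMeasurable (by fun_prop))
      (hfp.norm.mul ((PolyBd.const C).mul (((PolyBd.const 1).add
        ((PolyBd.const (‖ξ‖ + 1)).add PolyBd.id.norm)).pow k)))
  have hint : ∀ y, Integrable fun z => exp (-pot (tilt W y) z) * (f z * H (y, z)) := fun y => by
    simpa only [smul_eq_mul] using (hW.pert_tilt y).decay.integrable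
      (f := fun z => f z * H (y, z))
      (hf.mul (hH.sect y).continuous).aestronglyMeasurable (hfp.mul (hH.sect y).polyBd)
  have hFm : ∀ y, AEStronglyMeasurable (F' y) := fun y => by
    have := hpc y
    have h1 : Continuous fun z => H (y, z) := (hH.sect y).continuous
    have h2 : Continuous fun z => fderiv ℝ H (y, z) :=
      hHd.comp (continuous_const.prodMk continuous_id)
    exact (((hpc y).neg.rexp).smul (hf.smul ((h1.smul (innerSL ℝ).continuous).add
      (h2.clm_comp continuous_const)))).aestronglyMeasurable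
  have hbound : ∀ z, ∀ y ∈ Metric.ball ξ 1, ‖F' y z‖ ≤ bd z := by
    intro z y hy
    rw [Metric.mem_ball, dist_eq_norm] at hy
    have he : exp (-pot (tilt W y) z) ≤ exp (-(pot (tilt W ξ) z - ‖z‖)) := by
      refine exp_le_exp.2 ?_
      have e : pot (tilt W y) z = pot (tilt W ξ) z - ⟪y - ξ, z⟫ := by
        simp [pot, tilt, inner_sub_left]; ring
      have h1 := (le_abs_self _).trans (abs_real_inner_le_norm (y - ξ) z)
      nlinarith [mul_le_mul_of_nonneg_right hy.le (norm_nonneg z)]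
    simp only [F', norm_smul, bd, smul_eq_mul, Real.norm_eq_abs, abs_of_pos (exp_pos _)]
    refine mul_le_mul he (mul_le_mul_of_nonneg_left ?_ (abs_nonneg _)) (by positivity)
      (exp_pos _).le
    refine (norm_add_le _ _).trans ?_
    rw [norm_smul, innerSL_apply_norm, Real.norm_eq_abs]
    refine le_trans (add_le_add le_rfl (ContinuousLinearMap.opNorm_comp_le _ _))
      ((le_abs_self _).trans ((hbd (y, z)).trans ?_))
    refine mul_le_mul_of_nonneg_left (pow_le_pow_left₀ (by positivity) (add_le_add le_rfl ?_) k) hC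
    rw [Prod.norm_def, max_le_iff]
    constructor <;> linarith [norm_le_norm_add_norm_sub' y ξ, norm_nonneg z, norm_nonneg ξ]
  have h := hasFDerivAt_integral_of_dominated_of_fderiv_le (𝕜 := ℝ) (μ := volume)
    (F := fun y z => exp (-pot (tilt W y) z) * (f z * H (y, z))) (F' := F') (bound := bd)
    (Metric.ball_mem_nhds ξ one_pos)
    (Filter.Eventually.of_forall fun y => (hint y).aestronglyMeasurable) (hint ξ) (hFm ξ)
    (ae_of_all _ hbound) hbdi (ae_of_all _ fun z y _ => ?_)
  · have hi : Integrable (F' ξ) :=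
      hbdi.mono' (hFm ξ) (ae_of_all _ fun z => hbound z ξ (Metric.mem_ball_self one_pos))
    refine ⟨_, h, fun v => ?_⟩
    rw [ContinuousLinearMap.integral_apply hi]
    refine integral_congr_ae (ae_of_all _ fun z => ?_)
    simp only [F', opD, zc, Deriv.dd, _root_.smul_apply, _root_.add_apply,
      ContinuousLinearMap.comp_apply, ContinuousLinearMap.inl_apply, innerSL_apply_apply,
      smul_eq_mul]
    ring
  · have h1 : HasFDerivAt (fun y => exp (-pot (tilt W y) z))
        (exp (-pot (tilt W y) z) • innerSL ℝ z) y := by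
      have e : (fun y => exp (-pot (tilt W y) z)) =
          fun y => exp (innerSL ℝ z y - (‖z‖ ^ 2 / 2 + W z)) := by
        funext y; simp [pot, tilt, real_inner_comm y]; ring_nf
      rw [e, congrFun e y]
      exact ((innerSL ℝ z).hasFDerivAt.sub_const _).exp
    have h2 : HasFDerivAt (fun y => H (y, z))
        ((fderiv ℝ H (y, z)).comp (ContinuousLinearMap.inl ℝ (E d) (E d))) y :=
      (hH.differentiable (y, z)).hasFDerivAt.comp y
        ((hasFDerivAt_id y).prodMk (hasFDerivAt_const z y))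
    refine (h1.mul (h2.const_mul (f z))).congr_fderiv ?_
    ext v
    simp [F']
    ring

theorem nm_one_pos (ξ : E d) : 0 < nm W (fun _ => 1) (fun _ => 1) ξ := by
  simpa [nm] using (hW.pert_tilt ξ).partition_pos

theorem tm_eq (f : E d → ℝ) (H : Z d → ℝ) (ξ : E d) :
    tm W f H ξ = nm W f H ξ / nm W (fun _ => 1) (fun _ => 1) ξ := by
  rw [tm, (hW.pert_tilt ξ).integral_law]
  simp [nm, smul_eq_mul, div_eq_inv_mul]

theorem integrable_tm {f : E d → ℝ} (hf : Continuous f) (hfp : PolyBd f) {H : Z d → ℝ}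
    (hH : Good 0 H) (ξ : E d) :
    Integrable (fun z => f z * H (ξ, z)) (law (tilt W ξ)) :=
  (hW.pert_tilt ξ).integrable_law (hfp.mul (hH.sect ξ).polyBd) (hf.mul (hH.sect ξ).continuous)

theorem hasFDerivAt_tm {f : E d → ℝ} (hf : Continuous f) (hfp : PolyBd f) {H : Z d → ℝ}
    (hH : Good 1 H) (ξ : E d) : DifferentiableAt ℝ (tm W f H) ξ ∧
    ∀ v, dd v (tm W f H) ξ =
      tm W f (opD v H) ξ - tm W f H ξ * tm W (fun _ => 1) (zc v) ξ := by
  obtain ⟨L1, h1, e1⟩ := hW.hasFDerivAt_nm hf hfp hH ξ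
  obtain ⟨L0, h0, e0⟩ := hW.hasFDerivAt_nm continuous_const (PolyBd.const (1 : ℝ))
    (good_const 1 1) ξ
  have hne := (hW.nm_one_pos ξ).ne'
  have h := h1.mul ((hasDerivAt_inv hne).comp_hasFDerivAt ξ h0)
  have e : tm W f H = nm W f H * (Inv.inv ∘ nm W (fun _ => 1) (fun _ => 1)) :=
    funext fun y => by simp [hW.tm_eq f H y, div_eq_mul_inv]
  rw [← e] at h
  refine ⟨h.differentiableAt, fun v => ?_⟩
  have eo : opD v (fun _ : Z d => (1 : ℝ)) = zc v := by
    funext p; simp [opD, dd_const]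
  rw [Deriv.dd, h.fderiv]
  simp only [hW.tm_eq, _root_.smul_apply, _root_.add_apply,
    Function.comp_apply, smul_eq_mul, e1, e0, eo]
  field_simp
  ring

/-- polynomial moment bounds of the tilts -/
theorem tilt_moment (j : ℕ) : ∃ (C : ℝ) (K : ℕ), 0 ≤ C ∧ ∀ ξ,
    ∫ z, (1 + ‖z‖ ^ 2) ^ (2 ^ j) ∂law (tilt W ξ) ≤ C * (1 + ‖ξ‖) ^ K := by
  induction j with
  | zero =>
    refine ⟨1 + 2 * (√d + ‖grad W 0‖ + 1) ^ 2, 2, by positivity, fun ξ => ?_⟩
    have hP := hW.pert_tilt ξ
    have := hP.isProbabilityMeasure_law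
    simp only [pow_zero, pow_one]
    rw [integral_add (integrable_const _) (hP.integrable_law (PolyBd.id.norm.pow 2) (by fun_prop))]
    simp only [integral_const, probReal_univ, one_smul]
    have h2 := hP.integral_norm_sq_law_le
    set n := ‖grad W 0 - ξ‖
    have e : (1 + n / √d) ^ 2 * d ≤ (√d + n) ^ 2 := by
      rcases Nat.eq_zero_or_pos d with rfl | hd
      · simp; positivity
      · have hs : (0 : ℝ) < √d := Real.sqrt_pos.2 (Nat.cast_pos.2 hd)
        conv_lhs => enter [2]; rw [← Real.sq_sqrt (d.cast_nonneg (α := ℝ))]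
        rw [← mul_pow]
        exact le_of_eq (by field_simp)
    have e2 : √d + n ≤ (√d + ‖grad W 0‖ + 1) * (1 + ‖ξ‖) := by
      have := norm_sub_le (grad W 0) ξ
      nlinarith [norm_nonneg ξ, norm_nonneg (grad W 0), Real.sqrt_nonneg (d : ℝ),
        mul_nonneg (add_nonneg (Real.sqrt_nonneg (d : ℝ)) (norm_nonneg (grad W 0))) (norm_nonneg ξ)]
    have h3 : (√d + n) ^ 2 ≤ ((√d + ‖grad W 0‖ + 1) * (1 + ‖ξ‖)) ^ 2 :=
      pow_le_pow_left₀ (by positivity) e2 2
    rw [mul_pow] at h3
    have h4 : (1 : ℝ) ≤ (1 + ‖ξ‖) ^ 2 := one_le_pow₀ (by linarith [norm_nonneg ξ])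
    nlinarith
  | succ j ih =>
    obtain ⟨C, K, hC, ih⟩ := ih
    set m := 2 ^ j with hm
    set c : ℝ := 8 * (m : ℝ) ^ 2 with hc
    have hm1 : 1 ≤ m := Nat.one_le_two_pow
    refine ⟨2 * C ^ 2 + c * c ^ (2 * m - 1), 2 * K, by positivity, fun ξ => ?_⟩
    have hP := hW.pert_tilt ξ
    have := hP.isProbabilityMeasure_law
    have hcpos : 0 < c := by positivity
    clear_value m c
    have hpoly := hP.poincare_exact (good_one_add_sq_pow m 2)
    have iS : ∀ k, Integrable (fun z : E d => (1 + ‖z‖ ^ 2) ^ k) (law (tilt W ξ)) := fun k =>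
      hP.integrable_law (good_one_add_sq_pow k 0).polyBd (good_one_add_sq_pow k 0).continuous
    have e2 : (fun z : E d => (1 + ‖z‖ ^ 2) ^ 2 ^ (j + 1)) =
        fun z => ((1 + ‖z‖ ^ 2) ^ m) ^ 2 := by
      funext z; rw [← pow_mul, hm, pow_succ 2 j]
    have i3 : Integrable (fun z : E d => ((1 + ‖z‖ ^ 2) ^ m) ^ 2) (law (tilt W ξ)) :=
      e2 ▸ iS (2 ^ (j + 1))
    rw [e2]
    set X := ∫ z, ((1 + ‖z‖ ^ 2) ^ m) ^ 2 ∂law (tilt W ξ)
    have h3 : ∫ z, ‖fderiv ℝ (fun z : E d => (1 + ‖z‖ ^ 2) ^ m) z‖ ^ 2 ∂law (tilt W ξ) ≤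
        c / 2 * (1 / c * X + c ^ (2 * m - 1)) := by
      refine (integral_mono_of_nonneg (g := fun z : E d => c / 2 *
          (1 / c * ((1 + ‖z‖ ^ 2) ^ m) ^ 2 + c ^ (2 * m - 1)))
        (ae_of_all _ fun z => sq_nonneg _)
        (((i3.const_mul (1 / c)).fun_add (integrable_const _)).const_mul _)
        (ae_of_all _ fun z => ?_)).trans_eq ?_
      · refine (norm_fderiv_pow_sq_le m z).trans ?_
        rw [show 4 * (m : ℝ) ^ 2 = c / 2 by rw [hc]; ring]
        exact mul_le_mul_of_nonneg_left (pow_pred_le (by positivity) hcpos hm1) (by positivity)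
      · rw [integral_const_mul, integral_add (i3.const_mul (1 / c)) (integrable_const _),
          integral_const_mul]
        simp [X]
    have h5 : c / 2 * (1 / c * X) = X / 2 := by field_simp
    rw [mul_add, h5] at h3
    have h6 : (∫ z, (1 + ‖z‖ ^ 2) ^ m ∂law (tilt W ξ)) ^ 2 ≤ C ^ 2 * (1 + ‖ξ‖) ^ (2 * K) := by
      rw [pow_mul', ← mul_pow]
      exact pow_le_pow_left₀ (integral_nonneg fun z => by positivity) (ih ξ) 2
    have h8 := le_mul_of_one_le_right (by positivity : 0 ≤ c * c ^ (2 * m - 1))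
      (one_le_pow₀ (by linarith [norm_nonneg ξ]) : (1 : ℝ) ≤ (1 + ‖ξ‖) ^ (2 * K))
    linarith

theorem polyBd_tm {f : E d → ℝ} (hfp : PolyBd f) {H : Z d → ℝ}
    (hH : Good 0 H) : PolyBd (tm W f H) := by
  obtain ⟨C, k, hC, hb⟩ :=
    (hfp.comp (g := fun p : Z d => p.2) (PolyBd.id.of_le fun p => norm_snd_le p)).mul hH.polyBd
  obtain ⟨M, K, hM, hmom⟩ := hW.tilt_moment k
  refine ⟨C * 2 ^ k * M, k + K, by positivity, fun ξ => ?_⟩
  have hP := hW.pert_tilt ξ
  have := hP.isProbabilityMeasure_law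
  have hi : Integrable (fun z : E d => C * 2 ^ k * (1 + ‖ξ‖) ^ k * (1 + ‖z‖ ^ 2) ^ (2 ^ k))
      (law (tilt W ξ)) :=
    (hP.integrable_law (((PolyBd.const 1).add (PolyBd.id.norm.pow 2)).pow _)
      (by fun_prop)).const_mul _
  refine (norm_integral_le_of_norm_le hi (ae_of_all _ fun z => ?_)).trans ?_
  · refine (hb (ξ, z)).trans ?_
    rw [mul_assoc, mul_assoc, ← mul_assoc (2 ^ k : ℝ), ← mul_pow]
    refine mul_le_mul_of_nonneg_left ?_ hC
    have hS : (1 : ℝ) ≤ 1 + ‖z‖ ^ 2 := by nlinarith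
    have h1 : 1 + ‖((ξ, z) : Z d)‖ ≤ 2 * (1 + ‖ξ‖) * (1 + ‖z‖ ^ 2) := by
      simp only [Prod.norm_def]
      have := max_le_add_of_nonneg (norm_nonneg ξ) (norm_nonneg z)
      have hz : ‖z‖ ≤ 1 + ‖z‖ ^ 2 := by nlinarith [sq_nonneg (‖z‖ - 1), norm_nonneg z]
      nlinarith [mul_nonneg (norm_nonneg ξ) (sq_nonneg ‖z‖), norm_nonneg ξ, sq_nonneg ‖z‖]
    refine (pow_le_pow_left₀ (by positivity) h1 k).trans ?_
    rw [mul_pow]
    exact mul_le_mul_of_nonneg_left (pow_le_pow_right₀ hS k.lt_two_pow_self.le) (by positivity)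
  · rw [integral_const_mul, pow_add]
    refine (mul_le_mul_of_nonneg_left (hmom ξ) (by positivity)).trans_eq ?_
    ring

theorem good_tm {f : E d → ℝ} (hf : Continuous f) (hfp : PolyBd f) :
    ∀ (n : ℕ) {H : Z d → ℝ}, (∀ k, Good k H) → Good n (tm W f H) := by
  intro n
  induction n generalizing f with
  | zero =>
    intro H hH
    exact ⟨(fun ξ => (hW.hasFDerivAt_tm hf hfp (hH 1) ξ).1.continuousAt : ∀ ξ, _) |>
      continuous_iff_continuousAt.2, hW.polyBd_tm hfp (hH 0)⟩
  | succ n ih =>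
    intro H hH
    refine ⟨fun ξ => (hW.hasFDerivAt_tm hf hfp (hH 1) ξ).1, hW.polyBd_tm hfp (hH 0),
      fun v => ?_⟩
    rw [show dd v (tm W f H) = fun ξ =>
        tm W f (opD v H) ξ - tm W f H ξ * tm W (fun _ => 1) (zc v) ξ from
      funext fun ξ => (hW.hasFDerivAt_tm hf hfp (hH 1) ξ).2 v]
    exact (ih hf hfp (good_opD hH v)).sub ((ih hf hfp hH).mul
      (ih continuous_const (PolyBd.const 1) fun k => good_zc k v))

theorem tm_one_one (ξ : E d) : tm W (fun _ => 1) (fun _ => 1) ξ = 1 := by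
  have := (hW.pert_tilt ξ).isProbabilityMeasure_law
  simp [tm]

end Pert

/-- Appell functions -/
noncomputable def qf (W : E d → ℝ) : (r : ℕ) → (Fin r → E d) → Z d → ℝ
  | 0, _ => fun _ => 1
  | r + 1, v => fun p => opD (v 0) (qf W r (Fin.tail v)) p -
      tm W (fun _ => 1) (zc (v 0)) p.1 * qf W r (Fin.tail v) p

/-- iterated directional derivative -/
noncomputable def ddN : (r : ℕ) → (Fin r → E d) → (E d → ℝ) → E d → ℝ
  | 0, _, f => f
  | r + 1, v, f => dd (v 0) (ddN r (Fin.tail v) f)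

theorem ddN_const (c : ℝ) : ∀ (r : ℕ) (v : Fin (r + 1) → E d),
    ddN (r + 1) v (fun _ => c) = fun _ => 0
  | 0, v => by simp only [ddN]; exact dd_const _ _
  | r + 1, v => by
    show dd (v 0) (ddN (r + 1) (Fin.tail v) fun _ => c) = _
    rw [ddN_const c r]; exact dd_const _ _

namespace Pert

variable {η B : ℝ} {W : E d → ℝ} (hW : Pert η B W)
include hW

theorem good_mean (n : ℕ) (v : E d) : Good n (tm W (fun _ => 1) (zc v)) :=
  hW.good_tm continuous_const (PolyBd.const 1) n fun k => good_zc k v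

theorem good_mean_fst (n : ℕ) (v : E d) :
    Good n fun p : Z d => tm W (fun _ => 1) (zc v) p.1 :=
  (hW.good_mean n v).comp (ContinuousLinearMap.fst ℝ (E d) (E d))

theorem good_qf : ∀ (r : ℕ) (v : Fin r → E d) (n : ℕ), Good n (qf W r v) := by
  intro r
  induction r with
  | zero => intro v n; exact good_const n 1
  | succ r ih =>
    intro v n
    exact (good_opD (ih _) (v 0) n).sub ((hW.good_mean_fst n (v 0)).mul (ih _ n))

theorem ddN_tm {f : E d → ℝ} (hf : Continuous f) (hfp : PolyBd f) :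
    ∀ (r : ℕ) (v : Fin r → E d), ddN r v (tm W f fun _ => 1) = tm W f (qf W r v) := by
  intro r
  induction r with
  | zero => intro v; rfl
  | succ r ih =>
    intro v
    funext ξ
    simp only [ddN, ih]
    rw [(hW.hasFDerivAt_tm hf hfp (hW.good_qf r _ 1) ξ).2]
    have hP := hW.pert_tilt ξ
    have i1 := hW.integrable_tm hf hfp (good_opD (hW.good_qf r (Fin.tail v)) (v 0) 0) ξ
    have i2 := hW.integrable_tm hf hfp (hW.good_qf r (Fin.tail v) 0) ξ
    show tm W f (opD (v 0) (qf W r (Fin.tail v))) ξ -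
        tm W f (qf W r (Fin.tail v)) ξ * tm W (fun _ => 1) (zc (v 0)) ξ =
      ∫ z, f z * (opD (v 0) (qf W r (Fin.tail v)) (ξ, z) -
        tm W (fun _ => 1) (zc (v 0)) ξ * qf W r (Fin.tail v) (ξ, z)) ∂law (tilt W ξ)
    simp_rw [mul_sub, mul_left_comm _ (tm W (fun _ => 1) (zc (v 0)) ξ)]
    rw [integral_sub i1 (i2.const_mul _), integral_const_mul]
    simp only [tm]
    ring

theorem tm_qf_eq_zero (r : ℕ) (v : Fin (r + 1) → E d) (ξ : E d) :
    tm W (fun _ => 1) (qf W (r + 1) v) ξ = 0 := by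
  rw [← hW.ddN_tm continuous_const (PolyBd.const 1),
    show tm W (fun _ => 1) (fun _ => 1) = fun _ => (1 : ℝ) from funext hW.tm_one_one, ddN_const]

theorem dd_qf (e : E d) : ∀ (r : ℕ) (v : Fin (r + 1) → E d),
    dd ((0, e) : Z d) (qf W (r + 1) v) =
      fun p => ∑ j, ⟪e, v j⟫ * qf W r (fun i => v (j.succAbove i)) p := by
  intro r
  induction r with
  | zero =>
    intro v
    funext p
    simp only [qf, opD, dd_const, zero_add, mul_one]
    have h1 : dd ((0, e) : Z d)
        (fun p : Z d => zc (v 0) p - tm W (fun _ => 1) (zc (v 0)) p.1) p =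
        ⟪e, v 0⟫ := by
      rw [dd_sub (good_zc 1 _).differentiable (hW.good_mean_fst 1 _).differentiable]
      beta_reduce
      have e1 := dd_zc e (v 0) p
      rw [e1, dd_fst (hW.good_mean 1 _).differentiable]
      simp [Deriv.dd]
    simp [h1]
  | succ r ih =>
    intro v
    set t := Fin.tail v
    set Qt := qf W (r + 1) t with hQ
    set m := fun p : Z d => tm W (fun _ => 1) (zc (v 0)) p.1
    have gQ : ∀ n, Good n Qt := hW.good_qf _ _
    have gm : ∀ n, Good n m := fun n => hW.good_mean_fst n _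
    have e0 : qf W (r + 2) v =
        fun p => dd ((v 0, 0) : Z d) Qt p + (zc (v 0) p - m p) * Qt p := by
      funext p
      show opD (v 0) Qt p - m p * Qt p = _
      simp only [opD]; ring
    have e1 : dd ((0, e) : Z d) (fun p => zc (v 0) p - m p) = fun _ => ⟪e, v 0⟫ := by
      funext p
      rw [dd_sub (good_zc 1 _).differentiable (gm 1).differentiable,
        dd_fst (hW.good_mean 1 _).differentiable]
      beta_reduce
      rw [dd_zc]
      simp [Deriv.dd]
    have gzm : ∀ n, Good n fun p => zc (v 0) p - m p := fun n => (good_zc n _).sub (gm n)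
    rw [e0, dd_add (((gQ 2).dd _).differentiable) ((gzm 1).mul (gQ 1)).differentiable,
      dd_mul (gzm 1).differentiable (gQ 1).differentiable, e1,
      dd_comm (gQ 2) ((0, e) : Z d) ((v 0, 0) : Z d), ih t]
    funext p
    have gT : ∀ j : Fin (r + 1), Good 1
        fun p => ⟪e, t j⟫ * qf W r (fun i => t (j.succAbove i)) p := fun j =>
      (hW.good_qf r _ 1).const_mul _
    rw [dd_sum _ fun j _ => (gT j).differentiable, Fin.sum_univ_succ (n := r + 1)]
    simp only [dd_const_mul (hW.good_qf r _ 1).differentiable, Finset.mul_sum]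
    rw [show (fun i => v ((0 : Fin (r + 2)).succAbove i)) = t from
      funext fun i => by simp [t, Fin.tail], ← hQ, add_left_comm, ← Finset.sum_add_distrib]
    congr 1
    refine Finset.sum_congr rfl fun j _ => ?_
    show ⟪e, t j⟫ * dd ((v 0, 0) : Z d) (qf W r fun i => t (j.succAbove i)) p +
        (zc (v 0) p - m p) * (⟪e, t j⟫ * qf W r (fun i => t (j.succAbove i)) p) =
      ⟪e, v j.succ⟫ * qf W (r + 1) (fun i => v (j.succ.succAbove i)) p
    have hv0 : v (j.succ.succAbove 0) = v 0 := by rw [Fin.succ_succAbove_zero]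
    have htl : Fin.tail (fun i => v (j.succ.succAbove i)) = fun i => t (j.succAbove i) :=
      funext fun i => by simp [t, Fin.tail]
    simp only [qf, opD, htl, hv0]
    show ⟪e, v j.succ⟫ * _ + _ * (⟪e, v j.succ⟫ * _) = _
    ring

/-- the second moment of a combination of Appell functions -/
theorem appell_sq_le (ξ : E d) : ∀ (r : ℕ) (A : (Fin r → Fin d) → ℝ),
    ∫ z, (∑ I, A I * qf W r (fun j => bas (I j)) (ξ, z)) ^ 2 ∂law (tilt W ξ) ≤
      (r.factorial : ℝ) ^ 2 * ∑ I, A I ^ 2 := by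
  have hP := hW.pert_tilt ξ
  have := hP.isProbabilityMeasure_law
  intro r
  induction r with
  | zero => intro A; simp [qf]
  | succ r ih =>
    intro A
    set F := fun z => ∑ I, A I * qf W (r + 1) (fun j => bas (I j)) (ξ, z)
    have hF : ∀ n, Good n F := fun n =>
      Good.sum _ fun I _ => ((hW.good_qf _ _ n).sect ξ).const_mul (A I)
    have hmean : ∫ z, F z ∂law (tilt W ξ) = 0 := by
      simp only [F]
      rw [integral_finsetSum _ fun I _ => (hP.integrable_law ((hW.good_qf _ _ 0).sect ξ).polyBd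
        ((hW.good_qf _ _ 0).sect ξ).continuous).const_mul (A I)]
      refine Finset.sum_eq_zero fun I _ => ?_
      have h := hW.tm_qf_eq_zero r (fun j => bas (I j)) ξ
      simp only [tm, one_mul] at h
      rw [integral_const_mul, h, mul_zero]
    have h := hP.poincare_exact (hF 2)
    rw [hmean] at h
    simp only [ne_eq, OfNat.ofNat_ne_zero, not_false_eq_true, zero_pow, sub_zero] at h
    refine h.trans ?_
    -- the gradient, split along the removed index
    set G : Fin (r + 1) → Fin d → E d → ℝ := fun j i z => ∑ J : Fin r → Fin d,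
      A (Fin.insertNth j i J) * qf W r (fun l => bas (J l)) (ξ, z)
    have hd : ∀ i z, dd (bas i) F z = ∑ j, G j i z := by
      intro i z
      simp only [F]
      rw [dd_sum _ fun I _ => (((hW.good_qf _ _ 1).sect ξ).const_mul (A I)).differentiable]
      simp only [G]
      rw [Finset.sum_comm]
      have e : ∀ I : Fin (r + 1) → Fin d,
          dd (bas i) (fun z => A I * qf W (r + 1) (fun j => bas (I j)) (ξ, z)) z =
            ∑ j, if I j = i then A I * qf W r (fun l => bas (I (j.succAbove l))) (ξ, z) else 0 := by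
        intro I
        rw [dd_const_mul ((hW.good_qf _ _ 1).sect ξ).differentiable]
        beta_reduce
        have h2 : dd (bas i) (fun z => qf W (r + 1) (fun j => bas (I j)) (ξ, z)) z =
            dd ((0, bas i) : Z d) (qf W (r + 1) fun j => bas (I j)) (ξ, z) := by
          have h' := ((hW.good_qf (r + 1) (fun j => bas (I j)) 1).differentiable
            (ξ, z)).hasFDerivAt.comp z ((hasFDerivAt_const ξ z).prodMk (hasFDerivAt_id z))
          rw [Deriv.dd, show (fun z => qf W (r + 1) (fun j => bas (I j)) (ξ, z)) =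
            qf W (r + 1) (fun j => bas (I j)) ∘ fun z => (ξ, z) from rfl, h'.fderiv]
          rfl
        rw [h2, hW.dd_qf]
        simp only [inner_bas, Finset.mul_sum]
        refine Finset.sum_congr rfl fun j _ => ?_
        rcases eq_or_ne (I j) i with hij | hij
        · simp [hij]
        · simp [hij, hij.symm]
      simp only [e]
      rw [Finset.sum_comm]
      conv_rhs => rw [Finset.sum_comm]
      refine Finset.sum_congr rfl fun j _ => ?_
      rw [← (Fin.insertNthEquiv (fun _ : Fin (r + 1) => Fin d) j).sum_comp, Fintype.sum_prod_type]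
      simp only [Fin.insertNthEquiv_apply, Fin.insertNth_apply_same, Fin.insertNth_apply_succAbove]
      rw [Finset.sum_eq_single i]
      · simp [Fin.insertNthEquiv]
      · intro b _ hb; simp [hb]
      · simp
    have hGg : ∀ j i, Good 0 (G j i) := fun j i =>
      Good.sum _ fun J _ => ((hW.good_qf _ _ 0).sect ξ).const_mul _
    have hGi : ∀ j i, Integrable (fun z => G j i z ^ 2) (law (tilt W ξ)) := fun j i =>
      hP.integrable_law (hGg j i).sq.polyBd (hGg j i).sq.continuous
    have hn : ∀ z, ‖fderiv ℝ F z‖ ^ 2 ≤ ((r : ℝ) + 1) * ∑ i, ∑ j, G j i z ^ 2 := by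
      intro z
      set g := (InnerProductSpace.toDual ℝ (E d)).symm (fderiv ℝ F z) with hg
      have hn : ‖g‖ = ‖fderiv ℝ F z‖ := by simp [hg]
      rw [← hn, ← (EuclideanSpace.basisFun (Fin d) ℝ).sum_sq_inner_left g, Finset.mul_sum]
      refine Finset.sum_le_sum fun i _ => ?_
      rw [show ⟪g, EuclideanSpace.basisFun (Fin d) ℝ i⟫ = dd (bas i) F z by
        simp [hg, Deriv.dd, bas, InnerProductSpace.toDual_symm_apply], hd]
      simpa using sq_sum_le_card_mul_sum_sq (s := Finset.univ) (f := fun j => G j i z)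
    calc ∫ z, ‖fderiv ℝ F z‖ ^ 2 ∂law (tilt W ξ)
        ≤ ∫ z, ((r : ℝ) + 1) * ∑ i, ∑ j, G j i z ^ 2 ∂law (tilt W ξ) :=
          integral_mono_of_nonneg (ae_of_all _ fun z => sq_nonneg _)
            ((integrable_finsetSum _ fun i _ => integrable_finsetSum _ fun j _ =>
              hGi j i).const_mul _) (ae_of_all _ hn)
      _ ≤ ((r : ℝ) + 1) * ∑ i, ∑ j : Fin (r + 1),
          ((r.factorial : ℝ) ^ 2 * ∑ J, A (Fin.insertNth j i J) ^ 2) := by
          rw [integral_const_mul, integral_finsetSum _ fun i _ =>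
            integrable_finsetSum _ fun j _ => hGi j i]
          refine mul_le_mul_of_nonneg_left (Finset.sum_le_sum fun i _ => ?_) (by positivity)
          rw [integral_finsetSum _ fun j _ => hGi j i]
          exact Finset.sum_le_sum fun j _ => ih _
      _ = _ := by
          rw [Finset.sum_comm]
          have e : ∀ j : Fin (r + 1),
              ∑ i, (r.factorial : ℝ) ^ 2 * ∑ J, A (Fin.insertNth j i J) ^ 2 =
                (r.factorial : ℝ) ^ 2 * ∑ I, A I ^ 2 := fun j => by
            rw [← Finset.mul_sum,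
              ← (Fin.insertNthEquiv (fun _ : Fin (r + 1) => Fin d) j).sum_comp (fun I => A I ^ 2),
              Fintype.sum_prod_type]
            rfl
          simp only [e, Finset.sum_const, Finset.card_univ, Fintype.card_fin, nsmul_eq_mul,
            Nat.factorial_succ]
          push_cast; ring

/-- Hilbert-Schmidt norm of the derivatives of a tilted mean -/
theorem ddN_tm_sq_le {f : E d → ℝ} (hf : Continuous f) (hfp : PolyBd f) (r : ℕ) (ξ : E d) :
    ∑ I : Fin (r + 1) → Fin d, ddN (r + 1) (fun j => bas (I j)) (tm W f fun _ => 1) ξ ^ 2 ≤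
      ((r + 1).factorial : ℝ) ^ 2 *
        ∫ z, (f z - ∫ y, f y ∂law (tilt W ξ)) ^ 2 ∂law (tilt W ξ) := by
  have hP := hW.pert_tilt ξ
  have := hP.isProbabilityMeasure_law
  set μ := law (tilt W ξ)
  set A := fun I : Fin (r + 1) → Fin d => ddN (r + 1) (fun j => bas (I j)) (tm W f fun _ => 1) ξ
  set m := ∫ y, f y ∂μ
  set F := fun z => ∑ I, A I * qf W (r + 1) (fun j => bas (I j)) (ξ, z)
  have hF : Good 0 F := Good.sum _ fun I _ => ((hW.good_qf _ _ 0).sect ξ).const_mul (A I)
  have hA : ∀ I, A I = ∫ z, (f z - m) * qf W (r + 1) (fun j => bas (I j)) (ξ, z) ∂μ := by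
    intro I
    have h0 := hW.tm_qf_eq_zero r (fun j => bas (I j)) ξ
    simp only [tm, one_mul] at h0
    simp only [A, hW.ddN_tm hf hfp, tm, sub_mul]
    rw [integral_sub (hW.integrable_tm hf hfp (hW.good_qf _ _ 0) ξ)
      ((hP.integrable_law ((hW.good_qf _ _ 0).sect ξ).polyBd
        ((hW.good_qf _ _ 0).sect ξ).continuous).const_mul m), integral_const_mul, h0]
    ring
  set S := ∑ I, A I ^ 2
  set V := ∫ z, (f z - m) ^ 2 ∂μ
  set c : ℝ := ((r + 1).factorial : ℝ) ^ 2
  have hS : S = ∫ z, (f z - m) * F z ∂μ := by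
    simp only [F, Finset.mul_sum]
    rw [integral_finsetSum]
    · refine Finset.sum_congr rfl fun I _ => ?_
      conv_rhs => simp only [mul_left_comm _ (A I)]
      rw [integral_const_mul, ← hA, sq]
    · intro I _
      simp only [mul_left_comm _ (A I)]
      exact (hP.integrable_law ((hfp.sub (PolyBd.const m)).mul ((hW.good_qf _ _ 0).sect ξ).polyBd)
        ((hf.sub continuous_const).mul ((hW.good_qf _ _ 0).sect ξ).continuous)).const_mul _
  have i1 : Integrable (fun z => (f z - m) ^ 2) μ :=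
    hP.integrable_law ((hfp.sub (PolyBd.const m)).pow 2) ((hf.sub continuous_const).pow 2)
  have i2 : Integrable (fun z => F z ^ 2) μ := hP.integrable_law hF.sq.polyBd hF.sq.continuous
  have i3 : Integrable (fun z => (f z - m) * F z) μ :=
    hP.integrable_law ((hfp.sub (PolyBd.const m)).mul hF.polyBd)
      ((hf.sub continuous_const).mul hF.continuous)
  have hc : 0 < c := by positivity
  have h : 2 * S ≤ c * V + S := by
    calc 2 * S = ∫ z, 2 * ((f z - m) * F z) ∂μ := by rw [integral_const_mul, hS]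
      _ ≤ ∫ z, (c * (f z - m) ^ 2 + F z ^ 2 / c) ∂μ := by
          refine integral_mono (i3.const_mul 2) ((i1.const_mul c).add (i2.div_const c)) fun z => ?_
          have h1 : c * (F z / c - (f z - m)) ^ 2 =
              F z ^ 2 / c - 2 * ((f z - m) * F z) + c * (f z - m) ^ 2 := by
            field_simp; ring
          have : 0 ≤ c * (F z / c - (f z - m)) ^ 2 := by positivity
          linarith
      _ ≤ c * V + S := by
          rw [integral_add (i1.const_mul c) (i2.div_const c), integral_const_mul, integral_div]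
          refine add_le_add le_rfl ((div_le_iff₀ hc).2 ?_)
          exact (hW.appell_sq_le ξ (r + 1) A).trans_eq (mul_comm _ _)
  linarith

end Pert

end Vale.Agent.P347
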