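import Vale.Agent.P347.Lsm
import Vale.Agent.P347.Tilt
import Vale.Agent.P347.Deriv
import Vale.Agent.P347.Smoothing

/-!
# P347: the log-smoothed perturbation

`lsm b W` is again a perturbation in the class, is smooth, has all derivatives of its Hessian
bounded at scale `b`, and is the law of `√(1 - b²) X + b Z`.  In the variable `ξ = (√(1 - b²)/b) u`
it is an exponential family over the base perturbation `z ↦ W (b z)`.
-/

open MeasureTheory ProbabilityTheory Real Set Function
open scoped RealInnerProductSpace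

namespace Vale.Agent.P347

open Deriv

variable {d : ℕ}

/-- the base perturbation of the family -/
noncomputable def scl (b : ℝ) (W : E d → ℝ) (z : E d) : ℝ := W (b • z)

/-- a coordinate of the gradient at scale `b` -/
noncomputable def gcrd (b : ℝ) (W : E d → ℝ) (e z : E d) : ℝ := ⟪grad W (b • z), e⟫

/-- the tilt parameter -/
noncomputable def tiltAt (b : ℝ) (d : ℕ) : E d →L[ℝ] E d :=
  (cosB b / b) • ContinuousLinearMap.id ℝ (E d)

theorem tiltAt_apply (b : ℝ) (u : E d) : tiltAt b d u = (cosB b / b) • u := rfl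

theorem cosB_pos {b : ℝ} (hb : 0 < b) (hb2 : b < 1) : 0 < cosB b :=
  Real.sqrt_pos.2 (by nlinarith)

theorem integral_exp_gPot_pos : 0 < ∫ y : E d, exp (-gPot y) :=
  integral_exp_pos (by
    simpa using decay_gPot.integrable (f := fun _ : E d => (1 : ℝ)) aestronglyMeasurable_const
      (PolyBd.const 1))

theorem integrable_exp_neg {U : E d → ℝ} (hd : Decay (pot U)) :
    Integrable (fun x => exp (-U x)) (stdGaussian (E d)) := by
  have hK := integral_exp_gPot_pos (d := d)
  rw [stdGaussian_eq_withDensity, integrable_withDensity_iff_integrable_smul'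
    (by unfold gPot; fun_prop) (ae_of_all _ fun x => ENNReal.ofReal_lt_top)]
  refine ((hd.integrable (f := fun _ : E d => (1 : ℝ)) aestronglyMeasurable_const
    (PolyBd.const 1)).const_mul (∫ y : E d, exp (-gPot y))⁻¹).congr (ae_of_all _ fun x => ?_)
  beta_reduce
  rw [ENNReal.toReal_ofReal (mul_nonneg (inv_nonneg.2 hK.le) (exp_pos _).le)]
  simp only [smul_eq_mul, mul_one, mul_assoc, ← exp_add]
  simp [pot, gPot]
  ring_nf
  simp

namespace Pert

variable {η B : ℝ} {W : E d → ℝ} (hW : Pert η B W)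
include hW

theorem grad_affine (y : E d) (b : ℝ) (z : E d) :
    grad (fun z => W (y + b • z)) z = b • grad W (y + b • z) := by
  refine ext_inner_right ℝ fun v => ?_
  have h : HasFDerivAt (fun z => W (y + b • z))
      ((fderiv ℝ W (y + b • z)).comp (b • ContinuousLinearMap.id ℝ (E d))) z :=
    ((hW.contDiff.differentiable (by norm_num)) _).hasFDerivAt.comp z
      (((hasFDerivAt_id z).const_smul b).const_add y)
  rw [inner_grad, h.fderiv, real_inner_smul_left, inner_grad]
  simp

theorem fderiv_grad_affine (y : E d) (b : ℝ) (z v : E d) :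
    fderiv ℝ (grad fun z => W (y + b • z)) z v =
      b ^ 2 • fderiv ℝ (grad W) (y + b • z) v := by
  rw [funext (hW.grad_affine y b)]
  have h := (((hW.contDiff_grad.differentiable one_ne_zero) (y + b • z)).hasFDerivAt.comp z
    (((hasFDerivAt_id z).const_smul b).const_add y)).fun_const_smul b
  have h' : HasFDerivAt (fun z => b • grad W (y + b • z))
      (b • (fderiv ℝ (grad W) (y + b • z)).comp (b • ContinuousLinearMap.id ℝ (E d))) z := h
  rw [h'.fderiv]
  simp [pow_two, smul_smul]

theorem pert_affine (y : E d) {b : ℝ} (hb : 0 < b) (hb2 : b < 1) :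
    Pert 1 (‖b • grad W y‖ / √d) fun z => W (y + b • z) := by
  have h := pert_of_hess (W := fun z => W (y + b • z)) (hW.contDiff.comp (by fun_prop))
    (fun x v => by
      rw [hW.fderiv_grad_affine, real_inner_smul_left]
      exact mul_nonneg (sq_nonneg b) (hW.hess_nonneg _ _))
    (fun x v => by
      rw [hW.fderiv_grad_affine, real_inner_smul_left]
      calc b ^ 2 * ⟪fderiv ℝ (grad W) (y + b • x) v, v⟫ ≤ 1 * (η * ‖v‖ ^ 2) :=
            mul_le_mul (by nlinarith) (hW.hess_le _ _) (hW.hess_nonneg _ _) zero_le_one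
        _ ≤ _ := by rw [one_mul]; exact mul_le_of_le_one_left (sq_nonneg _) hW.eta_le_one)
  simpa [hW.grad_affine] using h

theorem scl_pert {b : ℝ} (hb : 0 < b) (hb2 : b < 1) : Pert 1 B (scl b W) := by
  have e : scl b W = fun z => W (0 + b • z) := by funext z; simp [scl]
  have h := hW.pert_affine 0 hb hb2
  rw [e]
  refine ⟨h.eta_nonneg, h.eta_le_one, hW.bound_nonneg, h.contDiff, h.hess_nonneg, h.hess_le, ?_⟩
  rw [hW.grad_affine, norm_smul, Real.norm_eq_abs, abs_of_pos hb, smul_zero, add_zero, one_mul]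
  refine (mul_le_mul (by linarith : b ≤ 1) hW.grad_zero_le (norm_nonneg _) zero_le_one).trans ?_
  rw [one_mul]
  exact mul_le_mul_of_nonneg_right (mul_le_of_le_one_left hW.bound_nonneg hW.eta_le_one)
    (Real.sqrt_nonneg _)

theorem post_pert {b : ℝ} (hb : 0 < b) (hb2 : b < 1) (u : E d) :
    Pert 1 (‖b • grad W (cosB b • u)‖ / √d) (post b W u) :=
  hW.pert_affine (cosB b • u) hb hb2

theorem isProbabilityMeasure_law_post {b : ℝ} (hb : 0 < b) (hb2 : b < 1) (u : E d) :
    IsProbabilityMeasure (law (post b W u)) :=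
  (hW.post_pert hb hb2 u).isProbabilityMeasure_law

theorem continuous_gcrd (b : ℝ) (e : E d) : Continuous (gcrd b W e) :=
  (hW.contDiff_grad.continuous.comp (by fun_prop)).inner continuous_const

theorem polyBd_gcrd (b : ℝ) (e : E d) : PolyBd (gcrd b W e) :=
  (hW.coord_polyBd e).comp ((PolyBd.const b).smul PolyBd.id)

theorem gcrd_wlip {b : ℝ} (hb : 0 < b) (e : E d) : WLip (gcrd b W e) (η * b * ‖e‖) 0 := by
  refine ⟨by have := hW.eta_nonneg; positivity, le_rfl, fun x y => ?_⟩
  simp only [gcrd, zero_mul, add_zero, ← inner_sub_left]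
  refine (abs_real_inner_le_norm _ _).trans ?_
  refine (mul_le_mul_of_nonneg_right (hW.grad_lipschitz _ _) (norm_nonneg e)).trans_eq ?_
  rw [← smul_sub, norm_smul, Real.norm_eq_abs, abs_of_pos hb]
  ring

omit hW in
theorem pot_post (b : ℝ) (hb : b ≠ 0) (u z : E d) :
    pot (post b W u) z =
      pot (tilt (scl b W) (tiltAt b d u)) (z + tiltAt b d u) + ‖tiltAt b d u‖ ^ 2 / 2 := by
  have e : b • (z + tiltAt b d u) = cosB b • u + b • z := by
    rw [tiltAt_apply, smul_add, smul_smul, mul_div_cancel₀ _ hb, add_comm]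
  simp only [pot, tilt, post, scl, e, inner_add_right, real_inner_self_eq_norm_sq]
  rw [norm_add_sq_real, real_inner_comm]
  ring

omit hW in
theorem integral_exp_post {F : Type*} [NormedAddCommGroup F] [NormedSpace ℝ F] (b : ℝ) (hb : b ≠ 0)
    (u : E d) (G : E d → F) :
    ∫ z, exp (-pot (post b W u) z) • G (z + tiltAt b d u) =
      exp (-(‖tiltAt b d u‖ ^ 2 / 2)) •
        ∫ z, exp (-pot (tilt (scl b W) (tiltAt b d u)) z) • G z := by
  rw [← integral_smul, ← integral_add_right_eq_self (fun z => exp (-(‖tiltAt b d u‖ ^ 2 / 2)) •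
    exp (-pot (tilt (scl b W) (tiltAt b d u)) z) • G z) (tiltAt b d u)]
  refine integral_congr_ae (ae_of_all _ fun z => ?_)
  show _ = exp (-(‖tiltAt b d u‖ ^ 2 / 2)) •
    exp (-pot (tilt (scl b W) (tiltAt b d u)) (z + tiltAt b d u)) • G (z + tiltAt b d u)
  beta_reduce
  rw [smul_smul, ← exp_add, pot_post b hb]
  congr 2
  ring

theorem lsm_eq {b : ℝ} (hb : 0 < b) (hb2 : b < 1) (u : E d) :
    lsm b W u = ‖tiltAt b d u‖ ^ 2 / 2 + Real.log (∫ y : E d, exp (-gPot y)) -
      Real.log (nm (scl b W) (fun _ => 1) (fun _ => 1) (tiltAt b d u)) := by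
  have hN := (hW.scl_pert hb hb2).nm_one_pos (tiltAt b d u)
  have hK := integral_exp_gPot_pos (d := d)
  have e : ∫ z, exp (-post b W u z) ∂stdGaussian (E d) =
      (∫ y : E d, exp (-gPot y))⁻¹ * (exp (-(‖tiltAt b d u‖ ^ 2 / 2)) *
        nm (scl b W) (fun _ => 1) (fun _ => 1) (tiltAt b d u)) := by
    rw [integral_stdGaussian, smul_eq_mul]
    congr 1
    have h := integral_exp_post (W := W) b hb.ne' u fun _ => (1 : ℝ)
    simp only [smul_eq_mul, mul_one] at h
    simp only [nm, mul_one]
    rw [← h]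
    refine integral_congr_ae (ae_of_all _ fun z => ?_)
    simp [pot, gPot, ← exp_add]
    ring_nf
  rw [lsm, e, Real.log_mul (inv_ne_zero hK.ne') (mul_pos (exp_pos _) hN).ne', Real.log_inv,
    Real.log_mul (exp_pos _).ne' hN.ne', Real.log_exp]
  ring

theorem tm_zc_eq {b : ℝ} (hb : 0 < b) (hb2 : b < 1) (v ξ : E d) :
    tm (scl b W) (fun _ => 1) (zc v) ξ =
      ⟪ξ, v⟫ - b * tm (scl b W) (gcrd b W v) (fun _ => 1) ξ := by
  have hS := hW.scl_pert hb hb2
  have hP := hS.pert_tilt ξ
  have := hP.isProbabilityMeasure_law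
  have h := hP.ibp_law (φ := fun _ : E d => (1 : ℝ)) contDiff_const (PolyBd.const 1)
    (by simpa using PolyBd.const (V := E d) (0 : E d →L[ℝ] ℝ)) v
  have hg : ∀ z, ⟪z + grad (tilt (scl b W) ξ) z, v⟫ * 1 =
      ⟪z, v⟫ + b * gcrd b W v z - ⟪ξ, v⟫ := fun z => by
    have e : scl b W = fun z => W (0 + b • z) := by funext z; simp [scl]
    rw [grad_tilt hS.contDiff, mul_one, inner_add_left, inner_sub_left, e, hW.grad_affine,
      real_inner_smul_left, zero_add, gcrd]
    ring
  simp only [hg, fderiv_fun_const, Pi.zero_apply, _root_.zero_apply, integral_zero] at h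
  have i1 : Integrable (fun z => ⟪z, v⟫) (law (tilt (scl b W) ξ)) :=
    hP.integrable_law (polyBd_inner v) (by fun_prop)
  have i2 : Integrable (gcrd b W v) (law (tilt (scl b W) ξ)) :=
    hP.integrable_law (hW.polyBd_gcrd b v) (hW.continuous_gcrd b v)
  rw [integral_sub (f := fun z => ⟪z, v⟫ + b * gcrd b W v z) (i1.fun_add (i2.const_mul b))
    (integrable_const _), integral_add i1 (i2.const_mul b), integral_const_mul] at h
  simp only [integral_const, probReal_univ, one_smul] at h
  simp only [tm, zc, one_mul, mul_one]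
  linarith

theorem hasFDerivAt_lsm {b : ℝ} (hb : 0 < b) (hb2 : b < 1) (u : E d) :
    DifferentiableAt ℝ (lsm b W) u ∧ ∀ v, dd v (lsm b W) u =
      cosB b * tm (scl b W) (gcrd b W v) (fun _ => 1) (tiltAt b d u) := by
  have hS := hW.scl_pert hb hb2
  set ξ := tiltAt b d u
  obtain ⟨L, hL, eL⟩ := hS.hasFDerivAt_nm continuous_const (PolyBd.const (1 : ℝ))
    (good_const 1 1) ξ
  have hN := hS.nm_one_pos ξ
  have hlog : HasFDerivAt
      (fun u => Real.log (nm (scl b W) (fun _ => 1) (fun _ => 1) (tiltAt b d u)))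
      ((nm (scl b W) (fun _ => 1) (fun _ => 1) ξ)⁻¹ • L.comp (tiltAt b d)) u :=
    (Real.hasDerivAt_log hN.ne').comp_hasFDerivAt
      (f := fun u => nm (scl b W) (fun _ => 1) (fun _ => 1) (tiltAt b d u)) u
        (HasFDerivAt.comp (g := nm (scl b W) (fun _ => 1) (fun _ => 1)) u hL
          (tiltAt b d).hasFDerivAt)
  have hsq : HasFDerivAt (fun u => ‖tiltAt b d u‖ ^ 2 / 2)
      ((innerSL ℝ ξ).comp (tiltAt b d)) u := by
    have h1 : HasFDerivAt (fun y : E d => ‖y‖ ^ 2 / 2) (innerSL ℝ ξ) ξ := by
      have h := (hasStrictFDerivAt_norm_sq ξ).hasFDerivAt.const_mul (1 / 2 : ℝ)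
      have e : (fun y : E d => ‖y‖ ^ 2 / 2) = fun y => 1 / 2 * ‖y‖ ^ 2 := by funext y; ring
      rw [e]
      exact h.congr_fderiv (by ext y; simp)
    exact h1.comp u (tiltAt b d).hasFDerivAt
  have h := (hsq.add_const (Real.log (∫ y : E d, exp (-gPot y)))).fun_sub hlog
  rw [← funext (hW.lsm_eq hb hb2)] at h
  refine ⟨h.differentiableAt, fun v => ?_⟩
  have eo : opD (tiltAt b d v) (fun _ : Z d => (1 : ℝ)) = zc (tiltAt b d v) := by
    funext p; simp [opD, dd_const]
  have e2 := hS.tm_eq (fun _ => 1) (zc (tiltAt b d v)) ξ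
  have e3 := hW.tm_zc_eq hb hb2 (tiltAt b d v) ξ
  rw [Deriv.dd, h.fderiv]
  simp only [_root_.sub_apply, ContinuousLinearMap.comp_apply, _root_.smul_apply,
    innerSL_apply_apply, smul_eq_mul, eL, eo, inv_mul_eq_div, ← e2, e3]
  have e4 : tm (scl b W) (gcrd b W (tiltAt b d v)) (fun _ => 1) ξ =
      cosB b / b * tm (scl b W) (gcrd b W v) (fun _ => 1) ξ := by
    simp only [tm, gcrd, tiltAt_apply, real_inner_smul_right, mul_assoc, integral_const_mul]
  rw [e4, sub_sub_cancel, ← mul_assoc, mul_div_cancel₀ _ hb.ne']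

theorem good_dd_lsm {b : ℝ} (hb : 0 < b) (hb2 : b < 1) (v : E d) (n : ℕ) :
    Good n (dd v (lsm b W)) := by
  rw [show dd v (lsm b W) = fun u => cosB b *
      tm (scl b W) (gcrd b W v) (fun _ => 1) (tiltAt b d u) from
    funext fun u => (hW.hasFDerivAt_lsm hb hb2 u).2 v]
  exact (((hW.scl_pert hb hb2).good_tm (hW.continuous_gcrd b v) (hW.polyBd_gcrd b v) n
    fun k => good_const k 1).comp (tiltAt b d)).const_mul _

theorem hess_lsm {b : ℝ} (hb : 0 < b) (hb2 : b < 1) (u v : E d) :
    ∃ V : ℝ, V ≤ ‖v‖ ^ 2 ∧ ‖v‖ ^ 2 ≤ (1 + b ^ 2 * η) * V ∧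
      dd v (dd v (lsm b W)) u = cosB b ^ 2 / b ^ 2 * (‖v‖ ^ 2 - V) := by
  have hS := hW.scl_pert hb hb2
  set ξ := tiltAt b d u
  have hP := hS.pert_tilt ξ
  have := hP.isProbabilityMeasure_law
  set μ := law (tilt (scl b W) ξ) with hμ
  set T := tm (scl b W) (gcrd b W v) fun _ => 1
  have hT : Good 1 T := hS.good_tm (hW.continuous_gcrd b v) (hW.polyBd_gcrd b v) 1
    fun k => good_const k 1
  set p := fun z : E d => ⟪z, v⟫ with hp
  have hpg : Good 2 p := by
    rw [show p = fun z => innerSL ℝ v z by funext z; simp [p, real_inner_comm]]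
    exact good_linear 2 _
  have hpd : ∀ z w, fderiv ℝ p z w = ⟪w, v⟫ := fun z w => by
    rw [show p = ⇑(innerSL ℝ v) by funext z; simp [p, real_inner_comm],
      ContinuousLinearMap.fderiv]
    simp [real_inner_comm w]
  set m := ∫ z, p z ∂μ
  set V := ∫ z, (p z - m) ^ 2 ∂μ
  have ip : Integrable p μ := hP.integrable_law hpg.polyBd hpg.continuous
  have ip2 : Integrable (fun z => p z ^ 2) μ :=
    hP.integrable_law (hpg.polyBd.pow 2) (hpg.continuous.pow 2)
  have eV : V = ∫ z, p z ^ 2 ∂μ - m ^ 2 := by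
    have h := integral_sq_sub_mean ip ip2 0
    simp only [sub_zero] at h
    linarith
  have hT' : dd v T ξ * b = ‖v‖ ^ 2 - V := by
    have h1 : dd v (tm (scl b W) (fun _ => 1) (zc v)) ξ = V := by
      rw [(hS.hasFDerivAt_tm continuous_const (PolyBd.const 1) (good_zc 1 v) ξ).2 v]
      have eo : opD v (zc v) = fun q : Z d => zc v q * zc v q := by
        funext q
        have h : zc v = ⇑((innerSL ℝ v).comp (ContinuousLinearMap.snd ℝ (E d) (E d))) := by
          funext q; simp [zc, real_inner_comm]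
        simp only [opD]
        rw [show dd ((v, 0) : Z d) (zc v) q = 0 by
          rw [h, Deriv.dd, ContinuousLinearMap.fderiv]; simp]
        simp
      rw [eo, eV]
      simp only [tm, zc, one_mul, ← pow_two, p, m, μ]
    have h2 : dd v (tm (scl b W) (fun _ => 1) (zc v)) ξ = ‖v‖ ^ 2 - b * dd v T ξ := by
      have e : tm (scl b W) (fun _ => 1) (zc v) = fun y => innerSL ℝ v y - b * T y := by
        funext y; rw [hW.tm_zc_eq hb hb2]; simp [T, real_inner_comm y]
      rw [e, dd_sub (innerSL ℝ v).differentiable (hT.const_mul b).differentiable,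
        dd_const_mul hT.differentiable]
      beta_reduce
      rw [show dd v (⇑(innerSL ℝ v)) ξ = ‖v‖ ^ 2 by
        rw [Deriv.dd, ContinuousLinearMap.fderiv]; simp]
    linarith
  refine ⟨V, ?_, ?_, ?_⟩
  · have h := hP.poincare_exact hpg
    rw [← hμ] at h
    have hn : ∀ z, ‖fderiv ℝ p z‖ ^ 2 ≤ ‖v‖ ^ 2 := fun z => by
      refine pow_le_pow_left₀ (norm_nonneg _) (ContinuousLinearMap.opNorm_le_bound _ (norm_nonneg _)
        fun w => ?_) 2
      rw [hpd, mul_comm]; exact abs_real_inner_le_norm w v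
    have h2 : ∫ z, ‖fderiv ℝ p z‖ ^ 2 ∂μ ≤ ‖v‖ ^ 2 := by
      refine (integral_mono_of_nonneg (ae_of_all _ fun z => sq_nonneg _) (integrable_const _)
        (ae_of_all _ hn)).trans ?_
      simp
    linarith
  · -- Cauchy-Schwarz against the score
    set φ := fun z : E d => ⟪z + grad (tilt (scl b W) ξ) z, v⟫
    have hgc : ContDiff ℝ 1 (grad (tilt (scl b W) ξ)) := hP.contDiff_grad
    have hφc : ContDiff ℝ 1 φ := (contDiff_id.add hgc).inner ℝ contDiff_const
    have hφp : PolyBd φ := (PolyBd.id.add hP.polyBd_grad).mul_of_le (PolyBd.const v)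
      fun z => norm_inner_le_norm _ _
    have hφd : ∀ z w, fderiv ℝ φ z w =
        ⟪w + b ^ 2 • fderiv ℝ (grad W) (b • z) w, v⟫ := by
      intro z w
      have hgd := hgc.differentiable one_ne_zero z
      show fderiv ℝ (fun z => ⟪z + grad (tilt (scl b W) ξ) z, v⟫) z w = _
      rw [fderiv_inner_apply (𝕜 := ℝ) (differentiableAt_fun_id.fun_add hgd) (differentiableAt_const v),
        fderiv_fun_add differentiableAt_fun_id hgd]
      simp only [_root_.add_apply, fderiv_fun_const, Pi.zero_apply, _root_.zero_apply,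
        inner_zero_right, zero_add, fderiv_fun_id, ContinuousLinearMap.coe_id', id_eq]
      congr 2
      rw [funext (grad_tilt hS.contDiff ξ), fderiv_sub_const]
      rw [show scl b W = fun z => W (0 + b • z) by funext y; simp [scl],
        hW.fderiv_grad_affine, zero_add]
    have hφp' : PolyBd fun z => fderiv ℝ φ z := PolyBd.of_bound (B := 2 * ‖v‖) fun z => by
      refine ContinuousLinearMap.opNorm_le_bound _ (by positivity) fun w => ?_
      rw [hφd]
      refine (abs_real_inner_le_norm _ _).trans ?_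
      have h : ‖w + b ^ 2 • fderiv ℝ (grad W) (b • z) w‖ ≤ 2 * ‖w‖ := by
        refine (norm_add_le _ _).trans ?_
        rw [norm_smul, Real.norm_eq_abs, abs_of_nonneg (sq_nonneg b)]
        nlinarith [mul_le_mul (by nlinarith : b ^ 2 ≤ 1) ((hW.norm_hess_apply_le (b • z) w).trans
          (mul_le_of_le_one_left (norm_nonneg w) hW.eta_le_one)) (norm_nonneg _) zero_le_one]
      nlinarith [mul_le_mul_of_nonneg_right h (norm_nonneg v)]
    have hA : ∫ z, (p z - m) * φ z ∂μ = ‖v‖ ^ 2 := by
      have hpm : PolyBd fun z => fderiv ℝ (fun z => p z - m) z := by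
        have e : ∀ z, fderiv ℝ (fun z => p z - m) z = innerSL ℝ v := fun z => by
          rw [fderiv_sub_const]; ext w; rw [hpd]; simp [real_inner_comm w]
        simpa only [e] using PolyBd.const (V := E d) (innerSL ℝ v)
      have h := hP.ibp_law (hpg.contDiff_one.sub contDiff_const)
        (hpg.polyBd.sub (PolyBd.const m)) hpm v
      simp only [fderiv_sub_const, hpd, real_inner_self_eq_norm_sq, integral_const, probReal_univ,
        one_smul] at h
      rw [h]
      exact integral_congr_ae (ae_of_all _ fun z => mul_comm _ _)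
    have hB : ∫ z, φ z ^ 2 ∂μ ≤ (1 + b ^ 2 * η) * ‖v‖ ^ 2 := by
      have h := hP.ibp_law hφc hφp hφp' v
      have hd' : ∀ z, fderiv ℝ φ z v = ‖v‖ ^ 2 + b ^ 2 * ⟪fderiv ℝ (grad W) (b • z) v, v⟫ :=
        fun z => by rw [hφd, inner_add_left, real_inner_smul_left, real_inner_self_eq_norm_sq]
      have e : ∫ z, φ z ^ 2 ∂μ = ∫ z, (‖v‖ ^ 2 + b ^ 2 * ⟪fderiv ℝ (grad W) (b • z) v, v⟫) ∂μ := by
        rw [← integral_congr_ae (ae_of_all μ hd'), hμ, h]
        exact integral_congr_ae (ae_of_all _ fun z => pow_two (φ z))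
      rw [e]
      refine (integral_mono_of_nonneg (ae_of_all _ fun z => ?_) (integrable_const _)
        (ae_of_all _ fun z => ?_)).trans (le_of_eq (?_ :
          ∫ _, (1 + b ^ 2 * η) * ‖v‖ ^ 2 ∂μ = _))
      · exact add_nonneg (sq_nonneg _) (mul_nonneg (sq_nonneg _) (hW.hess_nonneg _ _))
      · have := mul_le_mul_of_nonneg_left (hW.hess_le (b • z) v) (sq_nonneg b)
        linarith
      · simp
    set t := 1 + b ^ 2 * η
    have ht : 0 < t := by have := hW.eta_nonneg; positivity
    have i1 : Integrable (fun z => (p z - m) ^ 2) μ :=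
      hP.integrable_law ((hpg.polyBd.sub (PolyBd.const m)).pow 2)
        ((hpg.continuous.sub continuous_const).pow 2)
    have i2 : Integrable (fun z => φ z ^ 2) μ :=
      hP.integrable_law (hφp.pow 2) (hφc.continuous.pow 2)
    have i3 : Integrable (fun z => (p z - m) * φ z) μ :=
      hP.integrable_law ((hpg.polyBd.sub (PolyBd.const m)).mul hφp)
        ((hpg.continuous.sub continuous_const).mul hφc.continuous)
    have h : 2 * ‖v‖ ^ 2 ≤ t * V + ‖v‖ ^ 2 := by
      calc 2 * ‖v‖ ^ 2 = ∫ z, 2 * ((p z - m) * φ z) ∂μ := by rw [integral_const_mul, hA]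
        _ ≤ ∫ z, (t * (p z - m) ^ 2 + φ z ^ 2 / t) ∂μ := by
            refine integral_mono (i3.const_mul 2) ((i1.const_mul t).add (i2.div_const t))
              fun z => ?_
            have h1 : t * (φ z / t - (p z - m)) ^ 2 =
                φ z ^ 2 / t - 2 * ((p z - m) * φ z) + t * (p z - m) ^ 2 := by
              field_simp; ring
            have : 0 ≤ t * (φ z / t - (p z - m)) ^ 2 := by positivity
            linarith
        _ ≤ t * V + ‖v‖ ^ 2 := by
            rw [integral_add (i1.const_mul t) (i2.div_const t), integral_const_mul, integral_div]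
            refine add_le_add le_rfl ((div_le_iff₀ ht).2 ?_)
            linarith [hB]
    linarith
  · rw [show dd v (lsm b W) = fun u => cosB b * T (tiltAt b d u) from
      funext fun u => (hW.hasFDerivAt_lsm hb hb2 u).2 v,
      dd_const_mul (f := fun u => T (tiltAt b d u))
        (hT.differentiable.comp (tiltAt b d).differentiable),
      dd_comp hT.differentiable]
    have e : dd (tiltAt b d v) T ξ = cosB b / b * dd v T ξ := by
      simp [Deriv.dd, tiltAt_apply]
    beta_reduce
    rw [e, ← hT']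
    field_simp

theorem lsm_pert' {b : ℝ} (hb : 0 < b) (hb2 : b < 1) :
    Pert η (3 * (1 + B)) (lsm b W) := by
  have hd : Differentiable ℝ (lsm b W) := fun u => (hW.hasFDerivAt_lsm hb hb2 u).1
  have hC : ContDiff ℝ 2 (lsm b W) := by
    rw [show (2 : WithTop ℕ∞) = 1 + 1 from (one_add_one_eq_two).symm, contDiff_succ_iff_fderiv]
    exact ⟨hd, by simp, contDiff_clm_apply_iff.2 fun v =>
      (hW.good_dd_lsm hb hb2 v 1).contDiff_one⟩
  have hhess : ∀ u v, ⟪fderiv ℝ (grad (lsm b W)) u v, v⟫ = dd v (dd v (lsm b W)) u := by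
    intro u v
    have hg : Differentiable ℝ (grad (lsm b W)) :=
      (P347.contDiff_grad (n := 1) (by simpa [one_add_one_eq_two] using hC)).differentiable
        one_ne_zero
    rw [show dd v (lsm b W) = fun y => ⟪grad (lsm b W) y, v⟫ from
      funext fun y => (inner_grad y v).symm]
    show _ = fderiv ℝ (fun y => ⟪grad (lsm b W) y, v⟫) u v
    rw [fderiv_inner_apply (𝕜 := ℝ) (hg u) (differentiableAt_const v)]
    simp
  refine ⟨hW.eta_nonneg, hW.eta_le_one, by have := hW.bound_nonneg; positivity, hC,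
    fun u v => ?_, fun u v => ?_, ?_⟩
  · obtain ⟨V, h1, -, h3⟩ := hW.hess_lsm hb hb2 u v
    rw [hhess, h3]
    exact mul_nonneg (by positivity) (by linarith)
  · obtain ⟨V, h1, h2, h3⟩ := hW.hess_lsm hb hb2 u v
    rw [hhess, h3]
    have hη := hW.eta_nonneg
    have hc : cosB b ^ 2 ≤ 1 := pow_le_one₀ (cosB_nonneg b) (cosB_le_one b)
    have h4 : ‖v‖ ^ 2 - V ≤ b ^ 2 * η * ‖v‖ ^ 2 := by
      nlinarith [mul_nonneg (sq_nonneg b) hη]
    calc cosB b ^ 2 / b ^ 2 * (‖v‖ ^ 2 - V) ≤ 1 / b ^ 2 * (b ^ 2 * η * ‖v‖ ^ 2) :=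
          mul_le_mul (div_le_div_of_nonneg_right hc (sq_nonneg b)) h4 (by linarith) (by positivity)
      _ = η * ‖v‖ ^ 2 := by field_simp
  · have hS := hW.scl_pert hb hb2
    set g := grad (lsm b W) 0
    set μ := law (tilt (scl b W) 0) with hμ
    have hP : Pert 1 B (tilt (scl b W) 0) := by
      have : tilt (scl b W) 0 = scl b W := by funext z; simp [tilt]
      rwa [this]
    have := hP.isProbabilityMeasure_law
    have hη := hW.eta_nonneg
    have hB := hW.bound_nonneg
    have i2 : Integrable (fun z => ‖z‖) μ :=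
      hP.integrable_law PolyBd.id.norm continuous_norm
    have hz : ∫ z, ‖z‖ ∂μ ≤ 2 * (1 + B) * √d := by
      have h := integral_abs_le_sqrt (f := fun z : E d => ‖z‖) i2
        (hP.integrable_law (PolyBd.id.norm.pow 2) (by fun_prop))
      simp only [abs_norm] at h
      refine h.trans ((Real.sqrt_le_sqrt (hP.integral_norm_sq_law_le.trans
        (?_ : _ ≤ (2 * (1 + B) * √d) ^ 2))).trans_eq (Real.sqrt_sq (by positivity)))
      rw [mul_pow, mul_pow, Real.sq_sqrt d.cast_nonneg]
      nlinarith [mul_nonneg (sq_nonneg (1 + B)) (d.cast_nonneg (α := ℝ))]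
    have key : ‖g‖ ^ 2 ≤ η * (3 * (1 + B)) * √d * ‖g‖ := by
      rw [← real_inner_self_eq_norm_sq, inner_grad]
      show dd g (lsm b W) 0 ≤ _
      rw [(hW.hasFDerivAt_lsm hb hb2 0).2 g, map_zero]
      have hle : |tm (scl b W) (gcrd b W g) (fun _ => 1) 0| ≤
          (η * B * √d + η * b * (2 * (1 + B) * √d)) * ‖g‖ := by
        simp only [tm, mul_one]
        refine (Real.norm_eq_abs _).symm.trans_le ?_
        refine (norm_integral_le_of_norm_le (g := fun z => (η * B * √d + η * b * ‖z‖) * ‖g‖)
          (((integrable_const _).add (i2.const_mul _)).mul_const _) (ae_of_all _ fun z => ?_)).trans ?_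
        · refine (abs_real_inner_le_norm _ _).trans (mul_le_mul_of_nonneg_right ?_ (norm_nonneg _))
          refine (hW.norm_grad_le _).trans ?_
          rw [norm_smul, Real.norm_eq_abs, abs_of_pos hb]
          linarith
        · rw [integral_mul_const, integral_add (integrable_const _) (i2.const_mul _)]
          simp only [integral_const, probReal_univ, one_smul, integral_const_mul]
          exact mul_le_mul_of_nonneg_right
            (add_le_add le_rfl (mul_le_mul_of_nonneg_left hz (by positivity))) (norm_nonneg _)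
      refine ((mul_le_mul_of_nonneg_left (le_abs_self _) (cosB_nonneg b)).trans
        (mul_le_of_le_one_left (abs_nonneg _) (cosB_le_one b))).trans (hle.trans ?_)
      refine mul_le_mul_of_nonneg_right ?_ (norm_nonneg _)
      nlinarith [mul_le_mul_of_nonneg_left hb2.le (by positivity : 0 ≤ η * ((1 + B) * √d)),
        mul_nonneg hη (Real.sqrt_nonneg (d : ℝ)), mul_nonneg (mul_nonneg hη hB) (Real.sqrt_nonneg (d : ℝ))]
    rcases eq_or_ne ‖g‖ 0 with h0 | h0
    · rw [h0]; positivity
    · exact le_of_mul_le_mul_right (by rw [← pow_two]; exact key) ((norm_nonneg _).lt_of_ne' h0)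

theorem good_lsm {b : ℝ} (hb : 0 < b) (hb2 : b < 1) : ∀ n : ℕ, Good n (lsm b W)
  | 0 => ⟨(hW.lsm_pert' hb hb2).contDiff.continuous, (hW.lsm_pert' hb hb2).polyBd_self⟩
  | n + 1 => ⟨fun u => (hW.hasFDerivAt_lsm hb hb2 u).1, (hW.lsm_pert' hb hb2).polyBd_self,
      fun v => hW.good_dd_lsm hb hb2 v n⟩

theorem bd_lsm_aux {b : ℝ} (hb : 0 < b) (hb2 : b < 1) (R : ℕ) :
    ∀ (r p : ℕ), p + r ≤ R → ∀ {ι : Type} [Fintype ι] (e : ι ≃ (Fin (p + 1) → Fin d))
      (M : ι → Fin d → E d → ℝ),
      (∀ i k u, M i k u = cosB b * (cosB b / b) * cosB b ^ p *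
        ddN (p + 1) (fun j => bas (e i j)) (tm (scl b W) (gcrd b W (bas k)) fun _ => 1)
          (tiltAt b d u)) →
      Bd b (65 * ((R + 1).factorial : ℝ) ^ 2) r M := by
  have hS := hW.scl_pert hb hb2
  set c : ℝ := 65 * ((R + 1).factorial : ℝ) ^ 2
  intro r
  induction r with
  | zero =>
    intro p hp ι _ e M hM
    refine ⟨fun u a => ?_, fun i k => ?_⟩
    · set w : E d := ∑ k, a k • bas k with hw
      set ξ := tiltAt b d u
      set s := cosB b * (cosB b / b) * cosB b ^ p
      have hlin : ∀ i, ∑ k, M i k u * a k =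
          s * ddN (p + 1) (fun j => bas (e i j)) (tm (scl b W) (gcrd b W w) fun _ => 1) ξ := by
        intro i
        simp only [hM]
        rw [show tiltAt b d u = ξ from rfl]
        have hg : ∀ k, ddN (p + 1) (fun j => bas (e i j))
            (tm (scl b W) (gcrd b W (bas k)) fun _ => 1) ξ =
              tm (scl b W) (gcrd b W (bas k)) (qf (scl b W) (p + 1) fun j => bas (e i j)) ξ :=
          fun k => congrFun (hS.ddN_tm (hW.continuous_gcrd b _) (hW.polyBd_gcrd b _) _ _) ξ
        simp only [hg, hS.ddN_tm (hW.continuous_gcrd b w) (hW.polyBd_gcrd b w), mul_assoc,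
          ← Finset.mul_sum]
        congr 1
        simp only [tm]
        have e2 : ∀ z, gcrd b W w z * qf (scl b W) (p + 1) (fun j => bas (e i j)) (ξ, z) =
            ∑ k, (gcrd b W (bas k) z * qf (scl b W) (p + 1) (fun j => bas (e i j)) (ξ, z)) * a k := by
          intro z
          simp only [gcrd, hw, inner_sum, real_inner_smul_right, Finset.sum_mul]
          exact Finset.sum_congr rfl fun k _ => by ring
        simp only [e2]
        rw [integral_finsetSum _ fun k _ => (hS.integrable_tm (hW.continuous_gcrd b _)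
          (hW.polyBd_gcrd b _) (hS.good_qf _ _ 0) ξ).mul_const (a k)]
        simp only [integral_mul_const]
      simp only [hlin, mul_pow, ← Finset.mul_sum]
      rw [e.sum_comp (fun I : Fin (p + 1) → Fin d =>
        ddN (p + 1) (fun j => bas (I j)) (tm (scl b W) (gcrd b W w) fun _ => 1) ξ ^ 2)]
      have hP := hS.pert_tilt ξ
      have hvar := hP.poincare_le (hW.gcrd_wlip hb w)
      simp only [mul_zero, zero_mul, add_zero] at hvar
      have hw2 : ‖w‖ ^ 2 = ∑ k, a k ^ 2 := by
        rw [← real_inner_self_eq_norm_sq, hw,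
          show (⟪∑ k, a k • bas k, ∑ k, a k • bas k⟫ : ℝ) = ∑ k, starRingEnd ℝ (a k) * a k from
            (EuclideanSpace.basisFun (Fin d) ℝ).orthonormal.inner_sum a a Finset.univ]
        simp [pow_two]
      refine (mul_le_mul_of_nonneg_left ((hS.ddN_tm_sq_le (hW.continuous_gcrd b w)
        (hW.polyBd_gcrd b w) p ξ).trans (mul_le_mul_of_nonneg_left hvar (sq_nonneg _)))
          (sq_nonneg _)).trans ?_
      rw [← hw2]
      have hfac : ((p + 1).factorial : ℝ) ^ 2 ≤ ((R + 1).factorial : ℝ) ^ 2 :=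
        pow_le_pow_left₀ (Nat.cast_nonneg _) (Nat.cast_le.2 (Nat.factorial_le (by omega))) 2
      have hsb : s ^ 2 * (η * b) ^ 2 ≤ 1 := by
        rw [← mul_pow, show s * (η * b) = cosB b * cosB b * cosB b ^ p * η by
          simp only [s]; field_simp]
        refine pow_le_one₀ (by have := hW.eta_nonneg; have := cosB_nonneg b; positivity) ?_
        exact mul_le_one₀ (mul_le_one₀ (mul_le_one₀ (cosB_le_one b) (cosB_nonneg b) (cosB_le_one b))
          (pow_nonneg (cosB_nonneg b) p) (pow_le_one₀ (cosB_nonneg b) (cosB_le_one b)))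
          hW.eta_nonneg hW.eta_le_one
      calc s ^ 2 * (((p + 1).factorial : ℝ) ^ 2 * (65 * (η * b * ‖w‖) ^ 2))
          = (s ^ 2 * (η * b) ^ 2) * (65 * ((p + 1).factorial : ℝ) ^ 2 * ‖w‖ ^ 2) := by ring
        _ ≤ 1 * (c * ‖w‖ ^ 2) := by
            refine mul_le_mul hsb (mul_le_mul_of_nonneg_right
              (mul_le_mul_of_nonneg_left hfac (by norm_num)) (sq_nonneg _)) (by positivity)
                zero_le_one
        _ = _ := one_mul _
    · rw [funext (hM i k), hS.ddN_tm (hW.continuous_gcrd b _) (hW.polyBd_gcrd b _)]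
      exact ((hS.good_tm (hW.continuous_gcrd b _) (hW.polyBd_gcrd b _) 0
        fun n => hS.good_qf _ _ n).comp (tiltAt b d)).const_mul _
  | succ r ih =>
    intro p hp ι _ e M hM
    refine ⟨(ih p (by omega) e M hM).opLe, fun i k => ?_, ?_⟩
    · rw [funext (hM i k), hS.ddN_tm (hW.continuous_gcrd b _) (hW.polyBd_gcrd b _)]
      exact ((hS.good_tm (hW.continuous_gcrd b _) (hW.polyBd_gcrd b _) (r + 1)
        fun n => hS.good_qf _ _ n).comp (tiltAt b d)).const_mul _
    · refine ih (p + 1) (by omega) ((Equiv.prodComm ι (Fin d)).trans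
        (((Equiv.refl (Fin d)).prodCongr e).trans (Fin.consEquiv fun _ => Fin d))) _
        fun q k u => ?_
      obtain ⟨i, j⟩ := q
      have hT : Differentiable ℝ (ddN (p + 1) (fun l => bas (e i l))
          (tm (scl b W) (gcrd b W (bas k)) fun _ => 1)) := by
        rw [hS.ddN_tm (hW.continuous_gcrd b _) (hW.polyBd_gcrd b _)]
        exact (hS.good_tm (hW.continuous_gcrd b _) (hW.polyBd_gcrd b _) 1
          fun n => hS.good_qf _ _ n).differentiable
      show b * dd (bas j) (M i k) u = _
      rw [funext (hM i k), dd_const_mul (f := fun u => ddN (p + 1) (fun l => bas (e i l))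
        (tm (scl b W) (gcrd b W (bas k)) fun _ => 1) (tiltAt b d u))
        (hT.comp (tiltAt b d).differentiable), dd_comp hT]
      have e2 : ∀ (F : E d → ℝ) (y : E d),
          dd (tiltAt b d (bas j)) F y = cosB b / b * dd (bas j) F y := fun F y => by
        simp [Deriv.dd, tiltAt_apply]
      have e3 : ddN (p + 2) (fun l => bas ((Fin.cons j (e i) : Fin (p + 2) → Fin d) l))
          (tm (scl b W) (gcrd b W (bas k)) fun _ => 1) =
          dd (bas j) (ddN (p + 1) (fun l => bas (e i l))
            (tm (scl b W) (gcrd b W (bas k)) fun _ => 1)) := by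
        show dd (bas ((Fin.cons j (e i) : Fin (p + 2) → Fin d) 0))
          (ddN (p + 1) (Fin.tail fun l => bas ((Fin.cons j (e i) : Fin (p + 2) → Fin d) l))
            (tm (scl b W) (gcrd b W (bas k)) fun _ => 1)) = _
        rw [Fin.cons_zero, show (Fin.tail fun l => bas ((Fin.cons j (e i) : Fin (p + 2) → Fin d) l)) =
          fun l => bas (e i l) from funext fun l => by simp [Fin.tail]]
      show _ = cosB b * (cosB b / b) * cosB b ^ (p + 1) *
        ddN (p + 2) (fun l => bas ((Fin.cons j (e i) : Fin (p + 2) → Fin d) l))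
          (tm (scl b W) (gcrd b W (bas k)) fun _ => 1) (tiltAt b d u)
      beta_reduce
      rw [e2, e3]
      field_simp
      ring

theorem bd_lsm {b : ℝ} (hb : 0 < b) (hb2 : b < 1) (R : ℕ) :
    Bd b (65 * ((R + 1).factorial : ℝ) ^ 2) R (hessM (lsm b W)) := by
  refine hW.bd_lsm_aux hb hb2 R R 0 (by omega) (Equiv.funUnique (Fin 1) (Fin d)).symm _
    fun i k u => ?_
  have hT := ((hW.scl_pert hb hb2).good_tm (hW.continuous_gcrd b (bas k))
    (hW.polyBd_gcrd b (bas k)) 1 fun n => good_const n 1).differentiable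
  show dd (bas i) (dd (bas k) (lsm b W)) u = _
  rw [show dd (bas k) (lsm b W) = fun u => cosB b *
      tm (scl b W) (gcrd b W (bas k)) (fun _ => 1) (tiltAt b d u) from
    funext fun u => (hW.hasFDerivAt_lsm hb hb2 u).2 _,
    dd_const_mul (f := fun u => tm (scl b W) (gcrd b W (bas k)) (fun _ => 1) (tiltAt b d u))
      (hT.comp (tiltAt b d).differentiable), dd_comp hT]
  simp [ddN, Deriv.dd, tiltAt_apply]
  ring

/-- The gradient of `lsm b W` as an average of `grad W` under the conditional law of the noise. -/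
theorem grad_lsm {b : ℝ} (hb : 0 < b) (hb2 : b < 1) (u : E d) :
    grad (lsm b W) u =
      cosB b • ∫ z, grad W (cosB b • u + b • z) ∂law (post b W u) := by
  have hP := hW.post_pert hb hb2 u
  set ξ := tiltAt b d u
  have hQ := (hW.scl_pert hb hb2).pert_tilt ξ
  refine ext_inner_right ℝ fun v => ?_
  have hi : Integrable (fun z => grad W (cosB b • u + b • z)) (law (post b W u)) :=
    hP.integrable_law (hW.polyBd_grad.comp ((PolyBd.const _).add ((PolyBd.const b).smul PolyBd.id)))
      (hW.contDiff_grad.continuous.comp (by fun_prop))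
  rw [inner_grad, real_inner_smul_left, real_inner_comm, ← integral_inner hi]
  show dd v (lsm b W) u = _
  rw [(hW.hasFDerivAt_lsm hb hb2 u).2 v]
  congr 1
  have e1 : (fun z => ⟪v, grad W (cosB b • u + b • z)⟫) = fun z => gcrd b W v (z + ξ) := by
    funext z
    simp only [gcrd, ξ, tiltAt_apply, smul_add, smul_smul, mul_div_cancel₀ _ hb.ne']
    rw [real_inner_comm, add_comm]
  simp only [tm, mul_one, e1]
  rw [hP.integral_law, hQ.integral_law, integral_exp_post b hb.ne']
  have e2 : ∫ z, exp (-pot (post b W u) z) =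
      exp (-(‖ξ‖ ^ 2 / 2)) * ∫ z, exp (-pot (tilt (scl b W) ξ) z) := by
    simpa using integral_exp_post (W := W) b hb.ne' u fun _ => (1 : ℝ)
  rw [e2]
  simp only [smul_eq_mul, ξ]
  field_simp

/-- `√(1 - b²) X + b Z` has law `law (lsm b W)`. -/
theorem law_lsm {b : ℝ} (hb : 0 < b) (hb2 : b < 1) :
    law (lsm b W) =
      ((law W).prod (stdGaussian (E d))).map (fun p => cosB b • p.1 + b • p.2) := by
  set γ := stdGaussian (E d)
  have hU := hW.lsm_pert' hb hb2
  have := hU.isProbabilityMeasure_law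
  have := hW.isProbabilityMeasure_law
  set θ := -arcsin b
  have hc : cos θ = cosB b := by simp [θ, Real.cos_arcsin, cosB]
  have hs : sin θ = -b := by
    simp [θ, Real.sin_arcsin (by linarith : (-1 : ℝ) ≤ b) (by linarith : b ≤ 1)]
  have hcs : cosB b ^ 2 + b ^ 2 = 1 := by
    rw [cosB_sq (by rw [abs_of_pos hb]; linarith)]; ring
  set K := ∫ y : E d, exp (-gPot y)
  have hK : 0 < K := integral_exp_gPot_pos
  -- laws as weighted Gaussians
  have hlaw : ∀ {η B : ℝ} {U : E d → ℝ}, Pert η B U → ∀ φ : E d → ℝ,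
      ∫ x, φ x ∂law U = K / (∫ x, exp (-pot U x)) * ∫ x, exp (-U x) * φ x ∂γ := by
    intro η B U hU φ
    rw [hU.integral_law, integral_stdGaussian, smul_eq_mul, smul_eq_mul]
    have e : ∀ x, exp (-gPot x) • (exp (-U x) * φ x) = exp (-pot U x) * φ x := fun x => by
      simp only [smul_eq_mul, ← mul_assoc, ← exp_add]
      simp [pot, gPot]; ring_nf; simp
    simp only [e, smul_eq_mul]
    rw [show ∫ y : E d, exp (-gPot y) = K from rfl]
    field_simp
  have hexp : Integrable (fun x => exp (-W x)) γ := integrable_exp_neg hW.decay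
  have hWc : Continuous W := hW.contDiff.continuous
  -- the two measures on a set
  have key : ∀ S : Set (E d), MeasurableSet S →
      (((law W).prod γ).map (fun p => cosB b • p.1 + b • p.2)).real S =
        K / (∫ x, exp (-pot W x)) * ∫ p, exp (-lsm b W p) * S.indicator 1 p ∂γ := by
    intro S hS
    set h : E d → ℝ := S.indicator 1
    have hhm : Measurable h := measurable_one.indicator hS
    have hh : ∀ x, ‖h x‖ ≤ 1 := fun x => by
      simp only [h, indicator]; split_ifs <;> simp
    have hm : Measurable fun p : E d × E d => cosB b • p.1 + b • p.2 := by fun_prop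
    have i0 : Integrable (fun p : E d × E d => h (cosB b • p.1 + b • p.2)) ((law W).prod γ) :=
      (integrable_const (1 : ℝ)).mono' (hhm.comp hm).aestronglyMeasurable
        (ae_of_all _ fun p => hh _)
    have i1 : Integrable (fun p : E d × E d => exp (-W p.1) * h (cosB b • p.1 + b • p.2))
        (γ.prod γ) :=
      (hexp.comp_fst γ).mono' ((((hWc.comp continuous_fst).neg.rexp).measurable).mul
        (hhm.comp hm)).aestronglyMeasurable (ae_of_all _ fun p => by
          rw [norm_mul, Real.norm_eq_abs, abs_of_pos (exp_pos _)]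
          exact mul_le_of_le_one_right (exp_pos _).le (hh _))
    rw [← integral_indicator_one hS, integral_map hm.aemeasurable hhm.aestronglyMeasurable,
      integral_prod _ i0, hlaw hW]
    congr 1
    calc ∫ x, exp (-W x) * ∫ z, h (cosB b • x + b • z) ∂γ ∂γ
        = ∫ p, exp (-W p.1) * h (cosB b • p.1 + b • p.2) ∂γ.prod γ := by
          rw [integral_prod _ i1]
          simp only [integral_const_mul]
      _ = ∫ p : E d × E d, exp (-W (cosB b • p.1 + -b • p.2)) * h p.1 ∂γ.prod γ := by
          have hr := measurePreserving_rot (V := E d) θ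
          conv_lhs => rw [← hr.map_eq]
          rw [integral_map hr.measurable.aemeasurable
            (hr.map_eq.symm ▸ i1.aestronglyMeasurable)]
          refine integral_congr_ae (ae_of_all _ fun p => ?_)
          simp only [hc, hs, neg_neg]
          have e : cosB b • (cosB b • p.1 + -b • p.2) + b • (b • p.1 + cosB b • p.2) = p.1 := by
            match_scalars <;> linarith
          rw [e]
      _ = _ := by
          have hi : Integrable (fun p : E d × E d =>
              exp (-W (cosB b • p.1 + -b • p.2)) * h p.1) (γ.prod γ) := by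
            have hr := measurePreserving_rot (V := E d) θ
            refine (hr.integrable_comp_of_integrable i1).congr (ae_of_all _ fun p => ?_)
            simp only [Function.comp_apply, hc, hs, neg_neg]
            have e : cosB b • (cosB b • p.1 + -b • p.2) + b • (b • p.1 + cosB b • p.2) = p.1 := by
              match_scalars <;> linarith
            rw [e]
          rw [integral_prod _ hi]
          refine integral_congr_ae (ae_of_all _ fun x => ?_)
          simp only []
          rw [integral_mul_const]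
          congr 1
          have hpos : 0 < ∫ z, exp (-post b W x z) ∂γ :=
            integral_exp_pos (integrable_exp_neg (hW.post_pert hb hb2 x).decay)
          rw [lsm, neg_neg, Real.exp_log hpos]
          simp only [γ]
          conv_rhs => rw [← stdGaussian_map (E := E d) (LinearIsometryEquiv.neg ℝ)]
          rw [integral_map (LinearIsometryEquiv.neg ℝ).continuous.measurable.aemeasurable
            (Continuous.aestronglyMeasurable (by unfold post; fun_prop))]
          refine integral_congr_ae (ae_of_all _ fun z => ?_)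
          simp [post]
  -- the constants agree on the whole space
  set μ' := ((law W).prod γ).map (fun p => cosB b • p.1 + b • p.2)
  have hm : Measurable fun p : E d × E d => cosB b • p.1 + b • p.2 := by fun_prop
  have : IsProbabilityMeasure μ' := Measure.isProbabilityMeasure_map hm.aemeasurable
  have key' : ∀ S : Set (E d), MeasurableSet S → (law (lsm b W)).real S =
      K / (∫ x, exp (-pot (lsm b W) x)) * ∫ p, exp (-lsm b W p) * S.indicator 1 p ∂γ := by
    intro S hS
    rw [← integral_indicator_one hS, hlaw hU]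
  refine Measure.ext fun S hS => ?_
  have h1 := key Set.univ MeasurableSet.univ
  have h2 := key' Set.univ MeasurableSet.univ
  simp only [probReal_univ] at h1 h2
  set I := ∫ p, exp (-lsm b W p) * (Set.univ : Set (E d)).indicator 1 p ∂γ
  have hI : I ≠ 0 := fun h0 => by rw [h0, mul_zero] at h1; exact one_ne_zero h1
  have hcst := mul_right_cancel₀ hI (h1.symm.trans h2)
  refine (ENNReal.toReal_eq_toReal_iff' (measure_ne_top _ _) (measure_ne_top _ _)).1 ?_
  show (law (lsm b W)).real S = μ'.real S
  rw [key S hS, key' S hS, hcst]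

end Pert

/-- The log-smoothed perturbation stays in the class. -/
theorem lsm_pert : ∃ C : ℝ, ∀ (d : ℕ) (η B b : ℝ) (W : E d → ℝ), Pert η B W → 0 < b → b ≤ 1 / 2 →
    Pert η (C * (1 + B)) (lsm b W) :=
  ⟨3, fun _ _ _ _ _ hW hb hb2 => hW.lsm_pert' hb (by linarith)⟩

/-- Derivatives of the force along the stationary flow of the log-smoothed potential. -/
theorem stationary_deriv_lsm (m : ℕ) : ∃ C : ℝ, ∀ (d : ℕ) (η B b : ℝ) (W : E d → ℝ),
    Pert η B W → 0 < b → b ≤ 1 / 2 →
    ∃ G : ℕ → E d × E d → E d,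
      (∀ z, G 0 z = z.1 + grad (lsm b W) z.1) ∧
      (∀ k ≤ m, ContDiff ℝ 1 (G k) ∧ PolyBd (G k)) ∧
      (∀ k < m, ∀ z, fderiv ℝ (G k) z (z.2, -(z.1 + grad (lsm b W) z.1)) = G (k + 1) z) ∧
      (∀ k ≤ m, ∫ z, ‖G k z‖ ∂((law (lsm b W)).prod (stdGaussian (E d))) ≤ C * b⁻¹ ^ k * √d) := by
  obtain ⟨C, hC⟩ := stationary_deriv_of
    (c := 65 * ((3 * m + 4 + 1).factorial : ℝ) ^ 2) (by positivity) m
  exact ⟨C, fun d η B b W hW hb hb2 => hC d η (3 * (1 + B)) b (lsm b W) (hW.lsm_pert' hb (by linarith)) hb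
    (hb2.trans (by norm_num)) (hW.good_lsm hb (by linarith) _) (hW.bd_lsm hb (by linarith) _)⟩

end Vale.Agent.P347
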