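import Vale.Agent.P347.Defs

/-!
# P347: interpolation and a positive quadrature rule

Lagrange interpolation at equispaced nodes and a positive rule exact up to degree `m + 1`
(Tchakaloff, by Carathéodory), with errors in terms of `∫ ‖f (m+1)‖`.
-/

open MeasureTheory Set Finset
open scoped BigOperators

namespace Vale.Agent.P347

namespace Quad

variable {V : Type*} [NormedAddCommGroup V] [NormedSpace ℝ V]

/-- Taylor polynomial at `a` of the derivative chain `f` -/
noncomputable def taylor (f : ℕ → ℝ → V) (a : ℝ) (n : ℕ) (t : ℝ) : V :=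
  ∑ j ∈ Finset.range (n + 1), ((t - a) ^ j / j.factorial) • f j a

theorem taylor_deriv (f : ℕ → ℝ → V) (a : ℝ) (n : ℕ) (t : ℝ) :
    HasDerivAt (taylor f a (n + 1)) (taylor (fun k => f (k + 1)) a n t) t := by
  have hd : ∀ j : ℕ, HasDerivAt (fun s => (((s - a) ^ (j + 1) / (j + 1).factorial : ℝ)) • f (j + 1) a)
      (((t - a) ^ j / j.factorial : ℝ) • f (j + 1) a) t := by
    intro j
    have h1 : HasDerivAt (fun s : ℝ => (s - a) ^ (j + 1) / (j + 1).factorial)
        ((((j + 1 : ℕ) : ℝ) * (t - a) ^ j * 1) / (j + 1).factorial) t := by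
      simpa using (((hasDerivAt_id t).sub_const a).fun_pow (j + 1)).div_const _
    have e : (((j + 1 : ℕ) : ℝ) * (t - a) ^ j * 1) / (j + 1).factorial =
        (t - a) ^ j / j.factorial := by
      rw [Nat.factorial_succ]; push_cast; field_simp
    exact (e ▸ h1).smul_const _
  have hfun : taylor f a (n + 1) = fun s =>
      (∑ j ∈ Finset.range (n + 1), (((s - a) ^ (j + 1) / (j + 1).factorial : ℝ)) • f (j + 1) a)
        + f 0 a := by
    funext s
    rw [taylor, Finset.sum_range_succ']
    simp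
  rw [hfun]
  exact (HasDerivAt.fun_sum fun j _ => hd j).add_const _

theorem taylor_remainder [CompleteSpace V] : ∀ (n : ℕ) (f : ℕ → ℝ → V) (a h : ℝ),
    (∀ k ≤ n, ∀ t ∈ Icc a (a + h), HasDerivWithinAt (f k) (f (k + 1) t) (Icc a (a + h)) t) →
    ContinuousOn (f (n + 1)) (Icc a (a + h)) → ∀ t ∈ Icc a (a + h),
      ‖f 0 t - taylor f a n t‖ ≤ (t - a) ^ n * ∫ s in a..(a + h), ‖f (n + 1) s‖
  | 0, f, a, h, hd, hc, t, ht => by
    have hle : a ≤ a + h := ht.1.trans ht.2
    have hsub : Icc a t ⊆ Icc a (a + h) := Icc_subset_Icc_right ht.2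
    have hc0 : ContinuousOn (f 0) (Icc a t) := fun s hs =>
      ((hd 0 le_rfl s (hsub hs)).continuousWithinAt).mono hsub
    have hi : IntervalIntegrable (f 1) volume a t := (hc.mono hsub).intervalIntegrable_of_Icc ht.1
    have hftc := intervalIntegral.integral_eq_sub_of_hasDerivAt_of_le ht.1 hc0
      (fun s hs => (hd 0 le_rfl s (hsub (Ioo_subset_Icc_self hs))).hasDerivAt
        (Icc_mem_nhds hs.1 (hs.2.trans_le ht.2))) hi
    simp only [taylor, pow_zero, one_mul, zero_add, Finset.sum_range_one, Nat.factorial_zero,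
      Nat.cast_one, div_one, one_smul]
    rw [← hftc]
    exact (intervalIntegral.norm_integral_le_integral_norm ht.1).trans
      (intervalIntegral.integral_mono_interval le_rfl ht.1 ht.2
        (Filter.Eventually.of_forall fun s => norm_nonneg _)
        (hc.norm.intervalIntegrable_of_Icc hle))
  | n + 1, f, a, h, hd, hc, t, ht => by
    set J := ∫ s in a..(a + h), ‖f (n + 1 + 1) s‖
    have hle : a ≤ a + h := ht.1.trans ht.2
    have hJ : 0 ≤ J := intervalIntegral.integral_nonneg hle fun s _ => norm_nonneg _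
    have hsub : Icc a t ⊆ Icc a (a + h) := Icc_subset_Icc_right ht.2
    have ih := taylor_remainder n (fun k => f (k + 1)) a h
      (fun k hk => hd (k + 1) (by omega)) hc
    have hg : ∀ s ∈ Icc a t, HasDerivWithinAt (fun s => f 0 s - taylor f a (n + 1) s)
        (f 1 s - taylor (fun k => f (k + 1)) a n s) (Icc a t) s := fun s hs =>
      ((hd 0 (Nat.zero_le _) s (hsub hs)).mono hsub).sub (taylor_deriv f a n s).hasDerivWithinAt
    have key := norm_image_sub_le_of_norm_deriv_le_segment' (C := (t - a) ^ n * J) hg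
      (fun s hs => (ih s (hsub (Ico_subset_Icc_self hs))).trans
        (mul_le_mul_of_nonneg_right (pow_le_pow_left₀ (by linarith [hs.1]) (by linarith [hs.2]) n)
          hJ)) t (right_mem_Icc.2 ht.1)
    have h0 : f 0 a - taylor f a (n + 1) a = 0 := by
      rw [taylor, Finset.sum_range_succ']
      simp
    rw [h0, sub_zero] at key
    exact key.trans_eq (by ring)

theorem remainder_le {d : ℕ} (m : ℕ) (f : ℕ → ℝ → E d) (a h : ℝ) (hh : 0 < h)
    (hd : ∀ k ≤ m, ∀ t ∈ Icc a (a + h), HasDerivWithinAt (f k) (f (k + 1) t) (Icc a (a + h)) t)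
    (hc : ContinuousOn (f (m + 1)) (Icc a (a + h))) {t : ℝ} (ht : t ∈ Icc a (a + h)) :
    ‖f 0 t - taylor f a m t‖ ≤ h ^ m * ∫ s in a..(a + h), ‖f (m + 1) s‖ :=
  (taylor_remainder m f a h hd hc t ht).trans (mul_le_mul_of_nonneg_right
    (pow_le_pow_left₀ (sub_nonneg.2 ht.1) (by linarith [ht.2]) m)
    (intervalIntegral.integral_nonneg (by linarith) fun s _ => norm_nonneg _))

theorem mem_node (a h : ℝ) (hh : 0 < h) {s : ℝ} (hs : s ∈ Icc (0 : ℝ) 1) :
    a + h * s ∈ Icc a (a + h) :=
  ⟨le_add_of_nonneg_right (mul_nonneg hh.le hs.1), by nlinarith [hs.2]⟩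

/-- Carathéodory: in finite dimension the convex hull of a compact set is closed. -/
theorem isClosed_convexHull {F : Type} [NormedAddCommGroup F] [NormedSpace ℝ F]
    [FiniteDimensional ℝ F] {s : Set F} (hs : IsCompact s) : IsClosed (convexHull ℝ s) := by
  rcases s.eq_empty_or_nonempty with rfl | ⟨p, hp⟩
  · simp
  set N := Module.finrank ℝ F + 1
  set K : Set ((Fin N → ℝ) × (Fin N → F)) := stdSimplex ℝ (Fin N) ×ˢ Set.univ.pi fun _ => s
  set φ : (Fin N → ℝ) × (Fin N → F) → F := fun q => ∑ i, q.1 i • q.2 i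
  have hK : IsCompact K := (isCompact_stdSimplex ℝ (Fin N)).prod (isCompact_univ_pi fun _ => hs)
  have e : φ '' K = convexHull ℝ s := by
    refine Set.Subset.antisymm ?_ fun x hx => ?_
    · rintro x ⟨q, ⟨hq1, hq2⟩, rfl⟩
      exact (convex_convexHull ℝ s).sum_mem (fun i _ => hq1.1 i) hq1.2
        fun i _ => subset_convexHull ℝ s (hq2 i (Set.mem_univ i))
    · obtain ⟨ι, _, z, w, hz, hai, hw, hw1, hx⟩ := eq_pos_convex_span_of_mem_convexHull hx
      have hcard : Fintype.card ι ≤ N :=
        hai.card_le_finrank_succ.trans (Nat.add_le_add_right (Submodule.finrank_le _) 1)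
      set e : ι → Fin N := fun i => Fin.castLE hcard (Fintype.equivFin ι i)
      have he : Function.Injective e :=
        (Fin.castLE_injective hcard).comp (Fintype.equivFin ι).injective
      refine ⟨(Function.extend e w 0, Function.extend e z fun _ => p), ⟨⟨fun i => ?_, ?_⟩, ?_⟩, ?_⟩
      · by_cases h : ∃ j, e j = i
        · obtain ⟨j, rfl⟩ := h
          simp only [he.extend_apply]; exact (hw j).le
        · simp only [Function.extend_apply' _ _ _ h]; exact le_rfl
      · rw [← hw1]
        refine (Fintype.sum_of_injective e he w _ (fun i hi => ?_) fun i => ?_).symm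
        · simp only [Function.extend_apply' _ _ _ (fun ⟨j, hj⟩ => hi ⟨j, hj⟩)]; rfl
        · simp only [he.extend_apply]
      · intro i _
        by_cases h : ∃ j, e j = i
        · obtain ⟨j, rfl⟩ := h
          simp only [he.extend_apply]; exact hz ⟨j, rfl⟩
        · simp only [Function.extend_apply' _ _ _ h]; exact hp
      · rw [← hx]
        refine (Fintype.sum_of_injective e he (fun i => w i • z i) _ (fun i hi => ?_) fun i => ?_).symm
        · simp [Function.extend_apply' (f := e) w (0 : Fin N → ℝ) i (fun ⟨j, hj⟩ => hi ⟨j, hj⟩)]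
        · simp only [he.extend_apply]
  rw [← e]
  exact (hK.image (by fun_prop)).isClosed

/-- Tchakaloff: positive weights on `[0,1]` with the moments of Lebesgue measure. -/
theorem exists_moments (N : ℕ) : ∃ (n : ℕ) (s w : Fin n → ℝ), (∀ i, s i ∈ Icc (0 : ℝ) 1) ∧
    (∀ i, 0 ≤ w i) ∧ (∑ i, w i = 1) ∧
      ∀ k ≤ N, ∑ i, w i * s i ^ k = (1 : ℝ) / (k + 1) := by
  set φ : ℝ → (Fin (N + 1) → ℝ) := fun u k => u ^ (k : ℕ)
  have hφ : Continuous φ := continuous_pi fun k => continuous_pow _
  set μ : Measure ℝ := volume.restrict (Icc (0 : ℝ) 1)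
  have : IsProbabilityMeasure μ := ⟨by simp [μ]⟩
  have hint : Integrable φ μ := hφ.continuousOn.integrableOn_compact isCompact_Icc
  have hmem : ∫ u, φ u ∂μ ∈ convexHull ℝ (φ '' Icc 0 1) :=
    (convex_convexHull ℝ _).integral_mem (isClosed_convexHull (isCompact_Icc.image hφ))
      ((ae_restrict_mem measurableSet_Icc).mono fun u hu =>
        subset_convexHull ℝ _ ⟨u, hu, rfl⟩) hint
  obtain ⟨ι, _, w, z, hw0, hw1, hz, hsum⟩ := mem_convexHull_iff_exists_fintype.1 hmem
  choose u hu huz using hz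
  set e := (Fintype.equivFin ι).symm
  refine ⟨Fintype.card ι, fun i => u (e i), fun i => w (e i), fun i => hu _, fun i => hw0 _,
    (e.sum_comp w).trans hw1, fun k hk => ?_⟩
  have h := congrFun hsum ⟨k, Nat.lt_succ_of_le hk⟩
  rw [e.sum_comp fun i => w i * u i ^ k]
  simp only [← huz, Finset.sum_apply, Pi.smul_apply, smul_eq_mul, φ] at h
  rw [h]
  have hproj : (∫ u, φ u ∂μ) ⟨k, Nat.lt_succ_of_le hk⟩ = ∫ u, u ^ k ∂μ :=
    ((ContinuousLinearMap.proj (R := ℝ) (φ := fun _ : Fin (N + 1) => ℝ)
      ⟨k, Nat.lt_succ_of_le hk⟩).integral_comp_comm hint).symm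
  rw [hproj]
  simp only [μ]
  rw [integral_Icc_eq_integral_Ioc, ← intervalIntegral.integral_of_le zero_le_one, integral_pow]
  simp

end Quad

open Quad in
/-- Interpolation at fixed nodes of `[0, 1]`. -/
theorem exists_interp (m : ℕ) :
    ∃ (τ : Fin (m + 1) → ℝ) (ℓ : Fin (m + 1) → ℝ → ℝ) (Λ : ℝ), 0 ≤ Λ ∧
      (∀ i, τ i ∈ Icc (0 : ℝ) 1) ∧ (∀ i, Continuous (ℓ i)) ∧
      (∀ i, ∀ t ∈ Icc (0 : ℝ) 1, |ℓ i t| ≤ Λ) ∧
      ∀ (d : ℕ) (f : ℕ → ℝ → E d) (a h : ℝ), 0 < h →
        (∀ k ≤ m, ∀ t ∈ Icc a (a + h), HasDerivWithinAt (f k) (f (k + 1) t) (Icc a (a + h)) t) →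
        ContinuousOn (f (m + 1)) (Icc a (a + h)) →
        ∀ t ∈ Icc a (a + h),
          ‖f 0 t - ∑ i, ℓ i ((t - a) / h) • f 0 (a + h * τ i)‖ ≤
            Λ * h ^ m * ∫ s in a..(a + h), ‖f (m + 1) s‖ := by
  set τ : Fin (m + 1) → ℝ := fun i => (i : ℕ) / ((m : ℝ) + 1) with hτ
  set p : Fin (m + 1) → Polynomial ℝ := fun i => Lagrange.basis Finset.univ τ i
  set ℓ : Fin (m + 1) → ℝ → ℝ := fun i t => (p i).eval t
  have hτ01 : ∀ i, τ i ∈ Icc (0 : ℝ) 1 := fun i => by
    refine ⟨by positivity, ?_⟩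
    rw [hτ, div_le_one (by positivity)]
    have : ((i : ℕ) : ℝ) ≤ m := Nat.cast_le.2 (by omega)
    linarith
  have hinj : Function.Injective τ := fun i j hij => by
    simp only [hτ] at hij
    rw [div_left_inj' (by positivity)] at hij
    exact Fin.ext (by exact_mod_cast hij)
  have hℓc : ∀ i, Continuous (ℓ i) := fun i => (p i).continuous
  choose b hb using fun i => isCompact_Icc.exists_bound_of_continuousOn
    ((hℓc i).continuousOn (s := Icc (0 : ℝ) 1))
  set Λ : ℝ := ∑ i, |b i| + 1
  have hΛ : 0 ≤ Λ := by positivity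
  have hℓb : ∀ i, ∀ t ∈ Icc (0 : ℝ) 1, |ℓ i t| ≤ Λ := fun i t ht => by
    refine ((hb i t ht).trans (le_abs_self _)).trans
      ((Finset.single_le_sum (f := fun j => |b j|) (fun j _ => abs_nonneg _) (Finset.mem_univ i)).trans ?_)
    linarith
  refine ⟨τ, ℓ, Λ, hΛ, hτ01, hℓc, hℓb, fun d f a h hh hd hc t ht => ?_⟩
  set u := (t - a) / h with hu
  have hu01 : u ∈ Icc (0 : ℝ) 1 := by
    refine ⟨div_nonneg (by linarith [ht.1]) hh.le, ?_⟩
    rw [hu, div_le_one hh]; linarith [ht.2]
  set J := ∫ s in a..(a + h), ‖f (m + 1) s‖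
  have hmono : ∀ j ≤ m, ∑ i, ℓ i u * τ i ^ j = u ^ j := by
    intro j hj
    have hlt : ((Polynomial.X ^ j : Polynomial ℝ)).degree < (Finset.univ : Finset (Fin (m + 1))).card := by
      rw [Polynomial.degree_X_pow, Finset.card_univ, Fintype.card_fin]
      exact_mod_cast Nat.lt_succ_of_le hj
    have e := congrArg (Polynomial.eval u)
      (Lagrange.eq_interpolate (f := (Polynomial.X ^ j : Polynomial ℝ)) hinj.injOn hlt)
    simp only [Polynomial.eval_pow, Polynomial.eval_X, Lagrange.interpolate_apply,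
      Polynomial.eval_finsetSum, Polynomial.eval_mul, Polynomial.eval_C] at e
    rw [e]
    exact Finset.sum_congr rfl fun i _ => mul_comm _ _
  have hexact : ∑ i, ℓ i u • taylor f a m (a + h * τ i) = taylor f a m t := by
    simp only [taylor, Finset.smul_sum, smul_smul]
    rw [Finset.sum_comm]
    refine Finset.sum_congr rfl fun j hj => ?_
    rw [← Finset.sum_smul]
    congr 1
    have hj' : j ≤ m := Nat.lt_succ_iff.1 (Finset.mem_range.1 hj)
    simp only [add_sub_cancel_left, mul_pow, mul_div_assoc, ← mul_assoc]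
    calc ∑ i, ℓ i u * h ^ j * (τ i ^ j / (j.factorial : ℝ))
        = h ^ j / j.factorial * ∑ i, ℓ i u * τ i ^ j := by
          rw [Finset.mul_sum]; exact Finset.sum_congr rfl fun i _ => by ring
      _ = (t - a) ^ j / j.factorial := by
          rw [hmono j hj', hu, div_pow]
          field_simp
  have hrw : f 0 t - ∑ i, ℓ i u • f 0 (a + h * τ i) = (f 0 t - taylor f a m t)
      - ∑ i, ℓ i u • (f 0 (a + h * τ i) - taylor f a m (a + h * τ i)) := by
    simp only [smul_sub, Finset.sum_sub_distrib, hexact]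
    abel
  rw [hrw]
  have hJ : 0 ≤ h ^ m * J := mul_nonneg (by positivity)
    (intervalIntegral.integral_nonneg (by linarith) fun s _ => norm_nonneg _)
  calc _ ≤ ‖f 0 t - taylor f a m t‖
        + ∑ i, ‖ℓ i u • (f 0 (a + h * τ i) - taylor f a m (a + h * τ i))‖ :=
        (norm_sub_le _ _).trans (add_le_add le_rfl (norm_sum_le _ _))
    _ ≤ h ^ m * J + ∑ i, |b i| * (h ^ m * J) := by
        refine add_le_add (remainder_le m f a h hh hd hc ht) (Finset.sum_le_sum fun i _ => ?_)
        exact (norm_smul _ _).trans_le (mul_le_mul ((hb i u hu01).trans (le_abs_self _))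
          (remainder_le m f a h hh hd hc (mem_node a h hh (hτ01 i))) (norm_nonneg _) (abs_nonneg _))
    _ = Λ * h ^ m * J := by
        simp only [Λ, ← Finset.sum_mul]; ring

open Quad in
/-- A positive rule for `∫ (T - t) f t`. -/
theorem exists_pos_rule (m : ℕ) :
    ∃ (n : ℕ) (s w : Fin n → ℝ) (Λ : ℝ), 0 ≤ Λ ∧ (∀ i, s i ∈ Icc (0 : ℝ) 1) ∧ (∀ i, 0 ≤ w i) ∧
      (∑ i, w i = 1) ∧ (∑ i, w i * s i = 1 / 2) ∧
      ∀ (d : ℕ) (f : ℕ → ℝ → E d) (a h T : ℝ), 0 ≤ a → 0 < h → a + h ≤ T →
        (∀ k ≤ m, ∀ t ∈ Icc a (a + h), HasDerivWithinAt (f k) (f (k + 1) t) (Icc a (a + h)) t) →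
        ContinuousOn (f (m + 1)) (Icc a (a + h)) →
        ‖(∫ t in a..(a + h), (T - t) • f 0 t) -
            ∑ i, (h * w i * (T - (a + h * s i))) • f 0 (a + h * s i)‖ ≤
          Λ * T * h ^ (m + 1) * ∫ t in a..(a + h), ‖f (m + 1) t‖ := by
  obtain ⟨n, s, w, hs, hw0, hw1, hmom⟩ := exists_moments (m + 1)
  refine ⟨n, s, w, 2, zero_le_two, hs, hw0, hw1, ?_, fun d f a h T ha hh hT hd hc => ?_⟩
  · have := hmom 1 (by omega)
    simpa [one_add_one_eq_two] using this
  set J := ∫ t in a..(a + h), ‖f (m + 1) t‖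
  have hle : a ≤ a + h := by linarith
  set P : ℝ → E d := taylor f a m
  have hPc : Continuous P := by
    show Continuous fun t => ∑ j ∈ Finset.range (m + 1), ((t - a) ^ j / j.factorial : ℝ) • f j a
    fun_prop
  have hf0 : ContinuousOn (f 0) (Icc a (a + h)) := fun t ht =>
    (hd 0 (Nat.zero_le m) t ht).continuousWithinAt
  have hi1 : IntervalIntegrable (fun t => (T - t) • f 0 t) volume a (a + h) :=
    ContinuousOn.intervalIntegrable_of_Icc hle
      ((continuous_const.sub continuous_id).continuousOn.smul hf0)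
  have hi2 : IntervalIntegrable (fun t => (T - t) • P t) volume a (a + h) :=
    (by fun_prop : Continuous fun t => (T - t) • P t).intervalIntegrable _ _
  have hexact : ∫ t in a..(a + h), (T - t) • P t =
      ∑ i, (h * w i * (T - (a + h * s i))) • P (a + h * s i) := by
    simp only [P, taylor, Finset.smul_sum, smul_smul]
    rw [intervalIntegral.integral_finsetSum (f := fun j t =>
      ((T - t) * ((t - a) ^ j / (j.factorial : ℝ))) • f j a) fun j _ =>
      ((by fun_prop : Continuous fun t => (T - t) * ((t - a) ^ j / (j.factorial : ℝ))).smul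
        continuous_const).intervalIntegrable _ _]
    rw [Finset.sum_comm]
    refine Finset.sum_congr rfl fun j hj => ?_
    rw [intervalIntegral.integral_smul_const, ← Finset.sum_smul]
    congr 1
    have hj' : j ≤ m := Nat.lt_succ_iff.1 (Finset.mem_range.1 hj)
    have e1 : ∫ t in a..(a + h), (T - t) * ((t - a) ^ j / j.factorial) =
        ((T - a) * (h ^ (j + 1) / (j + 1)) - h ^ (j + 2) / (j + 2)) / j.factorial := by
      have hshift := intervalIntegral.integral_comp_add_right
        (fun t => (T - t) * ((t - a) ^ j / (j.factorial : ℝ))) a (a := 0) (b := h)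
      rw [zero_add, add_comm h a] at hshift
      rw [← hshift]
      have e : ∀ x : ℝ, (T - (x + a)) * ((x + a - a) ^ j / j.factorial) =
          ((T - a) * x ^ j - x ^ (j + 1)) / j.factorial := fun x => by
        rw [add_sub_cancel_right]; ring
      simp only [e]
      rw [intervalIntegral.integral_div, intervalIntegral.integral_sub
        ((continuous_pow j).const_mul _ |>.intervalIntegrable _ _)
        ((continuous_pow (j + 1)).intervalIntegrable _ _), intervalIntegral.integral_const_mul,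
        integral_pow, integral_pow]
      push_cast
      simp [add_assoc, one_add_one_eq_two]
    rw [e1]
    have e2 : ∀ i, h * w i * (T - (a + h * s i)) * ((a + h * s i - a) ^ j / j.factorial) =
        (h ^ (j + 1) * (T - a) / j.factorial) * (w i * s i ^ j)
          - h ^ (j + 2) / j.factorial * (w i * s i ^ (j + 1)) := fun i => by ring
    simp only [e2, Finset.sum_sub_distrib, ← Finset.mul_sum]
    rw [hmom j (by omega), hmom (j + 1) (by omega)]
    push_cast
    ring
  have hrw : (∫ t in a..(a + h), (T - t) • f 0 t) -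
      ∑ i, (h * w i * (T - (a + h * s i))) • f 0 (a + h * s i) =
      (∫ t in a..(a + h), (T - t) • (f 0 t - P t)) -
        ∑ i, (h * w i * (T - (a + h * s i))) • (f 0 (a + h * s i) - P (a + h * s i)) := by
    simp only [smul_sub, Finset.sum_sub_distrib]
    rw [intervalIntegral.integral_sub hi1 hi2, hexact]
    abel
  rw [hrw]
  have hJ : 0 ≤ J := intervalIntegral.integral_nonneg hle fun t _ => norm_nonneg _
  have hR : ∀ t ∈ Icc a (a + h), ‖(T - t) • (f 0 t - P t)‖ ≤ T * (h ^ m * J) := fun t ht => by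
    rw [norm_smul, Real.norm_eq_abs, abs_of_nonneg (by linarith [ht.2])]
    exact mul_le_mul (by linarith [ht.1]) (remainder_le m f a h hh hd hc ht) (norm_nonneg _)
      (by linarith)
  calc _ ≤ ‖∫ t in a..(a + h), (T - t) • (f 0 t - P t)‖
        + ∑ i, ‖(h * w i * (T - (a + h * s i))) • (f 0 (a + h * s i) - P (a + h * s i))‖ :=
        (norm_sub_le _ _).trans (add_le_add le_rfl (norm_sum_le _ _))
    _ ≤ T * (h ^ m * J) * |a + h - a| + ∑ i, w i * (h * (T * (h ^ m * J))) := by
        refine add_le_add (intervalIntegral.norm_integral_le_of_norm_le_const fun t ht => hR t ?_)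
          (Finset.sum_le_sum fun i _ => ?_)
        · rw [uIoc_of_le hle] at ht
          exact Ioc_subset_Icc_self ht
        · have e : (h * w i * (T - (a + h * s i))) • (f 0 (a + h * s i) - P (a + h * s i)) =
              (w i * h) • ((T - (a + h * s i)) • (f 0 (a + h * s i) - P (a + h * s i))) := by
            rw [smul_smul, mul_comm h]
          rw [e, norm_smul, Real.norm_eq_abs, abs_of_nonneg (mul_nonneg (hw0 i) hh.le), ← mul_assoc]
          exact mul_le_mul_of_nonneg_left (hR _ (mem_node a h hh (hs i))) (mul_nonneg (hw0 i) hh.le)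
    _ = 2 * T * h ^ (m + 1) * J := by
        rw [← Finset.sum_mul, hw1, add_sub_cancel_left, abs_of_pos hh, pow_succ]
        ring

end Vale.Agent.P347
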