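import Vale.Agent.P347.Poincare
import Vale.Agent.P347.Blur

/-!
# P347: the restricted Gaussian oracle and mixtures over it

For `Y ∼ blur s (law W)` the conditional law of `X` is proportional to
`exp (-pot W x - ‖x - y‖² / (2 s))`; after an affine change of variables it is the law of a
perturbation with parameters `η / c`, `B + A`, where `c = (1 + s) / s`.
-/

open MeasureTheory ProbabilityTheory Real Set
open scoped RealInnerProductSpace ENNReal

namespace Vale.Agent.P347

variable {d : ℕ}

/-- The curvature added to the Gaussian part. -/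
noncomputable def rgoC (s : ℝ) : ℝ := (1 + s) / s

/-- The centre of the Gaussian part. -/
noncomputable def rgoCenter (s : ℝ) (y : E d) : E d := (1 + s)⁻¹ • y

/-- The approximate mode. -/
noncomputable def rgoPt (W : E d → ℝ) (s : ℝ) (y : E d) : E d :=
  rgoCenter s y - (rgoC s)⁻¹ • grad W (rgoCenter s y)

/-- The affine change of variables. -/
noncomputable def rgoMap (W : E d → ℝ) (s : ℝ) (y z : E d) : E d :=
  rgoPt W s y + (√(rgoC s))⁻¹ • z

/-- The perturbation of the restricted oracle in the new variable. -/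
noncomputable def rgo (W : E d → ℝ) (s : ℝ) (y z : E d) : ℝ :=
  W (rgoMap W s y z) + ⟪√(rgoC s) • (rgoPt W s y - rgoCenter s y), z⟫

/-- The joint density of `(X, X + √s ζ)` up to a constant. -/
noncomputable def jointDensity (W : E d → ℝ) (s : ℝ) (x y : E d) : ℝ≥0∞ :=
  ENNReal.ofReal (exp (-pot W x - ‖x - y‖ ^ 2 / (2 * s)))

theorem one_le_rgoC {s : ℝ} (hs : 0 < s) : 1 ≤ rgoC s := by
  rw [rgoC, le_div_iff₀ hs]; linarith

theorem rgoC_pos {s : ℝ} (hs : 0 < s) : 0 < rgoC s :=
  zero_lt_one.trans_le (one_le_rgoC hs)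

/-- Affine change of variables for lower integrals. -/
theorem lintegral_comp_affine {f : E d → ℝ≥0∞} (hf : Measurable f) (a : E d) {R : ℝ}
    (hR : R ≠ 0) :
    ∫⁻ z, f (a + R • z) =
      ENNReal.ofReal |(R ^ Module.finrank ℝ (E d))⁻¹| * ∫⁻ x, f x := by
  have hm : Measurable fun x : E d => f (a + x) := hf.comp (measurable_const_add a)
  have h := lintegral_map (μ := (volume : Measure (E d))) hm (measurable_const_smul R)
  rw [Measure.map_addHaar_smul volume hR, lintegral_smul_measure, smul_eq_mul,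
    lintegral_add_left_eq_self (μ := (volume : Measure (E d))) f a] at h
  exact h.symm

namespace Pert

variable {η B : ℝ} {W : E d → ℝ} (hW : Pert η B W)
include hW

theorem grad_rgo {s : ℝ} (y z : E d) :
    grad (rgo W s y) z = (√(rgoC s))⁻¹ • grad W (rgoMap W s y z) +
      √(rgoC s) • (rgoPt W s y - rgoCenter s y) := by
  refine ext_inner_right ℝ fun v => ?_
  set c := √(rgoC s)
  set w := c • (rgoPt W s y - rgoCenter s y)
  have h1 : HasFDerivAt (fun z => rgoMap W s y z) (c⁻¹ • ContinuousLinearMap.id ℝ (E d)) z :=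
    ((hasFDerivAt_id z).const_smul c⁻¹).const_add _
  have h2 : HasFDerivAt (rgo W s y)
      ((fderiv ℝ W (rgoMap W s y z)).comp (c⁻¹ • ContinuousLinearMap.id ℝ (E d)) + innerSL ℝ w) z :=
    (((hW.contDiff.differentiable (by norm_num)) (rgoMap W s y z)).hasFDerivAt.comp z h1).add
      (innerSL ℝ w).hasFDerivAt
  rw [inner_grad, h2.fderiv, inner_add_left, real_inner_smul_left, inner_grad]
  simp

theorem continuous_rgoMap {s : ℝ} :
    Continuous fun p : E d × E d => rgoMap W s p.1 p.2 := by
  have := hW.contDiff_grad.continuous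
  unfold rgoMap rgoPt rgoCenter
  fun_prop

theorem measurable_rgoMap {s : ℝ} :
    Measurable fun p : E d × E d => rgoMap W s p.1 p.2 :=
  hW.continuous_rgoMap.measurable

theorem rgo_pert {s A : ℝ} (hs : 0 < s) (hA : 0 ≤ A) {y : E d}
    (hy : ‖y‖ ≤ A * √d) : Pert (η / rgoC s) ((B + A) / √(rgoC s)) (rgo W s y) := by
  have hc1 := one_le_rgoC hs
  have hc := rgoC_pos hs
  set c := rgoC s with hcdef
  have hr : 0 < √c := Real.sqrt_pos.2 hc
  have hr1 : 1 ≤ √c := Real.one_le_sqrt.2 hc1
  have hrr : √c * √c = c := Real.mul_self_sqrt hc.le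
  have hgd := hW.contDiff_grad.differentiable one_ne_zero
  have hfd : ∀ z v, fderiv ℝ (grad (rgo W s y)) z v =
      (√c)⁻¹ • fderiv ℝ (grad W) (rgoMap W s y z) ((√c)⁻¹ • v) := by
    intro z v
    have h1 : HasFDerivAt (fun z => rgoMap W s y z)
        ((√c)⁻¹ • ContinuousLinearMap.id ℝ (E d)) z :=
      ((hasFDerivAt_id z).const_smul (√c)⁻¹).const_add _
    have h : HasFDerivAt (fun z => (√c)⁻¹ • grad W (rgoMap W s y z) +
        √c • (rgoPt W s y - rgoCenter s y))
        ((√c)⁻¹ • (fderiv ℝ (grad W) (rgoMap W s y z)).comp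
          ((√c)⁻¹ • ContinuousLinearMap.id ℝ (E d))) z :=
      (((hgd (rgoMap W s y z)).hasFDerivAt.comp z h1).const_smul (√c)⁻¹).add_const _
    rw [funext (hW.grad_rgo (s := s) y), h.fderiv]
    simp
  refine ⟨div_nonneg hW.eta_nonneg hc.le, (div_le_one hc).2 (hW.eta_le_one.trans hc1),
    div_nonneg (add_nonneg hW.bound_nonneg hA) (Real.sqrt_nonneg _), ?_, fun z v => ?_,
    fun z v => ?_, ?_⟩
  · have h1 : ContDiff ℝ 2 fun z : E d => rgoPt W s y + (√c)⁻¹ • z :=
      contDiff_const.add (contDiff_id.const_smul _)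
    exact (hW.contDiff.comp h1).add
      (contDiff_const.inner ℝ contDiff_id)
  · rw [hfd, map_smul, smul_smul, real_inner_smul_left]
    exact mul_nonneg (by positivity) (hW.hess_nonneg _ v)
  · rw [hfd, map_smul, smul_smul, real_inner_smul_left, ← mul_inv, hrr]
    refine (mul_le_mul_of_nonneg_left (hW.hess_le _ v) (inv_nonneg.2 hc.le)).trans ?_
    rw [div_eq_mul_inv]; linarith
  · set m := rgoCenter s y with hm
    have hpt : rgoPt W s y - m = -(c⁻¹ • grad W m) := by
      simp only [rgoPt, ← hm, ← hcdef]; abel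
    have hg0 : grad (rgo W s y) 0 = (√c)⁻¹ • (grad W (rgoPt W s y) - grad W m) := by
      rw [hW.grad_rgo, rgoMap, ← hcdef, ← hm, hpt, smul_zero, add_zero, smul_neg, smul_smul,
        smul_sub, ← sub_eq_add_neg]
      congr 2
      nth_rewrite 2 [← hrr]
      field_simp
    have hm1 : ‖m‖ ≤ A * √d := by
      rw [hm, rgoCenter, norm_smul, Real.norm_eq_abs, abs_of_pos (inv_pos.2 (by linarith))]
      exact (mul_le_of_le_one_left (norm_nonneg y) (inv_le_one_of_one_le₀ (by linarith))).trans hy
    have hη := hW.eta_nonneg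
    have hd := Real.sqrt_nonneg (d : ℝ)
    have hgm : ‖grad W m‖ ≤ (B + A) * √d := by
      refine (hW.norm_grad_le m).trans ?_
      refine (mul_le_of_le_one_left (by have := hW.bound_nonneg; positivity) hW.eta_le_one).trans ?_
      linarith
    have hlip : ‖grad W (rgoPt W s y) - grad W m‖ ≤ η * (c⁻¹ * ((B + A) * √d)) := by
      refine (hW.grad_lipschitz _ _).trans (mul_le_mul_of_nonneg_left ?_ hη)
      rw [hpt, norm_neg, norm_smul, Real.norm_eq_abs, abs_of_pos (inv_pos.2 hc)]
      exact mul_le_mul_of_nonneg_left hgm (inv_nonneg.2 hc.le)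
    rw [hg0, norm_smul, Real.norm_eq_abs, abs_of_pos (inv_pos.2 hr)]
    refine (mul_le_mul_of_nonneg_left hlip (inv_nonneg.2 hr.le)).trans ?_
    exact le_of_eq (by rw [div_eq_mul_inv, div_eq_mul_inv]; ring)

omit hW in
theorem pot_rgo {s : ℝ} (hs : 0 < s) (y z : E d) :
    -pot W (rgoMap W s y z) - ‖rgoMap W s y z - y‖ ^ 2 / (2 * s) =
      (-(rgoC s / 2 * ‖rgoPt W s y - rgoCenter s y‖ ^ 2 + ‖y‖ ^ 2 / (2 * (1 + s)))) +
        -pot (rgo W s y) z := by
  have hc := rgoC_pos hs
  have hr : √(rgoC s) ≠ 0 := (Real.sqrt_pos.2 hc).ne'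
  have hrr : √(rgoC s) ^ 2 = rgoC s := Real.sq_sqrt hc.le
  set r := √(rgoC s)
  set u := rgoPt W s y - rgoCenter s y
  have hs0 := hs.ne'
  have hs1 : (1 + s) ≠ 0 := by linarith
  have hx : ∀ x : E d, ‖x‖ ^ 2 / 2 + ‖x - y‖ ^ 2 / (2 * s) =
      rgoC s / 2 * ‖x - rgoCenter s y‖ ^ 2 + ‖y‖ ^ 2 / (2 * (1 + s)) := fun x => by
    rw [norm_sub_sq_real, norm_sub_sq_real, rgoCenter, norm_smul, real_inner_smul_right, mul_pow,
      Real.norm_eq_abs, sq_abs, rgoC]
    field_simp
    ring
  have hu : rgoMap W s y z - rgoCenter s y = u + r⁻¹ • z := by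
    simp only [rgoMap, u, r]; abel
  have hq : rgoC s / 2 * ‖u + r⁻¹ • z‖ ^ 2 =
      rgoC s / 2 * ‖u‖ ^ 2 + r * ⟪u, z⟫ + ‖z‖ ^ 2 / 2 := by
    rw [norm_add_sq_real, norm_smul, real_inner_smul_right, mul_pow, Real.norm_eq_abs, sq_abs,
      ← hrr]
    field_simp
  have h := hx (rgoMap W s y z)
  rw [hu, hq] at h
  have hrgo : pot (rgo W s y) z = ‖z‖ ^ 2 / 2 + (W (rgoMap W s y z) + r * ⟪u, z⟫) := by
    simp only [pot, rgo, r, u, real_inner_smul_left]
  rw [hrgo, pot]
  linarith

theorem exists_pert_rgo {s : ℝ} (hs : 0 < s) (y : E d) :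
    ∃ η' B' : ℝ, Pert η' B' (rgo W s y) := by
  rcases Nat.eq_zero_or_pos d with rfl | hd
  · exact ⟨_, _, hW.rgo_pert hs (A := 0) le_rfl (y := y) (by simp [EuclideanSpace.norm_eq])⟩
  · exact ⟨_, _, hW.rgo_pert hs (A := ‖y‖ / √d) (by positivity) (y := y)
      (by rw [div_mul_cancel₀ _ (Real.sqrt_pos.2 (by exact_mod_cast hd)).ne'])⟩

theorem isProbabilityMeasure_map_rgo {s : ℝ} (hs : 0 < s) (y : E d) :
    IsProbabilityMeasure ((law (rgo W s y)).map (rgoMap W s y)) := by
  obtain ⟨η', B', h⟩ := hW.exists_pert_rgo hs y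
  have := h.isProbabilityMeasure_law
  exact Measure.isProbabilityMeasure_map
    (hW.continuous_rgoMap.comp (by fun_prop : Continuous fun z : E d => (y, z))).aemeasurable

theorem measurable_jointDensity (s : ℝ) :
    Measurable fun p : E d × E d => jointDensity W s p.1 p.2 := by
  have := hW.decay.1
  unfold jointDensity
  fun_prop

theorem measurable_jointDensity_left (s : ℝ) (y : E d) :
    Measurable fun x : E d => jointDensity W s x y := by
  have := hW.decay.1
  unfold jointDensity
  fun_prop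

theorem measurable_indicator_joint (s : ℝ) {S : Set (E d)} (hS : MeasurableSet S) :
    Measurable fun p : E d × E d => S.indicator (fun x => jointDensity W s x p.2) p.1 := by
  have e : (fun p : E d × E d => S.indicator (fun x => jointDensity W s x p.2) p.1) =
      (Prod.fst ⁻¹' S).indicator fun p => jointDensity W s p.1 p.2 := by
    funext p
    by_cases hp : p.1 ∈ S <;> simp [hp]
  rw [e]
  exact (hW.measurable_jointDensity s).indicator (measurable_fst hS)

theorem map_rgo_apply {s : ℝ} (hs : 0 < s) (y : E d) {S : Set (E d)} (hS : MeasurableSet S) :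
    (law (rgo W s y)).map (rgoMap W s y) S * ∫⁻ x, jointDensity W s x y =
      ∫⁻ x, S.indicator (fun x => jointDensity W s x y) x := by
  have hmap : Measurable (rgoMap W s y) :=
    (hW.continuous_rgoMap.comp (by fun_prop : Continuous fun z : E d => (y, z))).measurable
  set R := (√(rgoC s))⁻¹
  have hR : R ≠ 0 := inv_ne_zero (Real.sqrt_pos.2 (rgoC_pos hs)).ne'
  set κ := ENNReal.ofReal |(R ^ Module.finrank ℝ (E d))⁻¹|
  have hκ : κ ≠ 0 := by
    simp only [κ, ne_eq, ENNReal.ofReal_eq_zero, not_le, abs_pos]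
    exact inv_ne_zero (pow_ne_zero _ hR)
  set K := exp (-(rgoC s / 2 * ‖rgoPt W s y - rgoCenter s y‖ ^ 2 + ‖y‖ ^ 2 / (2 * (1 + s))))
  set q : E d → ℝ≥0∞ := fun z => ENNReal.ofReal (exp (-pot (rgo W s y) z))
  have hjd : ∀ z, jointDensity W s (rgoMap W s y z) y = ENNReal.ofReal K * q z := fun z => by
    simp only [jointDensity, q]
    rw [← ENNReal.ofReal_mul (exp_pos _).le, ← exp_add, ← pot_rgo hs y z]
  have hjm : Measurable fun x => jointDensity W s x y := hW.measurable_jointDensity_left s y
  have hq : Measurable q := by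
    have hWc := hW.contDiff.continuous
    simp only [q]; unfold pot rgo rgoMap; fun_prop
  have h1 : ENNReal.ofReal K * ∫⁻ z, q z = κ * ∫⁻ x, jointDensity W s x y := by
    rw [← lintegral_comp_affine hjm (rgoPt W s y) hR, ← lintegral_const_mul _ hq]
    exact lintegral_congr fun z => (hjd z).symm
  have h2 : ENNReal.ofReal K * ∫⁻ z in rgoMap W s y ⁻¹' S, q z =
      κ * ∫⁻ x, S.indicator (fun x => jointDensity W s x y) x := by
    rw [← lintegral_comp_affine (hjm.indicator hS) (rgoPt W s y) hR,
      ← lintegral_indicator (hmap hS), ← lintegral_const_mul _ (hq.indicator (hmap hS))]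
    refine lintegral_congr fun z => ?_
    by_cases hz : rgoMap W s y z ∈ S
    · rw [indicator_of_mem (mem_preimage.2 hz), indicator_of_mem (show
        rgoPt W s y + R • z ∈ S from hz)]
      exact (hjd z).symm
    · rw [indicator_of_notMem (fun h => hz (mem_preimage.1 h)), indicator_of_notMem
        (show rgoPt W s y + R • z ∉ S from hz), mul_zero]
  obtain ⟨η', B', hP⟩ := hW.exists_pert_rgo hs y
  have hV := hP.decay
  have hi : Integrable fun z => exp (-pot (rgo W s y) z) := by
    simpa using hV.integrable (f := fun _ : E d => (1 : ℝ)) aestronglyMeasurable_const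
      (PolyBd.const 1)
  have hZ : ∫⁻ z, q z = ENNReal.ofReal (∫ z, exp (-pot (rgo W s y) z)) :=
    (ofReal_integral_eq_lintegral_ofReal hi (ae_of_all _ fun z => (exp_pos _).le)).symm
  have hZ0 : (∫⁻ z, q z) ≠ 0 := by
    rw [hZ]; simp only [ne_eq, ENNReal.ofReal_eq_zero, not_le]; exact integral_exp_pos hi
  have hZt : (∫⁻ z, q z) ≠ ∞ := by rw [hZ]; exact ENNReal.ofReal_ne_top
  rw [law, gibbs, Measure.map_smul, Measure.smul_apply, Measure.map_apply hmap hS,
    withDensity_apply _ (hmap hS), smul_eq_mul]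
  refine (ENNReal.mul_right_inj hκ ENNReal.ofReal_ne_top).1 ?_
  rw [← h2]
  calc κ * ((∫⁻ z, q z)⁻¹ * (∫⁻ z in rgoMap W s y ⁻¹' S, q z) * ∫⁻ x, jointDensity W s x y)
      = (∫⁻ z, q z)⁻¹ * (∫⁻ z in rgoMap W s y ⁻¹' S, q z) *
          (κ * ∫⁻ x, jointDensity W s x y) := by ring
    _ = ((∫⁻ z, q z)⁻¹ * ∫⁻ z, q z) *
          (ENNReal.ofReal K * ∫⁻ z in rgoMap W s y ⁻¹' S, q z) := by rw [← h1]; ring
    _ = _ := by rw [ENNReal.inv_mul_cancel hZ0 hZt, one_mul]

theorem exists_joint_formula {s : ℝ} (hs : 0 < s) :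
    ∃ κ : ℝ≥0∞, ∀ g : E d → E d → ℝ≥0∞, Measurable (fun p : E d × E d => g p.1 p.2) →
      ∫⁻ p, g p.1 (p.1 + √s • p.2) ∂(law W).prod (stdGaussian (E d)) =
        κ * ∫⁻ x, ∫⁻ y, jointDensity W s x y * g x y := by
  set a : ℝ≥0∞ := (∫⁻ x, ENNReal.ofReal (exp (-pot W x)))⁻¹
  set b : ℝ≥0∞ := ENNReal.ofReal ((∫ z : E d, exp (-gPot z))⁻¹)
  set k : ℝ≥0∞ := ENNReal.ofReal |(√s ^ Module.finrank ℝ (E d))⁻¹|
  refine ⟨a * b * k, fun g hg => ?_⟩
  have hp : Measurable fun x => ENNReal.ofReal (exp (-pot W x)) :=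
    hW.decay.1.neg.rexp.measurable.ennreal_ofReal
  have hgp : Measurable fun z : E d => ENNReal.ofReal (exp (-gPot z)) :=
    decay_gPot.1.neg.rexp.measurable.ennreal_ofReal
  have hγ : stdGaussian (E d) =
      b • (volume : Measure (E d)).withDensity fun z => ENNReal.ofReal (exp (-gPot z)) := by
    rw [stdGaussian_eq_withDensity, ← withDensity_smul b hgp]
    congr 1
    funext x
    exact ENNReal.ofReal_mul (inv_nonneg.2 (integral_nonneg fun y => (exp_pos _).le))
  have hgs : Measurable fun p : E d × E d => g p.1 (p.1 + √s • p.2) :=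
    hg.comp (by fun_prop : Measurable fun p : E d × E d => (p.1, p.1 + √s • p.2))
  have hj := hW.measurable_jointDensity s
  have hpg : Measurable fun z : E d × E d =>
      ENNReal.ofReal (exp (-pot W z.1)) * ENNReal.ofReal (exp (-gPot z.2)) :=
    (hp.comp measurable_fst).mul (hgp.comp measurable_snd)
  rw [law, gibbs, hγ, Measure.prod_smul_left, Measure.prod_smul_right, prod_withDensity hp hgp,
    lintegral_smul_measure, lintegral_smul_measure,
    lintegral_withDensity_eq_lintegral_mul _ hpg hgs, smul_eq_mul, smul_eq_mul,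
    ← mul_assoc]
  rw [mul_assoc (a * b) k]
  congr 1
  rw [lintegral_prod _ ((hpg.mul hgs).aemeasurable)]
  have hjg : Measurable fun p : E d × E d => jointDensity W s p.1 p.2 * g p.1 p.2 := hj.mul hg
  rw [← lintegral_const_mul _ hjg.lintegral_prod_right']
  refine lintegral_congr fun x => ?_
  have hm : Measurable fun y => jointDensity W s x y * g x y :=
    Measurable.comp (g := fun p : E d × E d => jointDensity W s p.1 p.2 * g p.1 p.2)
      (f := fun y : E d => (x, y)) hjg measurable_prodMk_left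
  rw [← lintegral_comp_affine hm x (Real.sqrt_pos.2 hs).ne']
  refine lintegral_congr fun z => ?_
  simp only [Pi.mul_apply, jointDensity]
  rw [← ENNReal.ofReal_mul (exp_pos _).le, ← exp_add]
  congr 3
  rw [show x - (x + √s • z) = -(√s • z) by abel, norm_neg, norm_smul, mul_pow, Real.norm_eq_abs,
    sq_abs, Real.sq_sqrt hs.le, gPot]
  field_simp
  ring

theorem measurable_map_rgo {s : ℝ} (hs : 0 < s) {S : Set (E d)} (hS : MeasurableSet S) :
    Measurable fun y => (law (rgo W s y)).map (rgoMap W s y) S := by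
  have hj := hW.measurable_jointDensity s
  have hden : ∀ y, (∫⁻ x, jointDensity W s x y) ≠ 0 ∧ (∫⁻ x, jointDensity W s x y) ≠ ∞ := fun y => by
    have hi : Integrable fun x => exp (-pot W x) := by
      simpa using hW.decay.integrable (f := fun _ : E d => (1 : ℝ)) aestronglyMeasurable_const
        (PolyBd.const 1)
    have hi2 : Integrable fun x => exp (-pot W x - ‖x - y‖ ^ 2 / (2 * s)) :=
      hi.mono' (by have := hW.decay.1; fun_prop) (ae_of_all _ fun x => by
        rw [Real.norm_eq_abs, abs_of_pos (exp_pos _)]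
        exact exp_le_exp.2 (sub_le_self _ (by positivity)))
    simp only [jointDensity]
    rw [← ofReal_integral_eq_lintegral_ofReal hi2 (ae_of_all _ fun x => (exp_pos _).le)]
    exact ⟨by simp only [ne_eq, ENNReal.ofReal_eq_zero, not_le]; exact integral_exp_pos hi2,
      ENNReal.ofReal_ne_top⟩
  have e : (fun y => (law (rgo W s y)).map (rgoMap W s y) S) = fun y =>
      (∫⁻ x, S.indicator (fun x => jointDensity W s x y) x) / ∫⁻ x, jointDensity W s x y := by
    funext y
    rw [← hW.map_rgo_apply hs y hS, ENNReal.mul_div_cancel_right (hden y).1 (hden y).2]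
  rw [e]
  refine Measurable.div ?_ hj.lintegral_prod_left'
  exact (hW.measurable_indicator_joint s hS).lintegral_prod_left'

theorem lintegral_map_rgo_blur {s : ℝ} (hs : 0 < s) {S : Set (E d)} (hS : MeasurableSet S) :
    ∫⁻ y, (law (rgo W s y)).map (rgoMap W s y) S ∂blur s (law W) = law W S := by
  have := hW.isProbabilityMeasure_law
  obtain ⟨κ, hκ⟩ := hW.exists_joint_formula hs
  have hF := hW.measurable_map_rgo hs hS
  have hj := hW.measurable_jointDensity s
  have e1 : ∫⁻ y, (law (rgo W s y)).map (rgoMap W s y) S ∂blur s (law W) =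
      κ * ∫⁻ x, ∫⁻ y, S.indicator (fun x => jointDensity W s x y) x := by
    rw [blur, lintegral_map hF (by fun_prop),
      hκ (fun _ y => (law (rgo W s y)).map (rgoMap W s y) S) (hF.comp measurable_snd)]
    congr 1
    rw [lintegral_lintegral_swap (hj.mul (hF.comp measurable_snd)).aemeasurable,
      lintegral_lintegral_swap (f := fun x y => S.indicator (fun x => jointDensity W s x y) x)
        (hW.measurable_indicator_joint s hS).aemeasurable]
    refine lintegral_congr fun y => ?_
    rw [lintegral_mul_const _ (f := fun x => jointDensity W s x y)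
      (hW.measurable_jointDensity_left s y), mul_comm]
    exact hW.map_rgo_apply hs y hS
  have e2 : law W S = κ * ∫⁻ x, ∫⁻ y, S.indicator (fun x => jointDensity W s x y) x := by
    have h := hκ (fun x _ => S.indicator 1 x) ((measurable_const.indicator hS).comp measurable_fst)
    have hl : ∫⁻ p, S.indicator 1 p.1 ∂(law W).prod (stdGaussian (E d)) = law W S := by
      rw [lintegral_prod (fun p : E d × E d => S.indicator (1 : E d → ℝ≥0∞) p.1)
        ((measurable_one.indicator hS).comp measurable_fst).aemeasurable]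
      simp [lintegral_indicator_one hS]
    rw [hl] at h
    rw [h]
    congr 1
    refine lintegral_congr fun x => lintegral_congr fun y => ?_
    by_cases hx : x ∈ S <;> simp [hx]
  rw [e1, ← e2]

theorem blur_norm_gt_le {s A : ℝ} (hs1 : s ≤ 1) (hA : 0 < A) :
    (blur s (law W)).real {y | A * √d < ‖y‖} ≤ 6 * (1 + B) ^ 2 / A ^ 2 := by
  have := hW.isProbabilityMeasure_law
  have hB := hW.bound_nonneg
  rcases Nat.eq_zero_or_pos d with rfl | hd
  · have : {y : E 0 | A * √((0 : ℕ) : ℝ) < ‖y‖} = ∅ := by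
      ext y; simp [EuclideanSpace.norm_eq]
    rw [this, measureReal_empty]; positivity
  have hd' : (0 : ℝ) < d := by exact_mod_cast hd
  set T := {y : E d | A * √d < ‖y‖}
  have hT : MeasurableSet T := measurableSet_lt measurable_const measurable_norm
  have hm : Measurable fun p : E d × E d => p.1 + √s • p.2 := by fun_prop
  rw [blur, map_measureReal_apply hm hT, ← integral_indicator_one (hm hT)]
  have ix : Integrable (fun p : E d × E d => ‖p.1‖ ^ 2) ((law W).prod (stdGaussian (E d))) :=
    (hW.integrable_law (PolyBd.id.norm.pow 2) (by fun_prop)).comp_fst _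
  have iz : Integrable (fun p : E d × E d => ‖p.2‖ ^ 2) ((law W).prod (stdGaussian (E d))) :=
    ((PolyBd.id.norm.pow 2).integrable (stdGaussian (E d)) (f := fun z : E d => ‖z‖ ^ 2)
      (by fun_prop)).comp_snd _
  have i3 : Integrable (fun p : E d × E d => 2 / (A ^ 2 * d) * (‖p.1‖ ^ 2 + ‖p.2‖ ^ 2))
      ((law W).prod (stdGaussian (E d))) := (ix.add iz).const_mul _
  refine (integral_mono ((integrable_const 1).indicator (hm hT)) i3 fun p => ?_).trans ?_
  · by_cases hp : p ∈ (fun p : E d × E d => p.1 + √s • p.2) ⁻¹' T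
    · rw [indicator_of_mem hp, Pi.one_apply]
      have h1 : A * √d < ‖p.1‖ + ‖p.2‖ := by
        refine lt_of_lt_of_le hp ((norm_add_le _ _).trans (add_le_add le_rfl ?_))
        rw [norm_smul, Real.norm_eq_abs, abs_of_nonneg (Real.sqrt_nonneg s)]
        exact mul_le_of_le_one_left (norm_nonneg _) (Real.sqrt_le_one.2 hs1)
      have h2 : A ^ 2 * d ≤ (‖p.1‖ + ‖p.2‖) ^ 2 := by
        have := pow_le_pow_left₀ (by positivity) h1.le 2
        rwa [mul_pow, Real.sq_sqrt d.cast_nonneg] at this
      rw [div_mul_eq_mul_div, le_div_iff₀ (by positivity)]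
      nlinarith [sq_nonneg (‖p.1‖ - ‖p.2‖)]
    · rw [indicator_of_notMem hp]; positivity
  · rw [integral_const_mul, integral_add ix iz,
      integral_fun_fst (μ := law W) (ν := stdGaussian (E d)) (f := fun x => ‖x‖ ^ 2),
      integral_fun_snd (μ := law W) (ν := stdGaussian (E d)) (f := fun z => ‖z‖ ^ 2),
      integral_norm_sq_stdGaussian, finrank_euclideanSpace_fin]
    simp only [probReal_univ, one_smul]
    calc 2 / (A ^ 2 * d) * (∫ x, ‖x‖ ^ 2 ∂law W + d)
        ≤ 2 / (A ^ 2 * d) * (3 * (1 + B) ^ 2 * d) := by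
          refine mul_le_mul_of_nonneg_left ?_ (by positivity)
          nlinarith [hW.integral_norm_sq_law_le, mul_le_mul_of_nonneg_right
            (one_le_pow₀ (by linarith : (1 : ℝ) ≤ 1 + B) (n := 2)) hd'.le]
      _ = 6 * (1 + B) ^ 2 / A ^ 2 := by field_simp; ring

end Pert

/-- Sampling `Y` approximately from the blurred law and then approximately from the restricted
oracle at `Y` gives an approximate sample of `law W`. -/
theorem tv_mixture : ∃ C : ℝ, ∀ (d : ℕ) (η B s A : ℝ) (W : E d → ℝ), Pert η B W → 0 < s → s ≤ 1 →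
    0 < A → ∀ {Ω Ω' : Type} [MeasurableSpace Ω] [MeasurableSpace Ω'] (P : Measure Ω)
    (P' : Measure Ω') [IsProbabilityMeasure P] [IsProbabilityMeasure P'] (Y : Ω → E d)
    (out : Ω × Ω' → E d), Measurable Y → Measurable out → ∀ ε₁ ε₂ : ℝ, 0 ≤ ε₂ →
    TVLe (P.map Y) (blur s (law W)) ε₁ →
    (∀ a, ‖Y a‖ ≤ A * √d →
      TVLe (P'.map fun b => out (a, b)) ((law (rgo W s (Y a))).map (rgoMap W s (Y a))) ε₂) →
    TVLe ((P.prod P').map out) (law W) (2 * ε₁ + ε₂ + C * (1 + B) ^ 2 / A ^ 2) := by
  refine ⟨6, ?_⟩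
  intro d η B s A W hW hs hs1 hA Ω Ω' _ _ P P' _ _ Y out hY hout ε₁ ε₂ hε₂ h₁ h₂ S hS
  have := hW.isProbabilityMeasure_law
  have hPY : IsProbabilityMeasure (P.map Y) := Measure.isProbabilityMeasure_map hY.aemeasurable
  set F : E d → ℝ := fun y => ((law (rgo W s y)).map (rgoMap W s y)).real S
  have hFm : Measurable F := (hW.measurable_map_rgo hs hS).ennreal_toReal
  have hlaw1 := hW.isProbabilityMeasure_map_rgo hs
  have hF01 : ∀ y, F y ∈ Icc (0 : ℝ) 1 := fun y => by
    have := hlaw1 y
    exact ⟨measureReal_nonneg, measureReal_le_one⟩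
  have hmid : ∫ y, F y ∂blur s (law W) = (law W).real S := by
    have hlt : ∀ y, (law (rgo W s y)).map (rgoMap W s y) S < ∞ := fun y => by
      have := hlaw1 y
      exact measure_lt_top _ _
    simp only [F, measureReal_def]
    rw [integral_toReal (hW.measurable_map_rgo hs hS).aemeasurable (ae_of_all _ hlt),
      hW.lintegral_map_rgo_blur hs hS]
  have h12 : |∫ y, F y ∂P.map Y - (law W).real S| ≤ ε₁ := by
    rw [← hmid]; exact h₁.integral_le hFm hF01
  set T := {y : E d | A * √d < ‖y‖}
  have hT : MeasurableSet T := measurableSet_lt measurable_const measurable_norm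
  have hTle : (P.map Y).real T ≤ ε₁ + 6 * (1 + B) ^ 2 / A ^ 2 := by
    have := (abs_le.1 (h₁ T hT)).2
    linarith [hW.blur_norm_gt_le hs1 hA]
  set H : Ω → ℝ := fun a => (P'.map fun b => out (a, b)).real S
  have hHe : ∀ a, H a = (P' (Prod.mk a ⁻¹' (out ⁻¹' S))).toReal := fun a => by
    simp only [H, measureReal_def]
    rw [Measure.map_apply (f := fun b => out (a, b))
      (hout.comp (measurable_const.prodMk measurable_id)) hS]
    rfl
  have hHm : Measurable H := by
    rw [funext hHe]
    exact (measurable_measure_prodMk_left (hout hS)).ennreal_toReal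
  have hH01 : ∀ a, H a ∈ Icc (0 : ℝ) 1 := fun a => by
    have : IsProbabilityMeasure (P'.map fun b => out (a, b)) :=
      Measure.isProbabilityMeasure_map (hout.comp (measurable_const.prodMk measurable_id)).aemeasurable
    exact ⟨measureReal_nonneg, measureReal_le_one⟩
  have hHint : ∫ a, H a ∂P = ((P.prod P').map out).real S := by
    simp_rw [hHe]
    rw [integral_toReal (measurable_measure_prodMk_left (hout hS)).aemeasurable
      (ae_of_all _ fun a => measure_lt_top _ _), ← Measure.prod_apply (hout hS),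
      map_measureReal_apply hout hS]
    rfl
  have iH : Integrable H P := Integrable.of_bound hHm.aestronglyMeasurable 1
    (ae_of_all _ fun a => by rw [Real.norm_eq_abs, abs_of_nonneg (hH01 a).1]; exact (hH01 a).2)
  have iF : Integrable (fun a => F (Y a)) P :=
    Integrable.of_bound (hFm.comp hY).aestronglyMeasurable 1
      (ae_of_all _ fun a => by rw [Real.norm_eq_abs, abs_of_nonneg (hF01 _).1]; exact (hF01 _).2)
  have hdiff : |∫ a, H a ∂P - ∫ a, F (Y a) ∂P| ≤ ε₂ + (P.map Y).real T := by
    rw [← integral_sub iH iF, ← Real.norm_eq_abs]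
    refine (norm_integral_le_of_norm_le ((integrable_const ε₂).add
      ((integrable_const 1).indicator (hY hT))) (ae_of_all _ fun a => ?_)).trans (le_of_eq ?_)
    · simp only [Pi.add_apply, Real.norm_eq_abs]
      by_cases ha : Y a ∈ T
      · rw [indicator_of_mem (mem_preimage.2 ha)]
        rw [abs_le]
        constructor <;> linarith [(hH01 a).1, (hH01 a).2, (hF01 (Y a)).1, (hF01 (Y a)).2]
      · rw [indicator_of_notMem (fun h => ha (mem_preimage.1 h)), add_zero]
        exact h₂ a (not_lt.1 ha) S hS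
    · rw [integral_add' (integrable_const ε₂) ((integrable_const 1).indicator (hY hT)),
        integral_const, integral_indicator (hY hT), setIntegral_const,
        map_measureReal_apply hY hT]
      simp
  rw [← hHint]
  have e : ∫ y, F y ∂P.map Y = ∫ a, F (Y a) ∂P :=
    integral_map hY.aemeasurable hFm.aestronglyMeasurable
  rw [e] at h12
  exact (abs_sub_le _ (∫ a, F (Y a) ∂P) _).trans (by linarith)

end Vale.Agent.P347
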