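import Vale.Agent.P347.Algorithm
import Vale.Agent.P347.Chain
import Vale.Agent.P347.Coupling

/-!
# P347: the stage as a query procedure, and from procedures to the exponent
-/

open MeasureTheory ProbabilityTheory Real Filter
open scoped Topology

namespace Vale.Agent.P347

variable {d : ℕ}

/-- The random input of a stage is standard Borel (found by hand: the search is too deep). -/
instance standardBorelSpace_stage {L : ℕ} {ι : Type} [Fintype ι] :
    StandardBorelSpace ((Fin L → E d) × Noise d ι × E d) := by
  have : StandardBorelSpace (Noise d ι × E d) := inferInstance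
  infer_instance

theorem measurable_extend_apply {L : ℕ} (i : ℕ) :
    Measurable fun v : Fin L → E d => extend v i := by
  unfold extend
  split_ifs with h
  · exact measurable_pi_apply _
  · exact measurable_const

/-- One run of the randomized chain, blurred, costs `L * ((K + 1) * J + I)` queries. -/
theorem qc_stage (S : Scheme) (K L : ℕ) (σ s : ℝ) :
    QC d (L * ((K + 1) * S.J + S.I)) fun O (ω : (Fin L → E d) × Noise d (S.Idx K L) × E d) =>
      S.xR K L (fun q => (O q).2 - q) σ (extend ω.1) L ω.2.1 + √s • ω.2.2 := by
  set c := (K + 1) * S.J + S.I with hc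
  set Ω := (Fin L → E d) × Noise d (S.Idx K L) × E d
  have hv : ∀ i, Measurable fun ω : Ω => extend ω.1 i := fun i =>
    (measurable_extend_apply i).comp measurable_fst
  have hr : ∀ i k l, Measurable fun ω : Ω => S.rnd K L ω.2.1 i k l := fun i k l =>
    (Scheme.contDiff_rnd i k l).continuous.measurable.comp (measurable_fst.comp measurable_snd)
  have hrf : ∀ i l, Measurable fun ω : Ω => S.rndf K L ω.2.1 i l := fun i l =>
    (Scheme.contDiff_rndf i l).continuous.measurable.comp (measurable_fst.comp measurable_snd)
  have hchain : ∀ i, QC d (i * c) fun O (ω : Ω) =>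
      S.xR K L (fun q => (O q).2 - q) σ (extend ω.1) i ω.2.1 := by
    intro i
    induction i with
    | zero => exact .pure (fun _ => 0) measurable_const
    | succ i ih =>
      have hiter : ∀ k, QC d (i * c + k * S.J) fun O (ω : Ω) =>
          (ω, S.xR K L (fun q => (O q).2 - q) σ (extend ω.1) i ω.2.1,
            fun j => S.pR K L (fun q => (O q).2 - q) σ (extend ω.1) i k j ω.2.1) := by
        intro k
        induction k with
        | zero =>
          refine ((ih.withSeed.map
            (fun y => (y.1, y.2, fun j => y.2 + S.t j • extend y.1.1 i)) ?_).congr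
              fun O ω => rfl).mono (by simp)
          refine measurable_fst.prodMk (measurable_snd.prodMk (measurable_pi_lambda _ fun j => ?_))
          exact measurable_snd.add (((hv i).comp measurable_fst).const_smul (S.t j))
        | succ k ihk =>
          set p : Fin S.J → Ω × E d × (Fin S.J → E d) → E d := fun l y =>
            y.2.2 l + σ • S.rnd K L y.1.2.1 i k l with hp
          have hpm : ∀ l, Measurable (p l) := fun l =>
            ((measurable_pi_apply l).comp (measurable_snd.comp measurable_snd)).add
              (((hr i k l).comp measurable_fst).const_smul σ)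
          refine (((ihk.batch p hpm).map (fun y => (y.1.1, y.1.2.1, fun j =>
              y.1.2.1 + S.t j • extend y.1.1.1 i -
                ∑ l, S.A j l • (y.1.2.2 l + ((y.2 l).2 - p l y.1)))) ?_).congr
            fun O ω => rfl).mono (by rw [Nat.succ_mul]; omega)
          refine (measurable_fst.comp measurable_fst).prodMk
            (((measurable_fst.comp measurable_snd).comp measurable_fst).prodMk
              (measurable_pi_lambda _ fun j => ?_))
          refine (((measurable_fst.comp measurable_snd).comp measurable_fst).add
            ((((hv i).comp measurable_fst).comp measurable_fst).const_smul (S.t j))).sub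
              (Finset.measurable_sum _ fun l _ => ?_)
          exact ((((measurable_pi_apply l).comp (measurable_snd.comp measurable_snd)).comp
            measurable_fst).add ((((measurable_pi_apply l).comp measurable_snd).snd).sub
              ((hpm l).comp measurable_fst))).const_smul (S.A j l)
      set p : Fin S.J → Ω × E d × (Fin S.J → E d) → E d := fun l y =>
        y.2.2 l + σ • S.rnd K L y.1.2.1 i K l with hp
      have hpm : ∀ l, Measurable (p l) := fun l =>
        ((measurable_pi_apply l).comp (measurable_snd.comp measurable_snd)).add
          (((hr i K l).comp measurable_fst).const_smul σ)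
      set z : (Ω × E d × (Fin S.J → E d)) × (Fin S.J → ℝ × E d) → Fin S.I → E d := fun y j =>
        y.1.2.1 + S.s j • extend y.1.1.1 i -
          ∑ l, S.Af j l • (y.1.2.2 l + ((y.2 l).2 - p l y.1)) with hz
      have hzm : Measurable z := by
        refine measurable_pi_lambda _ fun j => ?_
        refine (((measurable_fst.comp measurable_snd).comp measurable_fst).add
          ((((hv i).comp measurable_fst).comp measurable_fst).const_smul (S.s j))).sub
            (Finset.measurable_sum _ fun l _ => ?_)
        exact ((((measurable_pi_apply l).comp (measurable_snd.comp measurable_snd)).comp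
          measurable_fst).add ((((measurable_pi_apply l).comp measurable_snd).snd).sub
            ((hpm l).comp measurable_fst))).const_smul (S.Af j l)
      have hfin := (((hiter K).batch p hpm).map (fun y => (y.1.1, y.1.2.1, z y))
        ((measurable_fst.comp measurable_fst).prodMk
          (((measurable_fst.comp measurable_snd).comp measurable_fst).prodMk hzm)))
      set pf : Fin S.I → Ω × E d × (Fin S.I → E d) → E d := fun l y =>
        y.2.2 l + σ • S.rndf K L y.1.2.1 i l with hpf
      have hpfm : ∀ l, Measurable (pf l) := fun l =>
        ((measurable_pi_apply l).comp (measurable_snd.comp measurable_snd)).add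
          (((hrf i l).comp measurable_fst).const_smul σ)
      refine (((hfin.batch pf hpfm).map (fun y => y.1.2.1 + S.T • extend y.1.1.1 i -
          ∑ l, S.w l • (y.1.2.2 l + ((y.2 l).2 - pf l y.1))) ?_).congr fun O ω => rfl).mono ?_
      · refine (((measurable_fst.comp measurable_snd).comp measurable_fst).add
          ((((hv i).comp measurable_fst).comp measurable_fst).const_smul S.T)).sub
            (Finset.measurable_sum _ fun l _ => ?_)
        exact ((((measurable_pi_apply l).comp (measurable_snd.comp measurable_snd)).comp
          measurable_fst).add ((((measurable_pi_apply l).comp measurable_snd).snd).sub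
            ((hpfm l).comp measurable_fst))).const_smul (S.w l)
      · rw [hc, Nat.succ_mul i, Nat.succ_mul K]; omega
  refine ((hchain L).withSeed.map (fun y => y.2 + √s • y.1.2.2) ?_).congr fun O ω => rfl
  refine measurable_snd.add ?_
  exact (measurable_snd.comp (measurable_snd.comp measurable_fst)).const_smul (√s)

theorem InClass.measurable_oracle {V : E d → ℝ} (hV : InClass V) : Measurable (oracleOf V) := by
  have hg : ContDiff ℝ 1 (grad V) :=
    contDiff_grad (by simpa [one_add_one_eq_two] using hV.contDiff)
  exact hV.contDiff.continuous.measurable.prodMk hg.continuous.measurable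

/-- A procedure with random input of any standard Borel type gives an algorithm. -/
theorem sampleable_of_qc {q : ℕ} {Ω : Type} [MeasurableSpace Ω] [StandardBorelSpace Ω] [Nonempty Ω]
    (P : Measure Ω) [IsProbabilityMeasure P] (f : (E d → ℝ × E d) → Ω → E d) (hf : QC d q f)
    (h : ∀ V, InClass V → TVLe (P.map (f (oracleOf V))) (gibbs V) (1 / 10)) : Sampleable d q := by
  have he := measurableEmbedding_embeddingReal Ω
  obtain ⟨back, hback, hinv⟩ := he.exists_measurable_extend measurable_id fun _ => inferInstance
  set enc : Ω → ℕ → ℝ := fun ω _ => embeddingReal Ω ω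
  have henc : Measurable enc := measurable_pi_lambda _ fun _ => he.measurable
  set dec : (ℕ → ℝ) → Ω := fun u => back (u 0)
  have hdec : Measurable dec := hback.comp (measurable_pi_apply 0)
  have : IsProbabilityMeasure (P.map enc) := Measure.isProbabilityMeasure_map henc.aemeasurable
  obtain ⟨A, hA, hrun⟩ := hf.toAlgorithm (P.map enc) dec hdec
  refine ⟨A, fun V hV => ?_⟩
  have hm := hf.measurable hV.measurable_oracle
  have e : A.law V = P.map (f (oracleOf V)) := by
    rw [Algorithm.law, hA, show A.run (oracleOf V) = f (oracleOf V) ∘ dec from funext (hrun _),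
      Measure.map_map (hm.comp hdec) henc]
    congr 1
    funext ω
    exact congrArg (f (oracleOf V)) (congrFun hinv ω)
  rw [e]
  exact h V hV

/-- A family of algorithms bounds the exponent. -/
theorem gammaStar_le_of {γ : ℝ} (hγ : 0 ≤ γ)
    (h : ∀ ε > 0, ∀ᶠ d : ℕ in atTop, ∃ q : ℕ, (q : ℝ) ≤ (d : ℝ) ^ (γ + ε) ∧ Sampleable d q) :
    gammaStar ≤ (γ : EReal) := by
  refine le_of_forall_gt_imp_ge_of_dense fun y hy => ?_
  obtain ⟨x, hx1, hx2⟩ := EReal.lt_iff_exists_real_btwn.1 hy
  refine le_trans ?_ hx2.le
  have hx : γ < x := EReal.coe_lt_coe_iff.1 hx1
  refine limsup_le_of_le (by isBoundedDefault) ?_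
  filter_upwards [h (x - γ) (by linarith), eventually_ge_atTop 2] with d hd hd2
  obtain ⟨q, hq, hs⟩ := hd
  rw [EReal.coe_le_coe_iff]
  have hl : 0 < Real.log d := Real.log_pos (by exact_mod_cast hd2)
  rw [div_le_iff₀ hl]
  have hQ : (Q d : ℝ) ≤ (d : ℝ) ^ x := by
    refine le_trans (Nat.cast_le.2 (Nat.sInf_le (s := {q | Sampleable d q}) hs)) ?_
    simpa using hq
  rcases Nat.eq_zero_or_pos (Q d) with h0 | h0
  · rw [h0]; simp only [Nat.cast_zero, Real.log_zero]; exact mul_nonneg (by linarith) hl.le
  · rw [← Real.log_rpow (by exact_mod_cast (by omega : 0 < d))]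
    exact Real.log_le_log (by exact_mod_cast h0) hQ

end Vale.Agent.P347
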