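import Vale.Agent.P347.Samples

/-!
# P347: the parameters, and the count of the queries
-/

open MeasureTheory ProbabilityTheory Real Set Filter
open scoped RealInnerProductSpace Topology

namespace Vale.Agent.P347

theorem rpow_neg_eventually_le {a c : ℝ} (ha : 0 < a) (hc : 0 < c) :
    ∀ᶠ d : ℕ in atTop, (d : ℝ) ^ (-a) ≤ c :=
  ((tendsto_rpow_neg_atTop ha).comp tendsto_natCast_atTop_atTop).eventually_le_const hc

theorem natCeil_le_add_one {x : ℝ} (hx : 0 ≤ x) : (⌈x⌉₊ : ℝ) ≤ x + 1 :=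
  (Nat.ceil_lt_add_one hx).le

theorem sqrt_eq_rpow' (d : ℕ) : √(d : ℝ) = (d : ℝ) ^ (1 / 2 : ℝ) := Real.sqrt_eq_rpow _

/-- The grid size. -/
noncomputable def gridN (δ : ℝ) (d : ℕ) : ℕ := ⌈(d : ℝ) ^ (1 / 4 + δ / 2 + 2 * δ)⌉₊

/-- The number of iterations. -/
noncomputable def itK (d : ℕ) : ℕ := ⌈2 * (Real.log d / Real.log 2)⌉₊

/-- The number of steps. -/
noncomputable def itL (a : ℝ) (d : ℕ) : ℕ := ⌈2 * Real.log d / a⌉₊

theorem two_pow_itK {d : ℕ} (hd : 1 ≤ d) : (d : ℝ) ^ (2 : ℝ) ≤ 2 ^ itK d := by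
  have hd0 : (0 : ℝ) < d := by exact_mod_cast hd
  have h2 : (0 : ℝ) < Real.log 2 := Real.log_pos (by norm_num)
  rw [← Real.rpow_natCast 2 (itK d), Real.rpow_def_of_pos hd0, Real.rpow_def_of_pos two_pos]
  refine exp_le_exp.2 ?_
  have h := Nat.le_ceil (2 * (Real.log d / Real.log 2))
  calc Real.log d * 2 = Real.log 2 * (2 * (Real.log d / Real.log 2)) := by field_simp
    _ ≤ Real.log 2 * (itK d : ℝ) := mul_le_mul_of_nonneg_left h h2.le

theorem pow_itL {a : ℝ} (ha : 0 < a) (ha1 : a ≤ 1) {d : ℕ} (hd : 1 ≤ d) :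
    (1 - a) ^ itL a d ≤ (d : ℝ) ^ (-2 : ℝ) := by
  have hd0 : (0 : ℝ) < d := by exact_mod_cast hd
  refine (pow_le_pow_left₀ (by linarith) (by linarith [add_one_le_exp (-a)] : 1 - a ≤ exp (-a))
    _).trans ?_
  rw [← exp_nat_mul, Real.rpow_def_of_pos hd0]
  refine exp_le_exp.2 ?_
  have h := Nat.le_ceil (2 * Real.log d / a)
  have : 2 * Real.log d ≤ a * (itL a d : ℝ) := by
    rw [mul_comm a]; exact (div_le_iff₀ ha).1 h
  linarith

/-- All the error terms of a stage are at most `d ^ (-δ)`. -/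
theorem stage_error {m : ℕ} {δ T a η B : ℝ} (hδ : 0 < δ) (hδ1 : δ ≤ 1) (hm : 2 ≤ δ * (m + 1))
    (hT : 0 < T) (hT1 : T ≤ 1) (ha : 0 < a) (ha1 : a ≤ 1) (hη : 0 ≤ η) (hη1 : η ≤ 1)
    (hB : 0 ≤ B) (hB1 : B ≤ 1) {d : ℕ} (hd : 1 ≤ d) :
    let s := (d : ℝ) ^ (-δ)
    let σ := (d : ℝ) ^ (-(1 / 4 + δ / 2))
    (T / gridN δ d) * η ^ 2 * σ ^ 2 * √d / s +
      ((T / gridN δ d) * η ^ 3 * σ * √d + (T / gridN δ d / σ) ^ (m + 1) * √d + √d / 2 ^ itK d +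
        (2 + B) * (1 - a) ^ itL a d * √d) / √s + (1 + B) ^ 2 * η * σ ^ 2 * √d ≤
      11 * (d : ℝ) ^ (-δ) := by
  intro s σ
  have hd1 : (1 : ℝ) ≤ d := by exact_mod_cast hd
  have hd0 : (0 : ℝ) < d := by linarith
  set N := gridN δ d
  set h := T / N
  have hN : (d : ℝ) ^ (1 / 4 + δ / 2 + 2 * δ) ≤ N := Nat.le_ceil _
  have hh0 : 0 ≤ h := by positivity
  have hh : h ≤ (d : ℝ) ^ (-(1 / 4 + δ / 2 + 2 * δ)) := by
    rw [Real.rpow_neg hd0.le, ← one_div]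
    exact div_le_div₀ zero_le_one hT1 (by positivity) hN
  have hmono : ∀ {x y : ℝ}, x ≤ y → (d : ℝ) ^ x ≤ (d : ℝ) ^ y :=
    fun h => Real.rpow_le_rpow_of_exponent_le hd1 h
  have hpm : ∀ x y : ℝ, (d : ℝ) ^ x * (d : ℝ) ^ y = (d : ℝ) ^ (x + y) :=
    fun x y => (Real.rpow_add hd0 x y).symm
  have hs : √s = (d : ℝ) ^ (-δ / 2) := by
    rw [Real.sqrt_eq_rpow, ← Real.rpow_mul hd0.le]; ring_nf
  have hσ2 : σ ^ 2 = (d : ℝ) ^ (-(1 / 2 + δ)) := by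
    rw [← Real.rpow_natCast σ 2, ← Real.rpow_mul hd0.le]; push_cast; ring_nf
  have hσ0 : 0 ≤ σ := Real.rpow_nonneg hd0.le _
  have hs0 : 0 < s := Real.rpow_pos_of_pos hd0 _
  have e1 : h * η ^ 2 * σ ^ 2 * √d / s ≤ (d : ℝ) ^ (-δ) := by
    rw [sqrt_eq_rpow' d, hσ2]
    refine le_trans (div_le_div_of_nonneg_right (mul_le_mul_of_nonneg_right
      (mul_le_mul_of_nonneg_right (mul_le_of_le_one_right hh0 (pow_le_one₀ hη hη1))
        (Real.rpow_nonneg hd0.le _)) (Real.rpow_nonneg hd0.le _)) hs0.le) ?_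
    rw [div_le_iff₀ hs0, mul_assoc, hpm, hpm]
    refine le_trans (mul_le_mul_of_nonneg_right hh (Real.rpow_nonneg hd0.le _)) ?_
    rw [hpm]
    exact hmono (by linarith)
  have e2 : h * η ^ 3 * σ * √d / √s ≤ (d : ℝ) ^ (-δ) := by
    rw [sqrt_eq_rpow' d, hs]
    refine le_trans (div_le_div_of_nonneg_right (mul_le_mul_of_nonneg_right
      (mul_le_mul_of_nonneg_right (mul_le_of_le_one_right hh0 (pow_le_one₀ hη hη1)) hσ0)
        (Real.rpow_nonneg hd0.le _)) (Real.rpow_nonneg hd0.le _)) ?_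
    rw [div_le_iff₀ (Real.rpow_pos_of_pos hd0 _), mul_assoc, hpm, hpm]
    refine le_trans (mul_le_mul_of_nonneg_right hh (Real.rpow_nonneg hd0.le _)) ?_
    rw [hpm]
    exact hmono (by linarith)
  have e3 : (h / σ) ^ (m + 1) * √d / √s ≤ (d : ℝ) ^ (-δ) := by
    have h1 : h / σ ≤ (d : ℝ) ^ (-(2 * δ)) := by
      rw [div_le_iff₀ (Real.rpow_pos_of_pos hd0 _), hpm]
      exact hh.trans (hmono (by linarith))
    rw [sqrt_eq_rpow' d, hs, div_le_iff₀ (Real.rpow_pos_of_pos hd0 _), hpm]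
    refine (mul_le_mul_of_nonneg_right (pow_le_pow_left₀ (by positivity) h1 _)
      (Real.rpow_nonneg hd0.le _)).trans ?_
    rw [← Real.rpow_natCast _ (m + 1), ← Real.rpow_mul hd0.le, hpm]
    refine hmono ?_
    push_cast
    nlinarith
  have e4 : √d / 2 ^ itK d / √s ≤ (d : ℝ) ^ (-δ) := by
    rw [sqrt_eq_rpow' d, hs, div_le_iff₀ (Real.rpow_pos_of_pos hd0 _), hpm]
    refine (div_le_div_of_nonneg_left (Real.rpow_nonneg hd0.le _) (by positivity)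
      (two_pow_itK hd)).trans ?_
    rw [← Real.rpow_sub hd0]
    exact hmono (by linarith)
  have e5 : (2 + B) * (1 - a) ^ itL a d * √d / √s ≤ 3 * (d : ℝ) ^ (-δ) := by
    rw [sqrt_eq_rpow' d, hs, div_le_iff₀ (Real.rpow_pos_of_pos hd0 _), mul_assoc (3 : ℝ), hpm,
      mul_assoc]
    refine mul_le_mul (by linarith) ((mul_le_mul_of_nonneg_right (pow_itL ha ha1 hd)
      (Real.rpow_nonneg hd0.le _)).trans ?_) (mul_nonneg (pow_nonneg (by linarith) _)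
        (Real.rpow_nonneg hd0.le _)) (by norm_num)
    rw [hpm]
    exact hmono (by linarith)
  have e6 : (1 + B) ^ 2 * η * σ ^ 2 * √d ≤ 4 * (d : ℝ) ^ (-δ) := by
    rw [sqrt_eq_rpow' d, hσ2, mul_assoc, hpm]
    exact mul_le_mul (by nlinarith) (hmono (by linarith)) (Real.rpow_nonneg hd0.le _) (by norm_num)
  rw [add_div, add_div, add_div]
  linarith

/-- The queries of a stage. -/
theorem stage_count {δ a : ℝ} (hδ : 0 < δ) (ha : 0 < a) (m n : ℕ) :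
    ∃ C : ℝ, 0 ≤ C ∧ ∀ d : ℕ, 1 ≤ d →
      ((itL a d * ((itK d + 1) * (gridN δ d * (m + 1)) + gridN δ d * n) + 1 : ℕ) : ℝ) ≤
        C * (d : ℝ) ^ (1 / 4 + 5 * δ) := by
  set cL := 2 / (a * δ) + 1
  set cK := 2 / (Real.log 2 * δ) + 2
  have h2 : (0 : ℝ) < Real.log 2 := Real.log_pos (by norm_num)
  refine ⟨cL * (cK * (2 * (m + 1)) + 2 * n) + 1, by positivity, fun d hd => ?_⟩
  have hd1 : (1 : ℝ) ≤ d := by exact_mod_cast hd
  have hd0 : (0 : ℝ) < d := by linarith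
  have hl : Real.log d ≤ (d : ℝ) ^ δ / δ := Real.log_le_rpow_div hd0.le hδ
  have hl0 : 0 ≤ Real.log d := Real.log_nonneg hd1
  have hp : (1 : ℝ) ≤ (d : ℝ) ^ δ := Real.one_le_rpow hd1 hδ.le
  have hL : (itL a d : ℝ) ≤ cL * (d : ℝ) ^ δ := by
    refine (natCeil_le_add_one (by positivity)).trans ?_
    calc 2 * Real.log d / a + 1 ≤ 2 * ((d : ℝ) ^ δ / δ) / a + (d : ℝ) ^ δ := by gcongr
      _ = cL * (d : ℝ) ^ δ := by simp only [cL]; field_simp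
  have hK : (itK d : ℝ) + 1 ≤ cK * (d : ℝ) ^ δ := by
    refine (add_le_add_left (natCeil_le_add_one (by positivity)) 1).trans ?_
    calc 2 * (Real.log d / Real.log 2) + 1 + 1
        ≤ 2 * ((d : ℝ) ^ δ / δ / Real.log 2) + (d : ℝ) ^ δ + (d : ℝ) ^ δ := by gcongr
      _ = cK * (d : ℝ) ^ δ := by simp only [cK]; field_simp; ring
  set e := 1 / 4 + δ / 2 + 2 * δ
  have hN : (gridN δ d : ℝ) ≤ 2 * (d : ℝ) ^ e := by
    refine (natCeil_le_add_one (by positivity)).trans ?_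
    linarith [Real.one_le_rpow hd1 (by positivity : 0 ≤ e)]
  have hde : 0 ≤ (d : ℝ) ^ e := Real.rpow_nonneg hd0.le _
  push_cast
  calc (itL a d : ℝ) * (((itK d : ℝ) + 1) * ((gridN δ d : ℝ) * ((m : ℝ) + 1)) + gridN δ d * n) + 1
      ≤ cL * (d : ℝ) ^ δ * (cK * (d : ℝ) ^ δ * (2 * (d : ℝ) ^ e * ((m : ℝ) + 1)) +
          2 * (d : ℝ) ^ e * ((d : ℝ) ^ δ * n)) + 1 := by
        gcongr
        exact le_mul_of_one_le_left (Nat.cast_nonneg n) hp
    _ = cL * (cK * (2 * ((m : ℝ) + 1)) + 2 * n) * ((d : ℝ) ^ δ * ((d : ℝ) ^ δ * (d : ℝ) ^ e)) + 1 := by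
        ring
    _ ≤ cL * (cK * (2 * ((m : ℝ) + 1)) + 2 * n) * (d : ℝ) ^ (1 / 4 + 5 * δ) +
          (d : ℝ) ^ (1 / 4 + 5 * δ) := by
        refine add_le_add (mul_le_mul_of_nonneg_left ?_ (by positivity))
          (Real.one_le_rpow hd1 (by positivity))
        rw [← Real.rpow_add hd0, ← Real.rpow_add hd0]
        exact Real.rpow_le_rpow_of_exponent_le hd1 (by simp only [e]; linarith)
    _ = _ := by ring

end Vale.Agent.P347
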