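import Vale.Agent.P347.Recursion

/-!
# P347: the parameters of the cell sampler, and the count of its queries
-/

open Real Set Filter
open scoped Topology

namespace Vale.Agent.P347

/-- The number of cells. -/
noncomputable def gridN6 {m : ℕ} (r : Rules m) (δ : ℝ) (d : ℕ) : ℕ :=
  ⌈(d : ℝ) ^ (1 / 6 + 4 * δ)⌉₊ + ⌈(m + 1) * r.Λ + 1⌉₊ + 2

theorem two_le_gridN6 {m : ℕ} (r : Rules m) (δ : ℝ) (d : ℕ) : 2 ≤ gridN6 r δ d := by
  unfold gridN6; omega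

theorem rule_le_gridN6 {m : ℕ} (r : Rules m) (δ : ℝ) (d : ℕ) :
    (m + 1) * r.Λ + 1 ≤ (gridN6 r δ d : ℝ) := by
  refine (Nat.le_ceil _).trans (Nat.cast_le.2 ?_)
  unfold gridN6; omega

/-- All the error terms of a stage are `O (d ^ (-δ))`. -/
theorem stage6_error {δ a : ℝ} (hδ : 0 < δ) (hδ1 : δ ≤ 1 / 8) (ha : 0 < a) (ha1 : a ≤ 1) :
    ∃ C : ℝ, 0 ≤ C ∧ ∀ {m : ℕ} (r : Rules m), 2 ≤ δ * (m + 1) → ∀ d : ℕ, 1 ≤ d →
      let s := (d : ℝ) ^ (-δ)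
      let b := (d : ℝ) ^ (-(1 / 6 + 2 * δ))
      let h := 1 / (16 * (gridN6 r δ d : ℝ))
      (itL a d : ℝ) * (((h / b) ^ (m + 1) + h ^ 2 * b + b ^ 3) / √s + h * b ^ 2) * √d +
        (1 - a) ^ itL a d * √d / √s ≤ C * (d : ℝ) ^ (-δ) := by
  refine ⟨4 * (2 / (a * δ) + 1) + 1, by positivity, fun {m} r hm d hd => ?_⟩
  intro s b h
  have hd1 : (1 : ℝ) ≤ d := by exact_mod_cast hd
  have hd0 : (0 : ℝ) < d := by linarith
  have hmono : ∀ {x y : ℝ}, x ≤ y → (d : ℝ) ^ x ≤ (d : ℝ) ^ y :=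
    fun h => Real.rpow_le_rpow_of_exponent_le hd1 h
  have hpm : ∀ x y : ℝ, (d : ℝ) ^ x * (d : ℝ) ^ y = (d : ℝ) ^ (x + y) :=
    fun x y => (Real.rpow_add hd0 x y).symm
  have hpow : ∀ (x : ℝ) (n : ℕ), ((d : ℝ) ^ x) ^ n = (d : ℝ) ^ (x * n) :=
    fun x n => (Real.rpow_mul_natCast hd0.le x n).symm
  set D := (d : ℝ) ^ (-(2 * δ))
  have hD0 : 0 ≤ D := Real.rpow_nonneg hd0.le _
  have hb0 : 0 < b := Real.rpow_pos_of_pos hd0 _
  have hh0 : 0 ≤ h := by positivity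
  have hN : (d : ℝ) ^ (1 / 6 + 4 * δ) ≤ gridN6 r δ d := by
    refine (Nat.le_ceil _).trans (Nat.cast_le.2 ?_)
    unfold gridN6; omega
  have hh : h ≤ (d : ℝ) ^ (-(1 / 6 + 4 * δ)) := by
    rw [Real.rpow_neg hd0.le, ← one_div]
    refine one_div_le_one_div_of_le (Real.rpow_pos_of_pos hd0 _) ?_
    linarith [(gridN6 r δ d).cast_nonneg (α := ℝ)]
  have hss : √s = (d : ℝ) ^ (-δ / 2) := by
    rw [Real.sqrt_eq_rpow, ← Real.rpow_mul hd0.le]; ring_nf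
  have e1 : (h / b) ^ (m + 1) * √d / √s ≤ D := by
    have h1 : h / b ≤ D := by
      rw [div_le_iff₀ hb0, hpm]
      exact hh.trans (hmono (by linarith))
    rw [sqrt_eq_rpow' d, hss, div_le_iff₀ (Real.rpow_pos_of_pos hd0 _), hpm]
    refine (mul_le_mul_of_nonneg_right (pow_le_pow_left₀ (by positivity) h1 _)
      (Real.rpow_nonneg hd0.le _)).trans ?_
    rw [hpow, hpm]
    refine hmono ?_
    push_cast
    nlinarith
  have e2 : h ^ 2 * b * √d / √s ≤ D := by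
    rw [sqrt_eq_rpow' d, hss, div_le_iff₀ (Real.rpow_pos_of_pos hd0 _), hpm, mul_assoc, hpm]
    refine (mul_le_mul_of_nonneg_right (pow_le_pow_left₀ hh0 hh 2)
      (Real.rpow_nonneg hd0.le _)).trans ?_
    rw [hpow, hpm]
    exact hmono (by push_cast; linarith)
  have e3 : b ^ 3 * √d / √s ≤ D := by
    rw [sqrt_eq_rpow' d, hss, div_le_iff₀ (Real.rpow_pos_of_pos hd0 _), hpm, hpow, hpm]
    exact hmono (by push_cast; linarith)
  have e4 : h * b ^ 2 * √d ≤ D := by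
    rw [sqrt_eq_rpow' d, hpow, mul_assoc, hpm]
    refine (mul_le_mul_of_nonneg_right hh (Real.rpow_nonneg hd0.le _)).trans ?_
    rw [hpm]
    exact hmono (by push_cast; linarith)
  have e5 : (1 - a) ^ itL a d * √d / √s ≤ (d : ℝ) ^ (-δ) := by
    rw [sqrt_eq_rpow' d, hss, div_le_iff₀ (Real.rpow_pos_of_pos hd0 _), hpm]
    refine (mul_le_mul_of_nonneg_right (pow_itL ha ha1 hd) (Real.rpow_nonneg hd0.le _)).trans ?_
    rw [hpm]
    exact hmono (by linarith)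
  have hL : (itL a d : ℝ) ≤ (2 / (a * δ) + 1) * (d : ℝ) ^ δ := by
    have hl : Real.log d ≤ (d : ℝ) ^ δ / δ := Real.log_le_rpow_div hd0.le hδ
    have hl0 : 0 ≤ Real.log d := Real.log_nonneg hd1
    refine (natCeil_le_add_one (by positivity)).trans ?_
    calc 2 * Real.log d / a + 1 ≤ 2 * ((d : ℝ) ^ δ / δ) / a + (d : ℝ) ^ δ := by
          gcongr
          exact Real.one_le_rpow hd1 hδ.le
      _ = _ := by field_simp
  have hX : (((h / b) ^ (m + 1) + h ^ 2 * b + b ^ 3) / √s + h * b ^ 2) * √d ≤ 4 * D := by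
    have e : (((h / b) ^ (m + 1) + h ^ 2 * b + b ^ 3) / √s + h * b ^ 2) * √d =
        (h / b) ^ (m + 1) * √d / √s + h ^ 2 * b * √d / √s + b ^ 3 * √d / √s + h * b ^ 2 * √d := by
      ring
    rw [e]; linarith
  rw [mul_assoc]
  refine (add_le_add (mul_le_mul hL hX (by positivity) (by positivity)) e5).trans (le_of_eq ?_)
  rw [show (2 / (a * δ) + 1) * (d : ℝ) ^ δ * (4 * D) =
    4 * (2 / (a * δ) + 1) * ((d : ℝ) ^ δ * D) by ring, hpm, show δ + -(2 * δ) = -δ by ring]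
  ring

/-- The queries of a stage. -/
theorem stage6_count {δ a : ℝ} (hδ : 0 < δ) (ha : 0 < a) {m : ℕ} (r : Rules m) :
    ∃ C : ℝ, 0 ≤ C ∧ ∀ d : ℕ, 1 ≤ d →
      ((itL a d * (gridN6 r δ d * (2 * ((m + 1) * (m + 1) + r.n))) + 1 : ℕ) : ℝ) ≤
        C * (d : ℝ) ^ (1 / 6 + 5 * δ) := by
  set cL := 2 / (a * δ) + 1
  set c0 : ℝ := ((⌈((m : ℝ) + 1) * r.Λ + 1⌉₊ + 2 : ℕ) : ℝ) + 2 with hc0
  set c1 : ℝ := ((2 * ((m + 1) * (m + 1) + r.n) : ℕ) : ℝ)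
  refine ⟨cL * c0 * c1 + 1, by positivity, fun d hd => ?_⟩
  have hd1 : (1 : ℝ) ≤ d := by exact_mod_cast hd
  have hd0 : (0 : ℝ) < d := by linarith
  have hl : Real.log d ≤ (d : ℝ) ^ δ / δ := Real.log_le_rpow_div hd0.le hδ
  have hl0 : 0 ≤ Real.log d := Real.log_nonneg hd1
  have hp : (1 : ℝ) ≤ (d : ℝ) ^ δ := Real.one_le_rpow hd1 hδ.le
  have hL : (itL a d : ℝ) ≤ cL * (d : ℝ) ^ δ := by
    refine (natCeil_le_add_one (by positivity)).trans ?_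
    calc 2 * Real.log d / a + 1 ≤ 2 * ((d : ℝ) ^ δ / δ) / a + (d : ℝ) ^ δ := by gcongr
      _ = cL * (d : ℝ) ^ δ := by simp only [cL]; field_simp
  set e := 1 / 6 + 4 * δ
  have he : 1 ≤ (d : ℝ) ^ e := Real.one_le_rpow hd1 (by positivity)
  have hN : (gridN6 r δ d : ℝ) ≤ c0 * (d : ℝ) ^ e := by
    set k := ⌈((m : ℝ) + 1) * r.Λ + 1⌉₊ with hk
    have h1 : (gridN6 r δ d : ℝ) = ⌈(d : ℝ) ^ e⌉₊ + ((k + 2 : ℕ) : ℝ) := by
      unfold gridN6; push_cast; ring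
    have h2 := natCeil_le_add_one (zero_le_one.trans he)
    have h3 : ((k + 2 : ℕ) : ℝ) ≤ ((k + 2 : ℕ) : ℝ) * (d : ℝ) ^ e :=
      le_mul_of_one_le_right (Nat.cast_nonneg _) he
    rw [h1, hc0, add_mul]
    linarith
  rw [Nat.cast_add, Nat.cast_mul, Nat.cast_mul, Nat.cast_one]
  calc (itL a d : ℝ) * ((gridN6 r δ d : ℝ) * c1) + 1
      ≤ cL * (d : ℝ) ^ δ * (c0 * (d : ℝ) ^ e * c1) + 1 := by gcongr
    _ = cL * c0 * c1 * ((d : ℝ) ^ δ * (d : ℝ) ^ e) + 1 := by ring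
    _ ≤ cL * c0 * c1 * (d : ℝ) ^ (1 / 6 + 5 * δ) + (d : ℝ) ^ (1 / 6 + 5 * δ) := by
        refine add_le_add (mul_le_mul_of_nonneg_left ?_ (by positivity))
          (Real.one_le_rpow hd1 (by positivity))
        rw [← Real.rpow_add hd0]
        exact Real.rpow_le_rpow_of_exponent_le hd1 (by simp only [e]; linarith)
    _ = _ := by ring

end Vale.Agent.P347
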