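import Vale.Agent.P347.Stage
import Vale.Agent.P347.Smoothing
import Vale.Agent.P347.Realise

/-!
# P347: procedures that sample every perturbation in a class
-/

open MeasureTheory ProbabilityTheory Real Set
open scoped RealInnerProductSpace Gradient

namespace Vale.Agent.P347

variable {d : ℕ}

/-- `q` queries sample every `law W` with `Pert η B W`, up to `ε`. -/
def Samples (d q : ℕ) (η B ε : ℝ) : Prop :=
  ∃ (Ω : Type) (_ : MeasurableSpace Ω) (_ : StandardBorelSpace Ω) (_ : Nonempty Ω) (P : Measure Ω)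
    (f : (E d → ℝ × E d) → Ω → E d), IsProbabilityMeasure P ∧ QC d q f ∧
      ∀ W : E d → ℝ, Pert η B W → TVLe (P.map (f (oracleOf (pot W)))) (law W) ε

theorem Samples.mono {q q' : ℕ} {η B ε ε' : ℝ} (h : Samples d q η B ε) (hq : q ≤ q')
    (hε : ε ≤ ε') : Samples d q' η B ε' := by
  obtain ⟨Ω, i1, i2, i3, P, f, hP, hf, h⟩ := h
  exact ⟨Ω, i1, i2, i3, P, f, hP, hf.mono hq, fun W hW => (h W hW).mono hε⟩

theorem Pert.mono {η η' B B' : ℝ} {W : E d → ℝ} (hW : Pert η B W) (hη : η ≤ η') (hη' : η' ≤ 1)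
    (hB : B ≤ B') : Pert η' B' W :=
  ⟨hW.eta_nonneg.trans hη, hη', hW.bound_nonneg.trans hB, hW.contDiff, hW.hess_nonneg,
    fun x v => (hW.hess_le x v).trans (mul_le_mul_of_nonneg_right hη (sq_nonneg _)),
    hW.grad_zero_le.trans (mul_le_mul_of_nonneg_right
      (mul_le_mul hη hB hW.bound_nonneg (hW.eta_nonneg.trans hη)) (Real.sqrt_nonneg _))⟩

namespace Pert

variable {η B : ℝ} {W : E d → ℝ} (hW : Pert η B W)
include hW

theorem grad_pot (x : E d) : ∇ (pot W) x = x + grad W x :=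
  (hasGradientAt_iff_hasFDerivAt.2 (hW.hasFDerivAt_pot x)).gradient

theorem oracleOf_pot (x : E d) : oracleOf (pot W) x = (pot W x, x + grad W x) := by
  rw [oracleOf, hW.grad_pot]

theorem oracle_sub (x : E d) : (oracleOf (pot W) x).2 - x = grad W x := by
  rw [hW.oracleOf_pot]; simp

theorem measurable_oracle : Measurable (oracleOf (pot W)) := by
  rw [funext hW.oracleOf_pot]
  exact hW.decay.1.measurable.prodMk
    (continuous_id.add hW.contDiff_grad.continuous).measurable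

end Pert

theorem samples_base : ∃ C : ℝ, 0 ≤ C ∧ ∀ (d : ℕ) (η B : ℝ), 0 ≤ η → 0 ≤ B →
    Samples d 0 η B (C * (1 + B) * η * √d) := by
  obtain ⟨C, hC⟩ := tv_base
  refine ⟨max C 0, le_max_right _ _, fun d η B hη hB => ⟨E d, inferInstance, inferInstance,
    inferInstance, stdGaussian (E d), fun _ ω => ω, inferInstance,
    QC.pure _ measurable_id, fun W hW => ?_⟩⟩
  rw [Measure.map_id']
  exact ((hC d η B W hW).symm).mono (by gcongr; exact le_max_left _ _)

/-- One stage, as a procedure for the blurred law. -/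
theorem stage_sampler {m : ℕ} (r : Rules m) : ∃ C : ℝ, 0 ≤ C ∧
    ∀ (d N K L : ℕ) (σ s : ℝ), 0 < σ → σ ≤ 1 → 0 < s → N ≠ 0 →
      ∃ (P : Measure ((Fin L → E d) × Noise d ((r.scheme r.T₀ N).Idx K L) × E d))
        (f : (E d → ℝ × E d) → (Fin L → E d) × Noise d ((r.scheme r.T₀ N).Idx K L) × E d → E d),
        IsProbabilityMeasure P ∧ QC d (L * ((K + 1) * (N * (m + 1)) + N * r.n)) f ∧
        ∀ (η B : ℝ) (W : E d → ℝ), Pert η B W → 0 ≤ B →
          TVLe (P.map (f (oracleOf (pot W)))) (blur s (law W))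
            (C * ((r.T₀ / N) * η ^ 2 * σ ^ 2 * √d / s +
              ((r.T₀ / N) * η ^ 3 * σ * √d + (r.T₀ / N / σ) ^ (m + 1) * √d + √d / 2 ^ K +
                (2 + B) * (1 - r.T₀ ^ 2 / 8) ^ L * √d) / √s + (1 + B) ^ 2 * η * σ ^ 2 * √d)) := by
  obtain ⟨C₁, hC₁, h₁⟩ := stage_tv r
  obtain ⟨C₂, h₂⟩ := tv_sm
  refine ⟨C₁ + max C₂ 0, add_nonneg hC₁ (le_max_right _ _),
    fun d N K L σ s hσ hσ1 hs hN => ?_⟩
  set S := r.scheme r.T₀ N
  set γR := stdGaussian (Noise d (S.Idx K L))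
  refine ⟨(velLaw d L).prod (γR.prod (stdGaussian (E d))),
    fun O ω => S.xR K L (fun q => (O q).2 - q) σ (extend ω.1) L ω.2.1 + √s • ω.2.2,
    inferInstance, qc_stage S K L σ s, fun η B W hW hB => ?_⟩
  have hprob := hW.isProbabilityMeasure_law
  have hxm : Measurable fun p : (Fin L → E d) × Noise d (S.Idx K L) =>
      S.xR K L (grad W) σ (extend p.1) L p.2 :=
    (Scheme.continuous_xR hW.contDiff_grad.continuous L).measurable
  have e : ((velLaw d L).prod (γR.prod (stdGaussian (E d)))).map (fun ω : (Fin L → E d) ×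
      Noise d (S.Idx K L) × E d =>
        S.xR K L (grad W) σ (extend ω.1) L ω.2.1 + √s • ω.2.2) =
      blur s (chainLaw S K L (grad W) σ) := by
    have h1 := measurePreserving_prodAssoc (velLaw d L) γR (stdGaussian (E d))
    have h2 : ((velLaw d L).prod γR).map (fun p => S.xR K L (grad W) σ (extend p.1) L p.2) =
        chainLaw S K L (grad W) σ := rfl
    have hm : Measurable fun ω : (Fin L → E d) × Noise d (S.Idx K L) × E d =>
        S.xR K L (grad W) σ (extend ω.1) L ω.2.1 + √s • ω.2.2 :=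
      (hxm.comp (measurable_fst.prodMk (measurable_fst.comp measurable_snd))).add
        ((measurable_snd.comp measurable_snd).const_smul √s)
    rw [← h1.map_eq, Measure.map_map hm h1.measurable, blur, ← h2,
      ← Measure.map_id (μ := stdGaussian (E d)), Measure.map_prod_map _ _ hxm measurable_id,
      Measure.map_map (by fun_prop) (hxm.prodMap measurable_id), Measure.map_id]
    rfl
  have hU : Pert η (B + 1) (sm σ W) := hW.sm_pert (by rw [abs_of_pos hσ]; exact hσ1)
  have := hU.isProbabilityMeasure_law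
  simp only [hW.oracle_sub]
  rw [e]
  refine ((h₁ d N K L η B σ s W hW hσ hσ1 hs hB hN).trans
    (((h₂ d η B σ W hW hσ hσ1).blur s).symm)).mono ?_
  have hh : 0 ≤ r.T₀ / N := div_nonneg r.T₀_pos.le (Nat.cast_nonneg N)
  have hρ : 0 ≤ 1 - r.T₀ ^ 2 / 8 := by nlinarith [r.T₀_pos, r.T₀_le]
  have hη := hW.eta_nonneg
  set X := (r.T₀ / N) * η ^ 2 * σ ^ 2 * √d / s +
    ((r.T₀ / N) * η ^ 3 * σ * √d + (r.T₀ / N / σ) ^ (m + 1) * √d + √d / 2 ^ K +
      (2 + B) * (1 - r.T₀ ^ 2 / 8) ^ L * √d) / √s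
  set Y := (1 + B) ^ 2 * η * σ ^ 2 * √d
  have hX : 0 ≤ X := by positivity
  have hY : 0 ≤ Y := by positivity
  have : C₂ * (1 + B) ^ 2 * η * σ ^ 2 * √d ≤ max C₂ 0 * Y := by
    rw [show C₂ * (1 + B) ^ 2 * η * σ ^ 2 * √d = C₂ * Y by simp only [Y]; ring]
    exact mul_le_mul_of_nonneg_right (le_max_left _ _) hY
  nlinarith [mul_nonneg hC₁ hY, mul_nonneg (le_max_right C₂ 0) hX]

end Vale.Agent.P347
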