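import Vale.Agent.P347.Model

/-!
# P347: the discretized randomized Hamiltonian step, and its stability

Only two properties of a drift are used: it is `y ↦ y + g y` with `g` monotone and 1-Lipschitz.
-/

open Real
open scoped RealInnerProductSpace

namespace Vale.Agent.P347

variable {d : ℕ}

/-- Nodes and weights of one step. -/
structure Scheme where
  /-- number of iteration nodes -/
  J : ℕ
  /-- number of final nodes -/
  I : ℕ
  /-- length of the step -/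
  T : ℝ
  /-- iteration nodes -/
  t : Fin J → ℝ
  /-- iteration coefficients -/
  A : Fin J → Fin J → ℝ
  /-- final nodes -/
  s : Fin I → ℝ
  /-- coefficients of the final nodes -/
  Af : Fin I → Fin J → ℝ
  /-- final weights -/
  w : Fin I → ℝ

namespace Scheme

/-- What the stability argument needs. -/
structure Good (S : Scheme) (τ κ : ℝ) : Prop where
  sum_A : ∀ j, ∑ l, |S.A j l| ≤ 1 / 32
  sum_Af : ∀ i, ∑ l, |S.Af i l| ≤ 1 / 32
  w_nonneg : ∀ i, 0 ≤ S.w i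
  sum_w : ∑ i, S.w i = τ
  tau_pos : 0 < τ
  tau_le : τ ≤ 1 / 32
  sq_A : ∀ j, ∑ l, S.A j l ^ 2 ≤ κ ^ 2
  sq_Af : ∀ i, ∑ l, S.Af i l ^ 2 ≤ κ ^ 2
  sq_w : ∑ i, S.w i ^ 2 ≤ κ ^ 2
  kappa_nonneg : 0 ≤ κ

/-- The Picard iterates; `G k l` is the drift used at iteration `k`, node `l`. -/
noncomputable def iter (S : Scheme) (G : ℕ → Fin S.J → E d → E d) (x v : E d) :
    ℕ → Fin S.J → E d
  | 0, j => x + S.t j • v
  | k + 1, j => x + S.t j • v - ∑ l, S.A j l • G k l (S.iter G x v k l)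

/-- Positions at the final nodes. -/
noncomputable def fin (S : Scheme) (K : ℕ) (G : ℕ → Fin S.J → E d → E d) (x v : E d)
    (i : Fin S.I) : E d :=
  x + S.s i • v - ∑ l, S.Af i l • G K l (S.iter G x v K l)

/-- One step. -/
noncomputable def step (S : Scheme) (K : ℕ) (G : ℕ → Fin S.J → E d → E d)
    (Gf : Fin S.I → E d → E d) (x v : E d) : E d :=
  x + S.T • v - ∑ i, S.w i • Gf i (S.fin K G x v i)

/-- The drifts allowed: the identity plus a nearly monotone nonexpansion. -/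
def Admissible (G : E d → E d) : Prop :=
  (∀ a b, ‖(G a - a) - (G b - b)‖ ≤ ‖a - b‖) ∧
    ∀ a b, -(1 / 4) * ‖a - b‖ ^ 2 ≤ ⟪(G a - a) - (G b - b), a - b⟫

theorem Admissible.lip {G : E d → E d} (hG : Admissible G) (a b : E d) :
    ‖G a - G b‖ ≤ 2 * ‖a - b‖ := by
  have h : G a - G b = ((G a - a) - (G b - b)) + (a - b) := by abel
  rw [h]
  refine (norm_add_le _ _).trans ?_
  linarith [hG.1 a b]

/-- The contraction: `τ` units of drift shrink a distance by `1 - τ / 2`. -/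
theorem contraction {n : ℕ} {w : Fin n → ℝ} {τ : ℝ} (hw : ∀ i, 0 ≤ w i) (hτ : ∑ i, w i = τ)
    (hτ2 : τ ≤ 1 / 4) {G : Fin n → E d → E d} (hG : ∀ i, Admissible (G i)) (a : Fin n → E d)
    (Δ : E d) : ‖Δ - ∑ i, w i • (G i (a i + Δ) - G i (a i))‖ ≤ (1 - τ / 2) * ‖Δ‖ := by
  have hτ0 : 0 ≤ τ := hτ ▸ Finset.sum_nonneg fun i _ => hw i
  set D : Fin n → E d := fun i => (G i (a i + Δ) - (a i + Δ)) - (G i (a i) - a i)
  have e : Δ - ∑ i, w i • (G i (a i + Δ) - G i (a i)) = (1 - τ) • Δ - ∑ i, w i • D i := by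
    have : ∀ i, w i • (G i (a i + Δ) - G i (a i)) = w i • D i + w i • Δ := fun i => by
      rw [← smul_add]; congr 1; simp only [D]; abel
    simp_rw [this, Finset.sum_add_distrib, ← Finset.sum_smul, hτ, sub_smul, one_smul]
    abel
  have hD : ∀ i, ‖D i‖ ≤ ‖Δ‖ := fun i => by simpa [D] using (hG i).1 (a i + Δ) (a i)
  have hD' : ∀ i, -(1 / 4) * ‖Δ‖ ^ 2 ≤ ⟪D i, Δ⟫ := fun i => by
    simpa [D] using (hG i).2 (a i + Δ) (a i)
  have h1 : ‖∑ i, w i • D i‖ ≤ τ * ‖Δ‖ := by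
    refine (norm_sum_le _ _).trans ?_
    rw [← hτ, Finset.sum_mul]
    refine Finset.sum_le_sum fun i _ => ?_
    rw [norm_smul, Real.norm_eq_abs, abs_of_nonneg (hw i)]
    exact mul_le_mul_of_nonneg_left (hD i) (hw i)
  have h2 : -(τ / 4) * ‖Δ‖ ^ 2 ≤ ⟪(1 - τ) • Δ, ∑ i, w i • D i⟫ := by
    rw [real_inner_smul_left, inner_sum]
    have h : -(τ / 4) * ‖Δ‖ ^ 2 ≤ ∑ i, ⟪Δ, w i • D i⟫ := by
      calc -(τ / 4) * ‖Δ‖ ^ 2 = ∑ i, w i * (-(1 / 4) * ‖Δ‖ ^ 2) := by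
            rw [← Finset.sum_mul, hτ]; ring
        _ ≤ ∑ i, ⟪Δ, w i • D i⟫ := Finset.sum_le_sum fun i _ => by
            rw [real_inner_smul_right, real_inner_comm]
            exact mul_le_mul_of_nonneg_left (hD' i) (hw i)
    refine le_trans ?_ (mul_le_mul_of_nonneg_left h (by linarith : (0 : ℝ) ≤ 1 - τ))
    nlinarith [mul_nonneg (mul_nonneg hτ0 hτ0) (sq_nonneg ‖Δ‖)]
  rw [e]
  refine (pow_le_pow_iff_left₀ (norm_nonneg _)
    (mul_nonneg (by linarith) (norm_nonneg _)) two_ne_zero).1 ?_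
  rw [norm_sub_sq_real, norm_smul, Real.norm_eq_abs, abs_of_nonneg (by linarith : 0 ≤ 1 - τ)]
  have h3 := pow_le_pow_left₀ (norm_nonneg _) h1 2
  have h4 : 0 ≤ ‖Δ‖ ^ 2 := sq_nonneg _
  nlinarith [mul_nonneg h4 (mul_nonneg hτ0 (by linarith : (0 : ℝ) ≤ 1 - 4 * τ))]

theorem norm_sum_smul_le {n : ℕ} {c : Fin n → ℝ} {p : Fin n → E d} {α a : ℝ}
    (hc : ∑ l, |c l| ≤ α) (ha : 0 ≤ a) (hp : ∀ l, ‖p l‖ ≤ a) :
    ‖∑ l, c l • p l‖ ≤ α * a := by
  refine (norm_sum_le _ _).trans ?_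
  refine le_trans ?_ (mul_le_mul_of_nonneg_right hc ha)
  rw [Finset.sum_mul]
  refine Finset.sum_le_sum fun l _ => ?_
  rw [norm_smul, Real.norm_eq_abs]
  exact mul_le_mul_of_nonneg_left (hp l) (abs_nonneg _)

theorem norm_sum_smul_le_sq {n : ℕ} {c : Fin n → ℝ} {p : Fin n → E d} {κ δ : ℝ}
    (hc : ∑ l, c l ^ 2 ≤ κ ^ 2) (hκ : 0 ≤ κ) (hδ : 0 ≤ δ) (hp : ∑ l, ‖p l‖ ^ 2 ≤ δ ^ 2) :
    ‖∑ l, c l • p l‖ ≤ κ * δ := by
  refine (norm_sum_le _ _).trans ?_
  simp_rw [norm_smul, Real.norm_eq_abs]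
  refine (Real.sum_mul_le_sqrt_mul_sqrt _ _ _).trans ?_
  refine mul_le_mul ?_ ?_ (Real.sqrt_nonneg _) hκ
  · simp_rw [sq_abs]; exact (Real.sqrt_le_sqrt hc).trans_eq (Real.sqrt_sq hκ)
  · exact (Real.sqrt_le_sqrt hp).trans_eq (Real.sqrt_sq hδ)

/-- One Picard iteration against any other node positions `p'`. -/
theorem iter_diff {S : Scheme} {τ κ : ℝ} (_hS : S.Good τ κ) {G G' : Fin S.J → E d → E d}
    (hG : ∀ l, Admissible (G l)) {c : Fin S.J → ℝ} (hc : ∑ l, |c l| ≤ 1 / 32)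
    {p p' : Fin S.J → E d} {a e : ℝ} (ha : 0 ≤ a) (hp : ∀ l, ‖p l - p' l‖ ≤ a)
    (he : ‖∑ l, c l • (G l (p' l) - G' l (p' l))‖ ≤ e) :
    ‖∑ l, c l • (G l (p l) - G' l (p' l))‖ ≤ a / 16 + e := by
  have hsplit : ∑ l, c l • (G l (p l) - G' l (p' l)) =
      ∑ l, c l • (G l (p l) - G l (p' l)) + ∑ l, c l • (G l (p' l) - G' l (p' l)) := by
    rw [← Finset.sum_add_distrib]
    refine Finset.sum_congr rfl fun l _ => ?_
    rw [← smul_add]; congr 1; abel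
  rw [hsplit]
  refine (norm_add_le _ _).trans (add_le_add ?_ he)
  refine (norm_sum_smul_le hc (by positivity : (0 : ℝ) ≤ 2 * a) fun l => ?_).trans (by linarith)
  exact ((hG l).lip _ _).trans (by linarith [hp l])

/-- Two runs, the second one arbitrary up to the defects `e`. -/
theorem stable {S : Scheme} {τ κ : ℝ} (hS : S.Good τ κ) {G : ℕ → Fin S.J → E d → E d}
    (hG : ∀ k l, Admissible (G k l)) {Gf : Fin S.I → E d → E d} (hGf : ∀ i, Admissible (Gf i))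
    (x x' v : E d) (K : ℕ) (p' : ℕ → Fin S.J → E d) (z' : Fin S.I → E d) (y' : E d)
    (G' : ℕ → Fin S.J → E d → E d) (Gf' : Fin S.I → E d → E d) {a₀ e : ℝ} (ha₀ : 0 ≤ a₀)
    (he : 0 ≤ e) (h0 : ∀ j, ‖(x' + S.t j • v) - p' 0 j‖ ≤ a₀)
    (hA : ∀ k j, k < K →
      ‖x' + S.t j • v - ∑ l, S.A j l • G' k l (p' k l) - p' (k + 1) j‖ ≤ e)
    (hA' : ∀ k j, k < K → ‖∑ l, S.A j l • (G k l (p' k l) - G' k l (p' k l))‖ ≤ e)
    (hF : ∀ i, ‖x' + S.s i • v - ∑ l, S.Af i l • G' K l (p' K l) - z' i‖ ≤ e)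
    (hF' : ∀ i, ‖∑ l, S.Af i l • (G K l (p' K l) - G' K l (p' K l))‖ ≤ e)
    (hy : ‖x' + S.T • v - ∑ i, S.w i • Gf' i (z' i) - y'‖ ≤ e)
    (hy' : ‖∑ i, S.w i • (Gf i (z' i) - Gf' i (z' i))‖ ≤ e) :
    (∀ k j, k ≤ K → ‖S.iter G x v k j - p' k j‖ ≤ 2 * ‖x - x'‖ + 4 * e + a₀ / 2 ^ k) ∧
    (∀ i, ‖S.fin K G x v i - z' i‖ ≤ 2 * ‖x - x'‖ + 4 * e + a₀ / 2 ^ K) ∧
    ‖S.step K G Gf x v - y'‖ ≤ (1 - τ / 4) * ‖x - x'‖ + 4 * e + a₀ / 2 ^ K := by
  set Δ := x - x'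
  have hiter : ∀ k, k ≤ K → ∀ j, ‖S.iter G x v k j - p' k j‖ ≤ 2 * ‖Δ‖ + 4 * e + a₀ / 2 ^ k := by
    intro k
    induction k with
    | zero =>
      intro _ j
      simp only [Scheme.iter, pow_zero, div_one]
      rw [show x + S.t j • v - p' 0 j = Δ + (x' + S.t j • v - p' 0 j) by simp only [Δ]; abel]
      linarith [norm_add_le Δ (x' + S.t j • v - p' 0 j), h0 j, norm_nonneg Δ]
    | succ k ih =>
      intro hk j
      set b := 2 * ‖Δ‖ + 4 * e + a₀ / 2 ^ k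
      have hb : 0 ≤ b := by positivity
      have hd := iter_diff hS (hG k) (hS.sum_A j) hb (ih (by omega)) (hA' k j (by omega))
      have e1 : S.iter G x v (k + 1) j - p' (k + 1) j = Δ
          - ∑ l, S.A j l • (G k l (S.iter G x v k l) - G' k l (p' k l))
          + (x' + S.t j • v - ∑ l, S.A j l • G' k l (p' k l) - p' (k + 1) j) := by
        simp only [Scheme.iter, Δ, smul_sub, Finset.sum_sub_distrib]; abel
      rw [e1]
      refine (norm_add_le _ _).trans ((add_le_add ((norm_sub_le _ _).trans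
        (add_le_add_right hd _)) (hA k j (by omega))).trans ?_)
      have hh : a₀ / 2 ^ (k + 1) = a₀ / 2 ^ k / 2 := by rw [pow_succ, div_div]
      rw [hh]
      have : 0 ≤ a₀ / 2 ^ k := by positivity
      simp only [b]
      linarith [norm_nonneg Δ]
  have hfin : ∀ i, ‖S.fin K G x v i - z' i - Δ‖ ≤
      (2 * ‖Δ‖ + 4 * e + a₀ / 2 ^ K) / 16 + 2 * e := by
    intro i
    have hd := iter_diff hS (hG K) (hS.sum_Af i) (by positivity) (hiter K le_rfl) (hF' i)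
    have e1 : S.fin K G x v i - z' i - Δ =
        -(∑ l, S.Af i l • (G K l (S.iter G x v K l) - G' K l (p' K l)))
        + (x' + S.s i • v - ∑ l, S.Af i l • G' K l (p' K l) - z' i) := by
      simp only [Scheme.fin, Δ, smul_sub, Finset.sum_sub_distrib]; abel
    rw [e1]
    refine (norm_add_le _ _).trans ((add_le_add ((norm_neg _).trans_le hd) (hF i)).trans ?_)
    linarith
  have h2K : 0 ≤ a₀ / 2 ^ K := by positivity
  refine ⟨fun k j hk => hiter k hk j, fun i => ?_, ?_⟩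
  · have h := norm_le_norm_add_norm_sub' (S.fin K G x v i - z' i) Δ
    linarith [hfin i, norm_nonneg Δ]
  · set b := (2 * ‖Δ‖ + 4 * e + a₀ / 2 ^ K) / 16 + 2 * e
    have hb : 0 ≤ b := by positivity
    have e1 : S.step K G Gf x v - y' = (Δ - ∑ i, S.w i • (Gf i (z' i + Δ) - Gf i (z' i)))
        - ∑ i, S.w i • (Gf i (S.fin K G x v i) - Gf i (z' i + Δ))
        - ∑ i, S.w i • (Gf i (z' i) - Gf' i (z' i))
        + (x' + S.T • v - ∑ i, S.w i • Gf' i (z' i) - y') := by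
      simp only [Scheme.step, Δ, smul_sub, Finset.sum_sub_distrib]; abel
    have h1 := contraction hS.w_nonneg hS.sum_w (by linarith [hS.tau_le]) hGf z' Δ
    have h2 : ‖∑ i, S.w i • (Gf i (S.fin K G x v i) - Gf i (z' i + Δ))‖ ≤ τ * (2 * b) := by
      refine norm_sum_smul_le (α := τ) ?_ (by positivity) fun i => ?_
      · rw [← hS.sum_w]
        exact le_of_eq (Finset.sum_congr rfl fun i _ => abs_of_nonneg (hS.w_nonneg i))
      · refine ((hGf i).lip _ _).trans ?_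
        rw [show S.fin K G x v i - (z' i + Δ) = S.fin K G x v i - z' i - Δ by abel]
        linarith [hfin i]
    rw [e1]
    refine (norm_add_le _ _).trans ?_
    refine (add_le_add ((norm_sub_le _ _).trans (add_le_add ((norm_sub_le _ _).trans
      (add_le_add h1 h2)) hy')) hy).trans ?_
    have hτ := hS.tau_pos
    have hτ' := hS.tau_le
    simp only [b]
    nlinarith [norm_nonneg Δ]

theorem iter_succ (S : Scheme) (G : ℕ → Fin S.J → E d → E d) (x v : E d) (k : ℕ) (j : Fin S.J) :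
    S.iter G x v (k + 1) j = x + S.t j • v - ∑ l, S.A j l • G k l (S.iter G x v k l) := rfl

end Scheme

end Vale.Agent.P347
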