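import Vale.Agent.P347.Gauss

/-!
# P347: the second order estimate and smoothed tests

For a Lipschitz map `F` of a Gaussian vector, `E ψ(F) - ψ(E F)` is bounded by the Hilbert-Schmidt
bound on `D²ψ` times `L² √d`: one square root of the dimension, for any size of `F`.
-/

open MeasureTheory ProbabilityTheory Real Set
open scoped RealInnerProductSpace

namespace Vale.Agent.P347

variable {d : ℕ}

section
variable {R : Type*} [NormedAddCommGroup R] [InnerProductSpace ℝ R] [FiniteDimensional ℝ R]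

theorem norm_apply_le_sum {ι : Type*} [Fintype ι] {V W : Type*} [NormedAddCommGroup V]
    [InnerProductSpace ℝ V] [NormedAddCommGroup W] [NormedSpace ℝ W] (b : OrthonormalBasis ι ℝ V)
    (A : V →L[ℝ] W) (v : V) : ‖A v‖ ≤ √(∑ i, ‖A (b i)‖ ^ 2) * ‖v‖ := by
  conv_lhs => rw [← b.sum_repr v, map_sum]
  refine (norm_sum_le _ _).trans ?_
  simp_rw [map_smul, norm_smul, Real.norm_eq_abs]
  have h := Real.sum_mul_le_sqrt_mul_sqrt Finset.univ (fun i => |b.repr v i|)
    (fun i => ‖A (b i)‖)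
  refine h.trans (le_of_eq ?_)
  rw [mul_comm]
  congr 1
  rw [← b.repr.norm_map v, EuclideanSpace.norm_eq]
  simp

/-- The trace of `Aᵀ T B` when `T` has Hilbert-Schmidt norm at most `M`. -/
theorem abs_trace_le {ι : Type*} [Fintype ι] (r : OrthonormalBasis ι ℝ R)
    (A B : R →L[ℝ] E d) {L M : ℝ} (hA : ‖A‖ ≤ L) (hB : ‖B‖ ≤ L) (T : E d →L[ℝ] E d) (hM0 : 0 ≤ M)
    (hT : ∑ i, ‖T (EuclideanSpace.basisFun (Fin d) ℝ i)‖ ^ 2 ≤ M ^ 2) :
    |∑ k, ⟪T (A (r k)), B (r k)⟫| ≤ L ^ 2 * M * √d := by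
  set e := EuclideanSpace.basisFun (Fin d) ℝ
  have hL : 0 ≤ L := (norm_nonneg _).trans hA
  have h : ∑ k, ⟪T (A (r k)), B (r k)⟫ =
      ∑ i, ⟪ContinuousLinearMap.adjoint A (e i), ContinuousLinearMap.adjoint B (T (e i))⟫ := by
    have h1 : ∀ i, ⟪ContinuousLinearMap.adjoint A (e i), ContinuousLinearMap.adjoint B (T (e i))⟫ =
        ∑ k, ⟪e i, A (r k)⟫ * ⟪T (e i), B (r k)⟫ := fun i => by
      rw [← r.sum_inner_mul_inner]
      refine Finset.sum_congr rfl fun k _ => ?_
      rw [ContinuousLinearMap.adjoint_inner_left, real_inner_comm (ContinuousLinearMap.adjoint B _),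
        ContinuousLinearMap.adjoint_inner_left]
    simp_rw [h1]
    rw [Finset.sum_comm]
    refine Finset.sum_congr rfl fun k _ => ?_
    conv_lhs => rw [← e.sum_repr' (A (r k)), map_sum, sum_inner]
    simp [map_smul, real_inner_smul_left]
  rw [h]
  refine (Finset.abs_sum_le_sum_abs _ _).trans ?_
  have hterm : ∀ i, |⟪ContinuousLinearMap.adjoint A (e i),
      ContinuousLinearMap.adjoint B (T (e i))⟫| ≤ L ^ 2 * ‖T (e i)‖ := by
    intro i
    refine (abs_real_inner_le_norm _ _).trans ?_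
    have ha : ‖ContinuousLinearMap.adjoint A (e i)‖ ≤ L := by
      refine ((ContinuousLinearMap.adjoint A).le_opNorm _).trans ?_
      rw [LinearIsometryEquiv.norm_map, e.norm_eq_one, mul_one]
      exact hA
    have hb : ‖ContinuousLinearMap.adjoint B (T (e i))‖ ≤ L * ‖T (e i)‖ := by
      refine ((ContinuousLinearMap.adjoint B).le_opNorm _).trans ?_
      rw [LinearIsometryEquiv.norm_map]
      gcongr
    calc _ ≤ L * (L * ‖T (e i)‖) := mul_le_mul ha hb (norm_nonneg _) hL
      _ = _ := by ring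
  refine (Finset.sum_le_sum fun i _ => hterm i).trans ?_
  rw [← Finset.mul_sum, mul_assoc]
  refine mul_le_mul_of_nonneg_left ?_ (sq_nonneg _)
  have h2 := Real.sum_mul_le_sqrt_mul_sqrt Finset.univ (fun _ : Fin d => (1 : ℝ))
    (fun i => ‖T (e i)‖)
  simp only [one_mul, one_pow, Finset.sum_const, Finset.card_univ, Fintype.card_fin, nsmul_eq_mul,
    mul_one] at h2
  refine h2.trans ?_
  rw [mul_comm M]
  exact mul_le_mul_of_nonneg_left ((Real.sqrt_le_sqrt hT).trans (by rw [Real.sqrt_sq hM0]))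
    (Real.sqrt_nonneg _)

variable [MeasurableSpace R] [BorelSpace R]

theorem second_order_step {F : R → E d} (hF : ContDiff ℝ 1 F) {L : ℝ}
    (hL : ∀ z, ‖fderiv ℝ F z‖ ≤ L) {φ : E d → E d} (hφ : ContDiff ℝ 1 φ) {M : ℝ} (hM0 : 0 ≤ M)
    (hM : ∀ x, ∑ i, ‖fderiv ℝ φ x (EuclideanSpace.basisFun (Fin d) ℝ i)‖ ^ 2 ≤ M ^ 2)
    (s : ℝ) (μ : E d) :
    |∫ z, ⟪φ (μ + s • (F z - ∫ w, F w ∂stdGaussian R)), F z - ∫ w, F w ∂stdGaussian R⟫
      ∂stdGaussian R| ≤ 2 * |s| * L ^ 2 * M * √d := by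
  set γ := stdGaussian R
  set m := ∫ w, F w ∂γ
  have hL0 : 0 ≤ L := (norm_nonneg _).trans (hL 0)
  have hFd := hF.differentiable one_ne_zero
  have hFlip : ∀ x y, ‖F x - F y‖ ≤ L * ‖x - y‖ := fun x y =>
    Convex.norm_image_sub_le_of_norm_fderiv_le (fun z _ => hFd z) (fun z _ => hL z) convex_univ
      (mem_univ y) (mem_univ x)
  have hφd := hφ.differentiable one_ne_zero
  have hφn : ∀ x, ‖fderiv ℝ φ x‖ ≤ M := fun x =>
    ContinuousLinearMap.opNorm_le_bound _ hM0 fun v => (norm_apply_le_sum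
      (EuclideanSpace.basisFun (Fin d) ℝ) _ v).trans (mul_le_mul_of_nonneg_right
        ((Real.sqrt_le_sqrt (hM x)).trans (by rw [Real.sqrt_sq hM0])) (norm_nonneg _))
  have hφp : PolyBd φ := PolyBd.of_lipschitz hM0 fun x y =>
    Convex.norm_image_sub_le_of_norm_fderiv_le (fun z _ => hφd z) (fun z _ => hφn z) convex_univ
      (mem_univ y) (mem_univ x)
  have hFp : PolyBd F := PolyBd.of_lipschitz hL0 hFlip
  set P : R → E d := fun z => φ (μ + s • (F z - m))
  have hPp : PolyBd P :=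
    hφp.comp ((PolyBd.const μ).add ((PolyBd.const s).smul (hFp.sub (PolyBd.const m))))
  have hPc : ContDiff ℝ 1 P := by fun_prop
  have hPd : ∀ z, fderiv ℝ P z = (fderiv ℝ φ (μ + s • (F z - m))).comp (s • fderiv ℝ F z) := by
    intro z
    exact ((hφd _).hasFDerivAt.comp z
      ((((hFd z).hasFDerivAt.sub_const m).const_smul s).const_add μ)).fderiv
  -- the rotation path
  set u : ℝ → R × R → R := fun θ p => cos θ • p.1 + sin θ • p.2
  set w : ℝ → R × R → R := fun θ p => -sin θ • p.1 + cos θ • p.2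
  set T : ℝ × (R × R) → ℝ := fun q => ⟪P q.2.1, fderiv ℝ F (u q.1 q.2) (w q.1 q.2)⟫
  have hTc : Continuous T := by
    have := hF.continuous_fderiv one_ne_zero
    fun_prop
  have hFTC : ∀ p : R × R, ⟪P p.1, F p.2 - F p.1⟫ = ∫ θ in (0 : ℝ)..(π / 2), T (θ, p) := by
    intro p
    have hd : ∀ θ ∈ uIcc (0 : ℝ) (π / 2), HasDerivAt (fun θ => ⟪P p.1, F (u θ p)⟫) (T (θ, p)) θ := by
      intro θ _
      have h1 : HasDerivAt (fun θ => u θ p) (w θ p) θ := by
        simpa [u, w] using
          ((hasDerivAt_cos θ).smul_const p.1).fun_add ((hasDerivAt_sin θ).smul_const p.2)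
      have h2 := (hFd (u θ p)).hasFDerivAt.comp_hasDerivAt θ h1
      simpa [T, Function.comp_def] using (hasDerivAt_const θ (P p.1)).inner ℝ h2
    rw [intervalIntegral.integral_eq_sub_of_hasDerivAt hd
      ((hTc.comp (by fun_prop : Continuous fun θ : ℝ => (θ, p))).intervalIntegrable _ _)]
    simp [u, inner_sub_right]
  have hTb : ∃ b : R × R → ℝ, Integrable b (γ.prod γ) ∧ ∀ q : ℝ × (R × R), ‖T q‖ ≤ b q.2 := by
    refine ⟨fun p => ‖P p.1‖ * (L * (‖p.1‖ + ‖p.2‖)), ?_, fun q => ?_⟩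
    · refine PolyBd.integrable _ ?_ (Continuous.aestronglyMeasurable (by fun_prop))
      refine PolyBd.mul ?_ ((PolyBd.const L).mul ?_)
      · exact (hPp.comp (PolyBd.id.of_le fun p : R × R => norm_fst_le p)).norm
      · exact ((PolyBd.id.of_le fun p : R × R => norm_fst_le p).norm).add
          ((PolyBd.id.of_le fun p : R × R => norm_snd_le p).norm)
    · refine (norm_inner_le_norm _ _).trans (mul_le_mul_of_nonneg_left ?_ (norm_nonneg _))
      refine ((fderiv ℝ F _).le_opNorm _).trans (mul_le_mul (hL _) ?_ (norm_nonneg _) hL0)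
      refine (norm_add_le _ _).trans (add_le_add ?_ ?_)
      · rw [norm_smul, Real.norm_eq_abs, abs_neg]
        exact mul_le_of_le_one_left (norm_nonneg _) (abs_sin_le_one _)
      · rw [norm_smul, Real.norm_eq_abs]
        exact mul_le_of_le_one_left (norm_nonneg _) (abs_cos_le_one _)
  obtain ⟨b, hb, hTb⟩ := hTb
  have hTint : Integrable T ((volume.restrict (uIoc (0 : ℝ) (π / 2))).prod (γ.prod γ)) := by
    haveI : IsFiniteMeasure (volume.restrict (uIoc (0 : ℝ) (π / 2))) := by
      constructor; rw [Measure.restrict_apply_univ]; simp [uIoc]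
    refine Integrable.mono' (g := fun q => b q.2) ?_ hTc.aestronglyMeasurable (ae_of_all _ hTb)
    exact hb.comp_snd _
  have key : ∀ θ, |∫ p, T (θ, p) ∂γ.prod γ| ≤ |s| * L ^ 2 * M * √d := by
    intro θ
    set g : R × R → ℝ := fun q =>
      ⟪P (cos θ • q.1 - sin θ • q.2), fderiv ℝ F q.1 q.2⟫
    have hgc : Continuous g := by
      have := hF.continuous_fderiv one_ne_zero
      fun_prop
    have hinv : ∀ p : R × R, cos θ • u θ p - sin θ • w θ p = p.1 := fun p => by
      calc cos θ • u θ p - sin θ • w θ p = (cos θ ^ 2 + sin θ ^ 2) • p.1 := by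
            simp only [u, w]; module
        _ = p.1 := by rw [cos_sq_add_sin_sq, one_smul]
    have e : ∫ p, T (θ, p) ∂γ.prod γ = ∫ q, g q ∂γ.prod γ := by
      rw [← integral_rot θ hgc]
      refine integral_congr_ae (ae_of_all _ fun p => ?_)
      show T (θ, p) = g (u θ p, w θ p)
      simp [T, g, hinv]
    have hgi : Integrable g (γ.prod γ) := by
      refine PolyBd.integrable _ ?_ hgc.aestronglyMeasurable
      refine PolyBd.mul_of_le (f := fun q : R × R => P (cos θ • q.1 - sin θ • q.2))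
        (hPp.comp (g := fun q : R × R => cos θ • q.1 - sin θ • q.2) ?_)
        ((PolyBd.const L).mul (PolyBd.id.of_le fun p : R × R => norm_snd_le p).norm) fun q => ?_
      · exact ((PolyBd.const (cos θ)).smul (PolyBd.id.of_le fun p : R × R => norm_fst_le p)).sub
          ((PolyBd.const (sin θ)).smul (PolyBd.id.of_le fun p : R × R => norm_snd_le p))
      · refine (norm_inner_le_norm _ _).trans (mul_le_mul_of_nonneg_left ?_ (norm_nonneg _))
        rw [norm_mul, Real.norm_eq_abs, abs_of_nonneg hL0, norm_norm]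
        exact ((fderiv ℝ F _).le_opNorm _).trans (mul_le_mul_of_nonneg_right (hL _) (norm_nonneg _))
    rw [e, integral_prod g hgi]
    refine (abs_integral_le_integral_abs).trans ?_
    refine (integral_mono_of_nonneg (ae_of_all _ fun a => abs_nonneg _)
      (integrable_const (|s| * L ^ 2 * M * √d)) (ae_of_all _ fun a => ?_)).trans (by simp)
    -- integrate by parts in the second variable
    set r := stdOrthonormalBasis ℝ R
    set G := fderiv ℝ F a
    set pt : R → R := fun b => cos θ • a - sin θ • b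
    set φk : Fin (Module.finrank ℝ R) → R → ℝ := fun k b => ⟪P (pt b), G (r k)⟫
    have hpt : ∀ b, HasFDerivAt pt (-(sin θ) • ContinuousLinearMap.id ℝ R) b := fun b => by
      have h := ((hasFDerivAt_id (𝕜 := ℝ) b).const_smul (sin θ)).const_sub (cos θ • a)
      exact h.congr_fderiv (by ext; simp)
    have hφk : ∀ k b v, fderiv ℝ (φk k) b v =
        -(sin θ) * ⟪fderiv ℝ P (pt b) v, G (r k)⟫ := by
      intro k b v
      have h1 := ((hPc.differentiable one_ne_zero) _).hasFDerivAt.comp b (hpt b)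
      have h2 := h1.inner ℝ (hasFDerivAt_const (G (r k)) b)
      rw [show φk k = fun b => ⟪(P ∘ pt) b, G (r k)⟫ from rfl, h2.fderiv]
      simp [real_inner_smul_left]
    have hφkp : ∀ k, PolyBd (φk k) := fun k =>
      (hPp.comp ((PolyBd.const (cos θ • a)).sub ((PolyBd.const (sin θ)).smul PolyBd.id))).mul_of_le
        (PolyBd.const (G (r k))) fun b => norm_inner_le_norm _ _
    have hDP : ∀ z, ‖fderiv ℝ P z‖ ≤ M * (|s| * L) := fun z => by
      rw [hPd]
      refine (ContinuousLinearMap.opNorm_comp_le _ _).trans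
        (mul_le_mul (hφn _) ?_ (norm_nonneg _) hM0)
      rw [norm_smul, Real.norm_eq_abs]
      exact mul_le_mul_of_nonneg_left (hL z) (abs_nonneg _)
    have hφk' : ∀ k, PolyBd fun b => fderiv ℝ (φk k) b := fun k => by
      refine PolyBd.of_bound (B := M * (|s| * L) * ‖G (r k)‖) fun b => ?_
      refine ContinuousLinearMap.opNorm_le_bound _
        (mul_nonneg ((norm_nonneg _).trans (hDP a)) (norm_nonneg _)) fun v => ?_
      rw [hφk, norm_mul, norm_neg, Real.norm_eq_abs]
      refine (mul_le_of_le_one_left (norm_nonneg _) (abs_sin_le_one θ)).trans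
        ((norm_inner_le_norm _ _).trans ?_)
      calc ‖fderiv ℝ P (pt b) v‖ * ‖G (r k)‖ ≤ (M * (|s| * L) * ‖v‖) * ‖G (r k)‖ :=
            mul_le_mul_of_nonneg_right (((fderiv ℝ P _).le_opNorm v).trans
              (mul_le_mul_of_nonneg_right (hDP _) (norm_nonneg _))) (norm_nonneg _)
        _ = _ := by ring
    have hexp : ∀ b, g (a, b) = ∑ k, ⟪b, r k⟫ * φk k b := fun b => by
      show ⟪P (pt b), G b⟫ = _
      have h : G b = ∑ k, ⟪b, r k⟫ • G (r k) := by
        conv_lhs => rw [← r.sum_repr' b]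
        simp [real_inner_comm b]
      rw [h, inner_sum]
      simp [φk, real_inner_smul_right]
    simp_rw [hexp]
    rw [integral_finsetSum _ fun k _ => ((polyBd_inner (r k)).mul (hφkp k)).integrable _
      (by fun_prop)]
    have hsum : ∀ k, ∫ b, ⟪b, r k⟫ * φk k b ∂γ = ∫ b, fderiv ℝ (φk k) b (r k) ∂γ := fun k =>
      (gauss_ibp ((hPc.comp (by fun_prop : ContDiff ℝ 1 pt)).inner ℝ contDiff_const) (hφkp k) (hφk' k) (r k)).symm
    simp_rw [hsum, hφk]
    rw [← integral_finsetSum]
    · refine (abs_integral_le_integral_abs).trans ?_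
      refine (integral_mono_of_nonneg (ae_of_all _ fun b => abs_nonneg _)
        (integrable_const (|s| * L ^ 2 * M * √d)) (ae_of_all _ fun b => ?_)).trans (by simp)
      dsimp only
      simp_rw [hPd, ContinuousLinearMap.comp_apply, ContinuousLinearMap.smul_apply, map_smul,
        real_inner_smul_left, ← mul_assoc, ← Finset.mul_sum, abs_mul, abs_neg]
      have ht := abs_trace_le r (fderiv ℝ F (pt b)) G (hL _) (hL a)
        (fderiv ℝ φ (μ + s • (F (pt b) - m))) hM0 (hM _)
      calc |sin θ| * |s| * |∑ k, ⟪fderiv ℝ φ (μ + s • (F (pt b) - m)) (fderiv ℝ F (pt b) (r k)),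
            G (r k)⟫| ≤ 1 * |s| * (L ^ 2 * M * √d) := by gcongr; exact abs_sin_le_one θ
        _ = _ := by ring
    · intro k _
      refine PolyBd.integrable _ (PolyBd.of_bound (B := M * (|s| * L) * ‖r k‖ * ‖G (r k)‖)
        fun b => ?_) (Continuous.aestronglyMeasurable ?_)
      · rw [norm_mul, norm_neg, Real.norm_eq_abs]
        refine (mul_le_of_le_one_left (norm_nonneg _) (abs_sin_le_one θ)).trans
          ((norm_inner_le_norm _ _).trans (mul_le_mul_of_nonneg_right ?_ (norm_nonneg _)))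
        exact ((fderiv ℝ P _).le_opNorm _).trans
          (mul_le_mul_of_nonneg_right (hDP _) (norm_nonneg _))
      · exact continuous_const.mul (((hPc.continuous_fderiv one_ne_zero).comp
          (by fun_prop : Continuous pt)).clm_apply continuous_const |>.inner continuous_const)
  -- assemble
  have hI : ∫ p, ⟪P p.1, F p.2 - F p.1⟫ ∂γ.prod γ = -∫ z, ⟪P z, F z - m⟫ ∂γ := by
    have hi : Integrable (fun p : R × R => ⟪P p.1, F p.2 - F p.1⟫) (γ.prod γ) := by
      refine PolyBd.integrable _ ?_ (Continuous.aestronglyMeasurable (by fun_prop))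
      exact (hPp.comp (PolyBd.id.of_le fun p : R × R => norm_fst_le p)).mul_of_le
        ((hFp.comp (PolyBd.id.of_le fun p : R × R => norm_snd_le p)).sub
          (hFp.comp (PolyBd.id.of_le fun p : R × R => norm_fst_le p)))
        fun p => norm_inner_le_norm _ _
    rw [integral_prod _ hi, ← integral_neg]
    refine integral_congr_ae (ae_of_all _ fun z => ?_)
    have hiF : Integrable F γ := hFp.integrable _ hF.continuous.aestronglyMeasurable
    simp only [inner_sub_right]
    rw [integral_sub (hiF.const_inner (P z)) (integrable_const _), integral_inner hiF]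
    simp [m]
  have hfin : |∫ z, ⟪P z, F z - m⟫ ∂γ| ≤ π / 2 * (|s| * L ^ 2 * M * √d) := by
    rw [← abs_neg, ← hI]
    simp_rw [hFTC]
    rw [← intervalIntegral_integral_swap hTint]
    rw [← Real.norm_eq_abs]
    refine (intervalIntegral.norm_integral_le_of_norm_le_const (C := |s| * L ^ 2 * M * √d)
      fun θ _ => (Real.norm_eq_abs _).trans_le (key θ)).trans ?_
    rw [sub_zero, abs_of_pos pi_div_two_pos]
    linarith
  refine hfin.trans ?_
  have h0 : 0 ≤ |s| * L ^ 2 * M * √d := by positivity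
  nlinarith [pi_le_four]

/-- The second order estimate. -/
theorem second_order {F : R → E d} (hF : ContDiff ℝ 1 F) {L : ℝ}
    (hL : ∀ z, ‖fderiv ℝ F z‖ ≤ L) {ψ : E d → ℝ} {φ : E d → E d}
    (hψ : ∀ x, HasFDerivAt ψ (innerSL ℝ (φ x)) x) (hφ : ContDiff ℝ 1 φ) {M : ℝ} (hM0 : 0 ≤ M)
    (hM : ∀ x, ∑ i, ‖fderiv ℝ φ x (EuclideanSpace.basisFun (Fin d) ℝ i)‖ ^ 2 ≤ M ^ 2) :
    |∫ z, ψ (F z) ∂stdGaussian R - ψ (∫ z, F z ∂stdGaussian R)| ≤ 2 * L ^ 2 * M * √d := by
  set γ := stdGaussian R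
  set m := ∫ w, F w ∂γ
  have hL0 : 0 ≤ L := (norm_nonneg _).trans (hL 0)
  have hFd := hF.differentiable one_ne_zero
  have hFp : PolyBd F := PolyBd.of_lipschitz hL0 fun x y =>
    Convex.norm_image_sub_le_of_norm_fderiv_le (fun z _ => hFd z) (fun z _ => hL z) convex_univ
      (mem_univ y) (mem_univ x)
  have hφn : ∀ x, ‖fderiv ℝ φ x‖ ≤ M := fun x =>
    ContinuousLinearMap.opNorm_le_bound _ hM0 fun v => (norm_apply_le_sum
      (EuclideanSpace.basisFun (Fin d) ℝ) _ v).trans (mul_le_mul_of_nonneg_right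
        ((Real.sqrt_le_sqrt (hM x)).trans (by rw [Real.sqrt_sq hM0])) (norm_nonneg _))
  have hφp : PolyBd φ := PolyBd.of_lipschitz hM0 fun x y =>
    Convex.norm_image_sub_le_of_norm_fderiv_le (fun z _ => (hφ.differentiable one_ne_zero) z)
      (fun z _ => hφn z) convex_univ (mem_univ y) (mem_univ x)
  set T : ℝ × R → ℝ := fun q => ⟪φ (m + q.1 • (F q.2 - m)), F q.2 - m⟫
  have hTc : Continuous T := by fun_prop
  have hFTC : ∀ z, ψ (F z) - ψ m = ∫ s in (0 : ℝ)..1, T (s, z) := by
    intro z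
    have hd : ∀ s ∈ uIcc (0 : ℝ) 1, HasDerivAt (fun s : ℝ => ψ (m + s • (F z - m))) (T (s, z)) s := by
      intro s _
      have h1 : HasDerivAt (fun s : ℝ => m + s • (F z - m)) (F z - m) s := by
        simpa using ((hasDerivAt_id s).smul_const (F z - m)).const_add m
      simpa [T, Function.comp_def] using (hψ _).comp_hasDerivAt s h1
    rw [intervalIntegral.integral_eq_sub_of_hasDerivAt hd
      ((hTc.comp (by fun_prop : Continuous fun s : ℝ => (s, z))).intervalIntegrable _ _)]
    simp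
  obtain ⟨C, k, hC, hCb⟩ := hφp
  have hTb : ∀ q : ℝ × R, q.1 ∈ uIoc (0 : ℝ) 1 →
      ‖T q‖ ≤ C * (1 + (‖m‖ + ‖F q.2 - m‖)) ^ k * ‖F q.2 - m‖ := by
    intro q hq
    rw [uIoc_of_le zero_le_one] at hq
    refine (norm_inner_le_norm _ _).trans (mul_le_mul_of_nonneg_right ((hCb _).trans ?_)
      (norm_nonneg _))
    gcongr
    refine (norm_add_le _ _).trans (add_le_add_right ?_ _)
    rw [norm_smul, Real.norm_eq_abs, abs_of_pos hq.1]
    exact mul_le_of_le_one_left (norm_nonneg _) hq.2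
  have hb : Integrable (fun z => C * (1 + (‖m‖ + ‖F z - m‖)) ^ k * ‖F z - m‖) γ := by
    refine PolyBd.integrable _ ?_ (Continuous.aestronglyMeasurable (by fun_prop))
    exact ((PolyBd.const C).mul (((PolyBd.const 1).add ((PolyBd.const ‖m‖).add
      (hFp.sub (PolyBd.const m)).norm)).pow k)).mul (hFp.sub (PolyBd.const m)).norm
  have hTint : Integrable T ((volume.restrict (uIoc (0 : ℝ) 1)).prod γ) := by
    haveI : IsFiniteMeasure (volume.restrict (uIoc (0 : ℝ) 1)) := by
      constructor; rw [Measure.restrict_apply_univ]; simp [uIoc]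
    refine Integrable.mono' (hb.comp_snd _) hTc.aestronglyMeasurable ?_
    have hnull : ∀ᵐ q ∂(volume.restrict (uIoc (0 : ℝ) 1)).prod γ, q.1 ∈ uIoc (0 : ℝ) 1 :=
      (Measure.quasiMeasurePreserving_fst (μ := volume.restrict (uIoc (0 : ℝ) 1)) (ν := γ)).ae
        (ae_restrict_mem measurableSet_uIoc)
    exact hnull.mono hTb
  have hψc : Continuous ψ := continuous_iff_continuousAt.2 fun x => (hψ x).continuousAt
  have hdiff : Integrable (fun z => ψ (F z) - ψ m) γ := by
    refine (hb.const_mul 1).mono' (Continuous.aestronglyMeasurable (by fun_prop))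
      (ae_of_all _ fun z => ?_)
    rw [hFTC]
    refine (intervalIntegral.norm_integral_le_of_norm_le_const
      (C := C * (1 + (‖m‖ + ‖F z - m‖)) ^ k * ‖F z - m‖) fun s hs => hTb (s, z) hs).trans ?_
    simp
  have e : ∫ z, ψ (F z) ∂γ - ψ m = ∫ z, (ψ (F z) - ψ m) ∂γ := by
    have hi : Integrable (fun z => ψ (F z)) γ :=
      (hdiff.add (integrable_const (ψ m))).congr (ae_of_all _ fun z => by simp)
    rw [integral_sub hi (integrable_const _)]
    simp
  rw [e]
  simp_rw [hFTC]
  rw [← intervalIntegral_integral_swap hTint]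
  rw [← Real.norm_eq_abs]
  refine (intervalIntegral.norm_integral_le_of_norm_le_const (C := 2 * L ^ 2 * M * √d)
    fun s hs => ?_).trans (by simp)
  rw [Real.norm_eq_abs]
  rw [uIoc_of_le zero_le_one] at hs
  refine (second_order_step hF hL hφ hM0 hM s m).trans ?_
  rw [abs_of_pos hs.1]
  have h0 : 0 ≤ L ^ 2 * M * √d := by positivity
  nlinarith [hs.2]

end

/-- Bessel's inequality for the derivative of a smoothing. -/
theorem sum_fderiv_sm_sq_le {f : E d → ℝ} (hf : ContDiff ℝ 1 f) (hp : PolyBd f)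
    (hp' : PolyBd fun x => fderiv ℝ f x) {t : ℝ} (ht : t ≠ 0) (x : E d) :
    ∑ i, fderiv ℝ (sm t f) x (EuclideanSpace.basisFun (Fin d) ℝ i) ^ 2 ≤
      (t ^ 2)⁻¹ * ∫ z, f (x + t • z) ^ 2 ∂stdGaussian (E d) := by
  simp_rw [sm_fderiv_ibp hf hp hp' ht, mul_pow, ← Finset.mul_sum, inv_pow]
  refine mul_le_mul_of_nonneg_left ?_ (by positivity)
  exact bessel (EuclideanSpace.basisFun (Fin d) ℝ) (f := fun z => f (x + t • z))
    (by have := hf.continuous; fun_prop) (polyBd_shift hp t x)

theorem abs_fderiv_sm_le {f : E d → ℝ} (hf : ContDiff ℝ 1 f) {B : ℝ} (hB : ∀ x, |f x| ≤ B)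
    (hp' : PolyBd fun x => fderiv ℝ f x) {t : ℝ} (ht : 0 < t) (x w : E d) :
    |fderiv ℝ (sm t f) x w| ≤ B / t * ‖w‖ := by
  have hB0 : 0 ≤ B := (abs_nonneg _).trans (hB 0)
  rw [sm_fderiv_ibp hf (PolyBd.of_bound (B := B) fun y => hB y) hp' ht.ne', abs_mul,
    abs_inv, abs_of_pos ht]
  rcases eq_or_ne w 0 with rfl | hw
  · simp
  have hw' : 0 < ‖w‖ := norm_pos_iff.2 hw
  have hi : Integrable (fun z : E d => ⟪z, w⟫ * ⟪z, w⟫) (stdGaussian (E d)) :=
    ((polyBd_inner w).mul (polyBd_inner w)).integrable _ (by fun_prop)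
  have h2 : |∫ z, f (x + t • z) * ⟪z, w⟫ ∂stdGaussian (E d)| ≤ B * ‖w‖ := by
    refine abs_integral_le_integral_abs.trans ((integral_mono_of_nonneg
      (ae_of_all _ fun z => abs_nonneg _) ((((hi.div_const ‖w‖).add
        (integrable_const ‖w‖)).div_const 2).const_mul B) (ae_of_all _ fun z => ?_)).trans ?_)
    · dsimp only
      rw [abs_mul]
      refine mul_le_mul (hB _) ?_ (abs_nonneg _) hB0
      rw [le_div_iff₀ (by norm_num : (0 : ℝ) < 2), ← sub_nonneg]
      have : ⟪z, w⟫ * ⟪z, w⟫ / ‖w‖ + ‖w‖ - |⟪z, w⟫| * 2 = (|⟪z, w⟫| - ‖w‖) ^ 2 / ‖w‖ := by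
        rw [sub_sq, sq_abs]; field_simp; ring
      rw [Pi.add_apply, this]; positivity
    · simp only [Pi.add_apply]
      rw [integral_const_mul, integral_div, integral_add (hi.div_const _) (integrable_const _),
        integral_div, integral_inner_mul_inner]
      simp [real_inner_self_eq_norm_sq, hw'.ne', pow_two]
  calc t⁻¹ * |∫ z, f (x + t • z) * ⟪z, w⟫ ∂stdGaussian (E d)| ≤ t⁻¹ * (B * ‖w‖) :=
        mul_le_mul_of_nonneg_left h2 (inv_nonneg.2 ht.le)
    _ = _ := by ring

/-- Total variation is detected by smooth tests with compact support and values in `[0, 1]`. -/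
theorem tvLe_of_tests {μ ν : Measure (E d)} [IsProbabilityMeasure μ] [IsProbabilityMeasure ν]
    {ε : ℝ} (h : ∀ f : E d → ℝ, ContDiff ℝ 2 f → HasCompactSupport f →
      (∀ x, f x ∈ Icc (0 : ℝ) 1) → |∫ x, f x ∂μ - ∫ x, f x ∂ν| ≤ ε) :
    TVLe μ ν ε := by
  intro B hB
  refine le_of_forall_pos_le_add fun δ hδ => ?_
  have hδ' : ENNReal.ofReal (δ / 2) ≠ 0 := by
    rw [ne_eq, ENNReal.ofReal_eq_zero]; linarith
  obtain ⟨K, hKB, hK, hKm⟩ := hB.exists_isCompact_diff_lt (μ := μ + ν)
    (measure_ne_top _ _) hδ'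
  obtain ⟨O, hBO, hO, -, hOm⟩ := hB.exists_isOpen_diff_lt (μ := μ + ν) (measure_ne_top _ _) hδ'
  obtain ⟨R, hR⟩ := hK.isBounded.subset_ball 0
  set O' := O ∩ Metric.ball (0 : E d) R
  have hO' : IsOpen O' := hO.inter Metric.isOpen_ball
  have hKO : K ⊆ O' := fun x hx => ⟨hBO (hKB hx), hR hx⟩
  obtain ⟨a, ha_supp, ha, ha01⟩ := hO'.exists_contDiff_support_eq (n := 2)
  obtain ⟨b, hb_supp, hb, hb01⟩ := hK.isClosed.isOpen_compl.exists_contDiff_support_eq (n := 2)
  have ha0 : ∀ x, 0 ≤ a x := fun x => (ha01 ⟨x, rfl⟩).1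
  have hb0 : ∀ x, 0 ≤ b x := fun x => (hb01 ⟨x, rfl⟩).1
  have hpos : ∀ x, 0 < a x + b x := by
    intro x
    by_cases hx : x ∈ K
    · have : a x ≠ 0 := by
        have := hKO hx
        rwa [← ha_supp] at this
      linarith [(ha0 x).lt_of_ne' this, hb0 x]
    · have : b x ≠ 0 := by
        have : x ∈ Kᶜ := hx
        rwa [← hb_supp] at this
      linarith [(hb0 x).lt_of_ne' this, ha0 x]
  set f : E d → ℝ := fun x => a x / (a x + b x)
  have hf01 : ∀ x, f x ∈ Icc (0 : ℝ) 1 := fun x =>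
    ⟨div_nonneg (ha0 x) (hpos x).le, (div_le_one (hpos x)).2 (by linarith [hb0 x])⟩
  have hfs : HasCompactSupport f := by
    refine HasCompactSupport.intro (isCompact_closedBall (0 : E d) R) fun x hx => ?_
    have : x ∉ Function.support a := by
      rw [ha_supp]; exact fun h => hx (Metric.ball_subset_closedBall h.2)
    simp [f, Function.notMem_support.1 this]
  have hfC : ContDiff ℝ 2 f := ha.div (ha.add hb) fun x => (hpos x).ne'
  have hf := h f hfC hfs hf01
  have key : ∀ ρ : Measure (E d), IsProbabilityMeasure ρ → ρ ≤ μ + ν →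
      |∫ x, f x ∂ρ - ρ.real B| ≤ δ / 2 := by
    intro ρ hρ hle
    have hi : Integrable f ρ := hfC.continuous.integrable_of_hasCompactSupport hfs
    have hK' : ρ.real (B \ K) ≤ δ / 2 := ENNReal.toReal_le_of_le_ofReal (by linarith)
      ((hle _).trans hKm.le)
    have hO'' : ρ.real (O \ B) ≤ δ / 2 := ENNReal.toReal_le_of_le_ofReal (by linarith)
      ((hle _).trans hOm.le)
    have e1 : ρ.real B = ρ.real K + ρ.real (B \ K) := by
      rw [← measureReal_union disjoint_sdiff_right (hB.diff hK.measurableSet)]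
      rw [Set.union_diff_cancel hKB]
    have e2 : ρ.real O = ρ.real B + ρ.real (O \ B) := by
      rw [← measureReal_union disjoint_sdiff_right (hO.measurableSet.diff hB)]
      rw [Set.union_diff_cancel hBO]
    have l1 : ρ.real K ≤ ∫ x, f x ∂ρ := by
      rw [← integral_indicator_one hK.measurableSet]
      refine integral_mono_of_nonneg (ae_of_all _ fun x => indicator_nonneg (fun _ _ => zero_le_one) x)
        hi (ae_of_all _ fun x => ?_)
      by_cases hx : x ∈ K
      · have hbx : b x = 0 := by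
          have : x ∉ Function.support b := by rw [hb_supp]; exact fun h => h hx
          exact Function.notMem_support.1 this
        rw [indicator_of_mem hx]
        simp only [Pi.one_apply, f, hbx, add_zero]
        rw [div_self (by have := hpos x; rw [hbx, add_zero] at this; exact this.ne')]
      · rw [indicator_of_notMem hx]; exact (hf01 x).1
    have l2 : ∫ x, f x ∂ρ ≤ ρ.real O := by
      rw [← integral_indicator_one hO.measurableSet]
      refine integral_mono_of_nonneg (ae_of_all _ fun x => (hf01 x).1)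
        ((integrable_const _).indicator hO.measurableSet) (ae_of_all _ fun x => ?_)
      by_cases hx : x ∈ O
      · rw [indicator_of_mem hx]; exact (hf01 x).2
      · have : x ∉ Function.support a := by rw [ha_supp]; exact fun h => hx h.1
        rw [indicator_of_notMem hx]
        simp [f, Function.notMem_support.1 this]
    rw [abs_le]; constructor <;> linarith
  have k1 := key μ inferInstance (Measure.le_add_right le_rfl)
  have k2 := key ν inferInstance (Measure.le_add_left le_rfl)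
  rw [abs_le] at k1 k2 hf ⊢
  constructor <;> linarith

/-- The smoothed test `ψ = sm a (sm a f)`: gradient, and Hilbert-Schmidt norm of the Hessian. -/
theorem smooth_test {f : E d → ℝ} (hf : ContDiff ℝ 2 f) (hs : HasCompactSupport f)
    (hf01 : ∀ x, f x ∈ Icc (0 : ℝ) 1) {a : ℝ} (ha : 0 < a) :
    ∃ φ : E d → E d, (∀ x, HasFDerivAt (sm (√2 * a) f) (innerSL ℝ (φ x)) x) ∧ ContDiff ℝ 1 φ ∧
      (∀ x, ‖φ x‖ ≤ a⁻¹) ∧
      ∀ x, ∑ i, ‖fderiv ℝ φ x (EuclideanSpace.basisFun (Fin d) ℝ i)‖ ^ 2 ≤ ((a ^ 2)⁻¹) ^ 2 := by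
  set e := EuclideanSpace.basisFun (Fin d) ℝ
  have hfb : ∀ x, |f x| ≤ 1 := fun x => abs_le.2 ⟨by linarith [(hf01 x).1], (hf01 x).2⟩
  have hfp : PolyBd f := PolyBd.of_bound (B := 1) hfb
  have hf1 : ContDiff ℝ 1 f := hf.of_le (by norm_num)
  have hfd1 : ContDiff ℝ 1 (fun x => fderiv ℝ f x) := hf.fderiv_right (by norm_num)
  obtain ⟨B1, hB1⟩ := (hf1.continuous_fderiv one_ne_zero).bounded_above_of_compact_support
    (hs.fderiv ℝ)
  have hfd1p : PolyBd fun x => fderiv ℝ f x := PolyBd.of_bound hB1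
  obtain ⟨B2, hB2⟩ := (hfd1.continuous_fderiv one_ne_zero).bounded_above_of_compact_support
    ((hs.fderiv ℝ).fderiv ℝ)
  have hfd2p : PolyBd fun x => fderiv ℝ (fun y => fderiv ℝ f y) x := PolyBd.of_bound hB2
  -- first smoothing
  set f₁ := sm a f
  have hd1 : ∀ x, fderiv ℝ f₁ x = sm a (fun y => fderiv ℝ f y) x := fun x =>
    (sm_hasFDerivAt hf1 hfp hfd1p a x).fderiv
  have hd1f : (fun x => fderiv ℝ f₁ x) = sm a (fun y => fderiv ℝ f y) := funext hd1
  have hf₁ : ContDiff ℝ 1 f₁ := sm_contDiff_one hf1 hfp hfd1p a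
  have hf₁p : PolyBd f₁ := sm_polyBd hfp a
  have hf₁'p : PolyBd fun x => fderiv ℝ f₁ x := by rw [hd1f]; exact sm_polyBd hfd1p a
  have hf₁'C : ContDiff ℝ 1 fun x => fderiv ℝ f₁ x := by
    rw [hd1f]; exact sm_contDiff_one hfd1 hfd1p hfd2p a
  have hf₁''p : PolyBd fun x => fderiv ℝ (fun y => fderiv ℝ f₁ y) x := by
    have : (fun x => fderiv ℝ (fun y => fderiv ℝ f₁ y) x) =
        sm a (fun z => fderiv ℝ (fun y => fderiv ℝ f y) z) := by
      funext x; rw [hd1f]; exact (sm_hasFDerivAt hfd1 hfd1p hfd2p a x).fderiv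
    rw [this]; exact sm_polyBd hfd2p a
  set L : (E d →L[ℝ] ℝ) →L[ℝ] E d :=
    ((InnerProductSpace.toDual ℝ (E d)).symm.toContinuousLinearEquiv).toContinuousLinearMap
  set g₁ : E d → E d := fun x => L (fderiv ℝ f₁ x)
  have hg₁inner : ∀ x v, ⟪g₁ x, v⟫ = fderiv ℝ f₁ x v := fun x v =>
    InnerProductSpace.toDual_symm_apply
  have hg₁n : ∀ x, ‖g₁ x‖ ≤ a⁻¹ := by
    intro x
    have h := abs_fderiv_sm_le hf1 hfb hfd1p ha x (g₁ x)
    rw [← hg₁inner, real_inner_self_eq_norm_sq, abs_of_nonneg (sq_nonneg _), one_div] at h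
    rcases eq_or_ne ‖g₁ x‖ 0 with h0 | h0
    · rw [h0]; positivity
    · exact le_of_mul_le_mul_right (by nlinarith) ((norm_nonneg _).lt_of_ne' h0)
  have hg₁C : ContDiff ℝ 1 g₁ := L.contDiff.comp hf₁'C
  have hg₁p : PolyBd g₁ := PolyBd.of_bound hg₁n
  have hg₁'p : PolyBd fun x => fderiv ℝ g₁ x := by
    refine ((PolyBd.const L).mul_of_le hf₁''p fun x => ?_)
    have h := L.hasFDerivAt.comp x (hf₁'C.differentiable one_ne_zero x).hasFDerivAt
    rw [show g₁ = L ∘ (fun y => fderiv ℝ f₁ y) from rfl, h.fderiv]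
    exact ContinuousLinearMap.opNorm_comp_le _ _
  -- second smoothing
  set φ : E d → E d := sm a g₁
  have hψeq : sm (√2 * a) f = sm a f₁ := by
    funext x
    rw [sm_sm hf1.continuous hfp, show a ^ 2 + a ^ 2 = 2 * a ^ 2 by ring,
      Real.sqrt_mul (by norm_num), Real.sqrt_sq ha.le]
  refine ⟨φ, fun x => ?_, sm_contDiff_one hg₁C hg₁p hg₁'p a, fun x => ?_, fun x => ?_⟩
  · rw [hψeq]
    refine (sm_hasFDerivAt hf₁ hf₁p hf₁'p a x).congr_fderiv ?_
    refine ContinuousLinearMap.ext fun v => ?_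
    rw [innerSL_apply_apply, sm, ContinuousLinearMap.integral_apply
      (integrable_shift hf₁'C.continuous hf₁'p a x)]
    show _ = ⟪sm a g₁ x, v⟫
    rw [sm, real_inner_comm, ← integral_inner (integrable_shift hg₁C.continuous hg₁p a x)]
    exact integral_congr_ae (ae_of_all _ fun z => by simp [real_inner_comm v, ← hg₁inner])
  · exact (norm_integral_le_of_norm_le (integrable_const a⁻¹)
      (ae_of_all _ fun z => hg₁n _)).trans (by simp)
  · set h : Fin d → E d → ℝ := fun k y => ⟪g₁ y, e k⟫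
    have hhC : ∀ k, ContDiff ℝ 1 (h k) := fun k => hg₁C.inner ℝ contDiff_const
    have hhp : ∀ k, PolyBd (h k) := fun k =>
      hg₁p.mul_of_le (PolyBd.const (e k)) fun y => norm_inner_le_norm _ _
    have hh' : ∀ k, PolyBd fun y => fderiv ℝ (h k) y := fun k => by
      refine hg₁'p.mul_of_le (PolyBd.const (e k)) fun y => ?_
      refine ContinuousLinearMap.opNorm_le_bound _ (by positivity) fun v => ?_
      rw [fderiv_inner_apply ℝ (hg₁C.differentiable one_ne_zero y) (differentiableAt_const _)]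
      simp only [fderiv_fun_const, Pi.zero_apply, ContinuousLinearMap.zero_apply, inner_zero_right,
        zero_add]
      refine (norm_inner_le_norm _ _).trans ?_
      calc ‖fderiv ℝ g₁ y v‖ * ‖e k‖ ≤ ‖fderiv ℝ g₁ y‖ * ‖v‖ * ‖e k‖ :=
            mul_le_mul_of_nonneg_right ((fderiv ℝ g₁ y).le_opNorm v) (norm_nonneg _)
        _ = _ := by ring
    have hcomp : ∀ i k, ⟪fderiv ℝ φ x (e i), e k⟫ = fderiv ℝ (sm a (h k)) x (e i) := by
      intro i k
      have hsm : sm a (h k) = fun y => ⟪φ y, e k⟫ := by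
        funext y
        show _ = ⟪sm a g₁ y, e k⟫
        rw [sm, sm, real_inner_comm, ← integral_inner (integrable_shift hg₁C.continuous hg₁p a y)]
        simp [h, real_inner_comm]
      have hφd := (sm_contDiff_one hg₁C hg₁p hg₁'p a).differentiable one_ne_zero x
      rw [hsm, fderiv_inner_apply ℝ hφd (differentiableAt_const _)]
      simp [φ]
    have hp2 : ∀ k, Integrable (fun z => h k (x + a • z) ^ 2) (stdGaussian (E d)) := fun k =>
      ((polyBd_shift (hhp k) a x).pow 2).integrable _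
        (by have := (hhC k).continuous; fun_prop)
    calc ∑ i, ‖fderiv ℝ φ x (e i)‖ ^ 2
        = ∑ k, ∑ i, fderiv ℝ (sm a (h k)) x (e i) ^ 2 := by
          rw [Finset.sum_comm]
          refine Finset.sum_congr rfl fun i _ => ?_
          rw [← e.sum_sq_inner_left (fderiv ℝ φ x (e i))]
          simp [hcomp]
      _ ≤ ∑ k, (a ^ 2)⁻¹ * ∫ z, h k (x + a • z) ^ 2 ∂stdGaussian (E d) :=
          Finset.sum_le_sum fun k _ => sum_fderiv_sm_sq_le (hhC k) (hhp k) (hh' k) ha.ne' x
      _ = (a ^ 2)⁻¹ * ∫ z, ‖g₁ (x + a • z)‖ ^ 2 ∂stdGaussian (E d) := by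
          rw [← Finset.mul_sum, ← integral_finsetSum _ fun k _ => hp2 k]
          congr 1
          refine integral_congr_ae (ae_of_all _ fun z => ?_)
          beta_reduce
          rw [← e.sum_sq_inner_left (g₁ (x + a • z))]
      _ ≤ (a ^ 2)⁻¹ * (a⁻¹) ^ 2 := by
          refine mul_le_mul_of_nonneg_left ?_ (by positivity)
          refine (integral_mono_of_nonneg (ae_of_all _ fun z => sq_nonneg _)
            (integrable_const ((a⁻¹) ^ 2)) (ae_of_all _ fun z => ?_)).trans (by simp)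
          exact pow_le_pow_left₀ (norm_nonneg _) (hg₁n _) 2
      _ = _ := by field_simp

end Vale.Agent.P347
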