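import Vale.Agent.P347.GridScheme
import Vale.Agent.P347.Quad
import Vale.Agent.P347.Chain
import Vale.Agent.P347.Coupling
import Vale.Agent.P347.Deriv
import Vale.Agent.P347.Poincare
import Vale.Agent.P347.Blur

/-!
# P347: one stage, sampling the smoothed law blurred at scale `s`
-/

open MeasureTheory ProbabilityTheory Real Set Function
open scoped RealInnerProductSpace

namespace Vale.Agent.P347

variable {d : ℕ}

theorem exists_rules (m : ℕ) : Nonempty (Rules m) := by
  obtain ⟨τ, ℓ, Λ₁, hΛ₁, hτ, hℓc, hℓ, hint⟩ := exists_interp m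
  obtain ⟨n, s, w, Λ₂, hΛ₂, hs, hw0, hw1, hwm, hpos⟩ := exists_pos_rule m
  exact ⟨{ τ := τ, ℓ := ℓ, Λ := max Λ₁ Λ₂, n := n, s := s, w := w
           Λ_nonneg := hΛ₁.trans (le_max_left _ _)
           τ_mem := hτ, ℓ_cont := hℓc
           ℓ_le := fun i t ht => (hℓ i t ht).trans (le_max_left _ _)
           interp := fun d f a h hh hf hc t ht => (hint d f a h hh hf hc t ht).trans <| by
             have : 0 ≤ ∫ s in a..(a + h), ‖f (m + 1) s‖ :=
               intervalIntegral.integral_nonneg (by linarith) fun _ _ => norm_nonneg _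
             gcongr
             exact le_max_left _ _
           s_mem := hs, w_nonneg := hw0, w_sum := hw1, w_mean := hwm
           pos := fun d f a h T ha hh hT hf hc => (hpos d f a h T ha hh hT hf hc).trans <| by
             have : 0 ≤ ∫ s in a..(a + h), ‖f (m + 1) s‖ :=
               intervalIntegral.integral_nonneg (by linarith) fun _ _ => norm_nonneg _
             have : 0 ≤ T := by linarith
             gcongr
             exact le_max_right _ _ }⟩

namespace Scheme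

variable {S : Scheme} {K L : ℕ} {g : E d → E d} {σ : ℝ}

theorem continuous_step (hg : Continuous g) (i : ℕ)
    {x : (Fin L → E d) × Noise d (S.Idx K L) → E d} (hx : Continuous x) :
    Continuous fun p => S.step K (S.drift K L g σ p.2 i) (S.driftf K L g σ p.2 i) (x p)
      (extend p.1 i) := by
  have hv : Continuous fun p : (Fin L → E d) × Noise d (S.Idx K L) => extend p.1 i := by
    unfold extend; split_ifs <;> fun_prop
  have hr : ∀ k l, Continuous fun p : (Fin L → E d) × Noise d (S.Idx K L) =>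
      S.rnd K L p.2 i k l := fun k l => (contDiff_rnd i k l).continuous.comp continuous_snd
  have hrf : ∀ l, Continuous fun p : (Fin L → E d) × Noise d (S.Idx K L) =>
      S.rndf K L p.2 i l := fun l => (contDiff_rndf i l).continuous.comp continuous_snd
  have hit : ∀ k j, Continuous fun p : (Fin L → E d) × Noise d (S.Idx K L) =>
      S.iter (S.drift K L g σ p.2 i) (x p) (extend p.1 i) k j := by
    intro k
    induction k with
    | zero => intro j; simp only [iter]; fun_prop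
    | succ k ih =>
      intro j
      simp only [iter, drift]
      refine (hx.fun_add (hv.fun_const_smul _)).fun_sub (continuous_finsetSum _ fun l _ => ?_)
      exact ((ih l).fun_add (hg.comp' ((ih l).fun_add ((hr k l).fun_const_smul σ)))).fun_const_smul _
  have hfi : ∀ j, Continuous fun p : (Fin L → E d) × Noise d (S.Idx K L) =>
      S.fin K (S.drift K L g σ p.2 i) (x p) (extend p.1 i) j := by
    intro j
    simp only [fin, drift]
    refine (hx.fun_add (hv.fun_const_smul _)).fun_sub (continuous_finsetSum _ fun l _ => ?_)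
    exact ((hit K l).fun_add (hg.comp' ((hit K l).fun_add ((hr K l).fun_const_smul σ)))).fun_const_smul _
  simp only [step, driftf]
  refine (hx.fun_add (hv.fun_const_smul _)).fun_sub (continuous_finsetSum _ fun l _ => ?_)
  exact ((hfi l).fun_add (hg.comp' ((hfi l).fun_add ((hrf l).fun_const_smul σ)))).fun_const_smul _

theorem continuous_xR (hg : Continuous g) (i : ℕ) :
    Continuous fun p : (Fin L → E d) × Noise d (S.Idx K L) =>
      S.xR K L g σ (extend p.1) i p.2 := by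
  induction i with
  | zero => exact continuous_const
  | succ i ih => exact continuous_step hg i ih

/-- One step of the mean chain against the exact flow. -/
theorem mean_step {τ κ η B β : ℝ} {W : E d → ℝ} (hS : S.Good τ κ) (hW : Pert η B W)
    (hβ : 0 ≤ β) (b : ℕ → Fin S.J → E d) (bf : Fin S.I → E d)
    (hb : ∀ k l, k ≤ K → ‖b k l‖ ≤ β) (hbf : ∀ l, ‖bf l‖ ≤ β) (x z w : E d) {e a₀ : ℝ}
    (he : 0 ≤ e) (ha₀ : 0 ≤ a₀)
    (h0 : ∀ j, ‖(z + S.t j • w) - traj W z w (S.t j)‖ ≤ a₀)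
    (hA : ∀ j, ‖z + S.t j • w - ∑ l, S.A j l • (traj W z w (S.t l) + grad W (traj W z w (S.t l))) -
      traj W z w (S.t j)‖ ≤ e)
    (hF : ∀ i, ‖z + S.s i • w - ∑ l, S.Af i l • (traj W z w (S.t l) + grad W (traj W z w (S.t l))) -
      traj W z w (S.s i)‖ ≤ e)
    (hy : ‖z + S.T • w - ∑ i, S.w i • (traj W z w (S.s i) + grad W (traj W z w (S.s i))) -
      traj W z w S.T‖ ≤ e) :
    ‖S.step K (fun k l p => p + grad W p + b k l) (fun l p => p + grad W p + bf l) x w -
        traj W z w S.T‖ ≤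
      (1 - τ / 4) * ‖x - z‖ + 4 * (e + β) + a₀ / 2 ^ K := by
  set F : E d → E d := fun p => p + grad W p
  have hadm : ∀ c : E d, Admissible fun p => p + grad W p + c := fun c => by
    simpa using hW.admissible 0 c
  have hsmall : ∀ c : Fin S.J → ℝ, ∑ l, |c l| ≤ 1 / 32 → ∀ k ≤ K, ∀ p : Fin S.J → E d,
      ‖∑ l, c l • ((p l + grad W (p l) + b k l) - (p l + grad W (p l)))‖ ≤ e + β := by
    intro c hc k hk p
    simp only [add_sub_cancel_left]
    exact (norm_sum_smul_le hc hβ fun l => hb k l hk).trans (by linarith)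
  refine (stable hS (fun k l => hadm (b k l)) (fun l => hadm (bf l)) x z w K
    (fun _ j => traj W z w (S.t j)) (fun i => traj W z w (S.s i)) (traj W z w S.T)
    (fun _ _ => F) (fun _ => F) ha₀ (add_nonneg he hβ) h0
    (fun k j _ => (hA j).trans (le_add_of_nonneg_right hβ))
    (fun k j hk => hsmall _ (hS.sum_A j) k hk.le _)
    (fun i => (hF i).trans (le_add_of_nonneg_right hβ))
    (fun i => hsmall _ (hS.sum_Af i) K le_rfl _)
    (hy.trans (le_add_of_nonneg_right hβ)) ?_).2.2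
  simp only [F, add_sub_cancel_left]
  refine (norm_sum_smul_le (α := τ) (le_of_eq ?_) hβ hbf).trans
    (by have := hS.tau_le; nlinarith)
  exact (Finset.sum_congr rfl fun i _ => abs_of_nonneg (hS.w_nonneg i)).trans hS.sum_w

end Scheme

/-- The law of the chain of one stage. -/
noncomputable def chainLaw (S : Scheme) (K L : ℕ) (g : E d → E d) (σ : ℝ) : Measure (E d) :=
  ((velLaw d L).prod (stdGaussian (Noise d (S.Idx K L)))).map
    fun p => S.xR K L g σ (extend p.1) L p.2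

theorem Pert.integral_norm_law_le {η B : ℝ} {W : E d → ℝ} (hW : Pert η B W) (hB : 0 ≤ B) :
    Integrable (fun z => ‖z‖) (law W) ∧ ∫ z, ‖z‖ ∂law W ≤ 2 * (1 + B) * √d := by
  have := hW.isProbabilityMeasure_law
  have hi := hW.integrable_law PolyBd.id.norm continuous_norm
  have hi2 := hW.integrable_law (PolyBd.id.norm.pow 2) (continuous_norm.pow 2)
  refine ⟨hi, ?_⟩
  rcases Nat.eq_zero_or_pos d with rfl | hd
  · have : ∀ z : E 0, ‖z‖ = 0 := fun z => by simp [Subsingleton.elim z 0]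
    simp [this]
  have h2 := hW.integral_norm_sq_law_le
  have hsd : (0 : ℝ) < √d := Real.sqrt_pos.2 (Nat.cast_pos.2 hd)
  set q := (1 + B) * √d with hq_def
  have hq : 0 < q := by positivity
  have hpt : ∀ z : E d, ‖z‖ ≤ ‖z‖ ^ 2 / (2 * q) + q / 2 := fun z => by
    rw [div_add_div _ _ (by positivity) two_ne_zero, le_div_iff₀ (by positivity)]
    nlinarith [sq_nonneg (‖z‖ - q)]
  refine (integral_mono hi ((hi2.div_const _).fun_add (integrable_const _)) hpt).trans ?_
  rw [integral_add (hi2.div_const _) (integrable_const _), integral_div]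
  simp only [integral_const, probReal_univ, one_smul]
  refine (add_le_add_left (div_le_div_of_nonneg_right h2 (by positivity)) _).trans ?_
  rw [div_add' _ _ _ (by positivity), div_le_iff₀ (by positivity), hq_def]
  have := Real.mul_self_sqrt (Nat.cast_nonneg d : (0 : ℝ) ≤ d)
  nlinarith [sq_nonneg (1 + B)]

/-- Contraction plus stationary defects. -/
theorem coupling_bound {L : ℕ} {η B : ℝ} {U : E d → ℝ} (hU : Pert η B U) (hB : 0 ≤ B) {T : ℝ}
    (hT : T ∈ Icc (0 : ℝ) (1 / 4)) (X : ℕ → (Fin L → E d) → E d) (hX0 : ∀ v, X 0 v = 0)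
    (hXm : Measurable (X L)) {D : E d × E d → ℝ}
    (hD : Integrable D ((law U).prod (stdGaussian (E d)))) {ρ Db : ℝ} (hρ : 0 ≤ ρ) (hρ1 : ρ < 1)
    (hDb : ∫ z, D z ∂((law U).prod (stdGaussian (E d))) ≤ Db) (hDb0 : 0 ≤ Db)
    (hstep : ∀ i (hi : i < L) v z, ‖X (i + 1) v - traj U z (v ⟨i, hi⟩) T‖ ≤
      ρ * ‖X i v - z‖ + D (z, v ⟨i, hi⟩)) :
    Integrable (fun p => ‖X L p.2 - statPos U T L p‖) ((law U).prod (velLaw d L)) ∧
      ∫ p, ‖X L p.2 - statPos U T L p‖ ∂((law U).prod (velLaw d L)) ≤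
        ρ ^ L * (2 * (1 + B) * √d) + Db / (1 - ρ) := by
  have := hU.isProbabilityMeasure_law
  set P := (law U).prod (velLaw d L) with hP
  have h1ρ : 0 < 1 - ρ := by linarith
  have key : ∀ i ≤ L, ∃ F : E d × (Fin L → E d) → ℝ, Integrable F P ∧
      (∀ p, ‖X i p.2 - statPos U T i p‖ ≤ F p) ∧
      ∫ p, F p ∂P ≤ ρ ^ i * (2 * (1 + B) * √d) + Db / (1 - ρ) := by
    intro i
    induction i with
    | zero =>
      intro _
      obtain ⟨h1, h2⟩ := hU.integral_norm_law_le hB
      refine ⟨fun p => ‖p.1‖, h1.comp_fst _, fun p => by simp [hX0, statPos, state], ?_⟩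
      rw [hP, integral_fun_fst (f := fun z : E d => ‖z‖)]
      simp only [probReal_univ, one_smul, pow_zero, one_mul]
      have : 0 ≤ Db / (1 - ρ) := by positivity
      linarith
    | succ i ih =>
      intro hi
      obtain ⟨F, hF, hFb, hFe⟩ := ih (Nat.le_of_succ_le hi)
      have hpair : MeasurePreserving
          (fun p : E d × (Fin L → E d) => (statPos U T i p, p.2 ⟨i, hi⟩)) P
          ((law U).prod (stdGaussian (E d))) := hU.measurePreserving_pair hT (⟨i, hi⟩ : Fin L)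
      have hD' : Integrable
          (fun p : E d × (Fin L → E d) => D (statPos U T i p, p.2 ⟨i, hi⟩)) P :=
        hpair.integrable_comp_of_integrable hD
      refine ⟨fun p => ρ * F p + D (statPos U T i p, p.2 ⟨i, hi⟩), (hF.const_mul ρ).fun_add hD',
        fun p => ?_, ?_⟩
      · rw [statPos_succ hi]
        exact (hstep i hi p.2 _).trans (add_le_add_left (mul_le_mul_of_nonneg_left (hFb p) hρ) _)
      have hmapD : ∫ p, D (statPos U T i p, p.2 ⟨i, hi⟩) ∂P =
          ∫ z, D z ∂((law U).prod (stdGaussian (E d))) := by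
        conv_rhs => rw [← hpair.map_eq]
        exact (integral_map hpair.measurable.aemeasurable
          (by rw [hpair.map_eq]; exact hD.aestronglyMeasurable)).symm
      rw [integral_add (hF.const_mul ρ) hD', integral_const_mul, hmapD]
      refine (add_le_add (mul_le_mul_of_nonneg_left hFe hρ) hDb).trans (le_of_eq ?_)
      rw [pow_succ]; field_simp; ring
  obtain ⟨F, hF, hFb, hFe⟩ := key L le_rfl
  have hint : Integrable (fun p => ‖X L p.2 - statPos U T L p‖) P :=
    hF.mono' ((hXm.comp measurable_snd).sub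
      (hU.measurePreserving_statPos hT L).measurable).norm.aestronglyMeasurable
      (ae_of_all _ fun p => by rw [Real.norm_eq_abs, abs_of_nonneg (norm_nonneg _)]; exact hFb p)
  exact ⟨hint, (integral_mono hint hF hFb).trans hFe⟩

/-- The stationary mean of the defect of one step. -/
theorem defect_bound {η B : ℝ} {U : E d → ℝ} (hU : Pert η B U) {T : ℝ} (hT : 0 ≤ T)
    (hT4 : T ≤ 1 / 4) {g₀ g₁ : E d × E d → E d} (h₀ : Continuous g₀) (h₁ : Continuous g₁)
    (p₀ : PolyBd g₀) (p₁ : PolyBd g₁) {c M₀ M₁ β : ℝ} (hc : 0 ≤ c)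
    (b₀ : ∫ z, ‖g₀ z‖ ∂((law U).prod (stdGaussian (E d))) ≤ M₀)
    (b₁ : ∫ z, ‖g₁ z‖ ∂((law U).prod (stdGaussian (E d))) ≤ M₁) (K : ℕ) :
    Integrable (fun z : E d × E d =>
      4 * (T * c * ∫ u in (0:ℝ)..T, ‖g₁ (traj U z.1 z.2 u, vel U z.1 z.2 u)‖) + 4 * β +
        T * (∫ u in (0:ℝ)..T, ‖g₀ (traj U z.1 z.2 u, vel U z.1 z.2 u)‖) / 2 ^ K)
      ((law U).prod (stdGaussian (E d))) ∧
    ∫ z : E d × E d,
      (4 * (T * c * ∫ u in (0:ℝ)..T, ‖g₁ (traj U z.1 z.2 u, vel U z.1 z.2 u)‖) + 4 * β +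
        T * (∫ u in (0:ℝ)..T, ‖g₀ (traj U z.1 z.2 u, vel U z.1 z.2 u)‖) / 2 ^ K)
      ∂((law U).prod (stdGaussian (E d))) ≤ 4 * (c * M₁) + 4 * β + M₀ / 2 ^ K := by
  have := hU.isProbabilityMeasure_law
  set μ := (law U).prod (stdGaussian (E d))
  obtain ⟨hi₀, he₀⟩ := hU.integral_flow_average (g := fun z => ‖g₀ z‖) h₀.norm p₀.norm hT hT4
  obtain ⟨hi₁, he₁⟩ := hU.integral_flow_average (g := fun z => ‖g₁ z‖) h₁.norm p₁.norm hT hT4
  have i1 := (hi₁.const_mul (T * c)).const_mul 4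
  have i1' := i1.fun_add (integrable_const (4 * β))
  have i2 := (hi₀.const_mul T).div_const ((2 : ℝ) ^ K)
  refine ⟨i1'.fun_add i2, ?_⟩
  rw [integral_add i1' i2, integral_add i1 (integrable_const _)]
  simp only [integral_const_mul, integral_div, he₀, he₁]
  simp only [integral_const, probReal_univ, one_smul]
  have hT2 : T * T ≤ 1 := by nlinarith
  have n₀ : 0 ≤ M₀ := (integral_nonneg fun _ => norm_nonneg _).trans b₀
  have n₁ : 0 ≤ M₁ := (integral_nonneg fun _ => norm_nonneg _).trans b₁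
  refine add_le_add (add_le_add (mul_le_mul_of_nonneg_left ?_ (by norm_num)) le_rfl)
    (div_le_div_of_nonneg_right ?_ (by positivity))
  · calc T * c * (T * ∫ z, ‖g₁ z‖ ∂μ) ≤ T * c * (T * M₁) := by gcongr
      _ = T * T * (c * M₁) := by ring
      _ ≤ c * M₁ := mul_le_of_le_one_left (by positivity) hT2
  · calc T * (T * ∫ z, ‖g₀ z‖ ∂μ) ≤ T * (T * M₀) := by gcongr
      _ = T * T * M₀ := by ring
      _ ≤ M₀ := mul_le_of_le_one_left n₀ hT2

/-- Blurred comparison through the mean of the noisy variable. -/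
theorem blur_compare {L : ℕ} {R : Type*} [NormedAddCommGroup R] [InnerProductSpace ℝ R]
    [FiniteDimensional ℝ R] [MeasurableSpace R] [BorelSpace R]
    {F : (Fin L → E d) × R → E d} (hF : Continuous F) {Lc : ℝ}
    (hFC : ∀ v, ContDiff ℝ 1 fun z => F (v, z)) (hFd : ∀ v z, ‖fderiv ℝ (fun z => F (v, z)) z‖ ≤ Lc)
    {ν : Measure (E d)} [IsProbabilityMeasure ν] {Zp : E d × (Fin L → E d) → E d}
    {P' : Measure (E d)} [IsProbabilityMeasure P'] (hZ : MeasurePreserving Zp (P'.prod (velLaw d L)) ν)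
    {s A : ℝ} (hs : 0 < s)
    (hi : Integrable (fun p : E d × (Fin L → E d) =>
      ‖(∫ z, F (p.2, z) ∂stdGaussian R) - Zp p‖) (P'.prod (velLaw d L)))
    (hA : ∫ p, ‖(∫ z, F (p.2, z) ∂stdGaussian R) - Zp p‖ ∂(P'.prod (velLaw d L)) ≤ A) :
    TVLe (blur s (((velLaw d L).prod (stdGaussian R)).map F)) (blur s ν)
      (4 * Lc ^ 2 * √d / s + 2 * A / √s) := by
  have : IsProbabilityMeasure (((velLaw d L).prod (stdGaussian R)).map F) :=
    Measure.isProbabilityMeasure_map hF.measurable.aemeasurable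
  refine tvLe_of_tests fun f hf hsupp hf01 => ?_
  obtain ⟨φ, hφ, hφC, hφb, hφ2⟩ := smooth_test hf hsupp hf01 (a := √(s / 2)) (by positivity)
  have hsq : √2 * √(s / 2) = √s := by
    rw [← Real.sqrt_mul (by norm_num)]; congr 1; ring
  rw [hsq] at hφ
  have hfabs : ∀ x, |f x| ≤ 1 := fun x => abs_le.2 ⟨by linarith [(hf01 x).1], (hf01 x).2⟩
  set ψ := sm √s f
  have hψc : Continuous ψ := continuous_iff_continuousAt.2 fun x => (hφ x).continuousAt
  have hψb : ∀ x, |ψ x| ≤ 1 := fun x =>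
    (norm_integral_le_of_norm_le (f := fun z => f (x + √s • z)) (integrable_const (1 : ℝ))
      (ae_of_all _ fun z => (Real.norm_eq_abs _).trans_le (hfabs _))).trans (by simp)
  have hψl : ∀ x y, |ψ x - ψ y| ≤ 2 / √s * ‖x - y‖ := fun x y => by
    refine Convex.norm_image_sub_le_of_norm_fderiv_le (fun z _ => (hφ z).differentiableAt)
      (fun z _ => ?_) convex_univ (mem_univ y) (mem_univ x)
    rw [(hφ z).fderiv, innerSL_apply_norm]
    refine (hφb z).trans ?_
    rw [Real.sqrt_div hs.le, inv_div]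
    refine div_le_div_of_nonneg_right ?_ (sqrt_nonneg _)
    calc √2 ≤ √(2 * 2) := Real.sqrt_le_sqrt (by norm_num)
      _ = 2 := Real.sqrt_mul_self zero_le_two
  rw [integral_blur s _ hf.continuous hfabs, integral_blur s _ hf.continuous hfabs]
  show |∫ x, ψ x ∂_ - ∫ x, ψ x ∂ν| ≤ _
  have hψR : Integrable (fun p => ψ (F p)) ((velLaw d L).prod (stdGaussian R)) :=
    Integrable.of_bound (hψc.comp hF).aestronglyMeasurable 1
      (ae_of_all _ fun p => (Real.norm_eq_abs _).trans_le (hψb _))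
  set Φ : (Fin L → E d) → ℝ := fun v => ∫ z, ψ (F (v, z)) ∂stdGaussian R
  have hΦi : Integrable Φ (velLaw d L) := hψR.integral_prod_left
  have e2 : ∫ x, ψ x ∂ν = ∫ p, ψ (Zp p) ∂(P'.prod (velLaw d L)) := by
    rw [← hZ.map_eq, integral_map hZ.measurable.aemeasurable hψc.aestronglyMeasurable]
  have e1 : ∫ x, ψ x ∂((velLaw d L).prod (stdGaussian R)).map F =
      ∫ p, Φ p.2 ∂(P'.prod (velLaw d L)) := by
    rw [integral_map hF.measurable.aemeasurable hψc.aestronglyMeasurable, integral_prod _ hψR,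
      integral_fun_snd (f := Φ)]
    simp [Φ]
  have hΦp : Integrable (fun p : E d × (Fin L → E d) => Φ p.2) (P'.prod (velLaw d L)) :=
    hΦi.comp_snd _
  have hψZ : Integrable (fun p => ψ (Zp p)) (P'.prod (velLaw d L)) :=
    Integrable.of_bound (hψc.measurable.comp hZ.measurable).aestronglyMeasurable 1
      (ae_of_all _ fun p => (Real.norm_eq_abs _).trans_le (hψb _))
  rw [e1, e2, ← integral_sub hΦp hψZ]
  set E₀ := 4 * Lc ^ 2 * √d / s
  have hpt : ∀ p, ‖Φ p.2 - ψ (Zp p)‖ ≤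
      E₀ + 2 / √s * ‖(∫ z, F (p.2, z) ∂stdGaussian R) - Zp p‖ := fun p => by
    have h2 := second_order (hFC p.2) (hFd p.2) hφ hφC (by positivity) hφ2
    rw [Real.sq_sqrt (by positivity : 0 ≤ s / 2)] at h2
    rw [Real.norm_eq_abs]
    refine (abs_sub_le _ (ψ (∫ z, F (p.2, z) ∂stdGaussian R)) _).trans
      (add_le_add (h2.trans (le_of_eq ?_)) (hψl _ _))
    simp only [E₀]; field_simp; ring
  refine (norm_integral_le_of_norm_le ((integrable_const E₀).fun_add (hi.const_mul _))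
    (ae_of_all _ hpt)).trans ?_
  rw [integral_add (integrable_const E₀) (hi.const_mul _), integral_const_mul]
  simp only [integral_const, probReal_univ, one_smul]
  refine add_le_add le_rfl ((mul_le_mul_of_nonneg_left hA (by positivity)).trans (le_of_eq ?_))
  ring

/-- The budget of a stage, as arithmetic. -/
theorem stage_arith {τ c₁ Λ Cd X A₁ A₂ A₃ A₄ s : ℝ} (hτ : 0 < τ) (hc : 0 ≤ c₁) (hΛ : 0 ≤ Λ)
    (hCd : 0 ≤ Cd) (hX : 0 ≤ X) (h₁ : 0 ≤ A₁) (h₂ : 0 ≤ A₂) (h₃ : 0 ≤ A₃) (h₄ : 0 ≤ A₄) :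
    4 * c₁ * X +
        2 * (2 * A₄ + 4 / τ * (4 * (Λ * Cd * A₂) + 4 * (2 * c₁ * A₁) + Cd * A₃)) / √s ≤
      (4 * c₁ + 2 * (4 / τ * (8 * c₁ + 4 * (Λ * Cd) + Cd) + 2)) *
        (X + (A₁ + A₂ + A₃ + A₄) / √s) := by
  set Ce := 4 / τ * (8 * c₁ + 4 * (Λ * Cd) + Cd) + 2
  have hτ4 : 0 ≤ 4 / τ := by positivity
  have hCe : 0 ≤ Ce := by positivity
  have h : 2 * A₄ + 4 / τ * (4 * (Λ * Cd * A₂) + 4 * (2 * c₁ * A₁) + Cd * A₃) ≤
      Ce * (A₁ + A₂ + A₃ + A₄) := by
    have : 4 * (Λ * Cd * A₂) + 4 * (2 * c₁ * A₁) + Cd * A₃ ≤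
        (8 * c₁ + 4 * (Λ * Cd) + Cd) * (A₁ + A₂ + A₃ + A₄) := by
      nlinarith [mul_nonneg hc h₂, mul_nonneg hc h₃, mul_nonneg hc h₄,
        mul_nonneg (mul_nonneg hΛ hCd) h₁, mul_nonneg (mul_nonneg hΛ hCd) h₃,
        mul_nonneg (mul_nonneg hΛ hCd) h₄, mul_nonneg hCd h₁, mul_nonneg hCd h₂,
        mul_nonneg hCd h₄]
    have := mul_le_mul_of_nonneg_left this hτ4
    simp only [Ce]
    nlinarith
  have h' := div_le_div_of_nonneg_right h (sqrt_nonneg s)
  have hA : 0 ≤ (A₁ + A₂ + A₃ + A₄) / √s := by positivity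
  rw [mul_div_assoc] at h'
  rw [mul_div_assoc]
  nlinarith [mul_nonneg hCe hX, mul_nonneg hc hA]

/-- A stage: the blurred law of the chain against the blurred smoothed law. -/
theorem stage_tv {m : ℕ} (r : Rules m) : ∃ C : ℝ, 0 ≤ C ∧
    ∀ (d N K L : ℕ) (η B σ s : ℝ) (W : E d → ℝ), Pert η B W → 0 < σ → σ ≤ 1 → 0 < s → 0 ≤ B →
      N ≠ 0 →
      TVLe (blur s (chainLaw (r.scheme r.T₀ N) K L (grad W) σ)) (blur s (law (sm σ W)))
        (C * ((r.T₀ / N) * η ^ 2 * σ ^ 2 * √d / s +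
          ((r.T₀ / N) * η ^ 3 * σ * √d + (r.T₀ / N / σ) ^ (m + 1) * √d + √d / 2 ^ K +
            (2 + B) * (1 - r.T₀ ^ 2 / 8) ^ L * √d) / √s)) := by
  obtain ⟨Cd', hCd⟩ := stationary_deriv (m + 1)
  set Cd := max Cd' 0
  have hT := r.T₀_pos
  have hT8 := r.T₀_le
  have hΛ := r.Λ_nonneg
  have hkap := r.kap_pos
  have hCd0 : 0 ≤ Cd := le_max_right _ _
  set τ := r.T₀ ^ 2 / 2
  have hτ : 0 < τ := by positivity
  set c₁ : ℝ := (36 / τ * r.kap) ^ 2
  refine ⟨4 * c₁ + 2 * (4 / τ * (8 * c₁ + 4 * (r.Λ * Cd) + Cd) + 2), by positivity,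
    fun d N K L η B σ s W hW hσ hσ1 hs hB hN => ?_⟩
  set S := r.scheme r.T₀ N
  set h := r.T₀ / N
  have hh0 : 0 ≤ h := by positivity
  have hη := hW.eta_nonneg
  have hT4 : r.T₀ ∈ Icc (0 : ℝ) (1 / 4) := ⟨hT.le, by linarith⟩
  have hS : S.Good τ (r.kap * √h) := r.scheme_good hN
  obtain ⟨G, hG0, hG, hGrec, hGbd⟩ := hCd d η B σ W hW hσ hσ1
  have hU : Pert η (B + 1) (sm σ W) := hW.sm_pert (by rw [abs_of_pos hσ]; exact hσ1)
  have := hU.isProbabilityMeasure_law
  set LR := Scheme.biasLip τ (r.kap * √h) η σ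
  set β := 2 * LR ^ 2 * (η / σ) * √d with hβdef
  have hLR2 : LR ^ 2 = c₁ * (h * η ^ 2 * σ ^ 2) := by
    simp only [LR, Scheme.biasLip, c₁, mul_pow, Real.sq_sqrt hh0]; ring
  have hβ : 0 ≤ β := by positivity
  have hgc := hW.contDiff_grad.continuous
  have hxc := Scheme.continuous_xR (S := S) (K := K) (L := L) (σ := σ) hgc L
  choose bias biasf hbias hbiasf hmean using
    fun v : Fin L → E d => (Scheme.noisy_chain (K := K) (L := L) (v := extend v) hS hW hσ).2.2
  have hEk : ∀ k ≤ m + 1, ∫ z, ‖G k z‖ ∂((law (sm σ W)).prod (stdGaussian (E d))) ≤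
      Cd * σ⁻¹ ^ k * √d := fun k hk => (hGbd k hk).trans (by gcongr; exact le_max_left _ _)
  obtain ⟨hDi, hDe⟩ := defect_bound hU hT.le hT4.2 (hG 0 (Nat.zero_le _)).1.continuous
    (hG (m + 1) le_rfl).1.continuous (hG 0 (Nat.zero_le _)).2 (hG (m + 1) le_rfl).2
    (c := r.Λ * h ^ (m + 1)) (β := β) (by positivity) (hEk 0 (Nat.zero_le _)) (hEk _ le_rfl) K
  set X : ℕ → (Fin L → E d) → E d := fun i v =>
    S.chain K (fun i k l p => p + grad (sm σ W) p + bias v i k l)
      (fun i l p => p + grad (sm σ W) p + biasf v i l) (extend v) i with hX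
  have hXL : ∀ v, X L v = ∫ R, S.xR K L (grad W) σ (extend v) L R
      ∂stdGaussian (Noise d (S.Idx K L)) := fun v => by
    simp only [hX, hW.grad_sm σ]; exact (hmean v).symm
  have hXm : Measurable (X L) := by
    rw [funext hXL]
    exact (hxc.stronglyMeasurable.integral_prod_right
      (ν := stdGaussian (Noise d (S.Idx K L)))).measurable
  obtain ⟨hΔi, hΔe⟩ := coupling_bound hU (by linarith) hT4 X (fun _ => rfl) hXm hDi
    (ρ := 1 - τ / 4) (by simp only [τ]; nlinarith) (by linarith) hDe (by positivity)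
    fun i hi v z => by
      obtain ⟨c0, cA, cF, cy⟩ := hU.flow_consistent (G := G) (fun k hk => (hG k hk).1)
        (fun k hk u => hGrec k (Nat.lt_succ_of_le hk) u) r hG0 hN hT hT4.2 z (v ⟨i, hi⟩)
      have e : X (i + 1) v = S.step K (fun k l q => q + grad (sm σ W) q + bias v i k l)
          (fun l q => q + grad (sm σ W) q + biasf v i l) (X i v) (v ⟨i, hi⟩) := by
        simp only [hX, Scheme.chain, extend, dif_pos hi]
      rw [e]
      refine (Scheme.mean_step hS hU hβ (bias v i) (biasf v i)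
        (fun k l hk => hbias v i k l hi hk) (fun l => hbiasf v i l hi) (X i v) z (v ⟨i, hi⟩)
        ?_ ?_ c0 cA cF cy).trans (le_of_eq (by ring))
      · exact mul_nonneg (by positivity)
          (intervalIntegral.integral_nonneg hT.le fun _ _ => norm_nonneg _)
      · exact mul_nonneg hT.le (intervalIntegral.integral_nonneg hT.le fun _ _ => norm_nonneg _)
  simp only [hXL] at hΔi hΔe
  have hcmp := blur_compare (F := fun p : (Fin L → E d) × Noise d (S.Idx K L) =>
      S.xR K L (grad W) σ (extend p.1) L p.2) hxc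
    (fun v => (Scheme.noisy_chain (v := extend v) hS hW hσ).1)
    (fun v z => (Scheme.noisy_chain (v := extend v) hS hW hσ).2.1 z)
    (hU.measurePreserving_statPos hT4 L) hs hΔi hΔe
  refine TVLe.mono hcmp ?_
  have e1 : 4 * LR ^ 2 * √d / s = 4 * c₁ * (h * η ^ 2 * σ ^ 2 * √d / s) := by rw [hLR2]; ring
  have e2 : β = 2 * c₁ * (h * η ^ 3 * σ * √d) := by rw [hβdef, hLR2]; field_simp
  have hρ : 1 - τ / 4 = 1 - r.T₀ ^ 2 / 8 := by simp only [τ]; ring
  have hρ0 : 0 ≤ 1 - r.T₀ ^ 2 / 8 := by nlinarith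
  refine le_trans (le_of_eq ?_) (stage_arith (τ := τ) (c₁ := c₁) (Λ := r.Λ) (Cd := Cd)
    (X := h * η ^ 2 * σ ^ 2 * √d / s) (A₁ := h * η ^ 3 * σ * √d)
    (A₂ := (h / σ) ^ (m + 1) * √d) (A₃ := √d / 2 ^ K)
    (A₄ := (2 + B) * (1 - r.T₀ ^ 2 / 8) ^ L * √d) (s := s) hτ (sq_nonneg _) hΛ hCd0
    (by positivity) (by positivity) (by positivity) (by positivity) (by positivity))
  rw [e1, e2, show 1 - (1 - τ / 4) = τ / 4 by ring, hρ, div_eq_mul_inv h σ, mul_pow]
  simp only [pow_zero, mul_one]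
  field_simp
  ring

end Vale.Agent.P347
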