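import Vale.Agent.P347.StageCell
import Vale.Agent.P347.CellQC
import Vale.Agent.P347.Samples
import Vale.Agent.P347.EstLsm
import Vale.Agent.P347.LsmDeriv

/-!
# P347: the sequential stage as a sampler of the blurred law
-/

open MeasureTheory ProbabilityTheory Real Set
open scoped RealInnerProductSpace

namespace Vale.Agent.P347

variable {d : ℕ}

/-- A sequential stage, as a procedure for the blurred law. -/
theorem stage6_sampler {m : ℕ} (r : Rules m) : ∃ C : ℝ, 0 ≤ C ∧
    ∀ (d N L : ℕ) (b s : ℝ), 2 ≤ N → (m + 1) * r.Λ + 1 ≤ (N : ℝ) → 0 < b → b ≤ 1 / 4 →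
      4 * b ^ 2 ≤ s → s ≤ 1 →
      ∃ (Ω : Type) (_ : MeasurableSpace Ω) (_ : StandardBorelSpace Ω) (_ : Nonempty Ω)
        (P : Measure Ω) (f : (E d → ℝ × E d) → Ω → E d),
        IsProbabilityMeasure P ∧ QC d (L * (N * (2 * ((m + 1) * (m + 1) + r.n)))) f ∧
        ∀ (η B : ℝ) (W : E d → ℝ), Pert η B W → B ≤ 1 →
          TVLe (P.map (f (oracleOf (pot W)))) (blur s (law W))
            (C * (L * ((((1 / (16 * N)) / b) ^ (m + 1) + (1 / (16 * N)) ^ 2 * b + b ^ 3) / √s +
              (1 / (16 * N)) * b ^ 2) * √d + (1 - 1 / 4096) ^ L * √d / √s)) := by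
  obtain ⟨C₁, hU₁⟩ := lsm_pert
  obtain ⟨C₂, hC₂, hE⟩ := est_lsm
  obtain ⟨C₃, hD⟩ := stationary_deriv_lsm (m + 1)
  obtain ⟨C, hC, hstage⟩ := stage_cell_weak r (CU := 2 * max C₁ 0) (Cd := max C₃ 0) (Cb := C₂ * 2)
    (by positivity) (le_max_right _ _) (by positivity)
  refine ⟨C, hC, fun d N L b s hN hNc hb hb4 hbs hs1 => ?_⟩
  have hb1 : b ≤ 1 := hb4.trans (by norm_num)
  have hs : 0 < s := lt_of_lt_of_le (by positivity) hbs
  set a := cosB b
  have ha2 : a ^ 2 = 1 - b ^ 2 := cosB_sq (by rw [abs_of_pos hb]; exact hb1)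
  have ha1 : 15 / 16 ≤ a ^ 2 := by rw [ha2]; nlinarith
  have ha : 0 < a := lt_of_le_of_ne (cosB_nonneg b) fun e => by rw [← e] at ha1; norm_num at ha1
  set c := √(s - b ^ 2 / a ^ 2) with hc_def
  have hsub : b ^ 2 / a ^ 2 ≤ 4 / 15 * s := by
    rw [div_le_iff₀ (by positivity)]
    nlinarith [mul_le_mul_of_nonneg_left ha1 hs.le]
  have hc2 : c ^ 2 = s - b ^ 2 / a ^ 2 := Real.sq_sqrt (by linarith)
  have hc : 0 < c := Real.sqrt_pos.2 (by linarith)
  have hac : (a * c) ^ 2 = a ^ 2 * s - b ^ 2 := by rw [mul_pow, hc2]; field_simp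
  obtain ⟨Ω, i1, i2, i3, P, f, hP, hf, hlaw⟩ :=
    exists_cell_sampler (d := d) (r.scheme (1 / (16 * N)) 1) m (r.velW (1 / (16 * N))) b a⁻¹ c N L
  refine ⟨Ω, i1, i2, i3, P, f, hP, hf.mono (le_of_eq (by simp [Rules.scheme])),
    fun η B W hW hB => ?_⟩
  have := hW.isProbabilityMeasure_law
  have hO := hW.measurable_oracle
  have hfm : Measurable (f (oracleOf (pot W))) := hf.measurable hO
  have : IsProbabilityMeasure (P.map (f (oracleOf (pot W)))) :=
    Measure.isProbabilityMeasure_map hfm.aemeasurable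
  set U := lsm b W
  have hU0 := hU₁ d η B b W hW hb (by linarith)
  have hB0 := hW.bound_nonneg
  have hBU : C₁ * (1 + B) ≤ 2 * max C₁ 0 := by
    calc C₁ * (1 + B) ≤ max C₁ 0 * (1 + B) :=
          mul_le_mul_of_nonneg_right (le_max_left _ _) (by linarith)
      _ ≤ max C₁ 0 * 2 := mul_le_mul_of_nonneg_left (by linarith) (le_max_right _ _)
      _ = _ := mul_comm _ _
  have hest0 := hE d η B b W U hW hb hb4 (hW.grad_lsm hb (by linarith))
  have hest : Est (grad U) (est b (grad W)) b fun p => C₂ * 2 * b ^ 3 * (√d + ‖p‖) :=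
    { hest0 with bias_le := fun p => (hest0.bias_le p).trans (by
        have : 0 ≤ b ^ 3 * (√d + ‖p‖) := by positivity
        have := mul_le_mul_of_nonneg_right
          (mul_le_mul_of_nonneg_left (show 1 + B ≤ 2 by linarith) hC₂) this
        linarith) }
  obtain ⟨G, hG0, hG, hrec, hGb⟩ := hD d η B b W hW hb (by linarith)
  refine tvLe_of_tests fun φ hφC hφs hφ01 => ?_
  have hφ1 : ∀ x, |φ x| ≤ 1 := fun x => abs_le.2 ⟨by linarith [(hφ01 x).1], (hφ01 x).2⟩
  have hφp : PolyBd φ := PolyBd.of_bound (B := 1) hφ1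
  rw [integral_map hfm.aemeasurable hφC.continuous.aestronglyMeasurable,
    hlaw _ hO φ hφC.continuous.measurable hφ1,
    show (fun q => (oracleOf (pot W) q).2 - q) = grad W from funext hW.oracle_sub]
  set u : E d → ℝ := fun x => sm c φ (a⁻¹ • x) with hu
  have hu1 : ∀ x, |u x| ≤ 1 := fun x => by
    simp only [hu, sm, ← Real.norm_eq_abs]
    exact (norm_integral_le_of_norm_le_const (ae_of_all _ fun z => hφ1 _)).trans (by simp)
  obtain ⟨g, hg, -, hgb, -⟩ := smooth_test hφC hφs hφ01 (a := c / √2) (by positivity)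
  rw [show √2 * (c / √2) = c by field_simp] at hg
  have hlip : a⁻¹ * (√2 / c) ≤ 2 / √s := by
    rw [inv_mul_eq_div, div_div, div_le_div_iff₀ (by positivity) (Real.sqrt_pos.2 hs)]
    refine (pow_le_pow_iff_left₀ (by positivity) (by positivity) two_ne_zero).1 ?_
    rw [mul_pow, mul_pow, Real.sq_sqrt zero_le_two, Real.sq_sqrt hs.le, mul_comm c, hac]
    nlinarith [mul_le_mul_of_nonneg_left ha1 hs.le]
  have huL : ∀ x x', |u x - u x'| ≤ 2 / √s * ‖x - x'‖ := fun x x' => by
    have h := Convex.norm_image_sub_le_of_norm_hasFDerivWithin_le (f := sm c φ)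
      (C := √2 / c) (fun y _ => (hg y).hasFDerivWithinAt) (fun y _ => by
        rw [innerSL_apply_norm]
        exact (hgb y).trans (le_of_eq (inv_div _ _))) convex_univ (mem_univ (a⁻¹ • x'))
      (mem_univ (a⁻¹ • x))
    refine (Real.norm_eq_abs _ ▸ h).trans ?_
    rw [← smul_sub, norm_smul, Real.norm_eq_abs, abs_of_pos (inv_pos.2 ha), ← mul_assoc,
      mul_comm (√2 / c)]
    exact mul_le_mul_of_nonneg_right hlip (norm_nonneg _)
  have hmain := hstage d N L η _ b s U (est b (grad W)) G hU0 hBU hest hb hb1 hs hN hNc hG0 hG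
    hrec (fun k hk => (hGb k hk).trans (by gcongr; exact le_max_left _ _)) u hu1 huL
  have hφc := hφC.continuous
  have hsmc : Continuous (sm c φ) := sm_continuous hφc hφp c
  have huc : Continuous u := hsmc.comp (continuous_const_smul a⁻¹)
  have hm : Measurable fun p : E d × E d => cosB b • p.1 + b • p.2 := by fun_prop
  have htarget : ∫ x, u x ∂law U = ∫ x, φ x ∂blur s (law W) := by
    rw [integral_blur s (law W) hφc hφ1, hW.law_lsm hb (by linarith),
      integral_map hm.aemeasurable huc.aestronglyMeasurable, integral_prod]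
    · refine integral_congr_ae (ae_of_all _ fun x => ?_)
      have e : √((b / a) ^ 2 + c ^ 2) = √s := by rw [hc2, div_pow]; ring_nf
      rw [← e, ← sm_sm hφc hφp]
      refine integral_congr_ae (ae_of_all _ fun z => ?_)
      show sm c φ (a⁻¹ • (a • x + b • z)) = sm c φ (x + (b / a) • z)
      rw [smul_add, inv_smul_smul₀ ha.ne', smul_smul, inv_mul_eq_div]
    · exact Integrable.of_bound (huc.measurable.comp hm).aestronglyMeasurable 1
        (ae_of_all _ fun p => hu1 _)
  rw [htarget] at hmain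
  exact hmain

end Vale.Agent.P347
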