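import Vale.Agent.P347.CellStab
import Vale.Agent.P347.CellRules
import Vale.Agent.P347.Stage

/-!
# P347: the sequential stage against bounded Lipschitz tests
-/

open MeasureTheory ProbabilityTheory Real Set
open scoped RealInnerProductSpace

namespace Vale.Agent.P347

variable {d m : ℕ}

theorem cell_arith {Λ h b P sd k₁ k₂ k₃ k₄ : ℝ} (hΛ : 0 ≤ Λ) (hh : 0 ≤ h) (hb : 0 ≤ b)
    (hP : 0 ≤ P) (hsd : 0 ≤ sd) (h₁ : 0 ≤ k₁) (h₂ : 0 ≤ k₂) (h₃ : 0 ≤ k₃) (h₄ : 0 ≤ k₄) :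
    Λ * (k₁ * (h * P * sd) + k₂ * (h * (h ^ 2 * b) * sd) + k₃ * (h * P * sd) +
        k₄ * (h * b ^ 3 * sd) + 64 * h ^ 3 * b * sd) + 12 * h ^ 2 * b ^ 2 * sd ≤
      (k₁ + k₂ + k₃ + k₄ + 76) * (Λ * h * (P + h ^ 2 * b + b ^ 3) + h ^ 2 * b ^ 2) * sd := by
  have hb3 : 0 ≤ b ^ 3 := by positivity
  have hh2 : 0 ≤ h ^ 2 * b := by positivity
  have hY : 0 ≤ h ^ 2 * b ^ 2 := by positivity
  have hΛh : 0 ≤ Λ * h * sd := by positivity
  set K := k₁ + k₂ + k₃ + k₄ + 76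
  have hK : 0 ≤ K := by positivity
  calc Λ * (k₁ * (h * P * sd) + k₂ * (h * (h ^ 2 * b) * sd) + k₃ * (h * P * sd) +
          k₄ * (h * b ^ 3 * sd) + 64 * h ^ 3 * b * sd) + 12 * h ^ 2 * b ^ 2 * sd
      = Λ * h * sd * ((k₁ + k₃) * P + (k₂ + 64) * (h ^ 2 * b) + k₄ * b ^ 3) +
          12 * (h ^ 2 * b ^ 2) * sd := by ring
    _ ≤ Λ * h * sd * (K * P + K * (h ^ 2 * b) + K * b ^ 3) + K * (h ^ 2 * b ^ 2) * sd := by
        gcongr <;> (simp only [K]; linarith)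
    _ = _ := by ring

/-- The weak error of one cell of the rules, in the variables of a stage. -/
theorem cell_rules_error (r : Rules m) {CU Cd Cb : ℝ} (hCU : 0 ≤ CU) (hCd : 0 ≤ Cd) (hCb : 0 ≤ Cb) :
    ∃ C : ℝ, 0 ≤ C ∧ ∀ (d : ℕ) (η B b h : ℝ) (U : E d → ℝ) (Φ : E d → E d → E d)
      (G : ℕ → E d × E d → E d), Pert η B U → B ≤ CU →
      Est (grad U) Φ b (fun p => Cb * b ^ 3 * (√d + ‖p‖)) → 0 < b → b ≤ 1 → 0 < h → h ≤ 1 / 16 →
      ((m + 1) * r.Λ + 1) * h ≤ 1 / 16 →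
      (∀ z, G 0 z = z.1 + grad U z.1) →
      (∀ k ≤ m + 1, ContDiff ℝ 1 (G k) ∧ PolyBd (G k)) →
      (∀ k < m + 1, ∀ z, fderiv ℝ (G k) z (z.2, -(z.1 + grad U z.1)) = G (k + 1) z) →
      (∀ k ≤ m + 1, ∫ z, ‖G k z‖ ∂((law U).prod (stdGaussian (E d))) ≤ Cd * b⁻¹ ^ k * √d) →
      ∀ (Λ : ℝ), 0 ≤ Λ → ∀ f : E d × E d → ℝ, Continuous f → (∀ z, |f z| ≤ 1) →
        (∀ z z', |f z - f z'| ≤ Λ * ‖z - z'‖) →
        |(∫ z, (r.scheme h 1).cellOp m (r.velW h) Φ f z ∂(law U).prod (stdGaussian (E d))) -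
          ∫ z, f z ∂(law U).prod (stdGaussian (E d))| ≤
          C * (Λ * h * ((h / b) ^ (m + 1) + h ^ 2 * b + b ^ 3) + h ^ 2 * b ^ 2) * √d := by
  set c := ((m : ℝ) + 1) * r.Λ + 1 with hc
  have hΛr := r.Λ_nonneg
  have hc0 : 0 ≤ c := by positivity
  set n := ((m : ℝ) + 1) * ((m : ℝ) + 1)
  set Cβ := Cb * (1 + 2 * (1 + CU))
  refine ⟨5 * r.Λ * Cd + 4 * c * n * (2 + Cβ) + 2 * (2 * c) ^ m * Cd + Cβ + 76, by positivity,
    fun d η B b h U Φ G hU hB hΦ hb hb1 hh hh16 hch hG0 hG hrec hGb Λ hΛ f hf hf1 hfL => ?_⟩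
  have := hU.isProbabilityMeasure_law
  set μ := (law U).prod (stdGaussian (E d))
  set S := r.scheme h 1
  have hh4 : h ≤ 1 / 4 := hh16.trans (by norm_num)
  have hh1 : h ≤ 1 := hh16.trans (by norm_num)
  have hS := r.cellRule hh.le hh16 hch
  obtain ⟨hni, hne⟩ := hU.integral_norm_law_le hU.bound_nonneg
  have hbi : Integrable (fun p : E d => Cb * b ^ 3 * (√d + ‖p‖)) (law U) :=
    ((integrable_const _).fun_add hni).const_mul _
  have hb3 : 0 ≤ b ^ 3 := by positivity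
  have hβ : ∫ p : E d, Cb * b ^ 3 * (√d + ‖p‖) ∂law U ≤ Cβ * (b ^ 3 * √d) := by
    rw [integral_const_mul, integral_add (integrable_const _) hni]
    simp only [integral_const, probReal_univ, one_smul]
    have h1 : √(d : ℝ) + ∫ z, ‖z‖ ∂law U ≤ (1 + 2 * (1 + CU)) * √d := by
      have : 2 * (1 + B) * √(d : ℝ) ≤ 2 * (1 + CU) * √d := by gcongr
      linarith
    calc Cb * b ^ 3 * (√d + ∫ z, ‖z‖ ∂law U) ≤ Cb * b ^ 3 * ((1 + 2 * (1 + CU)) * √d) :=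
          mul_le_mul_of_nonneg_left h1 (by positivity)
      _ = _ := by simp only [Cβ]; ring
  set I : ℕ → E d × E d → ℝ := fun k z =>
    ∫ u in (0:ℝ)..h, ‖G k (traj U z.1 z.2 u, vel U z.1 z.2 u)‖ with hI
  have hIk : ∀ k ≤ m + 1, Integrable (I k) μ ∧ ∫ z, I k z ∂μ ≤ h * (Cd * b⁻¹ ^ k * √d) := by
    intro k hk
    obtain ⟨h1, h2⟩ := hU.integral_flow_average (g := fun z => ‖G k z‖) (hG k hk).1.continuous.norm
      (hG k hk).2.norm hh.le hh4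
    exact ⟨h1, h2.trans_le (mul_le_mul_of_nonneg_left (hGb k hk) hh.le)⟩
  have hI0 : ∀ k z, 0 ≤ I k z := fun k z =>
    intervalIntegral.integral_nonneg hh.le fun _ _ => norm_nonneg _
  obtain ⟨iA, eA⟩ := hIk 0 (Nat.zero_le _)
  obtain ⟨iM, eM⟩ := hIk (m + 1) le_rfl
  have hce := Scheme.cell_error (K := m) hU hS hΦ (by fun_prop) hbi
    (a₀ := fun z => h * I 0 z) (e := fun z => r.Λ * h ^ (m + 2) * I (m + 1) z)
    (ev := fun z => 3 * r.Λ * h ^ (m + 1) * I (m + 1) z)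
    (fun z => mul_nonneg hh.le (hI0 _ _)) (fun z => mul_nonneg (by positivity) (hI0 _ _))
    (iA.const_mul _) (iM.const_mul _) (iM.const_mul _)
    (fun x v => hU.cell_consistent r (fun k hk => (hG k hk).1)
      (fun k hk z => hrec k (Nat.lt_succ_of_le hk) z) hG0 hh hh4 x v) hΛ hf hf1 hfL
  refine hce.trans ?_
  set P := (h / b) ^ (m + 1)
  have hP : 0 ≤ P := by positivity
  have hP' : h ^ (m + 1) ≤ P := pow_le_pow_left₀ hh.le ((le_div_iff₀ hb).2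
    (mul_le_of_le_one_right hh.le hb1)) _
  have hsd : 0 ≤ √(d : ℝ) := Real.sqrt_nonneg _
  have t1 : 2 * ∫ z, r.Λ * h ^ (m + 2) * I (m + 1) z ∂μ +
      ∫ z, 3 * r.Λ * h ^ (m + 1) * I (m + 1) z ∂μ ≤ 5 * r.Λ * Cd * (h * P * √d) := by
    rw [integral_const_mul, integral_const_mul]
    have e1 : h ^ (m + 1) * (h * (Cd * b⁻¹ ^ (m + 1) * √d)) = Cd * (h * P * √d) := by
      simp only [P, div_eq_mul_inv, mul_pow]; ring
    have h2 : h ^ (m + 2) ≤ h ^ (m + 1) := pow_le_pow_of_le_one hh.le hh1 (by omega)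
    have h3 : 0 ≤ ∫ z, I (m + 1) z ∂μ := integral_nonneg fun z => hI0 _ _
    calc 2 * (r.Λ * h ^ (m + 2) * ∫ z, I (m + 1) z ∂μ) +
          3 * r.Λ * h ^ (m + 1) * ∫ z, I (m + 1) z ∂μ
        ≤ 5 * r.Λ * (h ^ (m + 1) * ∫ z, I (m + 1) z ∂μ) := by
          nlinarith [mul_le_mul_of_nonneg_right h2 h3]
      _ ≤ 5 * r.Λ * (h ^ (m + 1) * (h * (Cd * b⁻¹ ^ (m + 1) * √d))) := by gcongr
      _ = _ := by rw [e1]; ring
  have t2 : 4 * c * h ^ 3 * (((m + 1) * S.J : ℕ) *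
      (2 * b * √d + ∫ p : E d, Cb * b ^ 3 * (√d + ‖p‖) ∂law U)) ≤
      4 * c * n * (2 + Cβ) * (h * (h ^ 2 * b) * √d) := by
    have hb31 : b ^ 3 ≤ b := by simpa using pow_le_pow_of_le_one hb.le hb1 (by norm_num : 1 ≤ 3)
    have hJ : (((m + 1) * S.J : ℕ) : ℝ) = n := by simp [S, Rules.scheme, n]
    rw [hJ]
    calc 4 * c * h ^ 3 * (n * (2 * b * √d + ∫ p : E d, Cb * b ^ 3 * (√d + ‖p‖) ∂law U))
        ≤ 4 * c * h ^ 3 * (n * (2 * b * √d + Cβ * (b * √d))) := by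
          gcongr
          exact hβ.trans (by gcongr)
      _ = _ := by ring
  have t3 : 2 * h * ((2 * c * h ^ 2) ^ m * ∫ z, h * I 0 z ∂μ) ≤
      2 * (2 * c) ^ m * Cd * (h * P * √d) := by
    rw [integral_const_mul]
    have eA' : ∫ z, I 0 z ∂μ ≤ h * (Cd * √d) := eA.trans (le_of_eq (by simp))
    calc 2 * h * ((2 * c * h ^ 2) ^ m * (h * ∫ z, I 0 z ∂μ))
        ≤ 2 * h * ((2 * c * h ^ 2) ^ m * (h * (h * (Cd * √d)))) := by gcongr
      _ = 2 * (2 * c) ^ m * Cd * (h * h ^ (2 * m + 2) * √d) := by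
          rw [mul_pow, ← pow_mul]; ring
      _ ≤ _ := by
          gcongr
          exact (pow_le_pow_of_le_one hh.le hh1 (by omega)).trans hP'
  have t4 : h * ∫ p : E d, Cb * b ^ 3 * (√d + ‖p‖) ∂law U ≤ Cβ * (h * b ^ 3 * √d) :=
    (mul_le_mul_of_nonneg_left hβ hh.le).trans (le_of_eq (by ring))
  refine (add_le_add (mul_le_mul_of_nonneg_left (add_le_add (add_le_add (add_le_add (add_le_add
    t1 t2) t3) t4) (le_refl (64 * h ^ 3 * b * √d))) hΛ) le_rfl).trans ?_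
  exact cell_arith hΛ hh.le hb.le hP hsd (by positivity) (by positivity) (by positivity)
    (by positivity)

/-- The sequential stage against a bounded Lipschitz test. -/
theorem stage_cell_weak (r : Rules m) {CU Cd Cb : ℝ} (hCU : 0 ≤ CU) (hCd : 0 ≤ Cd) (hCb : 0 ≤ Cb) :
    ∃ C : ℝ, 0 ≤ C ∧ ∀ (d N L : ℕ) (η B b s : ℝ) (U : E d → ℝ) (Φ : E d → E d → E d)
      (G : ℕ → E d × E d → E d), Pert η B U → B ≤ CU →
      Est (grad U) Φ b (fun p => Cb * b ^ 3 * (√d + ‖p‖)) → 0 < b → b ≤ 1 → 0 < s → 2 ≤ N →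
      (m + 1) * r.Λ + 1 ≤ (N : ℝ) →
      (∀ z, G 0 z = z.1 + grad U z.1) →
      (∀ k ≤ m + 1, ContDiff ℝ 1 (G k) ∧ PolyBd (G k)) →
      (∀ k < m + 1, ∀ z, fderiv ℝ (G k) z (z.2, -(z.1 + grad U z.1)) = G (k + 1) z) →
      (∀ k ≤ m + 1, ∫ z, ‖G k z‖ ∂((law U).prod (stdGaussian (E d))) ≤ Cd * b⁻¹ ^ k * √d) →
      ∀ u : E d → ℝ, (∀ x, |u x| ≤ 1) → (∀ x x', |u x - u x'| ≤ 2 / √s * ‖x - x'‖) →
        |((r.scheme (1 / (16 * N)) 1).stepOp m (r.velW (1 / (16 * N))) Φ N)^[L] u 0 -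
          ∫ x, u x ∂law U| ≤
        C * (L * ((((1 / (16 * N)) / b) ^ (m + 1) + (1 / (16 * N)) ^ 2 * b + b ^ 3) / √s +
            (1 / (16 * N)) * b ^ 2) * √d + (1 - 1 / 4096) ^ L * √d / √s) := by
  obtain ⟨C₁, hC₁, h₁⟩ := cell_rules_error r hCU hCd hCb
  refine ⟨C₁ + 4 * (1 + CU), by positivity, fun d N L η B b s U Φ G hU hB hΦ hb hb1 hs hN hNc hG0 hG
    hrec hGb u hu1 huL => ?_⟩
  have hN0 : (0 : ℝ) < N := by exact_mod_cast (by omega : 0 < N)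
  set h := 1 / (16 * (N : ℝ)) with hh_def
  have hh : 0 < h := by positivity
  have hNh : (N : ℝ) * h = 1 / 16 := by simp only [hh_def]; field_simp
  have hN2 : (2 : ℝ) ≤ N := by exact_mod_cast hN
  have hh16 : h ≤ 1 / 16 := by rw [← hNh]; exact le_mul_of_one_le_left hh.le (by linarith)
  have hch : ((m + 1) * r.Λ + 1) * h ≤ 1 / 16 := by
    rw [← hNh]; exact mul_le_mul_of_nonneg_right hNc hh.le
  have hS := r.cellRule hh.le hh16 hch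
  have hΛ : 0 ≤ 2 / √s := by positivity
  have hw := Scheme.chain_weak (K := m) hU hS hΦ hN hNh.le hΛ
    (fun f hf hf1 hfL => h₁ d η B b h U Φ G hU hB hΦ hb hb1 hh hh16 hch hG0 hG hrec hGb
      (2 * (2 / √s)) (by positivity) f hf hf1 hfL) hu1 huL L
  rw [hNh] at hw
  refine hw.trans ?_
  obtain ⟨-, hne⟩ := hU.integral_norm_law_le hU.bound_nonneg
  set A := (h / b) ^ (m + 1) + h ^ 2 * b + b ^ 3
  have hA : 0 ≤ A := by positivity
  rw [show (1 : ℝ) - (1 / 16) ^ 2 / 16 = 1 - 1 / 4096 by norm_num]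
  have hρ : (0 : ℝ) ≤ (1 - 1 / 4096) ^ L := by norm_num
  have e1 : (L : ℝ) * (N * (C₁ * (2 * (2 / √s) * h * A + h ^ 2 * b ^ 2) * √d)) =
      C₁ * (L * (A / √s * (4 * ((N : ℝ) * h)) + h * b ^ 2 * ((N : ℝ) * h)) * √d) := by ring
  rw [e1, hNh]
  set P := (L : ℝ) * (A / √s + h * b ^ 2) * √d
  set Q := (1 - 1 / 4096 : ℝ) ^ L * √d / √s
  have hP : 0 ≤ P := by positivity
  have hQ : 0 ≤ Q := div_nonneg (mul_nonneg hρ (Real.sqrt_nonneg _)) (Real.sqrt_nonneg _)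
  have h2 : (L : ℝ) * (A / √s * (4 * (1 / 16)) + h * b ^ 2 * (1 / 16)) * √d ≤ P := by
    exact mul_le_mul_of_nonneg_right (mul_le_mul_of_nonneg_left (add_le_add
      (mul_le_of_le_one_right (by positivity) (by norm_num))
      (mul_le_of_le_one_right (by positivity) (by norm_num))) L.cast_nonneg) (Real.sqrt_nonneg _)
  have h3 : 2 / √s * (1 - 1 / 4096) ^ L * ∫ x, ‖x‖ ∂law U ≤ 4 * (1 + CU) * Q := by
    calc 2 / √s * (1 - 1 / 4096) ^ L * ∫ x, ‖x‖ ∂law U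
        ≤ 2 / √s * (1 - 1 / 4096) ^ L * (2 * (1 + CU) * √d) := by
          refine mul_le_mul_of_nonneg_left (hne.trans ?_) (mul_nonneg hΛ hρ)
          gcongr
      _ = _ := by simp only [Q]; ring
  nlinarith [mul_le_mul_of_nonneg_left h2 hC₁, mul_nonneg hC₁ hQ, mul_nonneg hCU hP]

end Vale.Agent.P347
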