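import Vale.Agent.P347.RGO
import Vale.Agent.P347.Samples
import Vale.Agent.P347.Recursion

/-!
# P347: reduction of one class to the next, and the recursion
-/

open MeasureTheory ProbabilityTheory Real Set Filter
open scoped RealInnerProductSpace Topology

namespace Vale.Agent.P347

variable {d : ℕ}

theorem inv_rgoC_le {s : ℝ} (hs : 0 < s) : (rgoC s)⁻¹ ≤ s := by
  unfold rgoC; rw [inv_div]; exact div_le_self hs.le (by linarith)

/-- The point at which the inner procedure's query is answered. -/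
noncomputable def innerPt (s : ℝ) (a : E d × E d) (z : E d) : E d :=
  a.2 + (√(rgoC s))⁻¹ • z

/-- The answer of the reduced potential from that of the original one. -/
noncomputable def innerAns (s : ℝ) (a : E d × E d) (z : E d) (r : ℝ × E d) : ℝ × E d :=
  (‖z‖ ^ 2 / 2 + (r.1 - ‖innerPt s a z‖ ^ 2 / 2 +
      ⟪√(rgoC s) • (a.2 - rgoCenter s a.1), z⟫),
    z + ((√(rgoC s))⁻¹ • (r.2 - innerPt s a z) + √(rgoC s) • (a.2 - rgoCenter s a.1)))

theorem innerAns_eq {η B η' B' s : ℝ} {W : E d → ℝ} (hW : Pert η B W) (hs : 0 < s) {y : E d}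
    (hW' : Pert η' B' (rgo W s y)) :
    (fun z => innerAns s (y, rgoPt W s y) z (oracleOf (pot W) (innerPt s (y, rgoPt W s y) z))) =
      oracleOf (pot (rgo W s y)) := by
  funext z
  rw [hW.oracleOf_pot, hW'.oracleOf_pot, hW.grad_rgo]
  simp only [innerAns, innerPt, rgo, rgoMap, pot, add_sub_cancel_left]

/-- The centre found by one query after the output `y` of the stage. -/
noncomputable def centred (s : ℝ) (O : E d → ℝ × E d) (y : E d) : E d × E d :=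
  (y, rgoCenter s y - (rgoC s)⁻¹ • ((O (rgoCenter s y)).2 - rgoCenter s y))

/-- A sampler of the blurred law, one query, then a sampler of the reduced law. -/
noncomputable def combine {Ω₁ Ω₂ : Type} (s : ℝ) (f₁ : (E d → ℝ × E d) → Ω₁ → E d)
    (f₂ : (E d → ℝ × E d) → Ω₂ → E d) (O : E d → ℝ × E d) (ω : Ω₁ × Ω₂) : E d :=
  innerPt s (centred s O (f₁ O ω.1))
    (f₂ (fun z => innerAns s (centred s O (f₁ O ω.1)) z
      (O (innerPt s (centred s O (f₁ O ω.1)) z))) ω.2)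

theorem qc_combine {Ω₁ Ω₂ : Type} [MeasurableSpace Ω₁] [MeasurableSpace Ω₂] {q₁ q₂ : ℕ} {s : ℝ}
    {f₁ : (E d → ℝ × E d) → Ω₁ → E d} {f₂ : (E d → ℝ × E d) → Ω₂ → E d}
    (hf₁ : QC d q₁ f₁) (hf₂ : QC d q₂ f₂) : QC d (q₁ + 1 + q₂) (combine s f₁ f₂) := by
  have hf₁' := (hf₁.query (fun y => rgoCenter s y) (by unfold rgoCenter; fun_prop)).map
    (fun p : E d × (ℝ × E d) =>
      ((p.1, rgoCenter s p.1 - (rgoC s)⁻¹ • (p.2.2 - rgoCenter s p.1)) : E d × E d))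
    (by unfold rgoCenter; fun_prop)
  have hb := hf₁'.bind hf₂ (innerPt s) (by unfold innerPt; fun_prop) (innerAns s)
    (by unfold innerAns innerPt rgoCenter; fun_prop)
  exact (hb.map (fun p : (E d × E d) × E d => innerPt s p.1 p.2) (by unfold innerPt; fun_prop)).congr
    fun O ω => rfl

theorem combine_eq {η B η' B' s : ℝ} {W : E d → ℝ} (hW : Pert η B W) (hs : 0 < s) {Ω₁ Ω₂ : Type}
    (f₁ : (E d → ℝ × E d) → Ω₁ → E d) (f₂ : (E d → ℝ × E d) → Ω₂ → E d) (a : Ω₁) (b : Ω₂)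
    {y : E d} (hy : f₁ (oracleOf (pot W)) a = y) (hW' : Pert η' B' (rgo W s y)) :
    combine s f₁ f₂ (oracleOf (pot W)) (a, b) =
      rgoMap W s y (f₂ (oracleOf (pot (rgo W s y))) b) := by
  have hm : centred s (oracleOf (pot W)) y = (y, rgoPt W s y) := by
    simp only [centred, hW.oracle_sub, rgoPt]
  simp only [combine, hy, hm, innerAns_eq hW hs hW']
  rfl

/-- The error of a stage followed by the reduced problem. -/
theorem combine_tv : ∃ C : ℝ, 0 ≤ C ∧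
    ∀ (d : ℕ) (η B η' B' s A ε₁ ε₂ : ℝ) (W : E d → ℝ), Pert η B W → 0 < s → s ≤ 1 → η' ≤ 1 →
      η * s ≤ η' → (B + A) * √s ≤ B' → 0 < A → 0 ≤ ε₂ →
      ∀ {Ω₁ Ω₂ : Type} [MeasurableSpace Ω₁] [MeasurableSpace Ω₂] (P₁ : Measure Ω₁) (P₂ : Measure Ω₂)
        [IsProbabilityMeasure P₁] [IsProbabilityMeasure P₂] (q₁ q₂ : ℕ)
        (f₁ : (E d → ℝ × E d) → Ω₁ → E d) (f₂ : (E d → ℝ × E d) → Ω₂ → E d),
        QC d q₁ f₁ → QC d q₂ f₂ →
        TVLe (P₁.map (f₁ (oracleOf (pot W)))) (blur s (law W)) ε₁ →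
        (∀ W' : E d → ℝ, Pert η' B' W' → TVLe (P₂.map (f₂ (oracleOf (pot W')))) (law W') ε₂) →
        TVLe ((P₁.prod P₂).map (combine s f₁ f₂ (oracleOf (pot W)))) (law W)
          (2 * ε₁ + ε₂ + C * (1 + B) ^ 2 / A ^ 2) := by
  obtain ⟨C₂, h₂⟩ := tv_mixture
  refine ⟨max C₂ 0, le_max_right _ _, fun d η B η' B' s A ε₁ ε₂ W hW hs hs1 hη'1 hηη' hBB' hA hε₂
    Ω₁ Ω₂ _ _ P₁ P₂ _ _ q₁ q₂ f₁ f₂ hf₁ hf₂ hst hin => ?_⟩
  have hO := hW.measurable_oracle
  have hη := hW.eta_nonneg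
  have hB := hW.bound_nonneg
  refine (h₂ d η B s A W hW hs hs1 hA P₁ P₂ (f₁ (oracleOf (pot W)))
    (combine s f₁ f₂ (oracleOf (pot W))) (hf₁.measurable hO)
    ((qc_combine hf₁ hf₂).measurable hO) ε₁ ε₂ hε₂ hst fun a ha => ?_).mono
    (by gcongr; exact le_max_left _ _)
  set y := f₁ (oracleOf (pot W)) a with hy
  have hp : Pert η' B' (rgo W s y) := by
    refine (hW.rgo_pert hs hA.le ha).mono ?_ hη'1 ?_
    · rw [div_eq_mul_inv]
      exact (mul_le_mul_of_nonneg_left (inv_rgoC_le hs) hη).trans hηη'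
    · rw [div_eq_mul_inv, ← Real.sqrt_inv]
      exact (mul_le_mul_of_nonneg_left (Real.sqrt_le_sqrt (inv_rgoC_le hs))
        (by positivity)).trans hBB'
  have hmap : Measurable (rgoMap W s y) := by unfold rgoMap; fun_prop
  have hfm : Measurable (f₂ (oracleOf (pot (rgo W s y)))) := hf₂.measurable hp.measurable_oracle
  have h := (hin _ hp).map hmap
  rw [Measure.map_map hmap hfm] at h
  rw [show (fun b => combine s f₁ f₂ (oracleOf (pot W)) (a, b)) =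
    rgoMap W s y ∘ f₂ (oracleOf (pot (rgo W s y))) from
      funext fun b => combine_eq hW hs f₁ f₂ a b hy.symm hp]
  exact h

/-- One stage and the reduced problem. -/
theorem samples_step {m : ℕ} (r : Rules m) : ∃ C : ℝ, 0 ≤ C ∧
    ∀ (d N K L q₂ : ℕ) (η B η' B' σ s A ε₂ e : ℝ), 0 < σ → σ ≤ 1 → 0 < s → s ≤ 1 → N ≠ 0 →
      0 ≤ η → η ≤ 1 → 0 ≤ B → η' ≤ 1 → η * s ≤ η' → (B + A) * √s ≤ B' → 0 < A → 0 ≤ ε₂ →
      ((r.T₀ / N) * η ^ 2 * σ ^ 2 * √d / s +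
        ((r.T₀ / N) * η ^ 3 * σ * √d + (r.T₀ / N / σ) ^ (m + 1) * √d + √d / 2 ^ K +
          (2 + B) * (1 - r.T₀ ^ 2 / 8) ^ L * √d) / √s + (1 + B) ^ 2 * η * σ ^ 2 * √d ≤ e) →
      Samples d q₂ η' B' ε₂ →
      Samples d (L * ((K + 1) * (N * (m + 1)) + N * r.n) + 1 + q₂) η B
        (ε₂ + C * (e + (1 + B) ^ 2 / A ^ 2)) := by
  obtain ⟨C₁, hC₁, h₁⟩ := stage_sampler r
  obtain ⟨C₂, hC₂, h₂⟩ := combine_tv
  refine ⟨2 * C₁ + C₂, by positivity, fun d N K L q₂ η B η' B' σ s A ε₂ e hσ hσ1 hs hs1 hN hη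
    hη1 hB hη'1 hηη' hBB' hA hε₂ he hS => ?_⟩
  obtain ⟨P₁, f₁, hP₁, hf₁, hst⟩ := h₁ d N K L σ s hσ hσ1 hs hN
  obtain ⟨Ω₂, i1, i2, i3, P₂, f₂, hP₂, hf₂, hin⟩ := hS
  have : StandardBorelSpace ((Fin L → E d) × Noise d ((r.scheme r.T₀ N).Idx K L) × E d) :=
    standardBorelSpace_stage
  refine ⟨_, inferInstance, inferInstance, inferInstance, P₁.prod P₂, combine s f₁ f₂,
    inferInstance, qc_combine hf₁ hf₂, fun W hW => ?_⟩
  refine (h₂ d η B η' B' s A (C₁ * e) ε₂ W hW hs hs1 hη'1 hηη' hBB' hA hε₂ P₁ P₂ _ _ f₁ f₂ hf₁ hf₂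
    ((hst η B W hW hB).mono (mul_le_mul_of_nonneg_left he hC₁)) hin).mono ?_
  have he0 : 0 ≤ e := by
    refine le_trans ?_ he
    have := r.T₀_pos.le
    have : 0 ≤ 1 - r.T₀ ^ 2 / 8 := by nlinarith [r.T₀_le, r.T₀_pos]
    positivity
  have hB0 : 0 ≤ (1 + B) ^ 2 / A ^ 2 := by positivity
  rw [mul_div_assoc]
  nlinarith [mul_nonneg hC₁ hB0, mul_nonneg hC₂ he0]

theorem samples_iterate {q : ℕ} {u s eb : ℝ} {J : ℕ} (hs : 0 ≤ s) (hs1 : s ≤ 1)
    (hbase : Samples d 0 (s ^ J) 1 eb)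
    (hstep : ∀ (η : ℝ) (q₂ : ℕ) (ε₂ : ℝ), 0 ≤ η → η ≤ 1 → 0 ≤ ε₂ → Samples d q₂ (η * s) 1 ε₂ →
      Samples d (q + q₂) η 1 (ε₂ + u))
    (hu : 0 ≤ u) (heb : 0 ≤ eb) :
    ∀ n ≤ J, Samples d (n * q) (s ^ (J - n)) 1 (n * u + eb) := by
  intro n
  induction n with
  | zero => intro _; simpa using hbase
  | succ n ih =>
    intro hn
    have h := ih (Nat.le_of_succ_le hn)
    rw [show J - n = J - (n + 1) + 1 by omega, pow_succ] at h
    refine (hstep _ _ _ (pow_nonneg hs _) (pow_le_one₀ hs hs1) (by positivity) h).mono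
      (le_of_eq (by ring)) (le_of_eq (by push_cast; ring))

/-- For large `d`, `d ^ (1/4 + ε)` queries sample every potential of the class. -/
theorem sampleable_eventually {ε : ℝ} (hε : 0 < ε) :
    ∀ᶠ d : ℕ in atTop, ∃ q : ℕ, (q : ℝ) ≤ (d : ℝ) ^ (1 / 4 + ε) ∧ Sampleable d q := by
  set δ := min ε 1 / 8
  have hm0 : 0 < min ε 1 := lt_min hε one_pos
  have hδ : 0 < δ := by positivity
  have hδ1 : δ ≤ 1 / 8 := div_le_div_of_nonneg_right (min_le_right _ _) (by norm_num)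
  have hδε : 8 * δ ≤ ε := by simp only [δ]; linarith [min_le_left ε 1]
  set J := ⌈1 / δ⌉₊
  have hJ : 1 ≤ (J : ℝ) * δ := (div_le_iff₀ hδ).1 (Nat.le_ceil _)
  set m := ⌈2 / δ⌉₊
  have hm : 2 ≤ δ * (m + 1) := by
    have := (div_le_iff₀ hδ).1 (Nat.le_ceil (2 / δ))
    nlinarith
  obtain ⟨r⟩ := exists_rules m
  obtain ⟨Cs, hCs, hstep⟩ := samples_step r
  obtain ⟨Cb, hCb, hbase⟩ := samples_base
  have hT := r.T₀_pos
  have hT8 := r.T₀_le
  set a := r.T₀ ^ 2 / 8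
  have ha : 0 < a := by positivity
  have ha1 : a ≤ 1 := by simp only [a]; nlinarith
  obtain ⟨Cq, hCq, hcount⟩ := stage_count hδ ha m r.n
  set A := √(200 * (J * Cs) + 1)
  have hA : 0 < A := Real.sqrt_pos.2 (by positivity)
  have hA2 : A ^ 2 = 200 * (J * Cs) + 1 := Real.sq_sqrt (by positivity)
  set D := 11 * (J * Cs) + 2 * Cb + (1 + A) + J * Cq + 1
  have hD : 1 ≤ D := by
    have : 0 ≤ (J : ℝ) * Cs + Cb + A + J * Cq := by positivity
    have : 0 ≤ (J : ℝ) * Cs := by positivity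
    simp only [D]; linarith
  filter_upwards [eventually_ge_atTop 1,
    rpow_neg_eventually_le (a := δ / 2) (by positivity) (show (0 : ℝ) < 1 / (100 * D) by positivity)]
    with d hd hsmall
  have hd1 : (1 : ℝ) ≤ d := by exact_mod_cast hd
  have hd0 : (0 : ℝ) < d := by linarith
  have hδd : (d : ℝ) ^ (-δ) ≤ (d : ℝ) ^ (-(δ / 2)) :=
    Real.rpow_le_rpow_of_exponent_le hd1 (by linarith)
  set x := (d : ℝ) ^ (-(δ / 2))
  have hx0 : 0 ≤ x := Real.rpow_nonneg hd0.le _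
  have hDx : D * x ≤ 1 / 100 := by
    calc D * x ≤ D * (1 / (100 * D)) := mul_le_mul_of_nonneg_left hsmall (by linarith)
      _ = 1 / 100 := by field_simp
  set s := (d : ℝ) ^ (-δ)
  have hs : 0 < s := Real.rpow_pos_of_pos hd0 _
  have hs1 : s ≤ 1 := Real.rpow_le_one_of_one_le_of_nonpos hd1 (by linarith)
  have hsx : √s = x := by
    rw [Real.sqrt_eq_rpow, ← Real.rpow_mul hd0.le]; simp only [x]; ring_nf
  set σ := (d : ℝ) ^ (-(1 / 4 + δ / 2))
  have hσ : 0 < σ := Real.rpow_pos_of_pos hd0 _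
  have hσ1 : σ ≤ 1 := Real.rpow_le_one_of_one_le_of_nonpos hd1 (by linarith)
  have hN : gridN δ d ≠ 0 := by
    have : (0 : ℝ) < gridN δ d :=
      lt_of_lt_of_le (Real.rpow_pos_of_pos hd0 _) (Nat.le_ceil _)
    exact_mod_cast this.ne'
  set q := itL a d * ((itK d + 1) * (gridN δ d * (m + 1)) + gridN δ d * r.n) + 1
  set u := Cs * (11 * s + (1 + 1) ^ 2 / A ^ 2)
  have hpart : (1 + A) * x ≤ 1 := by
    have : 0 ≤ (J : ℝ) * Cs + Cb + J * Cq := by positivity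
    have : (1 + A) * x ≤ D * x := mul_le_mul_of_nonneg_right
      (by
        have : 0 ≤ (J : ℝ) * Cs := by positivity
        have : 0 ≤ (J : ℝ) * Cq := by positivity
        simp only [D]; linarith) hx0
    linarith
  have hst : ∀ (η : ℝ) (q₂ : ℕ) (ε₂ : ℝ), 0 ≤ η → η ≤ 1 → 0 ≤ ε₂ → Samples d q₂ (η * s) 1 ε₂ →
      Samples d (q + q₂) η 1 (ε₂ + u) := fun η q₂ ε₂ hη hη1 hε₂ hS =>
    hstep d (gridN δ d) (itK d) (itL a d) q₂ η 1 (η * s) 1 σ s A ε₂ (11 * s) hσ hσ1 hs hs1 hN hη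
      hη1 zero_le_one (mul_le_one₀ hη1 hs.le hs1) le_rfl (by rw [hsx]; exact hpart) hA hε₂
      (stage_error hδ (by linarith) hm hT (by linarith) ha ha1 hη hη1 zero_le_one le_rfl hd) hS
  have hsJ : s ^ J * √d ≤ x := by
    rw [← Real.rpow_natCast s J, ← Real.rpow_mul hd0.le, sqrt_eq_rpow' d, ← Real.rpow_add hd0]
    exact Real.rpow_le_rpow_of_exponent_le hd1 (by nlinarith)
  have hall := samples_iterate hs.le hs1 (hbase d (s ^ J) 1 (pow_nonneg hs.le _) zero_le_one) hst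
    (by positivity) (by positivity) J le_rfl
  rw [Nat.sub_self, pow_zero] at hall
  have herr : (J : ℝ) * u + Cb * (1 + 1) * s ^ J * √d ≤ 1 / 10 := by
    have h1 : (J : ℝ) * u ≤ 11 * (J * Cs) * x + 1 / 50 := by
      have e : (J : ℝ) * u = 11 * (J * Cs) * s + 4 * (J * Cs) / A ^ 2 := by simp only [u]; ring
      have h4 : 4 * ((J : ℝ) * Cs) / A ^ 2 ≤ 1 / 50 := by
        rw [div_le_iff₀ (by positivity), hA2]; linarith
      rw [e]
      exact add_le_add (mul_le_mul_of_nonneg_left hδd (by positivity)) h4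
    have h2 : Cb * (1 + 1) * s ^ J * √d ≤ 2 * Cb * x := by
      rw [mul_assoc, show Cb * (1 + 1) = 2 * Cb by ring]
      exact mul_le_mul_of_nonneg_left hsJ (by positivity)
    have : (11 * (J * Cs) + 2 * Cb) * x ≤ D * x := by
      refine mul_le_mul_of_nonneg_right ?_ hx0
      have : 0 ≤ (J : ℝ) * Cq := by positivity
      simp only [D]; linarith
    linarith
  obtain ⟨Ω, i1, i2, i3, P, f, hP, hf, h⟩ := hall
  refine ⟨J * q, ?_, sampleable_of_qc P f hf fun V hV => ?_⟩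
  · have h1 : ((J * q : ℕ) : ℝ) ≤ J * Cq * (d : ℝ) ^ (1 / 4 + 5 * δ) := by
      rw [Nat.cast_mul, mul_assoc]
      exact mul_le_mul_of_nonneg_left (hcount d hd) (Nat.cast_nonneg J)
    have h2 : (J : ℝ) * Cq ≤ (d : ℝ) ^ (δ / 2) := by
      have hxx : (d : ℝ) ^ (δ / 2) * x = 1 := by
        simp only [x]; rw [← Real.rpow_add hd0]; simp
      have : (J : ℝ) * Cq * x ≤ (d : ℝ) ^ (δ / 2) * x := by
        rw [hxx]
        have : (J : ℝ) * Cq * x ≤ D * x := by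
          refine mul_le_mul_of_nonneg_right ?_ hx0
          have : 0 ≤ (J : ℝ) * Cs := by positivity
          simp only [D]; linarith
        linarith
      exact le_of_mul_le_mul_right this (Real.rpow_pos_of_pos hd0 _)
    refine h1.trans ((mul_le_mul_of_nonneg_right h2 (Real.rpow_nonneg hd0.le _)).trans ?_)
    rw [← Real.rpow_add hd0]
    exact Real.rpow_le_rpow_of_exponent_le hd1 (by linarith)
  · have hp := hV.pert.mono le_rfl le_rfl zero_le_one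
    have e : pot (fun x => V x - ‖x‖ ^ 2 / 2) = V := by funext x; simp [pot]
    have := h _ hp
    rw [e, show law (fun x => V x - ‖x‖ ^ 2 / 2) = gibbs V by rw [law, e]] at this
    exact this.mono herr

end Vale.Agent.P347
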