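import Vale.Agent.P347.Step
import Vale.Agent.P347.Recursion6
import Vale.Agent.P347.Stage6

/-!
# P347: the recursion with the cell sampler gives the exponent `1/6`
-/

open MeasureTheory ProbabilityTheory Real Set Filter
open scoped RealInnerProductSpace Topology

namespace Vale.Agent.P347

/-- One cell stage and the reduced problem. -/
theorem samples_step6 {m : ℕ} (r : Rules m) : ∃ C : ℝ, 0 ≤ C ∧
    ∀ (d N L q₂ : ℕ) (η B η' B' b s A ε₂ e : ℝ), 2 ≤ N → (m + 1) * r.Λ + 1 ≤ (N : ℝ) →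
      0 < b → b ≤ 1 / 4 → 4 * b ^ 2 ≤ s → s ≤ 1 → B ≤ 1 → η' ≤ 1 → η * s ≤ η' →
      (B + A) * √s ≤ B' → 0 < A → 0 ≤ ε₂ →
      ((L : ℝ) * ((((1 / (16 * N)) / b) ^ (m + 1) + (1 / (16 * N)) ^ 2 * b + b ^ 3) / √s
          + (1 / (16 * N)) * b ^ 2) * √d + (1 - 1 / 4096) ^ L * √d / √s ≤ e) →
      Samples d q₂ η' B' ε₂ →
      Samples d (L * (N * (2 * ((m + 1) * (m + 1) + r.n))) + 1 + q₂) η B
        (ε₂ + C * (e + (1 + B) ^ 2 / A ^ 2)) := by
  obtain ⟨C₁, hC₁, h₁⟩ := stage6_sampler r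
  obtain ⟨C₂, hC₂, h₂⟩ := combine_tv
  refine ⟨2 * C₁ + C₂, by positivity, fun d N L q₂ η B η' B' b s A ε₂ e hN hΛ hb hb1 hbs hs1 hB1
    hη'1 hηη' hBB' hA hε₂ he hS => ?_⟩
  have hs : 0 < s := lt_of_lt_of_le (by positivity) hbs
  obtain ⟨Ω₁, j1, j2, j3, P₁, f₁, hP₁, hf₁, hst⟩ := h₁ d N L b s hN hΛ hb hb1 hbs hs1
  obtain ⟨Ω₂, i1, i2, i3, P₂, f₂, hP₂, hf₂, hin⟩ := hS
  refine ⟨Ω₁ × Ω₂, inferInstance, inferInstance, inferInstance, P₁.prod P₂, combine s f₁ f₂,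
    inferInstance, qc_combine hf₁ hf₂, fun W hW => ?_⟩
  refine (h₂ d η B η' B' s A (C₁ * e) ε₂ W hW hs hs1 hη'1 hηη' hBB' hA hε₂ P₁ P₂ _ _ f₁ f₂ hf₁ hf₂
    ((hst η B W hW hB1).mono (mul_le_mul_of_nonneg_left he hC₁)) hin).mono ?_
  have he0 : 0 ≤ e := by
    refine le_trans ?_ he
    have : (0 : ℝ) ≤ 1 - 1 / 4096 := by norm_num
    positivity
  have hB0 : 0 ≤ (1 + B) ^ 2 / A ^ 2 := by positivity
  rw [mul_div_assoc]
  nlinarith [mul_nonneg hC₁ hB0, mul_nonneg hC₂ he0]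

/-- For large `d`, `d ^ (1/6 + ε)` queries sample every potential of the class. -/
theorem sampleable_eventually6 {ε : ℝ} (hε : 0 < ε) :
    ∀ᶠ d : ℕ in atTop, ∃ q : ℕ, (q : ℝ) ≤ (d : ℝ) ^ (1 / 6 + ε) ∧ Sampleable d q := by
  set δ := min ε 1 / 8
  have hm0 : 0 < min ε 1 := lt_min hε one_pos
  have hδ : 0 < δ := by positivity
  have hδ1 : δ ≤ 1 / 8 := div_le_div_of_nonneg_right (min_le_right _ _) (by norm_num)
  have hδε : 8 * δ ≤ ε := by simp only [δ]; linarith [min_le_left ε 1]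
  set J := ⌈1 / δ⌉₊
  have hJ : 1 ≤ (J : ℝ) * δ := (div_le_iff₀ hδ).1 (Nat.le_ceil _)
  set m := ⌈2 / δ⌉₊
  have hm : 2 ≤ δ * (m + 1) := by
    have := (div_le_iff₀ hδ).1 (Nat.le_ceil (2 / δ))
    nlinarith
  obtain ⟨r⟩ := exists_rules m
  obtain ⟨Cs, hCs, hstep⟩ := samples_step6 r
  obtain ⟨Cb, hCb, hbase⟩ := samples_base
  obtain ⟨Ce, hCe, herrs⟩ := stage6_error (a := 1 / 4096) hδ hδ1 (by norm_num) (by norm_num)
  obtain ⟨Cq, hCq, hcount⟩ := stage6_count (a := 1 / 4096) hδ (by norm_num) r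
  set A := √(200 * (J * Cs) + 1)
  have hA : 0 < A := Real.sqrt_pos.2 (by positivity)
  have hA2 : A ^ 2 = 200 * (J * Cs) + 1 := Real.sq_sqrt (by positivity)
  set D := Ce * (J * Cs) + 2 * Cb + (1 + A) + J * Cq + 1
  have hD : 1 ≤ D := by
    have : 0 ≤ Ce * (J * Cs) + 2 * Cb + A + J * Cq := by positivity
    simp only [D]; linarith
  filter_upwards [eventually_ge_atTop 1,
    rpow_neg_eventually_le (a := 1 / 6) (by norm_num) (show (0 : ℝ) < 1 / 4 by norm_num),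
    rpow_neg_eventually_le (a := δ / 2) (by positivity) (show (0 : ℝ) < 1 / (100 * D) by positivity)]
    with d hd hquart hsmall
  have hd1 : (1 : ℝ) ≤ d := by exact_mod_cast hd
  have hd0 : (0 : ℝ) < d := by linarith
  have hδd : (d : ℝ) ^ (-δ) ≤ (d : ℝ) ^ (-(δ / 2)) :=
    Real.rpow_le_rpow_of_exponent_le hd1 (by linarith)
  set x := (d : ℝ) ^ (-(δ / 2))
  have hx0 : 0 ≤ x := Real.rpow_nonneg hd0.le _
  have hDx : D * x ≤ 1 / 100 := by
    calc D * x ≤ D * (1 / (100 * D)) := mul_le_mul_of_nonneg_left hsmall (by linarith)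
      _ = 1 / 100 := by field_simp
  set s := (d : ℝ) ^ (-δ)
  have hs : 0 < s := Real.rpow_pos_of_pos hd0 _
  have hs1 : s ≤ 1 := Real.rpow_le_one_of_one_le_of_nonpos hd1 (by linarith)
  have hsx : √s = x := by
    rw [Real.sqrt_eq_rpow, ← Real.rpow_mul hd0.le]; simp only [x]; ring_nf
  set b := (d : ℝ) ^ (-(1 / 6 + 2 * δ))
  have hb : 0 < b := Real.rpow_pos_of_pos hd0 _
  have hb6 : b ≤ (d : ℝ) ^ (-(1 / 6 : ℝ)) :=
    Real.rpow_le_rpow_of_exponent_le hd1 (by linarith)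
  have hb1 : b ≤ 1 / 4 := hb6.trans hquart
  have hbs : 4 * b ^ 2 ≤ s := by
    refine le_trans ?_ (hb6.trans (Real.rpow_le_rpow_of_exponent_le hd1 (by linarith)))
    nlinarith
  set q := itL (1 / 4096) d * (gridN6 r δ d * (2 * ((m + 1) * (m + 1) + r.n))) + 1
  set u := Cs * (Ce * s + (1 + 1) ^ 2 / A ^ 2)
  have hpart : (1 + A) * x ≤ 1 := by
    have : (1 + A) * x ≤ D * x := mul_le_mul_of_nonneg_right
      (by
        have : 0 ≤ Ce * (J * Cs) + 2 * Cb + J * Cq := by positivity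
        simp only [D]; linarith) hx0
    linarith
  have hst : ∀ (η : ℝ) (q₂ : ℕ) (ε₂ : ℝ), 0 ≤ η → η ≤ 1 → 0 ≤ ε₂ → Samples d q₂ (η * s) 1 ε₂ →
      Samples d (q + q₂) η 1 (ε₂ + u) := fun η q₂ ε₂ hη hη1 hε₂ hS =>
    hstep d (gridN6 r δ d) (itL (1 / 4096) d) q₂ η 1 (η * s) 1 b s A ε₂ (Ce * s)
      (two_le_gridN6 r δ d) (rule_le_gridN6 r δ d) hb hb1 hbs hs1 le_rfl
      (mul_le_one₀ hη1 hs.le hs1) le_rfl (by rw [hsx]; exact hpart) hA hε₂
      (herrs r hm d hd) hS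
  have hsJ : s ^ J * √d ≤ x := by
    rw [← Real.rpow_natCast s J, ← Real.rpow_mul hd0.le, sqrt_eq_rpow' d, ← Real.rpow_add hd0]
    exact Real.rpow_le_rpow_of_exponent_le hd1 (by nlinarith)
  have hall := samples_iterate hs.le hs1 (hbase d (s ^ J) 1 (pow_nonneg hs.le _) zero_le_one) hst
    (by positivity) (by positivity) J le_rfl
  rw [Nat.sub_self, pow_zero] at hall
  have herr : (J : ℝ) * u + Cb * (1 + 1) * s ^ J * √d ≤ 1 / 10 := by
    have h1 : (J : ℝ) * u ≤ Ce * (J * Cs) * x + 1 / 50 := by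
      have e : (J : ℝ) * u = Ce * (J * Cs) * s + 4 * (J * Cs) / A ^ 2 := by simp only [u]; ring
      have h4 : 4 * ((J : ℝ) * Cs) / A ^ 2 ≤ 1 / 50 := by
        rw [div_le_iff₀ (by positivity), hA2]; linarith
      rw [e]
      exact add_le_add (mul_le_mul_of_nonneg_left hδd (by positivity)) h4
    have h2 : Cb * (1 + 1) * s ^ J * √d ≤ 2 * Cb * x := by
      rw [mul_assoc, show Cb * (1 + 1) = 2 * Cb by ring]
      exact mul_le_mul_of_nonneg_left hsJ (by positivity)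
    have : (Ce * (J * Cs) + 2 * Cb) * x ≤ D * x := by
      refine mul_le_mul_of_nonneg_right ?_ hx0
      have : 0 ≤ A + (J : ℝ) * Cq := by positivity
      simp only [D]; linarith
    linarith
  obtain ⟨Ω, i1, i2, i3, P, f, hP, hf, h⟩ := hall
  refine ⟨J * q, ?_, sampleable_of_qc P f hf fun V hV => ?_⟩
  · have h1 : ((J * q : ℕ) : ℝ) ≤ J * Cq * (d : ℝ) ^ (1 / 6 + 5 * δ) := by
      rw [Nat.cast_mul, mul_assoc]
      exact mul_le_mul_of_nonneg_left (hcount d hd) (Nat.cast_nonneg J)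
    have h2 : (J : ℝ) * Cq ≤ (d : ℝ) ^ (δ / 2) := by
      have hxx : (d : ℝ) ^ (δ / 2) * x = 1 := by
        simp only [x]; rw [← Real.rpow_add hd0]; simp
      have : (J : ℝ) * Cq * x ≤ (d : ℝ) ^ (δ / 2) * x := by
        rw [hxx]
        have : (J : ℝ) * Cq * x ≤ D * x := by
          refine mul_le_mul_of_nonneg_right ?_ hx0
          have : 0 ≤ Ce * (J * Cs) + 2 * Cb + A := by positivity
          simp only [D]; linarith
        linarith
      exact le_of_mul_le_mul_right this (Real.rpow_pos_of_pos hd0 _)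
    refine h1.trans ((mul_le_mul_of_nonneg_right h2 (Real.rpow_nonneg hd0.le _)).trans ?_)
    rw [← Real.rpow_add hd0]
    exact Real.rpow_le_rpow_of_exponent_le hd1 (by linarith)
  · have hp := hV.pert.mono le_rfl le_rfl zero_le_one
    have e : pot (fun x => V x - ‖x‖ ^ 2 / 2) = V := by funext x; simp [pot]
    have := h _ hp
    rw [e, show law (fun x => V x - ‖x‖ ^ 2 / 2) = gibbs V by rw [law, e]] at this
    exact this.mono herr

end Vale.Agent.P347
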