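import Vale.Agent.P347.Defs

/-!
# P347: polynomially bounded functions against Gaussian-like weights, and integration by parts
-/

open MeasureTheory Real

namespace Vale.Agent.P347

section
variable {V F G : Type*} [NormedAddCommGroup V] [NormedAddCommGroup F] [NormedAddCommGroup G]

/-- At most polynomial growth. -/
def PolyBd (f : V → F) : Prop := ∃ (C : ℝ) (k : ℕ), 0 ≤ C ∧ ∀ x, ‖f x‖ ≤ C * (1 + ‖x‖) ^ k

theorem PolyBd.const (c : F) : PolyBd fun _ : V => c :=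
  ⟨‖c‖, 0, norm_nonneg _, fun _ => by simp⟩

theorem PolyBd.of_le {f : V → F} {g : V → G} (hg : PolyBd g) (h : ∀ x, ‖f x‖ ≤ ‖g x‖) :
    PolyBd f := by
  obtain ⟨C, k, hC, hb⟩ := hg
  exact ⟨C, k, hC, fun x => (h x).trans (hb x)⟩

theorem PolyBd.id : PolyBd fun x : V => x :=
  ⟨1, 1, zero_le_one, fun x => by simp⟩

theorem PolyBd.norm {f : V → F} (hf : PolyBd f) : PolyBd fun x => ‖f x‖ :=
  hf.of_le fun x => by simp

theorem PolyBd.add {f g : V → F} (hf : PolyBd f) (hg : PolyBd g) :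
    PolyBd fun x => f x + g x := by
  obtain ⟨C, k, hC, hb⟩ := hf
  obtain ⟨D, l, hD, hb'⟩ := hg
  refine ⟨C + D, k + l, add_nonneg hC hD, fun x => ?_⟩
  have h1 : (1 : ℝ) ≤ 1 + ‖x‖ := by simp
  have hk := pow_le_pow_right₀ h1 (Nat.le_add_right k l)
  have hl := pow_le_pow_right₀ h1 (Nat.le_add_left l k)
  calc ‖f x + g x‖ ≤ ‖f x‖ + ‖g x‖ := norm_add_le _ _
    _ ≤ C * (1 + ‖x‖) ^ (k + l) + D * (1 + ‖x‖) ^ (k + l) :=
        add_le_add ((hb x).trans (by gcongr)) ((hb' x).trans (by gcongr))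
    _ = _ := by ring

theorem PolyBd.mul_of_le {H : Type*} [NormedAddCommGroup H] {f : V → F} {g : V → G} {h : V → H}
    (hf : PolyBd f) (hg : PolyBd g) (hh : ∀ x, ‖h x‖ ≤ ‖f x‖ * ‖g x‖) : PolyBd h := by
  obtain ⟨C, k, hC, hb⟩ := hf
  obtain ⟨D, l, hD, hb'⟩ := hg
  refine ⟨C * D, k + l, mul_nonneg hC hD, fun x => (hh x).trans ?_⟩
  calc ‖f x‖ * ‖g x‖ ≤ (C * (1 + ‖x‖) ^ k) * (D * (1 + ‖x‖) ^ l) :=
        mul_le_mul (hb x) (hb' x) (norm_nonneg _) (by positivity)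
    _ = _ := by rw [pow_add]; ring

theorem PolyBd.mul {f g : V → ℝ} (hf : PolyBd f) (hg : PolyBd g) : PolyBd fun x => f x * g x :=
  hf.mul_of_le hg fun x => (norm_mul _ _).le

theorem PolyBd.pow {f : V → ℝ} (hf : PolyBd f) : ∀ n : ℕ, PolyBd fun x => f x ^ n
  | 0 => by simpa using PolyBd.const (V := V) (1 : ℝ)
  | n + 1 => by simpa [pow_succ] using (hf.pow n).mul hf

theorem PolyBd.smul [NormedSpace ℝ F] {f : V → ℝ} {g : V → F} (hf : PolyBd f) (hg : PolyBd g) :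
    PolyBd fun x => f x • g x :=
  hf.mul_of_le hg fun x => (norm_smul _ _).le

theorem PolyBd.neg {f : V → F} (hf : PolyBd f) : PolyBd fun x => -f x :=
  hf.of_le fun x => (norm_neg _).le

theorem PolyBd.sub {f g : V → F} (hf : PolyBd f) (hg : PolyBd g) :
    PolyBd fun x => f x - g x := by simpa [sub_eq_add_neg] using hf.add hg.neg

theorem PolyBd.sum {ι : Type*} (s : Finset ι) {f : ι → V → F} (hf : ∀ i ∈ s, PolyBd (f i)) :
    PolyBd fun x => ∑ i ∈ s, f i x := by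
  induction s using Finset.cons_induction with
  | empty => simpa using PolyBd.const (V := V) (0 : F)
  | cons a s ha ih =>
    simp only [Finset.sum_cons]
    exact (hf a (Finset.mem_cons_self a s)).add
      (ih fun i hi => hf i (Finset.mem_cons_of_mem hi))

theorem PolyBd.comp {W : Type*} [NormedAddCommGroup W] {f : V → F} {g : W → V} (hf : PolyBd f)
    (hg : PolyBd g) : PolyBd fun x => f (g x) := by
  obtain ⟨C, k, hC, hb⟩ := hf
  obtain ⟨D, l, hD, hb'⟩ := hg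
  refine ⟨C * (1 + D) ^ k, l * k, by positivity, fun x => (hb _).trans ?_⟩
  rw [pow_mul, mul_assoc, ← mul_pow]
  refine mul_le_mul_of_nonneg_left (pow_le_pow_left₀ (by positivity) ?_ k) hC
  nlinarith [hb' x, one_le_pow₀ (show (1 : ℝ) ≤ 1 + ‖x‖ by simp) (n := l)]

theorem PolyBd.of_bound {f : V → F} {B : ℝ} (h : ∀ x, ‖f x‖ ≤ B) : PolyBd f :=
  ⟨max B 0, 0, le_max_right _ _, fun x => by
    simp only [pow_zero, mul_one]; exact (h x).trans (le_max_left _ _)⟩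

theorem PolyBd.of_lipschitz {f : V → F} {L : ℝ} (hL : 0 ≤ L)
    (h : ∀ x y, ‖f x - f y‖ ≤ L * ‖x - y‖) : PolyBd f := by
  refine ⟨‖f 0‖ + L, 1, by positivity, fun x => ?_⟩
  calc ‖f x‖ = ‖(f x - f 0) + f 0‖ := by simp
    _ ≤ L * ‖x - 0‖ + ‖f 0‖ := (norm_add_le _ _).trans (add_le_add_left (h x 0) _)
    _ ≤ (‖f 0‖ + L) * (1 + ‖x‖) ^ 1 := by
        simp only [sub_zero, pow_one]; nlinarith [norm_nonneg x, norm_nonneg (f 0)]

end

theorem exists_pow_mul_exp_le (N : ℕ) {c : ℝ} (hc : 0 < c) :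
    ∃ M : ℝ, ∀ t : ℝ, 0 ≤ t → (1 + t) ^ N * exp (-c * t ^ 2) ≤ M := by
  refine ⟨N.factorial * exp 1 * exp (1 / (4 * c)), fun t ht => ?_⟩
  have h1 : (1 + t) ^ N ≤ N.factorial * exp (1 + t) := by
    have := Real.pow_div_factorial_le_exp (x := 1 + t) (by linarith) N
    rw [div_le_iff₀ (by positivity)] at this
    linarith
  have h2 : exp (-c * t ^ 2) ≤ exp (1 / (4 * c) - t) := by
    refine exp_le_exp.2 ?_
    have h3 : 0 ≤ c * (t - 1 / (2 * c)) ^ 2 := by positivity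
    have h4 : c * (t - 1 / (2 * c)) ^ 2 = c * t ^ 2 - t + 1 / (4 * c) := by field_simp; ring
    linarith
  calc (1 + t) ^ N * exp (-c * t ^ 2)
      ≤ (N.factorial * exp (1 + t)) * exp (1 / (4 * c) - t) :=
        mul_le_mul h1 h2 (exp_pos _).le (by positivity)
    _ = N.factorial * exp 1 * exp (1 / (4 * c)) := by
        rw [mul_assoc, mul_assoc, ← exp_add, ← exp_add]; ring_nf

variable {V : Type*} [NormedAddCommGroup V] [InnerProductSpace ℝ V] [FiniteDimensional ℝ V]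
  [MeasurableSpace V] [BorelSpace V] {F : Type*} [NormedAddCommGroup F]

/-- `exp (-Ψ)` decays at least like a Gaussian. -/
def Decay (Ψ : V → ℝ) : Prop :=
  Continuous Ψ ∧ ∃ C c : ℝ, 0 < c ∧ ∀ x, exp (-Ψ x) ≤ C * exp (-c * ‖x‖ ^ 2)

omit [InnerProductSpace ℝ V] [FiniteDimensional ℝ V] [MeasurableSpace V] [BorelSpace V] in
theorem decay_of_quadratic {Ψ : V → ℝ} (hΨ : Continuous Ψ) {a b : ℝ} (ha : 0 < a)
    (h : ∀ x, a * ‖x‖ ^ 2 - b * ‖x‖ - b ≤ Ψ x) : Decay Ψ := by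
  refine ⟨hΨ, exp (b + b ^ 2 / (2 * a)), a / 2, by positivity, fun x => ?_⟩
  rw [← exp_add]
  refine exp_le_exp.2 ?_
  have h3 : 0 ≤ a / 2 * (‖x‖ - b / a) ^ 2 := by positivity
  have h4 : a / 2 * (‖x‖ - b / a) ^ 2 = a / 2 * ‖x‖ ^ 2 - b * ‖x‖ + b ^ 2 / (2 * a) := by
    field_simp; ring
  nlinarith [h x]

theorem Decay.integrable [NormedSpace ℝ F] {Ψ : V → ℝ} (hΨ : Decay Ψ) {f : V → F}
    (hf : AEStronglyMeasurable f volume) (hb : PolyBd f) :
    Integrable fun x => exp (-Ψ x) • f x := by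
  obtain ⟨hcont, C, c, hc, hd⟩ := hΨ
  obtain ⟨D, k, hD, hb⟩ := hb
  set n := Module.finrank ℝ V
  obtain ⟨M, hM⟩ := exists_pow_mul_exp_le (k + (n + 1)) hc
  have hint : Integrable (fun x : V => (1 + ‖x‖) ^ (-((n : ℝ) + 1))) :=
    integrable_one_add_norm (by linarith)
  have hC : 0 ≤ C := by
    by_contra h
    have := hd 0
    nlinarith [exp_pos (-Ψ 0), exp_pos (-c * ‖(0 : V)‖ ^ 2)]
  refine (hint.const_mul (C * D * M)).mono' (hcont.neg.rexp.aestronglyMeasurable.smul hf)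
    (ae_of_all _ fun x => ?_)
  have hpos : 0 < (1 + ‖x‖) := by positivity
  have hM' := hM ‖x‖ (norm_nonneg x)
  rw [pow_add] at hM'
  have e1 : (1 + ‖x‖) ^ (-((n : ℝ) + 1)) = ((1 + ‖x‖) ^ (n + 1))⁻¹ := by
    rw [Real.rpow_neg hpos.le, ← Real.rpow_natCast]; push_cast; ring_nf
  rw [norm_smul, Real.norm_eq_abs, abs_of_pos (exp_pos _), e1]
  calc exp (-Ψ x) * ‖f x‖ ≤ (C * exp (-c * ‖x‖ ^ 2)) * (D * (1 + ‖x‖) ^ k) :=
        mul_le_mul (hd x) (hb x) (norm_nonneg _) (by positivity)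
    _ = C * D * ((1 + ‖x‖) ^ k * (1 + ‖x‖) ^ (n + 1) * exp (-c * ‖x‖ ^ 2)) *
          ((1 + ‖x‖) ^ (n + 1))⁻¹ := by field_simp
    _ ≤ C * D * M * ((1 + ‖x‖) ^ (n + 1))⁻¹ := by gcongr

/-- Integration by parts against `exp (-Ψ)`. -/
theorem Decay.ibp {Ψ φ : V → ℝ} (hΨ : Decay Ψ) (hΨd : ContDiff ℝ 1 Ψ)
    (hΨp : PolyBd fun x => fderiv ℝ Ψ x) (hφ : ContDiff ℝ 1 φ) (hφp : PolyBd φ)
    (hφ'p : PolyBd fun x => fderiv ℝ φ x) (w : V) :
    ∫ x, exp (-Ψ x) * fderiv ℝ φ x w = ∫ x, exp (-Ψ x) * (fderiv ℝ Ψ x w * φ x) := by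
  have hd : ∀ x, fderiv ℝ (fun y => exp (-Ψ y)) x w = -(exp (-Ψ x) * fderiv ℝ Ψ x w) := by
    intro x
    have h1 : HasFDerivAt (fun y => exp (-Ψ y)) (exp (-Ψ x) • -fderiv ℝ Ψ x) x :=
      ((hΨd.differentiable one_ne_zero).differentiableAt.hasFDerivAt.neg).exp
    rw [h1.fderiv]
    simp
  have hΨw : PolyBd fun x => fderiv ℝ Ψ x w :=
    hΨp.mul_of_le (PolyBd.const w) fun x => (fderiv ℝ Ψ x).le_opNorm w
  have hφw : PolyBd fun x => fderiv ℝ φ x w :=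
    hφ'p.mul_of_le (PolyBd.const w) fun x => (fderiv ℝ φ x).le_opNorm w
  have cΨw : Continuous fun x => fderiv ℝ Ψ x w :=
    (hΨd.continuous_fderiv one_ne_zero).clm_apply continuous_const
  have cφw : Continuous fun x => fderiv ℝ φ x w :=
    (hφ.continuous_fderiv one_ne_zero).clm_apply continuous_const
  have h := integral_mul_fderiv_eq_neg_fderiv_mul_of_integrable (μ := (volume : Measure V))
    (f := fun y => exp (-Ψ y)) (g := φ) (v := w) ?_ ?_ ?_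
    (fun x _ => ((hΨd.differentiable one_ne_zero).differentiableAt.neg).exp)
    (fun x _ => (hφ.differentiable one_ne_zero).differentiableAt)
  · rw [h, ← integral_neg]
    congr 1; funext x; rw [hd]; ring
  · have := hΨ.integrable (cΨw.mul hφ.continuous).neg.aestronglyMeasurable (hΨw.mul hφp).neg
    refine this.congr (ae_of_all _ fun x => ?_)
    simp [hd]; ring
  · simpa using hΨ.integrable cφw.aestronglyMeasurable hφw
  · simpa using hΨ.integrable hφ.continuous.aestronglyMeasurable hφp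

end Vale.Agent.P347
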